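import Vale.Agent.P330.Code
import Vale.Agent.P330.Heis
import Vale.Agent.P330.Tan
import Vale.Agent.P330.Chain
import Vale.Agent.P330.HPV

/-! The inner code at every large prime. -/

namespace Vale.Agent.P330Q

open Vale.Agent.Lib.PolyTime Vale.Agent.P330 Finset
open scoped Classical BigOperators

/-- The body of block B6 at a given prime. -/
def HeisB (lam : ℝ) (n0 l : ℕ) [Fact l.Prime] : Prop :=
  ∃ (S : Type) (_ : Fintype S) (_ : Enc S) (C0 : Submodule (ZMod l) (S → ZMod l)),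
    n0 ≤ Fintype.card S ∧
    Dist0 C0 (1 / 3) ∧ ∀ (C : Type) [Enc C] (r : C → ℕ), PT r → PB (fun c => 2 ^ r c) →
      (∀ c, 1 ≤ r c) → ∃ (Y : TSys C S lam) (τ σ₁ σ₂ : ∀ c, Equiv.Perm (Y.G.T c))
        (e rd : ∀ c, Fin (2 ^ r c) → Y.Pos.T c → ZMod l) (E : ∀ c, Y.Pos.T c → ZMod l)
        (χ : ∀ c, ℕ → Fin (2 ^ r c) → ZMod l),
        D2 (fun c g => τ c g) ∧ D2 (fun c g => σ₁ c g) ∧ D2 (fun c g => σ₂ c g) ∧
        PT (fun z : Σ c, Fin (2 ^ r c) × Y.Pos.T c => e z.1 z.2.1 z.2.2) ∧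
        PT (fun z : Σ c, Fin (2 ^ r c) × Y.Pos.T c => rd z.1 z.2.1 z.2.2) ∧
        PT (fun z : Σ c, Y.Pos.T c => E z.1 z.2) ∧ ∀ c,
          (∀ s g, τ c (Y.nb c s g) = Y.nb c s (τ c g) ∧ σ₁ c (Y.nb c s g) = Y.nb c s (σ₁ c g) ∧
            σ₂ c (Y.nb c s g) = Y.nb c s (σ₂ c g)) ∧
          (∀ b, e c b ∈ tcode C0 (Y.nb c)) ∧
          (∀ j < r c, ∀ b g s, e c b ((τ c ^ j) (σ₁ c g), s) = χ c j b * e c b ((τ c ^ j) g, s)) ∧
          (∀ j b, χ c j b = 1 ∨ χ c j b = -1) ∧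
          (∀ b b', (∀ j < r c, χ c j b = χ c j b') → b = b') ∧
          (∀ b, (stp (fun i : Bool => if i then σ₂ c * τ c else τ c) fun _ => 1)^[r c]
            (fun x => e c b ((τ c ^ r c) x.1, x.2)) = E c) ∧ E c ≠ 0 ∧
          ∀ b b', ∑ x, rd c b x * e c b' x = if b = b' then 1 else 0

/-- The body of the intermediate statement at a given prime. -/
def QuadB (l : ℕ) [Fact l.Prime] (δ Δ : ℝ) : Prop :=
    ∀ (C : Type) [Enc C] (T : Fam C), ∃ (X : Fam C) (gen : ∀ c, X.T c → T.T c → ZMod l),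
      (∀ c, Nonempty (X.T c)) ∧ PT (fun z : Σ c, X.T c × T.T c => gen z.1 z.2.1 z.2.2) ∧
      (∀ c (A : Type) [Fintype A] (ι : A → T.T c), Function.Injective ι →
        ∀ w w' : A → ZMod l, w ≠ w' →
          Δ ≤ hd (cw (fun x a => gen c x (ι a)) w) (cw (fun x a => gen c x (ι a)) w')) ∧
      (∀ η : ℝ, 0 < η → Impl (ZMod l) (.of (X.pw 4)) (.unit C) fun c x y =>
        ∀ (A : Type) [Fintype A] (ι : A → T.T c), Function.Injective ι →
          ∀ u : Fin 4 → A → ZMod l,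
            du x (fun z => ∏ i, cw (fun x a => gen c x (ι a)) (u i) (z i)) ≤ δ →
              1 - η ≤ y () (∑ a, ∏ i, u i a)) ∧
      ∀ (B : Type) [Enc B] (p : B → C) (u : ∀ b, X.T (p b) → ZMod l), PT p →
        PT (fun z : Σ b, X.T (p b) => u z.1 z.2) →
        ∃ v : ∀ b, T.T (p b) → ZMod l, PT (fun z : Σ b, T.T (p b) => v z.1 z.2) ∧
          ∀ b (A : Type) [Fintype A] (ι : A → T.T (p b)), Function.Injective ι →
            ∀ w, hd (u b) (cw (fun x a => gen (p b) x (ι a)) w) ≤ δ → ∀ a, v b (ι a) = w a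

/-- The body of block B7 at a given prime. -/
def CodeB (l : ℕ) [Fact l.Prime] (δ Δ : ℝ) : Prop :=
    ∀ (C : Type) [Enc C] (V : Fam C), ∃ (X : Fam C) (gen : ∀ c, X.T c → V.T c → ZMod l),
      (∀ c, Nonempty (X.T c)) ∧ PT (fun z : Σ c, X.T c × V.T c => gen z.1 z.2.1 z.2.2) ∧
      (∀ c w w', w ≠ w' → Δ ≤ hd (cw (gen c) w) (cw (gen c) w')) ∧
      (∀ (J : Fam C) (f : ∀ c, J.T c → (V.T c → ZMod l) → ZMod l), (∀ c, Nonempty (J.T c)) →
        Pol 3 V J f → ∀ η : ℝ, 0 < η → Impl (ZMod l) (.of X) (.of J) fun c x y =>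
          ∀ w, du x (cw (gen c) w) ≤ δ → du y (fun j => f c j w) ≤ η) ∧
      ∀ (B : Type) [Enc B] (p : B → C) (u : ∀ b, X.T (p b) → ZMod l), PT p →
        PT (fun z : Σ b, X.T (p b) => u z.1 z.2) →
        ∃ v : ∀ b, V.T (p b) → ZMod l, PT (fun z : Σ b, V.T (p b) => v z.1 z.2) ∧
          ∀ b w, hd (u b) (cw (gen (p b)) w) ≤ δ → v b = w

open Exp in
theorem heisB {lam : ℝ} (n0 : ℕ) (hlam : 0 < lam) :
    ∃ L : ℕ, 3 ≤ L ∧ ∀ (l : ℕ) [Fact l.Prime], L ≤ l → HeisB lam n0 l := by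
  obtain ⟨m, l0, -, h1, h2, -⟩ := exists_par n0 hlam
  refine ⟨18 ^ m, by omega, fun l _ h3 => ?_⟩
  have hc : Fintype.card (Fin m → JJ) = 18 ^ m := by simp
  obtain ⟨pt⟩ : Nonempty ((Fin m → JJ) ↪ ZMod l) :=
    Function.Embedding.nonempty_of_card_le (by rw [hc, ZMod.card]; exact h3)
  obtain ⟨C0, hd, hk⟩ := exists_rs pt pt.injective (by omega)
  have two : (2 : ZMod l) ≠ 0 := fun h => by
    have := Nat.le_of_dvd two_pos ((ZMod.natCast_eq_zero_iff 2 l).1 (by exact_mod_cast h))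
    omega
  refine ⟨Fin m → JJ, inferInstance, inferInstance, C0, by omega, hd,
    fun C _ r hr hr' hr1 => ?_⟩
  have H : Sm r := ⟨hr, hr'⟩
  have HG := H.sig fun c => SL3 (RR (r c))
  have HP := H.sig fun c => Fin (2 ^ r c) × SL3 (RR (r c)) × (Fin m → JJ)
  obtain ⟨τ, dτ, hτ⟩ := d_tau H
  obtain ⟨v, dv, hv⟩ := exists_v H C0 hk (fun c s => word (gen (r c)) s) fun s => d_word H s
  obtain ⟨κ, dκ⟩ := exists_cells H
  obtain ⟨p, dp, hp⟩ := ((pfam_SL H).prod (PFam.const (Fin m → JJ))).choose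
    (p := fun c x => v c x ≠ 0) (dv.ne (PT.const 0)) fun c => Function.ne_iff.1 (hv c).1
  have z := D.sigma_snd (X := fun c => Fin (2 ^ r c) × SL3 (RR (r c)) × (Fin m → JJ))
  have b := D2.app dκ pt_sigma_fst z.fst
  have dq := d_gpow H dτ hr H.pb'
  refine ⟨⟨⟨fun c => SL3 (RR (r c)), fun _ => inferInstance, fun _ => inferInstance, pfam_SL H⟩,
      fun _ => ⟨1⟩, fun c s => Equiv.mulRight (word (gen (r c)) s),
      fun s => d_gmul HG D.sigma_snd (d_word HG s),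
      fun c => ((gap_gen (hr1 c)).powR m).mono (by positivity) h1⟩,
    fun c => Equiv.mulLeft (τ c), fun c => Equiv.mulLeft (el n01 1),
    fun c => Equiv.mulLeft (el n12 1), fun c i x => v c (el n12 (κ c i) * x.1, x.2),
    fun c i x => rdf (v c) (p c) (κ c i) x,
    fun c x => ∑ a, v c (el n12 a * (τ c ^ r c * τ c ^ r c * x.1), x.2),
    fun c j i => psi _ (xx (r c) ^ j * κ c i),
    ?_, ?_, ?_, ?_, ?_, ?_, fun c => ?_⟩
  · exact d_gmul HG (dτ.comp pt_sigma_fst) D.sigma_snd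
  · exact d_gmul HG (d_el HG n01 (d_one HG)) D.sigma_snd
  · exact d_gmul HG (d_el HG n12 (d_one HG)) D.sigma_snd
  · exact pt_v dv pt_sigma_fst (D.pair (d_gmul HP (d_el HP n12 b) z.snd.fst) z.snd.snd)
  · exact pt_rdf HP (v := fun z => v z.1) (p := fun z => p z.1) (a := fun z => κ z.1 z.2.1)
      (x := fun z => z.2.2) (pt_v dv pt_sigma_fst (dp.comp pt_sigma_fst))
      (dp.comp pt_sigma_fst) b z.snd
  · have k := pt_big H dv (d_gmul H dq dq)
    dsimp only
    exact k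
  exact heis_alg (hr1 c) two C0 _ (hτ c) (hv c) (κ c) (hp c)

theorem quadB (hS : SSSThm) (hD : DecThm) (hC : ChainThm) {l : ℕ} [Fact l.Prime] (h3 : 3 ≤ l)
    (hH : HeisB (1 / (64 * 81 ^ 2)) (512 * 81 ^ 3) l) :
    QuadB l (((1 / 3) ^ 4) ^ 2 / 32) ((1 / 3) ^ 2 / 8) := by
  obtain ⟨S, _, _, C0, hn, hd, H⟩ := hH
  have hn' : (512 * 81 ^ 3 : ℝ) ≤ Fintype.card S := by exact_mod_cast hn
  have hSne : Nonempty S := Fintype.card_pos_iff.1 (by omega)
  have g1 : TanGood (1 / 3) (1 / (64 * 81 ^ 2)) S :=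
    ⟨by norm_num, by norm_num, by norm_num, by norm_num, by linarith⟩
  have g4 : TanGood ((1 / 3) ^ 4) (1 / (64 * 81 ^ 2)) (Fin 4 → S) := by
    refine ⟨by norm_num, by norm_num, by norm_num, by norm_num, ?_⟩
    have : (Fintype.card S : ℝ) ≤ Fintype.card (Fin 4 → S) := by
      exact_mod_cast Fintype.card_le_of_injective (fun s _ => s) fun a b e => congrFun e 0
    linarith
  have d4 := dist_pw (by norm_num) hd 4
  have h2 : (2 : ZMod l) ≠ 0 := fun h => by
    have : l ∣ 2 := (ZMod.natCast_eq_zero_iff 2 l).1 (by exact_mod_cast h)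
    have := Nat.le_of_dvd (by norm_num) this
    omega
  intro C _ T
  let r : C → ℕ := fun c => Nat.size (Fintype.card (T.T c)) + 1
  have hr : PT r := (Q.pt_size T.pf.pt_card).add (PT.const 1)
  have hr2 : PB fun c => 2 ^ r c := (T.pf.pb_card.lin 4 2).of_le fun c => cquad_size _
  have hrl : PB fun c => l ^ r c := (hr2.pow l).of_le fun c => by
    rw [← pow_mul, mul_comm, pow_mul]
    exact Nat.pow_le_pow_left Nat.lt_two_pow_self.le _
  obtain ⟨Y, τ, σ₁, σ₂, e, rd, E, χ, dτ, dσ₁, dσ₂, pe, prd, pE, hc⟩ :=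
    H C r hr hr2 fun c => Nat.le_add_left _ _
  obtain ⟨q, dq, -⟩ := T.pf.equiv
  have hle : ∀ c, Fintype.card (T.T c) ≤ 2 ^ r c := fun c =>
    (Nat.lt_size_self _).le.trans (Nat.pow_le_pow_right (by norm_num) (Nat.le_succ _))
  let μ : ∀ c, T.T c → Fin (2 ^ r c) := fun c t => Fin.castLE (hle c) (q c t)
  have hμ : ∀ c, Function.Injective (μ c) := fun c =>
    (Fin.castLE_injective _).comp (q c).injective
  have dμ : D2 μ := D.fin_iff.2 (D.fin_iff.1 dq)
  have hne : ∀ c, Nonempty (Y.G.T c) := Y.ne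
  have hcw : ∀ c (A : Type) [Fintype A] (ι : A → T.T c) (w : A → ZMod l),
      cw (fun x a => e c (μ c (ι a)) x) w = fun x => ∑ a, w a * e c (μ c (ι a)) x :=
    fun c A _ ι w => funext fun x => sum_congr rfl fun a _ => mul_comm _ _
  have hmem : ∀ c (A : Type) [Fintype A] (ι : A → T.T c) (w : A → ZMod l),
      (fun x => ∑ a, w a * e c (μ c (ι a)) x) ∈ tcode C0 (Y.nb c) :=
    fun c A _ ι w => sum_mem_tcode w fun a => (hc c).2.1 _
  have hrd : ∀ c (A : Type) [Fintype A] (ι : A → T.T c), Function.Injective ι →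
      ∀ (w : A → ZMod l) a, ∑ x, rd c (μ c (ι a)) x * ∑ a', w a' * e c (μ c (ι a')) x = w a := by
    intro c A _ ι hι w a
    simp only [mul_sum]
    rw [sum_comm]
    have : ∀ a', ∑ x, rd c (μ c (ι a)) x * (w a' * e c (μ c (ι a')) x) =
        if a = a' then w a' else 0 := fun a' => by
      simp only [mul_left_comm _ (w a'), ← mul_sum, (hc c).2.2.2.2.2.2.2, (hμ c).eq_iff, hι.eq_iff]
      split_ifs <;> simp
    simp [this]
  refine ⟨Y.Pos, fun c x t => e c (μ c t) x, fun c => inferInstance,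
    pe.comp (pt_sigma_mk (X := fun c => Fin (2 ^ r c) × Y.Pos.T c) pt_sigma_fst
      ((dμ.app pt_sigma_fst (D.snd D.sigma_snd)).pair (D.fst D.sigma_snd))),
    fun c A _ ι hι w w' hw => ?_, fun η hη => ?_, fun B _ p u hp hu => ?_⟩
  · refine (supp_large hS g1 hd (Y.gap c) (hmem c A ι (w - w')) fun h0 => hw ?_).le.trans_eq ?_
    · funext a
      have := hrd c A ι hι (w - w') a
      have h1 : ∀ x, ∑ a', (w - w') a' * e c (μ c (ι a')) x = 0 := congrFun h0
      simp only [h1, mul_zero, sum_const_zero] at this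
      exact sub_eq_zero.1 this.symm
    · simp only [P330.hd, hcw, Pi.sub_apply, sub_mul, sum_sub_distrib, sub_ne_zero]
  · have hEm : ∀ c, E c ∈ tcode C0 (Y.nb c) := fun c => by
      rw [← (hc c).2.2.2.2.2.1 ⟨0, by positivity⟩]
      refine stp_iter_mem _ (fun i s g => ?_)
        (shift_mem (fun s g => ((hc c).1 s g).1) ((hc c).2.1 _) _) _
      cases i <;> simp [((hc c).1 s _).1, ((hc c).1 s _).2.2]
    have hθ : (0 : ℝ) < ((1 / 3) ^ 4) ^ 2 / 8 := by norm_num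
    have c1 := fun c => cquad_comm (n := 4) (fun s g => ((hc c).1 s g).2.1)
      fun s g => ((hc c).1 s g).1
    have c2 := fun c => cquad_comm (n := 4) (fun s g => ((hc c).1 s g).2.2)
      fun s g => ((hc c).1 s g).1
    have k1 := hC C (Fin 4 → S) (Fin 4 → Bool) l (pwC C0 4) _ _ g4 d4 (Y.pw 4)
      (fun c => perB (σ₁ c) (τ c)) (coE _ 4) r (cquad_per dσ₁ dτ) c1 hr hrl
      (((1 / 3) ^ 4) ^ 2 / 32) (by norm_num)
    have k2 := hC C (Fin 4 → S) (Fin 4 → Bool) l (pwC C0 4) _ _ g4 d4 (Y.pw 4)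
      (fun c => perB (σ₂ c) (τ c)) (fun _ => 1) r (cquad_per dσ₂ dτ) c2 hr hrl
      (((1 / 3) ^ 4) ^ 2 / 8 * (η / 2)) (by positivity)
    have k3 := cquad_read (Y.pw 4).Pos (fun c => tens fun _ : Fin 4 => E c) (by
      simp only [tens, Fin.prod_univ_four]
      have := fun i : Fin 4 => pE.comp (pt_sigma_mk (X := Y.Pos.T)
        (pt_sigma_fst (X := (Y.pw 4).Pos.T))
        ((cq_app_const (D.fst D.sigma_snd) i).pair (cq_app_const (D.snd D.sigma_snd) i)))
      exact pt_mulZ (pt_mulZ (pt_mulZ (this 0) (this 1)) (this 2)) (this 3)) hθ (fun c => by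
        obtain ⟨x, hx⟩ := Function.ne_iff.1 (hc c).2.2.2.2.2.2.1
        have := (Y.pw 4).ne c
        exact (supp_large hS g4 d4 ((Y.pw 4).gap c) (tens_mem fun _ => hEm c) (Function.ne_iff.2
          ⟨(fun _ => x.1, fun _ => x.2), prod_ne_zero_iff.2 fun _ _ => hx⟩)).le) (half_pos hη)
    refine (cq_rename (U' := Y.Pos.pw 4) ((k1.trans k2).trans k3)
      (fun c => (Equiv.arrowProdEquivProdArrow _ _ _).symm) (cq_fn_const fun i =>
        (cq_app_const (D.fst D.sigma_snd) i).pair (cq_app_const (D.snd D.sigma_snd) i))).mono ?_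
    rintro c x y - - ⟨m2, -, ⟨m1, -, a1, a2⟩, a3⟩ A _ ι hι u hu
    have t1 := tens_mem fun i => hmem c A ι (u i)
    have b1 := a1 _ t1 (le_of_eq_of_le (Fintype.expect_equiv
      (Equiv.arrowProdEquivProdArrow _ _ _).symm _ _ fun z => by simp only [hcw]; rfl) hu)
    have b2 := a2 _ (stp_iter_mem _ (c1 c) t1 _) b1
    rw [chain_alg (n := 3) h2 (τ c) (σ₁ c) (σ₂ c) (e c) (E c) (χ c) (hc c).2.2.1 (hc c).2.2.2.1
      (hc c).2.2.2.2.1 (hc c).2.2.2.2.2.1 (fun a => μ c (ι a)) ((hμ c).comp hι) u] at b2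
    refine le_trans ?_ (a3 _)
    have := mul_le_mul_of_nonneg_left b2 (inv_pos.2 hθ).le
    rw [inv_mul_cancel_left₀ hθ.ne'] at this
    linarith
  · obtain ⟨v, hv, hv'⟩ := hD C (ZMod l) S C0 _ _ g1 hd Y B p u hp hu
    have hb : PT fun z : Σ b, T.T (p b) => z.1 := pt_sigma_fst
    refine ⟨fun b t => ∑ x, rd (p b) (μ _ t) x * v b x, (Y.Pos.pf.comap (hp.comp hb)).pt_sumZ
      (pt_mulZ (prd.comp (pt_sigma_mk (X := fun c => Fin (2 ^ r c) × Y.Pos.T c)
        ((hp.comp hb).comp pt_sigma_fst)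
        (((dμ.app (hp.comp hb) D.sigma_snd).comp pt_sigma_fst).pair D.sigma_snd)))
        (hv.comp (pt_sigma_mk (hb.comp pt_sigma_fst) D.sigma_snd))), fun b A _ ι hι w hw a => ?_⟩
    rw [hcw] at hw
    simp only [hv' b _ (hmem _ A ι w) (hw.trans (by norm_num))]
    exact hrd _ A ι hι w a

theorem codeB_of_quad {l : ℕ} [Fact l.Prime] {δ Δ : ℝ} (hδ : 0 < δ) (H : QuadB l δ Δ) :
    CodeB l (δ / 8) Δ := by
  intro C _ V
  obtain ⟨X, g, hX, hg, hd, hQ, hD⟩ := H C (V.option.pw 3)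
  have hι : ∀ c, Function.Injective fun (v : V.T c) (_ : Fin 3) => some v := fun c a b e =>
    Option.some.inj (congrFun e 0)
  have hι' : ∀ c, Function.Injective fun (o : Option (V.T c)) (_ : Fin 3) => o := fun c a b e =>
    congrFun e 0
  refine ⟨X, fun c x v => g c x fun _ => some v, hX,
    ctop_pt hg pt_sigma_fst (D.fst D.sigma_snd) (cq_fn_const fun _ => (D.snd D.sigma_snd).some),
    fun c w w' hw => hd c _ _ (hι c) w w' hw, fun J f hJ hf η hη => ?_, fun B _ p u hp hu => ?_⟩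
  swap
  · obtain ⟨v, hv, hv'⟩ := hD B p u hp hu
    refine ⟨fun b a => v b fun _ => some a, hv.comp (pt_sigma_mk pt_sigma_fst
      (cq_fn_const fun _ => D.sigma_snd.some)), fun b w hw => funext fun a => ?_⟩
    exact hv' b _ _ (hι _) w (hw.trans (by linarith)) a
  obtain ⟨φ, hφ, hf⟩ := hf
  let R : ∀ c, ((Fin 4 → X.T c) → ZMod l) → ZMod l → Prop := fun c W a =>
    ∃ (A : Type) (_ : Fintype A) (ι : A → Fin 3 → Option (V.T c)), Function.Injective ι ∧
      ∃ u : Fin 4 → A → ZMod l, (W = fun z => ∏ i, cw (fun x a => g c x (ι a)) (u i) (z i)) ∧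
        a = ∑ a, ∏ i, u i a
  have hR : ∀ η : ℝ, 0 < η → Impl (ZMod l) (.of (X.pw 4)) (.unit C) fun c x y =>
      ∀ W a, R c W a → du x W ≤ δ → 1 - η ≤ y () a := fun η hη => (hQ η hη).mono <| by
    rintro c x y - - H W a ⟨A, _, ι, hi, u, rfl, rfl⟩ hW
    exact H A ι hi u hW
  let J1 : Fam C := (Fam.const C (Fin 3)).prod X
  have h1 := clev_level hX R hδ hR (.of X) J1 (fun c => ⟨(0, (hX c).some)⟩) (fun _ _ _ x => x)
    (fun c j i x a => if i = 0 then g c x (fun _ => none) + a else ∑ o : Option (V.T c),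
      g c x (fun _ => o) * if i = 1 then ∑ m : Fin 3 → Option (V.T c),
        if m j.1 = o then g c j.2 m else 0 else 1)
    (fun _ => D.snd D.sigma_snd) (fun i a => by
      have hp : PT fun z : Σ c, J1.T c × X.T c => z.1 := pt_sigma_fst
      have hx : D fun z : Σ c, J1.T c × X.T c => z.2.2 := D.snd D.sigma_snd
      have hj : D fun z : Σ c, J1.T c × X.T c => z.2.1 := D.fst D.sigma_snd
      split_ifs
      · exact pt_addZ (ctop_pt hg hp hx (cq_fn_const fun _ => D.none)) (PT.const a)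
      · refine (V.option.pf.comap hp).pt_sumZ (pt_mulZ (ctop_pt hg (hp.comp pt_sigma_fst)
          (hx.comp pt_sigma_fst) (cq_fn_const fun _ => D.sigma_snd)) ?_)
        have hp2 : PT fun z : Σ z : Σ c, J1.T c × X.T c, Option (V.T z.1) => z.1.1 :=
          hp.comp pt_sigma_fst
        refine ((V.option.pw 3).pf.comap hp2).pt_sumZ (PT.ite (D.eq
          (D.fn_app (n := fun _ => 3) D.sigma_snd
            ((hj.fst.comp pt_sigma_fst).comp pt_sigma_fst)) (D.sigma_snd.comp pt_sigma_fst))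
          (ctop_pt hg (hp2.comp pt_sigma_fst) ((hj.snd.comp pt_sigma_fst).comp pt_sigma_fst)
            D.sigma_snd) (PT.const 0))
      · exact (V.option.pf.comap hp).pt_sumZ (pt_mulZ (ctop_pt hg (hp.comp pt_sigma_fst)
          (hx.comp pt_sigma_fst) (cq_fn_const fun _ => D.sigma_snd)) (PT.const 1))) 1
    (fun c j i u => (cq_fr_single _ fun x y a b => a.trans b.symm).trans_eq (one_mul _).symm)
    (η := δ / 24) (by positivity)
  have h2 := clev_level hX R hδ hR (.of J1) J hJ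
    (fun _ _ i x => ((Fin.cons 0 id : Fin 4 → Fin 3) i, x))
    (fun c j i x a => if i = 0 then ∑ m : Fin 3 → Option (V.T c), g c x m * φ c j m else a)
    (fun _ => (D.const _).pair (D.snd D.sigma_snd)) (fun i a => by
      have hp : PT fun z : Σ c, J.T c × X.T c => z.1 := pt_sigma_fst
      have hx : D fun z : Σ c, J.T c × X.T c => z.2.2 := D.snd D.sigma_snd
      have hj : D fun z : Σ c, J.T c × X.T c => z.2.1 := D.fst D.sigma_snd
      split_ifs
      · exact ((V.option.pw 3).pf.comap hp).pt_sumZ (pt_mulZ (ctop_pt hg (hp.comp pt_sigma_fst)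
          (hx.comp pt_sigma_fst) D.sigma_snd)
          (ctop_pt hφ (hp.comp pt_sigma_fst) (hj.comp pt_sigma_fst) D.sigma_snd))
      · exact PT.const a) 3
    (fun c j i u => (cq_fr_single _ fun x y a b => (Prod.mk.inj (a.trans b.symm)).2).trans_eq (by
      simp only [J1, Fintype.card_prod, Fintype.card_fin]
      push_cast
      rw [mul_inv, ← mul_assoc, mul_inv_cancel₀ (by norm_num), one_mul])) hη
  refine (h1.trans h2).mono ?_
  rintro c x y - - ⟨m, -, hm, hy⟩ w hw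
  refine hy _ ⟨fun j => cw (g c) (fun m => ev w (m j.1)) j.2, ?_, fun j => ?_⟩
  · refine le_trans ?_ (by linarith : 4 * 3 * (δ / 24) ≤ δ / 2)
    refine mul_le_mul_of_nonneg_left ((cq_dw_of _ _).trans_le
      (hm _ ⟨cw (fun x v => g c x fun _ => some v) w, ?_, fun j => ?_⟩)) (by norm_num)
    · have : dw ((Reg.of X).w c) x (cw (fun x v => g c x fun _ => some v) w) ≤ δ / 8 :=
        (cq_dw_of _ _).trans_le hw
      linarith
    · refine ⟨Option (V.T c), inferInstance, _, hι' c, fun i o => if i = 0 then ev w o else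
        if i = 1 then ∑ m : Fin 3 → Option (V.T c), if m j.1 = o then g c j.2 m else 0 else 1,
        funext fun q => prod_congr rfl fun i _ => ?_, ?_⟩
      · by_cases h0 : i = 0
        · simp [cw, ev, Fintype.sum_option, h0]
        · simp only [cw, h0, if_false]
      · simp only [Fin.prod_univ_four, cw]
        simp only [Fin.isValue, ↓reduceIte, one_ne_zero, Fin.reduceEq, mul_one, mul_sum]
        rw [sum_comm]
        refine sum_congr rfl fun m _ => ?_
        simp [mul_comm]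
  · refine ⟨Fin 3 → Option (V.T c), inferInstance, id, Function.injective_id,
      Fin.cons (φ c j) fun i m => ev w (m i), funext fun q => prod_congr rfl fun i _ => ?_, ?_⟩
    · refine Fin.cases ?_ (fun i => ?_) i
      · simp [cw]
      · simp [cw, Fin.succ_ne_zero]
    · rw [hf]
      refine sum_congr rfl fun m _ => ?_
      rw [Fin.prod_univ_succ (n := 3)]
      simp

/-- The inner code exists, with fixed constants, at every large prime. -/
theorem codeAll : ∃ (δ Δ : ℝ) (L : ℕ), 0 < δ ∧ 0 < Δ ∧ 3 ≤ L ∧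
    ∀ (l : ℕ) [Fact l.Prime], L ≤ l → CodeB l δ Δ := by
  obtain ⟨L, h3, H⟩ := heisB (lam := 1 / (64 * 81 ^ 2)) (512 * 81 ^ 3) (by norm_num)
  exact ⟨_, _, L, by norm_num, by norm_num, h3, fun l _ hl => codeB_of_quad (by norm_num)
    (quadB sssThm decThm (chainThm hpvThm sssThm zemThm) (h3.trans hl) (H l hl))⟩

/-- The form with a prime congruent to one modulo a given number. -/
theorem codeMod : ∃ δ Δ : ℝ, 0 < δ ∧ 0 < Δ ∧ ∀ q l0 : ℕ, q ≠ 0 →
    ∃ (l : ℕ) (_ : Fact l.Prime), l0 ≤ l ∧ 3 ≤ l ∧ l ≡ 1 [MOD q] ∧ CodeB l δ Δ := by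
  obtain ⟨δ, Δ, L, h1, h2, h3, H⟩ := codeAll
  refine ⟨δ, Δ, h1, h2, fun q l0 hq => ?_⟩
  obtain ⟨l, hl, hL, hm⟩ := Nat.exists_prime_gt_modEq_one (L + l0) hq
  have : Fact l.Prime := ⟨hl⟩
  exact ⟨l, this, by omega, by omega, hm, H l (by omega)⟩

/-- The form with a prime congruent to one modulo three. -/
theorem codeThree : ∃ δ Δ : ℝ, 0 < δ ∧ 0 < Δ ∧ ∀ l0 : ℕ,
    ∃ (l : ℕ) (_ : Fact l.Prime), l0 ≤ l ∧ 3 ≤ l ∧ l % 3 = 1 ∧ CodeB l δ Δ := by
  obtain ⟨δ, Δ, h1, h2, H⟩ := codeMod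
  refine ⟨δ, Δ, h1, h2, fun l0 => ?_⟩
  obtain ⟨l, hl, a, b, c, d⟩ := H 3 l0 (by norm_num)
  exact ⟨l, hl, a, b, c, d⟩

end Vale.Agent.P330Q
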