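import Vale.Agent.P330Q.BM
import Vale.Agent.P330Q.CodeL

/-! Cell codes exist. -/

namespace Vale.Agent.P330Q

open Vale.Agent.Lib.PolyTime Vale.Agent.P330 Finset
open scoped Classical BigOperators

variable {l : ℕ} [Fact l.Prime] {δ Δ : ℝ} {U : Type} [Enc U]

/-- Reads in the context of the code. -/
abbrev Rd0 (δ : ℝ) (d : ℕ) (X V : Fam U) (gen : ∀ u, X.T u → V.T u → ZMod l) : Prop :=
  PRd l d (.of X) V fun u x w => du x (cw (gen u) w) ≤ δ

theorem bc_deg (hδ : 0 < δ) (H : CodeB l δ Δ) (n : ℕ) : ∀ (X V : Fam U)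
    (gen : ∀ u, X.T u → V.T u → ZMod l), Rd0 δ 3 X V gen → Rd0 δ (n + 1) X V gen := by
  induction n with
  | zero => exact fun X V gen h J f hJ hf => h J f hJ (hf.mono (by norm_num))
  | succ n ih =>
    intro X V gen h J f hJ ⟨φ, hφ, hf⟩ η hη
    obtain ⟨X', g, hX, hg, -, hr, -⟩ := H U (V.option.prod V.option)
    have g1 := h X' (fun u k w => ∑ v, g u k v * (ev w v.1 * ev w v.2)) hX
      ((Pol.comb hg ((Pol.ev (J := V.option.prod V.option) D.s1).mul (Pol.ev D.s2))).mono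
        (by norm_num)) δ hδ
    have g2 := ih X' _ g hr J (fun u j w => ∑ m : Fin (n + 1 + 1) → Option (V.T u), φ u j m *
      ∏ i : Fin (n + 1), ev w (some (m i.succ, if i = 0 then m 0 else none))) hJ
      (Pol.sum (K := V.option.pw (n + 1 + 1)) ((bm_mon (cq_fn_const fun i => D.some (D.pair
        (cq_app_const D.s2 i.succ)
        (D.ite (PT.const _) (cq_app_const D.s2 0) D.none)))).cmul hφ)) η hη
    refine (g1.trans g2).mono ?_
    rintro u x y - - ⟨m1, -, a1, a2⟩ w hw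
    refine le_of_eq_of_le (congrArg _ (funext fun j => ?_))
      (a2 (fun v => ev w v.1 * ev w v.2) (a1 w hw))
    rw [hf]
    refine sum_congr rfl fun m _ => congrArg _ ?_
    show _ = ∏ i : Fin (n + 1), ev w (m i.succ) * ev w (if i = 0 then m 0 else none)
    rw [prod_mul_distrib, Fin.prod_univ_succ, mul_comm,
      Fin.prod_univ_succ fun i => ev w (if i = 0 then m 0 else none)]
    simp [ev]

theorem bc_all (hδ : 0 < δ) (H : CodeB l δ Δ) {X V : Fam U}
    {gen : ∀ u, X.T u → V.T u → ZMod l} (h : Rd0 δ 3 X V gen) (d : ℕ) : Rd0 δ d X V gen :=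
  fun J f hJ hf => bc_deg hδ H d X V gen h J f hJ (hf.mono (Nat.le_succ d))

theorem bc_ctx (hδ : 0 < δ) (H : CodeB l δ Δ) {X V : Fam U}
    {gen : ∀ u, X.T u → V.T u → ZMod l} (h : Rd0 δ 3 X V gen) (d : ℕ) (B : Type) [Enc B]
    (p : B → U) (hp : PT p) : PRd l d (.of (X.comap p hp)) (V.comap p hp)
      fun b x w => du x (cw (gen (p b)) w) ≤ δ := by
  intro J f hJ ⟨φ, hφ, hf⟩ η hη
  let M : Fam U := V.option.pw d
  obtain ⟨X', g, hX, hg, -, hr, -⟩ := H U (V.sum M)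
  obtain ⟨ε, hε, he⟩ : ∃ ε : ℝ, 0 < ε ∧ (2 * (Fintype.card Unit + 1) ^ 2 + 1) * ε = δ :=
    ⟨δ / (2 * (Fintype.card Unit + 1) ^ 2 + 1), div_pos hδ (by positivity),
      mul_div_cancel₀ _ (by positivity)⟩
  have hq : PT fun z : Σ b, J.T b => p z.1 := hp.comp pt_sigma_fst
  refine (Impl.symbols (I := .of (X.comap p hp)) J hJ
    (fun b x v => ∃ w, du x (cw (gen (p b)) w) ≤ δ ∧ v = fun j => f b j w) (fun η hη => ?_)
    hη).mono fun b x y _ _ k w hw => k _ ⟨w, hw, rfl⟩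
  have g1 := (h ((Fam.const U Unit).prod X') (fun u k w => ∑ v, g u k.2 (.inl v) * w v)
    (fun u => ⟨((), (hX u).some)⟩)
    ((Pol.lin (V := V) (J := (Fam.const U Unit).prod X') (a := fun u k v => g u k.2 (.inl v))
      (pt_app2 hg pt_sigma_fst (D.snd D.s1) (D.inl D.s2))).mono (by norm_num : 1 ≤ 3)) ε
    hε).comap _ hq
  have g2 := Impl.word (F := ZMod l) (I := .of (X.comap _ hq)) (X'.comap _ hq) (fun b => hX _)
    (fun z k => ∑ m : M.T (p z.1), g (p z.1) k (.inr m) * φ z.1 z.2 m)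
    ((M.pf.comap (hq.comp pt_sigma_fst)).pt_sumZ (pt_mulZ
      (pt_app2 hg ((hq.comp pt_sigma_fst).comp pt_sigma_fst) (D.sigma_snd.comp pt_sigma_fst)
        (D.inr D.sigma_snd))
      (pt_app2 hφ ((pt_sigma_fst.comp pt_sigma_fst).comp pt_sigma_fst)
        ((D.sigma_snd.comp pt_sigma_fst).comp pt_sigma_fst) D.sigma_snd))) hε
  have g3 := (bm_add (l := l) Unit X' hX hε).comap _ hq
  have g4 := (cq_unit (bc_all hδ H hr (1 + d) (Fam.const U Unit)
    (fun u _ w => ∑ m : M.T u, w (.inr m) * ∏ i, ev w ((m i).elim none fun v => some (.inl v)))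
    (fun _ => ⟨()⟩) (Pol.sum (K := M) ((Pol.var (D.inr D.s2)).mul (bm_mon (cq_fn_const fun i =>
      D.option_elim (cq_app_const D.s2 i) D.none (D.some (D.inl D.sigma_snd)))))) _ hη)).comap _ hq
  refine (((Impl.par g1 g2).trans g3).trans g4).mono ?_
  rintro z x y - - ⟨m2, -, ⟨m1, -, ⟨a1, a2⟩, a3⟩, a4⟩ _ ⟨w, hw, rfl⟩
  have k := a4 (Sum.elim w (φ z.1 z.2)) (le_of_eq_of_le (congrArg _ (funext fun k => ?_))
    ((a3 _ _ (a1 w hw) a2).trans_eq he))
  · have e : f z.1 z.2 w = ∑ m : M.T (p z.1), Sum.elim w (φ z.1 z.2) (.inr m) *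
        ∏ i, ev (Sum.elim w (φ z.1 z.2)) ((m i).elim none fun v => some (.inl v)) := by
      rw [hf]
      refine sum_congr rfl fun m _ => congrArg _ (prod_congr rfl fun i _ => ?_)
      cases m i <;> rfl
    simp only [du, univ_unique, expect_singleton] at k
    beta_reduce
    rw [e]
    exact sub_le_comm.1 k
  · simp only [cw, Fintype.sum_sum_type, Sum.elim_inl, Sum.elim_inr, univ_unique, sum_singleton]
    exact add_comm _ _

theorem cellAt_of_code (hδ : 0 < δ) (hΔ : 0 < Δ) (H : CodeB l δ Δ) : CellAt l (min δ (Δ / 4)) := by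
  refine ⟨by positivity, fun U _ V => ?_⟩
  obtain ⟨X, g, hX, hg, hd, hr, hD⟩ := H U V
  refine ⟨⟨X, g, hX, hg, fun u w w' e => le_trans ?_ (hd u w w' e),
    fun d B _ p hp J f hJ hf η hη => (bc_ctx hδ H hr d B p hp J f hJ hf η hη).mono
      fun b x y _ _ k w hw => k w (hw.trans (min_le_left _ _)), fun B _ p u hp hu => ?_⟩⟩
  · linarith [min_le_right δ (Δ / 4)]
  · obtain ⟨v, h1, h2⟩ := hD B p u hp hu
    exact ⟨v, h1, fun b w hw => h2 b w (hw.trans (min_le_left _ _))⟩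

theorem cellAll : ∃ (δ : ℝ) (L : ℕ), 3 ≤ L ∧ ∀ (l : ℕ) [Fact l.Prime], L ≤ l → CellAt l δ := by
  obtain ⟨δ, Δ, L, h1, h2, h3, H⟩ := codeAll
  exact ⟨_, L, h3, fun l _ hl => cellAt_of_code h1 h2 (H l hl)⟩

end Vale.Agent.P330Q
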