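import Vale.Agent.P330Q.Comb

/-! Sized gadget combinators: arrays with sizes that depend on the index. -/

namespace Vale.Agent.P330Q

open Vale.Agent.Lib.PolyTime Vale.Agent.P330 Finset
open scoped Classical BigOperators

variable {C F : Type} [Enc C] [Enc F] [Fintype F] {a l : C → ℕ} {I : Reg C}

/-- Arrays of gadgets whose size bound depends on the index. -/
theorem ImplS.arr' (J : Fam C) (hJ : ∀ c, Nonempty (J.T c)) {I1 O1 : Reg (Σ c, J.T c)}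
    {S : ∀ z, (I1.T z → F → ℝ) → (O1.T z → F → ℝ) → Prop} {a1 : (Σ c, J.T c) → ℕ}
    (h : ImplS F a1 (fun z => l z.1) I1 O1 S)
    (hz : Sz (fun z : Σ c, J.T c => a z.1) (fun z => l z.1)
      fun z => Fintype.card (J.T z.1) * (a1 z + 1))
    (f : ∀ z, I1.T z → I.T z.1) (df : D2 (Y := fun z : Σ c, J.T c => I.T z.1) f) (κ : ℝ)
    (hf : ∀ c u, 𝔼 j, ∑ i ∈ univ.filter fun i => f ⟨c, j⟩ i = u, I1.w ⟨c, j⟩ i ≤ κ * I.w c u)
    {θ : ℝ} (hθ : 0 < θ) :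
    ImplS F a l I (Reg.sigma J O1) fun c x y =>
      fr (J.T c) (fun j => ¬ S ⟨c, j⟩ (fun i => x (f ⟨c, j⟩ i)) fun o => y ⟨j, o⟩) ≤ θ := by
  have key : ∀ c, ∃ j, ∀ j', a1 ⟨c, j'⟩ ≤ a1 ⟨c, j⟩ := fun c =>
    have := hJ c
    Finite.exists_max fun j => a1 ⟨c, j⟩
  choose m hm using key
  exact ImplS.arr J hJ (a0 := fun c => a1 ⟨c, m c⟩)
    (h.weaken (Sz.self.of_le fun z => hm z.1 z.2) Sz.log) (hz.comp fun c => ⟨c, m c⟩) f df κ hf hθ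

/-- Arrays of small gadgets. -/
theorem ImplS.arr0 (J : Fam C) (hJ : ∀ c, Nonempty (J.T c)) {I1 O1 : Reg (Σ c, J.T c)}
    {S : ∀ z, (I1.T z → F → ℝ) → (O1.T z → F → ℝ) → Prop}
    (h : ImplS F (fun _ => 0) (fun z => l z.1) I1 O1 S)
    (hz : Sz a l fun c => Fintype.card (J.T c))
    (f : ∀ z, I1.T z → I.T z.1) (df : D2 (Y := fun z : Σ c, J.T c => I.T z.1) f) (κ : ℝ)
    (hf : ∀ c u, 𝔼 j, ∑ i ∈ univ.filter fun i => f ⟨c, j⟩ i = u, I1.w ⟨c, j⟩ i ≤ κ * I.w c u)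
    {θ : ℝ} (hθ : 0 < θ) :
    ImplS F a l I (Reg.sigma J O1) fun c x y =>
      fr (J.T c) (fun j => ¬ S ⟨c, j⟩ (fun i => x (f ⟨c, j⟩ i)) fun o => y ⟨j, o⟩) ≤ θ :=
  ImplS.arr J hJ (a0 := fun _ => 0) h (hz.congr fun _ => mul_one _) f df κ hf hθ

end Vale.Agent.P330Q
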