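import Vale.Agent.P330Q.BcDefs
import Vale.Agent.P330Q.CombX

/-! Polynomial maps of tuples of cells. -/

namespace Vale.Agent.P330Q

open Vale.Agent.Lib.PolyTime Vale.Agent.P330 Finset
open scoped Classical BigOperators

/-- An array of uniform registers is a uniform register. -/
theorem ImplS.sigP {C F : Type} [Enc C] [Enc F] [Fintype F] {a l : C → ℕ} {I : Reg C}
    {J K : Fam C} {S : ∀ c, (I.T c → F → ℝ) → ((Σ _ : J.T c, K.T c) → F → ℝ) → Prop}
    (h : ImplS F a l I
      (Reg.sigma J (.of (K.comap (fun z : Σ c, J.T c => z.1) pt_sigma_fst))) S) :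
    ImplS F a l I (.of (J.prod K)) fun c x y => S c x fun z => y (z.1, z.2) := by
  refine (h.wireOut (O' := .of (J.prod K)) (fun c z => ⟨z.1, z.2⟩)
    (D.dsig_mk (W := fun (z : Σ c, J.T c × K.T c) (_ : J.T z.1) => K.T z.1) D.s1 D.s2)
    (fun c => (Equiv.sigmaEquivProd (J.T c) (K.T c)).symm.injective) fun c z => ?_).mono ?_
  · show (Fintype.card (J.T c × K.T c) : ℝ)⁻¹ ≤
      (Fintype.card (K.T c) : ℝ)⁻¹ / Fintype.card (J.T c)
    rw [Fintype.card_prod, Nat.cast_mul, mul_inv, mul_comm, div_eq_mul_inv]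
  · rintro c x y - - ⟨y0, -, k, rfl⟩
    exact k

theorem bm_dens {O X Y : Type} [Fintype O] [Fintype X] (f : O → X → Y) (u : Y) :
    𝔼 o, ∑ _i ∈ univ.filter fun i => f o i = u, (Fintype.card X : ℝ)⁻¹ =
      fr (O × X) fun z => f z.1 z.2 = u := by
  rw [fr_prod]
  refine expect_congr rfl fun o _ => ?_
  rw [fr, sum_const, nsmul_eq_mul, div_eq_mul_inv]

theorem bm_du {O J F : Type} [Fintype O] [Fintype J] [Fintype F] [Nonempty O] [Nonempty J]
    {y : O × J → F → ℝ} (hy : IsDist y) (v : O × J → F) {E : O → Prop} {η : ℝ} (hη : 0 ≤ η)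
    (h : ∀ o, ¬ E o → du (fun j => y (o, j)) (fun j => v (o, j)) ≤ η) : du y v ≤ fr O E + η := by
  rw [du, expect_prod']
  refine expect_le_fr hη (fun o => ?_) h
  exact expect_le univ_nonempty fun j _ => sub_le_self _ (hy.nonneg _ _)

variable {l : ℕ} [Fact l.Prime] {δ : ℝ}

/-- Monomials. -/
theorem bm_mon {C : Type} [Enc C] {d : ℕ} {V J : Fam C}
    {x : ∀ c, J.T c → Fin d → Option (V.T c)} (hx : D2 x) :
    Pol (l := l) d V J fun c j w => ∏ i, ev w (x c j i) :=
  ⟨fun c j m => if m = x c j then 1 else 0,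
    PT.ite (D.eq D.s2 (hx.app pt_sigma_fst D.s1)) (PT.const _) (PT.const _), fun c j w => by simp⟩

/-- Linear maps, cell by cell. -/
theorem bm_lin {U : Type} [Enc U] {V : Fam U} (Z : Cell l δ V) (A : Type) [Fintype A] [Enc A]
    [Nonempty A] (K : Fam U) (hK : ∀ u, Nonempty (K.T u))
    (g : ∀ u, K.T u → A × V.T u → ZMod l)
    (hg : PT fun z : Σ u, K.T u × (A × V.T u) => g z.1 z.2.1 z.2.2) {ε : ℝ} (hε : 0 < ε) :
    Impl (ZMod l) (.of ((Fam.const U A).prod Z.X)) (.of ((Fam.const U A).prod K)) fun u x y =>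
      ∀ w : A × V.T u → ZMod l,
        (∀ i, du (fun ξ => x (i, ξ)) (cw (Z.gen u) fun v => w (i, v)) ≤ δ) →
          du y (fun z => ∑ v, g u z.2 (z.1, v) * w (z.1, v)) ≤ ε := by
  have h1 := Z.rd 1 (Σ _ : U, A) (fun z => z.1) pt_sigma_fst (K.comap _ pt_sigma_fst)
    (fun z k w => ∑ v, g z.1 k (z.2, v) * w v) (fun z => hK z.1)
    (Pol.lin (pt_app2 hg (pt_sigma_fst.comp pt_sigma_fst) D.s1
      (D.pair (D.sigma_snd.comp pt_sigma_fst) D.s2))) _ (half_pos hε)
  have h2 := Impl.arr (I := .of ((Fam.const U A).prod Z.X)) (Fam.const U A)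
    (fun _ => inferInstance) h1 (fun z ξ => (z.2, ξ))
    (D.pair (D.sigma_snd.comp pt_sigma_fst) D.sigma_snd) 1 (fun c u => ?_) (half_pos hε)
  · refine (ImplS.sigP (J := Fam.const U A) (K := K) (toS h2)).impl.mono ?_
    intro u x y _ hy h w hw
    have := hK u
    refine (bm_du hy _ (half_pos hε).le fun i hi => ?_).trans
      ((add_le_add h le_rfl).trans_eq (add_halves ε))
    exact not_not.1 hi (fun v => w (i, v)) (hw i)
  · exact ((bm_dens (fun (j : A) (i : Z.X.T c) => (j, i)) u).trans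
      ((fr_single u).trans (one_mul _).symm)).le

/-- The sum of the parts of a word. -/
theorem bm_add {U : Type} [Enc U] (A : Type) [Fintype A] [Enc A] (K : Fam U)
    (hK : ∀ u, Nonempty (K.T u)) {ε : ℝ} (hε : 0 < ε) :
    Impl (ZMod l) ((Reg.of ((Fam.const U A).prod K)).sum (.of K)) (.of K) fun u x y =>
      ∀ (s : A × K.T u → ZMod l) (t : K.T u → ZMod l), du (fun z => x (.inl z)) s ≤ ε →
        du (fun k => x (.inr k)) t ≤ ε →
          du y (fun k => t k + ∑ i, s (i, k)) ≤ (2 * (Fintype.card A + 1) ^ 2 + 1) * ε := by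
  have hA : (0 : ℝ) ≤ Fintype.card A := Nat.cast_nonneg _
  refine (Impl.det (I := (Reg.of ((Fam.const U A).prod K)).sum (.of K)) (A := Option A) K
    (Fam.const U Unit) (fun _ => ⟨()⟩) hK
    (fun _ k _ o => o.elim (.inr k) fun i => .inl (i, k)) (fun _ _ _ s => ∑ o, s o)
    (fun o => ?_) (fun _ => PT.const _) (Fintype.card A + 1) (fun c o u => ?_) hε).mono ?_
  · cases o with
    | none => exact D.inr D.s1
    | some i => exact D.inl (D.pair (D.const i) D.s1)
  · have := hK c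
    have k0 : (0 : ℝ) < Fintype.card (K.T c) := by exact_mod_cast Fintype.card_pos
    have k1 : fr (K.T c × Unit) (fun z => (o.elim (.inr z.1) fun i => .inl (i, z.1) :
        A × K.T c ⊕ K.T c) = u) ≤ (Fintype.card (K.T c) : ℝ)⁻¹ := by
      refine (cq_fr_single _ fun x y a b => ?_).trans_eq (by simp)
      have := a.trans b.symm
      cases o <;> exact Prod.ext (by simpa using this) rfl
    refine k1.trans ?_
    rcases u with u | u
    · have : Nonempty A := ⟨u.1⟩
      have k2 : (0 : ℝ) < Fintype.card A := by exact_mod_cast Fintype.card_pos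
      show _ ≤ _ * (Fintype.card (A × K.T c) : ℝ)⁻¹
      rw [Fintype.card_prod, Nat.cast_mul, mul_inv, ← mul_assoc]
      exact le_mul_of_one_le_left (by positivity) (by
        rw [← div_eq_mul_inv, one_le_div k2]; linarith)
    · exact le_mul_of_one_le_left (by positivity) (by linarith)
  · intro u x y _ _ h s t hs ht
    refine (h (Sum.elim s t) _ fun k _ => by simp [Fintype.sum_option]).trans ?_
    have e : dw (((Reg.of ((Fam.const U A).prod K)).sum (.of K)).w u) x (Sum.elim s t) ≤ 2 * ε := by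
      refine (dw_sum _ _ x _).trans_le ?_
      rw [dw_unif, dw_unif]
      exact (add_le_add hs ht).trans_eq (two_mul ε).symm
    have := mul_le_mul_of_nonneg_left e (by positivity : (0 : ℝ) ≤ (Fintype.card A + 1) ^ 2)
    simp only [Fintype.card_option, Nat.cast_add, Nat.cast_one]
    nlinarith

/-- A polynomial map of one tuple of cells, with coefficients from a large context. -/
theorem bm_loc (h : CellAt l δ) {d : ℕ} {B U : Type} [Enc B] [Enc U] {a lg : B → ℕ} {p : B → U}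
    (hp : PT p) (hl : Pl lg fun b => sz (p b)) {V : Fam U} (J : Fam U) (Z : Cell l δ V) (A : Type)
    [Fintype A] [Enc A] [Nonempty A] {f : ∀ b, J.T (p b) → (A × V.T (p b) → ZMod l) → ZMod l}
    (hJ : ∀ u, Nonempty (J.T u))
    (hf : Pol d ((Fam.const B A).prod (V.comap p hp)) (J.comap p hp) f) {η : ℝ} (hη : 0 < η) :
    ImplS (ZMod l) a lg (.of ((Fam.const B A).prod (Z.X.comap p hp))) (.of (J.comap p hp))
      fun b x y => ∀ w : A × V.T (p b) → ZMod l,
        (∀ i, du (fun ξ => x (i, ξ)) (cw (Z.gen (p b)) fun v => w (i, v)) ≤ δ) →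
          du y (fun j => f b j w) ≤ η := by
  obtain ⟨φ, hφ, hf⟩ := hf
  let W : Fam U := (Fam.const U A).prod V
  let M : Fam U := J.prod (W.option.pw d)
  obtain ⟨Z'⟩ := h.2 U (W.sum M)
  obtain ⟨ε, hε, he⟩ : ∃ ε : ℝ, 0 < ε ∧ (2 * (Fintype.card A + 1) ^ 2 + 1) * ε = δ :=
    ⟨δ / (2 * (Fintype.card A + 1) ^ 2 + 1), div_pos h.1 (by positivity),
      mul_div_cancel₀ _ (by positivity)⟩
  have g1 := comapS (a := a) (bm_lin Z A Z'.X Z'.ne (fun u k v => Z'.gen u k (.inl v))
    (pt_app2 Z'.pt pt_sigma_fst D.s1 (D.inl D.s2)) hε) p hp hl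
  have g2 := ImplS.word (F := ZMod l) (a := a) (l := lg)
    (I := .of ((Fam.const B A).prod (Z.X.comap p hp))) (Z'.X.comap p hp) (fun b => Z'.ne _)
    (fun b k => ∑ m : M.T (p b), Z'.gen (p b) k (.inr m) * φ b m.1 m.2)
    ((M.pf.comap (hp.comp pt_sigma_fst)).pt_sumZ (pt_mulZ
      (pt_app2 Z'.pt ((hp.comp pt_sigma_fst).comp pt_sigma_fst) (D.sigma_snd.comp pt_sigma_fst)
        (D.inr D.sigma_snd))
      (pt_app2 hφ (pt_sigma_fst.comp pt_sigma_fst) (D.fst D.sigma_snd) (D.snd D.sigma_snd))))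
    (Sz.card_comap Z'.X hl).of_pl hε
  have g3 := comapS (a := a) (bm_add (l := l) A Z'.X Z'.ne hε) p hp hl
  have g4 := comapS (a := a) (Z'.rd (1 + d) U (fun u => u) PT.id J
    (fun u j w => ∑ m : Fin d → Option (W.T u), w (.inr (j, m)) *
      ∏ i, ev w ((m i).elim none fun v => some (.inl v))) hJ
    (Pol.sum (K := W.option.pw d) ((Pol.var (D.inr D.sigma_snd)).mul (bm_mon (cq_fn_const fun i =>
      D.option_elim (cq_app_const D.s2 i) D.none (D.some (D.inl D.sigma_snd)))))) _ hη) p hp hl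
  refine (((ImplS.par g1 g2).trans g3).trans g4).mono ?_
  rintro b x y - - ⟨m2, -, ⟨m1, -, ⟨a1, a2⟩, a3⟩, a4⟩ w hw
  have k := a4 (Sum.elim w fun m => φ b m.1 m.2) (le_of_eq_of_le (congrArg _ (funext fun k => ?_))
    ((a3 _ _ (a1 w hw) a2).trans_eq he))
  · refine le_of_eq_of_le (congrArg _ (funext fun j => ?_)) k
    rw [hf]
    refine sum_congr rfl fun m _ => congrArg _ (prod_congr rfl fun i _ => ?_)
    cases m i <;> rfl
  · simp only [cw, Fintype.sum_sum_type, Sum.elim_inl, Sum.elim_inr]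
    rw [add_comm]
    exact congrArg _ (Fintype.sum_prod_type _)

theorem Arr.dens' {C U : Type} [Enc C] [Enc U] {a lg : C → ℕ} {p : C → U} {V : Fam U}
    {Z : Cell l δ V} {A : Type} [Fintype A] [Nonempty A] {I : Reg C} {O : Fam C}
    (R : Arr l a lg p Z A I O) (c : C) (u : I.T c) :
    𝔼 o, ∑ _i ∈ univ.filter fun i : A × Z.X.T (p c) => R.sl c o i.1 i.2 = u,
      (Fintype.card (A × Z.X.T (p c)) : ℝ)⁻¹ ≤ R.κ * I.w c u := by
  rw [bm_dens fun o (i : A × Z.X.T (p c)) => R.sl c o i.1 i.2, fr_prod]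
  simp only [fr_prod fun i : A × Z.X.T (p c) => R.sl c _ i.1 i.2 = u]
  rw [expect_comm]
  exact expect_le univ_nonempty fun i _ => (fr_prod fun z : O.T c × Z.X.T (p c) =>
    R.sl c z.1 i z.2 = u).symm.trans_le (R.dens c i u)

theorem Arr.d_sl' {C U : Type} [Enc C] [Enc U] {a lg : C → ℕ} {p : C → U} {V : Fam U}
    {Z : Cell l δ V} {A : Type} [Fintype A] [Enc A] {I : Reg C} {O : Fam C}
    (R : Arr l a lg p Z A I O) :
    D2 (X := fun z : Σ c, O.T c => A × Z.X.T (p z.1)) (Y := fun z : Σ c, O.T c => I.T z.1)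
      fun z i => R.sl z.1 z.2 i.1 i.2 :=
  D.cases (g := fun y : Σ z : Σ c, O.T c, A × Z.X.T (p z.1) => y.2.1) (D.pt D.s1)
    (fun i y => R.sl y.1.1 y.1.2 i y.2.2) fun i =>
      (R.d_sl i).app (pt_sigma_fst.comp pt_sigma_fst) (D.sigma_snd.comp pt_sigma_fst) D.s2

/-- Polynomials indexed by a product, seen from the context of the first index. -/
theorem bm_cur {C : Type} [Enc C] {d : ℕ} {W O J : Fam C}
    {f : ∀ c, O.T c → J.T c → (W.T c → ZMod l) → ZMod l}
    (hf : Pol d W (O.prod J) fun c z => f c z.1 z.2) :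
    Pol d (W.comap (fun z : Σ c, O.T c => z.1) pt_sigma_fst) (J.comap _ pt_sigma_fst)
      fun z j => f z.1 z.2 j :=
  (hf.comap (fun z : Σ c, O.T c => z.1) pt_sigma_fst).comp (K := J.comap _ pt_sigma_fst)
    (x := fun z j => (z.2, j)) (D.pair (D.sigma_snd.comp pt_sigma_fst) D.sigma_snd)

theorem cellMap (h : CellAt l δ) : CellMapThm l δ := by
  intro d C U _ _ a lg p hp hl V J Z A _ _ _ I O R f hJ hf η hη
  have g := bm_loc h (B := Σ c, O.T c) (a := fun _ => 0) (lg := fun z => lg z.1)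
    (p := fun z => p z.1) (hp.comp pt_sigma_fst) (hl.comp fun z : Σ c, O.T c => z.1) J Z A
    (f := fun z j => f z.1 z.2 j) hJ (bm_cur hf) (half_pos hη)
  refine (ImplS.sigP (K := J.comap p hp) (ImplS.arr0 O R.ne g R.size
    (fun z i => R.sl z.1 z.2 i.1 i.2) R.d_sl' R.κ R.dens' (half_pos hη))).mono ?_
  intro c x y _ hy k w
  have := R.ne c
  have := hJ (p c)
  have k2 := (fr_or_le _ fun o => R.Far δ x o (w o)).trans (add_le_add k le_rfl)
  refine (bm_du hy _ (half_pos hη).le fun o ho => ?_).trans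
    ((add_le_add k2 le_rfl).trans_eq (by ring))
  exact not_not.1 (not_or.1 ho).1 (w o) fun i => not_lt.1 fun q => (not_or.1 ho).2 ⟨i, q⟩

end Vale.Agent.P330Q
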