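import Vale.Agent.P330.Comb

/-! Gadgets with a bound on the number of terms: definitions and the size calculus. -/

namespace Vale.Agent.P330Q

open Vale.Agent.Lib.PolyTime Vale.Agent.P330 Finset
open scoped Classical BigOperators

/-- `n` is at most `a` times a polynomial in `l`. -/
def Sz {C : Type} (a l n : C → ℕ) : Prop :=
  ∃ K k : ℕ, ∀ c, n c ≤ K * (a c + 1) * (l c + 1) ^ k

/-- `n` is at most a polynomial in `l`. -/
abbrev Pl {C : Type} (l n : C → ℕ) : Prop := Sz (fun _ => 0) l n

/-- The specification `S` is implemented by a gadget with at most `a · poly l` terms. -/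
def ImplS (F : Type) [Enc F] [Fintype F] {C : Type} [Enc C] (a l : C → ℕ) (I O : Reg C)
    (S : ∀ c, (I.T c → F → ℝ) → (O.T c → F → ℝ) → Prop) : Prop :=
  ∃ (A : Type) (_ : Fintype A) (G : Gad F A I O) (κ γ : ℝ), 0 < γ ∧ G.Dens κ ∧
    Sz a l (fun c => Fintype.card (G.T.T c)) ∧
    ∀ c x p, IsDist x → IsDist p → G.err c x p ≤ γ → S c x fun o => p (G.res c o)

/-- Implementation of a real number with a size bound. -/
def ImplRS (F : Type) [Enc F] [Fintype F] [One F] {C : Type} [Enc C] (a l : C → ℕ) (I : Reg C)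
    (S : ∀ c, (I.T c → F → ℝ) → ℝ → Prop) : Prop :=
  ImplS F a l I (Reg.unit C) fun c x y => S c x (y () 1)

namespace Sz
variable {B C : Type} {a a' l l' n m : C → ℕ}

theorem of_le (h : Sz a l n) (e : ∀ c, m c ≤ n c) : Sz a l m := by
  obtain ⟨K, k, h⟩ := h
  exact ⟨K, k, fun c => (e c).trans (h c)⟩

theorem congr (h : Sz a l n) (e : ∀ c, m c = n c) : Sz a l m := h.of_le fun c => (e c).le

theorem const (b : ℕ) : Sz a l fun _ => b :=
  ⟨b, 0, fun c => by rw [pow_zero, mul_one]; exact Nat.le_mul_of_pos_right _ (Nat.succ_pos _)⟩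

theorem self : Sz a l a := ⟨1, 0, fun c => by simp⟩

theorem log : Sz a l l :=
  ⟨1, 1, fun c => by
    rw [one_mul, pow_one]
    exact (Nat.le_succ _).trans (Nat.le_mul_of_pos_left _ (Nat.succ_pos _))⟩

theorem add (h : Sz a l n) (h' : Sz a l m) : Sz a l fun c => n c + m c := by
  obtain ⟨K, k, h⟩ := h
  obtain ⟨K', k', h'⟩ := h'
  refine ⟨K + K', k + k', fun c => ?_⟩
  rw [add_mul K, add_mul]
  exact add_le_add
    ((h c).trans (Nat.mul_le_mul_left _ (Nat.pow_le_pow_right (Nat.succ_pos _) (by omega))))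
    ((h' c).trans (Nat.mul_le_mul_left _ (Nat.pow_le_pow_right (Nat.succ_pos _) (by omega))))

theorem succ (h : Sz a l n) : Sz a l fun c => n c + 1 := h.add (const 1)

theorem mul (h : Sz a l n) (h' : Pl l m) : Sz a l fun c => n c * m c := by
  obtain ⟨K, k, h⟩ := h
  obtain ⟨K', k', h'⟩ := h'
  refine ⟨K * K', k + k', fun c => (Nat.mul_le_mul (h c) (h' c)).trans (le_of_eq ?_)⟩
  rw [pow_add]
  ring

theorem mul' (h' : Pl l m) (h : Sz a l n) : Sz a l fun c => m c * n c :=
  (h.mul h').congr fun _ => mul_comm _ _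

theorem cmul (b : ℕ) (h : Sz a l n) : Sz a l fun c => b * n c := mul' (const b) h

theorem pow (h : Pl l n) (j : ℕ) : Pl l fun c => n c ^ j := by
  induction j with
  | zero => exact const 1
  | succ j ih => exact (ih.mul h).congr fun _ => pow_succ _ _

theorem trans (h : Sz a l n) (ha : Sz a' l' a) (hl : Pl l' l) : Sz a' l' n := by
  obtain ⟨K, k, h⟩ := h
  exact (((ha.succ).cmul K).mul (hl.succ.pow k)).of_le h

theorem of_pl (h : Pl l n) : Sz a l n := h.trans (const 0) log

theorem comp (h : Sz a l n) (p : B → C) :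
    Sz (fun b => a (p b)) (fun b => l (p b)) fun b => n (p b) := by
  obtain ⟨K, k, h⟩ := h
  exact ⟨K, k, fun b => h (p b)⟩

/-- The product of two bounds. -/
theorem mul_mul (h : Sz a l n) (h' : Sz a' l m) :
    Sz (fun c => (a c + 1) * (a' c + 1)) l fun c => n c * m c := by
  obtain ⟨K, k, h⟩ := h
  obtain ⟨K', k', h'⟩ := h'
  refine ⟨K * K', k + k', fun c => (Nat.mul_le_mul (h c) (h' c)).trans ?_⟩
  calc _ = K * K' * ((a c + 1) * (a' c + 1)) * (l c + 1) ^ (k + k') := by rw [pow_add]; ring
    _ ≤ _ := Nat.mul_le_mul_right _ (Nat.mul_le_mul_left _ (Nat.le_succ _))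

theorem poly (Q : Polynomial ℕ) (h : Pl l n) : Pl l fun c => Q.eval (n c) := by
  induction Q using Polynomial.induction_on' with
  | add p q hp hq => exact (hp.add hq).congr fun _ => Polynomial.eval_add
  | monomial j b => exact ((h.pow j).cmul b).congr fun _ => Polynomial.eval_monomial

theorem max (h : Sz a l n) (h' : Sz a l m) : Sz a l fun c => max (n c) (m c) :=
  (h.add h').of_le fun _ => max_le (Nat.le_add_right _ _) (Nat.le_add_left _ _)

theorem sum {J : Type} (s : Finset J) {f : J → C → ℕ} (h : ∀ j ∈ s, Sz a l (f j)) :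
    Sz a l fun c => ∑ j ∈ s, f j c := by
  induction s using Finset.induction_on with
  | empty => exact (const 0).congr fun _ => sum_empty
  | insert j s hj ih =>
    exact ((h j (mem_insert_self _ _)).add (ih fun i hi => h i (mem_insert_of_mem hi))).congr
      fun _ => sum_insert hj

/-- Polynomially bounded functions of a short argument. -/
theorem of_pb [Enc B] {g : B → ℕ} (hg : PB g) {p : C → B} (hp : Pl l fun c => sz (p c)) :
    Pl l fun c => g (p c) := by
  obtain ⟨Q, hQ⟩ := hg
  exact (poly Q hp).of_le fun c => hQ (p c)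

/-- The size of a family over a short argument. -/
theorem card_comap [Enc B] (X : Fam B) {p : C → B} (hp : Pl l fun c => sz (p c)) :
    Pl l fun c => Fintype.card (X.T (p c)) := of_pb X.pf.pb_card hp

theorem card_prod {X Y : C → Type} [∀ c, Fintype (X c)] [∀ c, Fintype (Y c)]
    (h : Sz a l fun c => Fintype.card (X c)) (h' : Pl l fun c => Fintype.card (Y c)) :
    Sz a l fun c => Fintype.card (X c × Y c) := (h.mul h').congr fun _ => Fintype.card_prod _ _

theorem card_prod' {X Y : C → Type} [∀ c, Fintype (X c)] [∀ c, Fintype (Y c)]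
    (h : Pl l fun c => Fintype.card (X c)) (h' : Sz a l fun c => Fintype.card (Y c)) :
    Sz a l fun c => Fintype.card (X c × Y c) := (h.mul' h').congr fun _ => Fintype.card_prod _ _

theorem card_sum {X Y : C → Type} [∀ c, Fintype (X c)] [∀ c, Fintype (Y c)]
    (h : Sz a l fun c => Fintype.card (X c)) (h' : Sz a l fun c => Fintype.card (Y c)) :
    Sz a l fun c => Fintype.card (X c ⊕ Y c) := (h.add h').congr fun _ => Fintype.card_sum

end Sz

end Vale.Agent.P330Q
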