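import Vale.Agent.P330Q.PrgD
import Vale.Agent.P330Q.Sz

/-! Plain programs on tables `H → F`: definitions. -/

namespace Vale.Agent.P330Q

open Vale.Agent.Lib.PolyTime Vale.Agent.P330 Finset
open scoped Classical BigOperators

/-- The setting of plain programs: a field family and the rank `n` of the group of cells. -/
structure PS (C : Type) [Enc C] (l : ℕ) [Fact l.Prime] : Type 1 where
  Φ : FF C l
  n : C → ℕ
  lg : C → ℕ
  pt_n : PT n
  pb_H : PB fun c => l ^ n c
  pb_lg : PB lg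
  pl_n : Pl lg n
  n_le : ∀ c, n c ≤ Φ.m c

/-- Families of polylogarithmic size. -/
structure SF {C : Type} [Enc C] (lg : C → ℕ) : Type 1 extends Fam C where
  pl : Pl lg fun c => Fintype.card (T c)

variable {C : Type} [Enc C] {l : ℕ} [Fact l.Prime] {lg : C → ℕ}

theorem Sz.pb {n : C → ℕ} (h : Pl lg n) (hl : PB lg) : PB n := by
  obtain ⟨K, k, h⟩ := h
  obtain ⟨Q, hQ⟩ := hl
  refine ⟨Polynomial.C K * (Q + 1) ^ k, fun c => (h c).trans ?_⟩
  simp only [Polynomial.eval_mul, Polynomial.eval_C, Polynomial.eval_pow, Polynomial.eval_add,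
    Polynomial.eval_one, zero_add, mul_one]
  gcongr
  exact hQ c

/-- Products. -/
@[reducible] def SF.prod (U V : SF lg) : SF lg := ⟨U.toFam.prod V.toFam, U.pl.card_prod V.pl⟩
/-- Sums. -/
@[reducible] def SF.sum (U V : SF lg) : SF lg := ⟨U.toFam.sum V.toFam, U.pl.card_sum V.pl⟩
/-- Option. -/
@[reducible] def SF.option (U : SF lg) : SF lg :=
  ⟨U.toFam.option, U.pl.succ.congr fun _ => Fintype.card_option⟩
/-- A fixed finite type. -/
@[reducible] def SF.const (lg : C → ℕ) (A : Type) [Fintype A] [Enc A] : SF lg :=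
  ⟨Fam.const C A, Sz.const (Fintype.card A)⟩
/-- Subfamilies. -/
@[reducible] noncomputable def SF.sub (U : SF lg) (p : ∀ c, U.T c → Prop)
    (hp : PT fun z : Σ c, U.T c => p z.1 z.2) : SF lg :=
  ⟨U.toFam.sub p hp, U.pl.of_le fun _ => Fintype.card_subtype_le _⟩

/-- The field. -/
abbrev PS.F (Y : PS C l) (c : C) : Type := Y.Φ.F c
/-- The cells. -/
abbrev PS.H (Y : PS C l) (c : C) : Type := Fin (Y.n c) → ZMod l
/-- The tables. -/
abbrev PS.Tab (Y : PS C l) (c : C) : Type := Y.H c → Y.F c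
/-- Initial segments of polylogarithmic length. -/
@[reducible] def PS.fin (Y : PS C l) (t : C → ℕ) (ht : PT t) (hl : Pl Y.lg t) : SF Y.lg :=
  ⟨Fam.ofFin t ht (hl.pb Y.pb_lg), hl.congr fun _ => Fintype.card_fin _⟩
/-- The coordinates. -/
@[reducible] def PS.co (Y : PS C l) : SF Y.lg := Y.fin Y.n Y.pt_n Y.pl_n
/-- The cells as a family. -/
@[reducible] noncomputable def PS.Hf (Y : PS C l) : Fam C :=
  (Fam.const C (ZMod l)).fn Y.n Y.pt_n (Y.pl_n.pb Y.pb_lg) (by simpa using Y.pb_H)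

/-- The unit vector number `k` (zero if there is no such coordinate). -/
def ee {n : ℕ} (k : ℕ) : Fin n → ZMod l := fun i => if (i : ℕ) = k then 1 else 0

/-- The coordinate number `k` (zero if there is no such coordinate). -/
def cd {n : ℕ} (k : ℕ) (h : Fin n → ZMod l) : ZMod l := if hk : k < n then h ⟨k, hk⟩ else 0

/-- The value of a node of a plain program. -/
noncomputable def nodeVal {F A : Type} [Field F] [Algebra (ZMod l) F] [Fintype A] {n : ℕ} (k : ℕ)
    (cs : (Fin n → ZMod l) → F) (a : Fin 5 → A → F) (v : A → (Fin n → ZMod l) → F) :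
    (Fin n → ZMod l) → F := fun h =>
  cs h + ∑ i, a 0 i * v i h + ∑ i, a 1 i * v i (h + ee k) +
    algebraMap (ZMod l) F (cd k h) * ∑ i, a 2 i * v i h +
    (∑ x, ∑ i, a 3 i * v i x) * ∑ i, a 4 i * v i h

/-- Families of tables computed by plain programs of polylogarithmic size. -/
def PP (Y : PS C l) (I O : SF Y.lg) (f : ∀ c, O.T c → (I.T c → Y.Tab c) → Y.Tab c) : Prop :=
  ∃ (J : SF Y.lg) (rk k : ∀ c, J.T c → ℕ) (cs : ∀ c, J.T c → Y.Tab c)
    (a : ∀ c, J.T c → Fin 5 → I.T c ⊕ J.T c → Y.F c) (out : ∀ c, O.T c → I.T c ⊕ J.T c),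
    PT (fun z : Σ c, J.T c => rk z.1 z.2) ∧ PT (fun z : Σ c, J.T c => k z.1 z.2) ∧ D3 cs ∧
    (∀ m, D3 fun c j i => a c j m i) ∧ D2 out ∧
    (∀ c j m j', a c j m (.inr j') ≠ 0 → rk c j' < rk c j) ∧
    ∀ c w, ∃ val : J.T c → Y.Tab c,
      (∀ j, val j = nodeVal (k c j) (cs c j) (a c j) (Sum.elim w val)) ∧
      ∀ o, f c o w = Sum.elim w val (out c o)

/-- Multiplication by the tables `g` is a plain program. -/
def PM (Y : PS C l) (I O : SF Y.lg) (g : ∀ c, O.T c → (I.T c → Y.Tab c) → Y.Tab c) : Prop :=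
  PP Y (I.sum O) O fun c o w h => g c o (fun i => w (.inl i)) h * w (.inr o) h

/-- Iteration of steps that depend on the time. -/
def itr {X : Type} (f : ℕ → X → X) (w : X) : ℕ → X
  | 0 => w
  | t + 1 => f t (itr f w t)

/-- The quadratic form with coefficients `φ` at the point `y`. -/
noncomputable def qf {F A : Type} [Field F] [Fintype A] (φ : Option A → Option A → F) (y : A → F) :
    F := ∑ i, ∑ i', φ i i' * ev y i * ev y i'

end Vale.Agent.P330Q
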