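import Vale.Agent.P330Q.BcDefs
import Vale.Agent.P330Q.PPD

/-! Block programs on codewords over the big field: definitions. -/

namespace Vale.Agent.P330Q

open Vale.Agent.Lib.PolyTime Vale.Agent.P330 Finset
open scoped Classical BigOperators

variable {C : Type} [Enc C] {l : ℕ} [Fact l.Prime]

/-- The coordinates of the field as a family. -/
@[reducible] def FF.M (Φ : FF C l) : Fam C := Fam.ofFin Φ.m Φ.pt_m Φ.pb_m

/-- A vector over the big field from its coordinates. -/
noncomputable def FF.un (Φ : FF C l) (c : C) {V : Type} (w : V × Fin (Φ.m c) → ZMod l) (v : V) :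
    Φ.F c := (Φ.co c).symm fun k => w (v, k)

/-- Computable families of polynomial maps of degree `d` on vectors over the big field. -/
def FPol (Φ : FF C l) (d : ℕ) (V : Fam C) {J : C → Type} [∀ c, Enc (J c)]
    (f : ∀ c, J c → (V.T c → Φ.F c) → Φ.F c) : Prop :=
  Pol d ((V.prod Φ.M).comap (fun z : Σ c, J c => z.1) pt_sigma_fst)
    (Φ.M.comap (fun z : Σ c, J c => z.1) pt_sigma_fst)
    fun z k w => Φ.co z.1 (f z.1 z.2 (Φ.un z.1 w)) k

/-- The setting of block programs: positions, moves and the code. -/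
structure BS (Y : PS C l) : Type 1 where
  X : Fam C
  B : Type
  [finB : Fintype B]
  [encB : Enc B]
  π : ∀ c, B → Equiv.Perm (X.T c)
  b1 : B
  π1 : ∀ c x, π c b1 x = x
  d_π : ∀ b, D2 fun c x => π c b x
  T : ∀ c, Set (X.T c → Y.F c)
  zero : ∀ c, 0 ∈ T c

attribute [instance] BS.finB BS.encB

/-- Words. -/
abbrev BS.W {Y : PS C l} (Sg : BS Y) (c : C) : Type := Sg.X.T c → Y.F c

/-- The variables of a local step: a move and a lane. -/
@[reducible] def BS.Var {Y : PS C l} (Sg : BS Y) (V : SF Y.lg) : Fam C :=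
  (Fam.const C Sg.B).prod V.toFam

/-- What a local step sees at the position `x`. -/
def view {X B V F : Type} (π : B → Equiv.Perm X) (u : V → X → F) (x : X) : B × V → F :=
  fun z => u z.2 (π z.1 x)

/-- The run of a block program. -/
def brun {X B V F : Type} (π : B → Equiv.Perm X) (f : ℕ × X × V → (B × V → F) → F)
    (u : V → X → F) : ℕ → V → X → F
  | 0 => u
  | t + 1 => fun v x => f (t, x, v) (view π (brun π f u t) x)

/-- Block programs: on related pairs all states are codewords and the output is right. -/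
def BP {Y : PS C l} (Sg : BS Y) (I O : SF Y.lg)
    (R : ∀ c, (I.T c → Sg.W c) → (O.T c → Sg.W c) → Prop) : Prop :=
  ∃ (d : ℕ) (V : SF Y.lg) (r : C → ℕ)
    (f : ∀ c, ℕ × Sg.X.T c × V.T c → (Sg.B × V.T c → Y.F c) → Y.F c)
    (inn : ∀ c, V.T c → Option (I.T c)) (out : ∀ c, O.T c → V.T c),
    PT r ∧ Pl Y.lg r ∧ FPol Y.Φ d (Sg.Var V) f ∧ D2 inn ∧ D2 out ∧
    ∀ c w z, R c w z →
      (∀ t ≤ r c, ∀ v, brun (Sg.π c) (f c) (fun v => (inn c v).elim 0 w) t v ∈ Sg.T c) ∧
      ∀ o, brun (Sg.π c) (f c) (fun v => (inn c v).elim 0 w) (r c) (out c o) = z o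

/-- A cell code for vectors over the big field with lanes `I`. -/
structure Lay (Φ : FF C l) (lg : C → ℕ) (δ : ℝ) (I : Fam C) : Type 1 where
  U : Type
  [encU : Enc U]
  p : C → U
  hp : PT p
  pl : Pl lg fun c => sz (p c)
  V : Fam U
  Z : Cell l δ V
  e : ∀ c, V.T (p c) ≃ I.T c × Fin (Φ.m c)
  d_e : D2 fun c v => e c v

attribute [instance] Lay.encU

namespace Lay
variable {Φ : FF C l} {lg : C → ℕ} {δ : ℝ} {I : Fam C} (L : Lay Φ lg δ I)

/-- The positions of a cell. -/
@[reducible] def Ξ : Fam C := L.Z.X.comap L.p L.hp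

/-- The message of a vector over the big field. -/
noncomputable def msg (c : C) (y : I.T c → Φ.F c) : L.V.T (L.p c) → ZMod l :=
  fun v => Φ.co c (y (L.e c v).1) (L.e c v).2

/-- The cell of a vector over the big field. -/
noncomputable def cell (c : C) (y : I.T c → Φ.F c) : L.Ξ.T c → ZMod l :=
  cw (L.Z.gen (L.p c)) (L.msg c y)

/-- The word of the cells of a tuple of words. -/
noncomputable def enc (c : C) {P : Type} (w : I.T c → P → Φ.F c) : P × L.Ξ.T c → ZMod l :=
  fun z => L.cell c (fun i => w i z.1) z.2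

end Lay

/-- Tanner codes over the big field with scaled ports. -/
def tcF {k F S G : Type} [Field k] [Field F] [Algebra k F] (C0 : Bool → Submodule k (S → k))
    (ω : Bool → S → F) (nb : S → Equiv.Perm G) : Set (G × S → F) :=
  tcode2 (twC (extC F (C0 false)) (ω false)) (twC (extC F (C0 true)) (ω true)) nb

/-- The setting of block programs on a scaled Tanner code. -/
structure TS (Y : PS C l) (S : Type) [Fintype S] [Enc S] (lam : ℝ) : Type 1 where
  G : TSys C S lam
  C0 : Bool → Submodule (ZMod l) (S → ZMod l)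
  ω : ∀ c, Bool → S → Y.F c
  ω' : ∀ c, Bool → S → Y.F c
  d_ω : ∀ b s, D fun c => ω c b s
  d_ω' : ∀ b s, D fun c => ω' c b s
  inv : ∀ c b s, ω' c b s * ω c b s = 1
  B : Type
  [finB : Fintype B]
  [encB : Enc B]
  π : ∀ c, B → Equiv.Perm (G.G.T c × S)
  b1 : B
  π1 : ∀ c x, π c b1 x = x
  d_π : ∀ b, D2 fun c x => π c b x

attribute [instance] TS.finB TS.encB

/-- The setting given by a scaled Tanner code. -/
@[reducible] def TS.bs {Y : PS C l} {S : Type} [Fintype S] [Enc S] {lam : ℝ} (T : TS Y S lam) :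
    BS Y where
  X := T.G.Pos
  B := T.B
  π := T.π
  b1 := T.b1
  π1 := T.π1
  d_π := T.d_π
  T c := tcF T.C0 (T.ω c) (T.G.nb c)
  zero _ := ⟨fun _ => Submodule.zero_mem _, fun _ => Submodule.zero_mem _⟩

/-- Block programs are implemented on the cells. -/
def BPImpl (l : ℕ) [Fact l.Prime] (δ : ℝ) : Prop :=
  ∀ (C : Type) [Enc C] (Y : PS C l) (a : C → ℕ), Pl Y.lg Y.Φ.m →
    ∀ (S : Type) [Fintype S] [Enc S] (δ0 lam : ℝ) (T : TS Y S lam), TanGood δ0 lam S →
    (∀ b, Dist0 (T.C0 b) δ0) → Sz a Y.lg (fun c => Fintype.card (T.G.G.T c)) →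
    ∀ (I O : SF Y.lg) (R : ∀ c, (I.T c → T.bs.W c) → (O.T c → T.bs.W c) → Prop), BP T.bs I O R →
    ∀ (LI : Lay Y.Φ Y.lg δ I.toFam) (LO : Lay Y.Φ Y.lg δ O.toFam) (η : ℝ), 0 < η →
    ImplS (ZMod l) a Y.lg (.of (T.G.Pos.prod LI.Ξ)) (.of (T.G.Pos.prod LO.Ξ)) fun c x y =>
      ∀ w z, R c w z → du x (LI.enc c w) ≤ δ ^ 2 * δ0 ^ 2 / 256 → du y (LO.enc c z) ≤ η

end Vale.Agent.P330Q
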