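import Vale.Agent.P330Q.QG

/-! The calculus of block programs. -/

namespace Vale.Agent.P330Q

open Vale.Agent.Lib.PolyTime Vale.Agent.P330 Finset
open scoped Classical BigOperators

variable {C : Type} [Enc C] {l : ℕ} [Fact l.Prime]

namespace World
variable {a : C → ℕ} {S B : Type} [Fintype S] [Enc S] [Fintype B] [Enc B] {δ0 lam : ℝ}

/-- The outer code as a subspace. -/
def TS (W : World C l a S B δ0 lam) (c : C) : Submodule (W.P.F c) (W.Wd c) where
  carrier := W.T c
  add_mem' h h' := ⟨fun g => (W.loc c false).add_mem (h.1 g) (h'.1 g),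
    fun g => (W.loc c true).add_mem (h.2 g) (h'.2 g)⟩
  zero_mem' := ⟨fun _ => (W.loc c false).zero_mem, fun _ => (W.loc c true).zero_mem⟩
  smul_mem' t _ h := ⟨fun g => (W.loc c false).smul_mem t (h.1 g),
    fun g => (W.loc c true).smul_mem t (h.2 g)⟩

/-- The variables of a view. -/
@[reducible] def VF (W : World C l a S B δ0 lam) (V : SF W.P.lg) : Fam C :=
  (Fam.const C B).prod V.toFam

/-- Block programs with explicit trajectories. -/
structure Tr (W : World C l a S B δ0 lam) (I O : SF W.P.lg) (A : C → Type)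
    (i : ∀ c, A c → I.T c → W.Wd c) (o : ∀ c, A c → O.T c → W.Wd c) : Type 1 where
  V : SF W.P.lg
  r : C → ℕ
  g : ∀ c, ℕ × W.Ps c × V.T c → (B × V.T c → W.P.F c) → W.P.F c
  inn : ∀ c, V.T c → Option (I.T c)
  out : ∀ c, O.T c → V.T c
  X : ∀ c, A c → ℕ → V.T c → W.Wd c
  hr : PT r
  hr' : Pl W.P.lg r
  hg : QG W.P (W.VF V) g
  hi : D2 inn
  ho : D2 out
  h0 : ∀ c s v, X c s 0 v = (inn c v).elim 0 (i c s)
  hs : ∀ c s t, t < r c → ∀ v x, X c s (t + 1) v x = g c (t, x, v) fun z => X c s t z.2 (W.π c z.1 x)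
  hT : ∀ c s t, t ≤ r c → ∀ v, X c s t v ∈ W.T c
  hO : ∀ c s k, o c s k = X c s (r c) (out c k)

variable {W : World C l a S B δ0 lam} {I O I' O' : SF W.P.lg} {A A' : C → Type}
  {i : ∀ c, A c → I.T c → W.Wd c} {o : ∀ c, A c → O.T c → W.Wd c}

omit [Fintype B] [Enc B] in
theorem T_zero (c : C) : (0 : W.Wd c) ∈ W.T c := (W.TS c).zero_mem

omit [Fintype B] [Enc B] in
theorem T_lin {c : C} {K : Type} [Fintype K] (t : K → W.P.F c) {y : K → W.Wd c}
    (h : ∀ k, y k ∈ W.T c) : (fun x => ∑ k, t k * y k x) ∈ W.T c := by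
  have e : (fun x => ∑ k, t k * y k x) = ∑ k, t k • y k := by
    ext x
    simp
  rw [e]
  exact (W.TS c).sum_mem fun k _ => (W.TS c).smul_mem (t k) (h k)

omit [Fintype B] [Enc B] in
theorem T_add {c : C} {y y' : W.Wd c} (h : y ∈ W.T c) (h' : y' ∈ W.T c) :
    (fun x => y x + y' x) ∈ W.T c := (W.TS c).add_mem h h'

theorem Tr.bp (P : W.Tr I O A i o) : W.BP I O A i o := by
  obtain ⟨φ, h1, h2⟩ := P.hg
  have e : ∀ c s t, t ≤ P.r c → W.brun (fun t x v => φ c (t, x, v))
      (fun v => (P.inn c v).elim 0 (i c s)) t = P.X c s t := fun c s t => by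
    induction t with
    | zero => exact fun _ => funext fun v => (P.h0 c s v).symm
    | succ t ih =>
      intro ht
      funext v x
      rw [brun, ih (by omega), P.hs c s t ht, h2]
  refine ⟨P.V, P.r, fun c t x v => φ c (t, x, v), P.inn, P.out, P.hr, P.hr', h1, P.hi, P.ho,
    fun c s => ⟨fun t ht v => ?_, fun k => ?_⟩⟩
  · rw [e c s t ht]
    exact P.hT c s t ht v
  · rw [e c s _ le_rfl]
    exact P.hO c s k

theorem BP.tr (h : W.BP I O A i o) : Nonempty (W.Tr I O A i o) := by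
  obtain ⟨V, r, φ, inn, out, h1, h2, h3, h4, h5, h6⟩ := h
  exact ⟨⟨V, r, fun c z => qf (φ c z.1 z.2.1 z.2.2), inn, out,
    fun c s => W.brun (φ c) fun v => (inn c v).elim 0 (i c s), h1, h2,
    ⟨fun c z => φ c z.1 z.2.1 z.2.2, h3, fun _ _ _ => rfl⟩, h4, h5, fun _ _ _ => rfl,
    fun _ _ _ _ _ _ => rfl, fun c s => (h6 c s).1, fun c s => (h6 c s).2⟩⟩

/-- The outputs are codewords. -/
theorem BP.mem (h : W.BP I O A i o) (c : C) (s : A c) (k : O.T c) : o c s k ∈ W.T c := by
  obtain ⟨P⟩ := h.tr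
  rw [P.hO]
  exact P.hT c s _ le_rfl _

/-- Change of the parameters and of the wiring. -/
theorem BP.wire (h : W.BP I O A i o) {i' : ∀ c, A' c → I'.T c → W.Wd c}
    {o' : ∀ c, A' c → O'.T c → W.Wd c} (p : ∀ c, A' c → A c) {ρ : ∀ c, I.T c → Option (I'.T c)}
    {σ : ∀ c, O'.T c → O.T c} (hρ : D2 ρ) (hσ : D2 σ)
    (e : ∀ c s k, i c (p c s) k = (ρ c k).elim 0 (i' c s))
    (e' : ∀ c s k, o' c s k = o c (p c s) (σ c k)) : W.BP I' O' A' i' o' := by
  obtain ⟨P⟩ := h.tr
  refine Tr.bp ⟨P.V, P.r, P.g, fun c v => (P.inn c v).bind (ρ c), fun c k => P.out c (σ c k),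
    fun c s => P.X c (p c s), P.hr, P.hr', P.hg,
    D.f_option_bind P.hi (hρ.app (pt_sigma_fst.comp pt_sigma_fst) D.sigma_snd),
    P.ho.app pt_sigma_fst hσ, fun c s v => ?_, fun c s => P.hs c _, fun c s => P.hT c _,
    fun c s k => (e' c s k).trans (P.hO c _ _)⟩
  rw [P.h0]
  cases P.inn c v with
  | none => rfl
  | some k => exact e c s k

theorem BP.comap (h : W.BP I O A i o) (p : ∀ c, A' c → A c) :
    W.BP I O A' (fun c s => i c (p c s)) fun c s => o c (p c s) :=
  h.wire p (ρ := fun _ k => some k) (σ := fun _ k => k) (D.some D.sigma_snd) D.sigma_snd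
    (fun _ _ _ => rfl) fun _ _ _ => rfl

theorem BP.congr (h : W.BP I O A i o) {i' : ∀ c, A c → I.T c → W.Wd c}
    {o' : ∀ c, A c → O.T c → W.Wd c} (e : ∀ c s k, i' c s k = i c s k)
    (e' : ∀ c s k, o' c s k = o c s k) : W.BP I O A i' o' :=
  h.wire (fun _ s => s) (ρ := fun _ k => some k) (σ := fun _ k => k) (D.some D.sigma_snd)
    D.sigma_snd (fun c s k => (e c s k).symm) e'

theorem BP.wireIn (h : W.BP I O A i o) {i' : ∀ c, A c → I'.T c → W.Wd c}
    {ρ : ∀ c, I.T c → I'.T c} (hρ : D2 ρ) (e : ∀ c s k, i c s k = i' c s (ρ c k)) :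
    W.BP I' O A i' o :=
  h.wire (fun _ s => s) (ρ := fun c k => some (ρ c k)) (σ := fun _ k => k) (D.some hρ)
    D.sigma_snd e fun _ _ _ => rfl

theorem BP.wireOut (h : W.BP I O A i o) {σ : ∀ c, O'.T c → O.T c} (hσ : D2 σ) :
    W.BP I O' A i fun c s k => o c s (σ c k) :=
  h.wire (fun _ s => s) (ρ := fun _ k => some k) (D.some D.sigma_snd) hσ (fun _ _ _ => rfl)
    fun _ _ _ => rfl

/-- The empty program. -/
theorem BP.id (h : ∀ c s k, i c s k ∈ W.T c) : W.BP I I A i i :=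
  Tr.bp ⟨I, fun _ => 0, fun _ _ _ => 0, fun _ v => some v, fun _ k => k, fun c s _ => i c s,
    PT.const 0, Sz.const 0, QG.zero, D.some D.sigma_snd, D.sigma_snd, fun _ _ _ => rfl,
    fun _ _ _ ht => absurd ht (Nat.not_lt_zero _), fun c s _ _ => h c s, fun _ _ _ => rfl⟩

theorem d_vmap {V V' : SF W.P.lg} {ρ : ∀ c, V.T c → V'.T c} (hρ : D2 ρ) :
    D2 fun c (z : (W.VF V).T c) => ((z.1, ρ c z.2) : (W.VF V').T c) :=
  D.pair D.s1 (hρ.app pt_sigma_fst D.s2)

/-- One local step. -/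
theorem BP.step {g : ∀ c, W.Ps c × O.T c → (B × I.T c → W.P.F c) → W.P.F c}
    (hg : QG W.P (W.VF I) g) (hi : ∀ c s k, i c s k ∈ W.T c) (ho : ∀ c s k, o c s k ∈ W.T c)
    (e : ∀ c s k x, o c s k x = g c (x, k) fun z => i c s z.2 (W.π c z.1 x)) :
    W.BP I O A i o := by
  refine Tr.bp ⟨I.sum O, fun _ => 1,
    fun c z w => Sum.elim (fun _ => 0) (fun k => g c (z.2.1, k) fun y => w (y.1, .inl y.2)) z.2.2,
    fun c v => Sum.elim some (fun _ => none) v, fun _ k => .inr k,
    fun c s t => if t = 0 then Sum.elim (i c s) fun _ => 0 else Sum.elim (fun _ => 0) (o c s),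
    PT.const 1, Sz.const 1, ?_, D.sum_elim D.sigma_snd (D.some D.sigma_snd) D.none,
    D.inr D.sigma_snd, fun c s v => ?_, fun c s t ht v x => ?_, fun c s t _ v => ?_,
    fun _ _ _ => rfl⟩
  · exact QG.elim D.s2.snd QG.zero
      ((hg.ren (V' := W.VF (I.sum O)) (d_vmap (D.inl D.sigma_snd))).comp
        (D.pair D.s1.snd.fst D.s2))
  · cases v <;> rfl
  · obtain rfl : t = 0 := by omega
    cases v with
    | inl v => rfl
    | inr v => exact e c s v x
  · split_ifs
    · cases v with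
      | inl v => exact hi c s v
      | inr v => exact T_zero c
    · cases v with
      | inl v => exact T_zero c
      | inr v => exact ho c s v

variable {b1 : B}

/-- Composition. -/
theorem BP.comp (hb : ∀ c x, W.π c b1 x = x) {o' : ∀ c, A c → O'.T c → W.Wd c}
    (h : W.BP I O A i o) (h' : W.BP O O' A o o') : W.BP I O' A i o' := by
  obtain ⟨P⟩ := h.tr
  obtain ⟨Q⟩ := h'.tr
  refine Tr.bp ⟨P.V.sum Q.V, fun c => P.r c + 1 + Q.r c,
    fun c z w => Sum.elim
      (fun v => if z.1 < P.r c then P.g c (z.1, z.2.1, v) fun y => w (y.1, .inl y.2) else 0)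
      (fun v => if z.1 < P.r c then 0 else if z.1 = P.r c then
        (Q.inn c v).elim 0 fun k => w (b1, .inl (P.out c k))
        else Q.g c (z.1 - (P.r c + 1), z.2.1, v) fun y => w (y.1, .inr y.2)) z.2.2,
    fun c v => Sum.elim (P.inn c) (fun _ => none) v, fun c k => .inr (Q.out c k),
    fun c s t => if t ≤ P.r c then Sum.elim (P.X c s t) fun _ => 0
      else Sum.elim (fun _ => 0) (Q.X c s (t - (P.r c + 1))),
    (P.hr.add (PT.const 1)).add Q.hr, P.hr'.succ.add Q.hr', ?_,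
    D.sum_elim D.sigma_snd (P.hi.app (pt_sigma_fst.comp pt_sigma_fst) D.sigma_snd) D.none,
    D.inr Q.ho, fun c s v => ?_, fun c s t ht v x => ?_, fun c s t ht v => ?_, fun c s k => ?_⟩
  · refine QG.elim D.s2.snd (QG.ite (PT.lt D.s1.fst.pt (P.hr.comp pt_sigma_fst))
      ((P.hg.ren (V' := W.VF (P.V.sum Q.V)) (d_vmap (D.inl D.sigma_snd))).comp
        (D.pair D.s1.fst (D.pair D.s1.snd.fst D.s2))) QG.zero)
      (QG.ite (PT.lt D.s1.fst.pt (P.hr.comp pt_sigma_fst)) QG.zero
        (QG.ite (PT.eq D.s1.fst.pt (P.hr.comp pt_sigma_fst)) ((AG.ovar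
          (V := W.VF (P.V.sum Q.V)) Q.hi (D.pair (D.const b1) (D.inl P.ho))).qg.comp D.s2)
        ((Q.hg.ren (V' := W.VF (P.V.sum Q.V)) (d_vmap (D.inr D.sigma_snd))).comp
          (D.pair (D.of_pt (D.s1.fst.pt.sub ((P.hr.comp pt_sigma_fst).add (PT.const 1))))
            (D.pair D.s1.snd.fst D.s2)))))
  · rw [if_pos (Nat.zero_le _)]
    cases v with
    | inl v => exact P.h0 c s v
    | inr v => rfl
  · rcases lt_trichotomy t (P.r c) with h | h | h
    · simp only [if_pos h, if_pos h.le, if_pos (Nat.succ_le_of_lt h)]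
      cases v with
      | inl v => exact P.hs c s t h v x
      | inr v => rfl
    · subst h
      simp only [lt_irrefl, if_false, if_true, le_refl, Nat.not_succ_le_self, Nat.sub_self]
      cases v with
      | inl v => rfl
      | inr v =>
        simp only [Sum.elim_inr, Sum.elim_inl, Q.h0, hb, ← P.hO]
        cases Q.inn c v <;> rfl
    · simp only [if_neg h.not_gt, if_neg h.not_ge, if_neg h.ne', if_neg (by omega : ¬ t + 1 ≤ P.r c)]
      cases v with
      | inl v => rfl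
      | inr v =>
        rw [show t + 1 - (P.r c + 1) = t - (P.r c + 1) + 1 by omega]
        exact Q.hs c s _ (by omega) v x
  · split_ifs with h
    · cases v with
      | inl v => exact P.hT c s t h v
      | inr v => exact T_zero c
    · cases v with
      | inl v => exact T_zero c
      | inr v => exact Q.hT c s _ (by omega) v
  · rw [if_neg (by omega), Q.hO, Nat.add_sub_cancel_left]
    rfl

/-- A program may wait. -/
theorem Tr.idle (hb : ∀ c x, W.π c b1 x = x) (P : W.Tr I O A i o) (c : C) (s : A c) (t : ℕ)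
    (v : P.V.T c) (x : W.Ps c) : P.X c s (min (t + 1) (P.r c)) v x =
      if t < P.r c then P.g c (t, x, v) fun z => P.X c s (min t (P.r c)) z.2 (W.π c z.1 x)
      else P.X c s (min t (P.r c)) v (W.π c b1 x) := by
  split_ifs with h
  · rw [min_eq_left h, min_eq_left h.le]
    exact P.hs c s t h v x
  · rw [min_eq_right (by omega), min_eq_right (by omega), hb]

/-- Parallel composition. -/
theorem BP.par (hb : ∀ c x, W.π c b1 x = x) {o' : ∀ c, A c → O'.T c → W.Wd c}
    (h : W.BP I O A i o) (h' : W.BP I O' A i o') :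
    W.BP I (O.sum O') A i fun c s => Sum.elim (o c s) (o' c s) := by
  obtain ⟨P⟩ := h.tr
  obtain ⟨Q⟩ := h'.tr
  refine Tr.bp ⟨P.V.sum Q.V, fun c => P.r c + Q.r c,
    fun c z w => Sum.elim
      (fun v => if z.1 < P.r c then P.g c (z.1, z.2.1, v) fun y => w (y.1, .inl y.2)
        else w (b1, .inl v))
      (fun v => if z.1 < Q.r c then Q.g c (z.1, z.2.1, v) fun y => w (y.1, .inr y.2)
        else w (b1, .inr v)) z.2.2,
    fun c v => Sum.elim (P.inn c) (Q.inn c) v, fun c k => Sum.map (P.out c) (Q.out c) k,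
    fun c s t => Sum.elim (P.X c s (min t (P.r c))) (Q.X c s (min t (Q.r c))),
    P.hr.add Q.hr, P.hr'.add Q.hr', ?_,
    D.sum_elim D.sigma_snd (P.hi.app (pt_sigma_fst.comp pt_sigma_fst) D.sigma_snd)
      (Q.hi.app (pt_sigma_fst.comp pt_sigma_fst) D.sigma_snd),
    D.f_sum_map D.sigma_snd (P.ho.app (pt_sigma_fst.comp pt_sigma_fst) D.sigma_snd)
      (Q.ho.app (pt_sigma_fst.comp pt_sigma_fst) D.sigma_snd),
    fun c s v => ?_, fun c s t _ v x => ?_, fun c s t _ v => ?_, fun c s k => ?_⟩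
  · exact QG.elim D.s2.snd (QG.ite (PT.lt D.s1.fst.pt (P.hr.comp pt_sigma_fst))
      ((P.hg.ren (V' := W.VF (P.V.sum Q.V)) (d_vmap (D.inl D.sigma_snd))).comp
        (D.pair D.s1.fst (D.pair D.s1.snd.fst D.s2)))
      (AG.var (V := W.VF (P.V.sum Q.V)) (D.pair (D.const b1) (D.inl D.s2))).qg)
      (QG.ite (PT.lt D.s1.fst.pt (Q.hr.comp pt_sigma_fst))
      ((Q.hg.ren (V' := W.VF (P.V.sum Q.V)) (d_vmap (D.inr D.sigma_snd))).comp
        (D.pair D.s1.fst (D.pair D.s1.snd.fst D.s2)))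
      (AG.var (V := W.VF (P.V.sum Q.V)) (D.pair (D.const b1) (D.inr D.s2))).qg)
  · cases v with
    | inl v => simpa using P.h0 c s v
    | inr v => simpa using Q.h0 c s v
  · cases v with
    | inl v => exact P.idle hb c s t v x
    | inr v => exact Q.idle hb c s t v x
  · cases v with
    | inl v => exact P.hT c s _ (min_le_right _ _) v
    | inr v => exact Q.hT c s _ (min_le_right _ _) v
  · cases k with
    | inl k => simpa using P.hO c s k
    | inr k => simpa using Q.hO c s k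

/-- Iteration. -/
theorem BP.iter (hb : ∀ c x, W.π c b1 x = x) {F : ∀ c, A c → A c} {n : C → ℕ} (hn : PT n)
    (hn' : Pl W.P.lg n) (h : W.BP I I A i fun c s => i c (F c s)) :
    W.BP I I A i fun c s => i c ((F c)^[n c + 1] s) := by
  obtain ⟨P⟩ := h.tr
  refine Tr.bp ⟨P.V, fun c => P.r c + (P.r c + 1) * n c,
    fun c z w => if z.1 % (P.r c + 1) < P.r c then P.g c (z.1 % (P.r c + 1), z.2) w
      else (P.inn c z.2.2).elim 0 fun k => w (b1, P.out c k), P.inn, P.out,
    fun c s t => P.X c ((F c)^[t / (P.r c + 1)] s) (t % (P.r c + 1)),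
    P.hr.add ((P.hr.add (PT.const 1)).mul hn), P.hr'.add (P.hr'.succ.mul hn'), ?_, P.hi, P.ho,
    fun c s v => by simpa using P.h0 c s v, fun c s t _ v x => ?_,
    fun c s t _ v => P.hT c _ _ (Nat.le_of_lt_succ (Nat.mod_lt _ (Nat.succ_pos _))) v,
    fun c s k => ?_⟩
  · have q := D.s1.pt.mod ((P.hr.comp (pt_sigma_fst (X := fun c => ℕ × W.Ps c × P.V.T c))).add
      (PT.const 1))
    exact QG.ite (PT.lt q (P.hr.comp pt_sigma_fst)) (P.hg.comp (D.pair (D.of_pt q) D.s2))
      ((AG.ovar (V := W.VF P.V) P.hi (D.pair (D.const b1) P.ho)).qg.comp D.s2.snd)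
  · have h0 : 0 < P.r c + 1 := Nat.succ_pos _
    have h1 := Nat.mod_lt t h0
    have h2 := Nat.div_add_mod t (P.r c + 1)
    dsimp only
    split_ifs with h
    · obtain ⟨e1, e2⟩ := (Nat.div_mod_unique (a := t + 1) (d := t / (P.r c + 1))
        (c := t % (P.r c + 1) + 1) h0).2 ⟨by omega, by omega⟩
      rw [e1, e2]
      exact P.hs c _ _ h v x
    · obtain ⟨e1, e2⟩ := (Nat.div_mod_unique (a := t + 1) (d := t / (P.r c + 1) + 1)
        (c := 0) h0).2 ⟨by rw [mul_add]; omega, by omega⟩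
      rw [e1, e2, P.h0, show t % (P.r c + 1) = P.r c by omega, Function.iterate_succ_apply']
      simp only [hb, ← P.hO]
      cases P.inn c v <;> rfl
  · rw [Nat.add_mul_mod_self_left, Nat.mod_eq_of_lt (Nat.lt_succ_self _),
      Nat.add_mul_div_left _ _ (Nat.succ_pos _), Nat.div_eq_of_lt (Nat.lt_succ_self _), zero_add,
      Function.iterate_succ_apply']
    exact P.hO c _ k

end World

end Vale.Agent.P330Q
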