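import Vale.Agent.P330Q.BM
import Vale.Agent.P330.TopA
import Vale.Agent.P330.PCPP

/-! Tests of polynomial relations on arrays of cells. -/

namespace Vale.Agent.P330Q

open Vale.Agent.Lib.PolyTime Vale.Agent.P330 Finset
open scoped Classical BigOperators

variable {l : ℕ} [Fact l.Prime] {δ δ' : ℝ}

theorem bt_part {A X F : Type} [Fintype A] [Fintype X] [Fintype F] {x : A × X → F → ℝ}
    (hx : IsDist x) (u : A × X → F) (i : A) :
    du (fun ξ => x (i, ξ)) (fun ξ => u (i, ξ)) ≤ Fintype.card A * du x u := by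
  have : Nonempty A := ⟨i⟩
  have e : du x u = 𝔼 i, du (fun ξ => x (i, ξ)) fun ξ => u (i, ξ) := expect_prod' _
  rw [e, Fintype.expect_eq_sum_div_card, mul_div_cancel₀ _ (by positivity)]
  exact single_le_sum (f := fun i => du (fun ξ => x (i, ξ)) fun ξ => u (i, ξ))
    (fun j _ => du_nonneg (hx.comp _) _) (mem_univ i)

theorem bt_whole {A X F : Type} [Fintype A] [Nonempty A] [Fintype X] [Fintype F]
    {x : A × X → F → ℝ} {u : A × X → F} {e : ℝ}
    (h : ∀ i, du (fun ξ => x (i, ξ)) (fun ξ => u (i, ξ)) ≤ e) : du x u ≤ e :=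
  (expect_prod' _).trans_le (expect_le univ_nonempty fun i _ => h i)

/-- The tester of one tuple of cells. -/
theorem bt_loc (h : CellAt l δ) {d : ℕ} {B U : Type} [Enc B] [Enc U] {a lg : B → ℕ} {p : B → U}
    (hp : PT p) (hl : Pl lg fun b => sz (p b)) {V : Fam U} (E : Fam U) (Z : Cell l δ V) (A : Type)
    [Fintype A] [Enc A] [Nonempty A] {f : ∀ b, E.T (p b) → (A × V.T (p b) → ZMod l) → ZMod l}
    (hf : Pol d ((Fam.const B A).prod (V.comap p hp)) (E.comap p hp) f) (h' : 0 < δ') :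
    ∃ v K : ℝ, 0 < v ∧ 0 < K ∧ ∀ η : ℝ, 0 < η → η ≤ v →
      ImplRS (ZMod l) a lg (.of ((Fam.const B A).prod (Z.X.comap p hp))) fun b x T =>
      (T < v → ∃ w, (∀ e, f b e w = 0) ∧
        ∀ i, du (fun ξ => x (i, ξ)) (cw (Z.gen (p b)) fun v => w (i, v)) ≤ δ') ∧
      ∀ w, (∀ e, f b e w = 0) →
        (∀ i, du (fun ξ => x (i, ξ)) (cw (Z.gen (p b)) fun v => w (i, v)) ≤ η) → T ≤ K * η := by
  have δ0 := h.1
  obtain ⟨α, K, κ', α0, K0, hP⟩ := pcppThm l
  let X : Fam U := (Fam.const U A).prod Z.X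
  let W : Fam U := (Fam.const U A).prod V
  have hX : ∀ u, Nonempty (X.T u) := fun u => ⟨(Classical.arbitrary A, (Z.ne u).some)⟩
  obtain ⟨Y⟩ := h.2 U E
  have hc : ∀ u (w : A × V.T u → ZMod l) (i : A) ξ, cw (fun (x : X.T u) (v : W.T u) =>
      if x.1 = v.1 then Z.gen u x.2 v.2 else 0) w (i, ξ) = cw (Z.gen u) (fun v => w (i, v)) ξ := by
    intro u w i ξ
    refine (Fintype.sum_prod_type (α₁ := A) (α₂ := V.T u) _).trans ?_
    simp [cw]
  obtain ⟨Pf, Q, prf, var, co, hPf, hQ, dprf, dvar, dco, hP⟩ := hP U X W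
    (fun u x v => if x.1 = v.1 then Z.gen u x.2 v.2 else 0) hX
    (PT.ite (D.eq (D.fst D.s1) (D.fst D.s2))
      (pt_app2 Z.pt pt_sigma_fst (D.snd D.s1) (D.snd D.s2)) (PT.const _))
  obtain ⟨κ, κ0, hκ⟩ : ∃ κ : ℝ, 0 ≤ κ ∧ κ' ≤ κ := ⟨max κ' 0, le_max_right _ _, le_max_left _ _⟩
  have hA : (0 : ℝ) < Fintype.card A := by exact_mod_cast Fintype.card_pos
  obtain ⟨v, v0, v1, v2, v3⟩ : ∃ v : ℝ, 0 < v ∧ 220 * v ≤ α ∧
      Fintype.card A * (88 + 220 * K) * v ≤ min δ δ' ∧ 2 * v ≤ δ := by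
    refine ⟨min (α / 220) (min (min δ δ' / (Fintype.card A * (88 + 220 * K))) (δ / 2)),
      by positivity, ?_, ?_, ?_⟩
    · exact (le_div_iff₀' (by norm_num)).1 (min_le_left _ _)
    · exact (le_div_iff₀' (by positivity)).1 ((min_le_right _ _).trans (min_le_left _ _))
    · exact (le_div_iff₀' (by norm_num)).1 ((min_le_right _ _).trans (min_le_right _ _))
  refine ⟨v, 8 * κ + 6, v0, by positivity, fun η η0 η1 => ?_⟩
  have gP := bm_loc h (a := a) hp hl Pf Z A (f := fun b j w => ∑ v, prf (p b) j v * w v) hPf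
    (Pol.lin (pt_app2 dprf (hp.comp pt_sigma_fst) D.s1 D.s2)) η0
  have gR := bm_loc h (a := a) hp hl Y.X Z A (f := fun b j w => ∑ e, Y.gen (p b) j e * f b e w)
    Y.ne (Pol.comb (pt_app2 Y.pt (hp.comp pt_sigma_fst) D.s1 D.s2) hf) η0
  have gT := comapS (a := a) (Top.tester hX hQ Y.ne var co dvar dco κ0 (fun c i u =>
    ((hP c).1 i u).trans (mul_le_mul_of_nonneg_right hκ (((Reg.of X).sum (Reg.of Pf)).w0 c u)))
    η0) p hp hl
  refine ImplS.mono ((gP.par gR).seq' gT) ?_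
  rintro b x y hx - ⟨m, hm, ⟨h1, h2⟩, t1, t2⟩
  refine ⟨fun hT => ?_, fun w hw k => ?_⟩
  · obtain ⟨a1, u, π, a2, a3⟩ := t2 v η1 hT
    obtain ⟨w, hw⟩ := (hP _).2.2 u π (a3.trans v1)
    have a4 : ∀ i, du (fun ξ => x (i, ξ)) (cw (Z.gen (p b)) fun v => w (i, v)) ≤ min δ δ' := by
      intro i
      have b1 := du_le_hd hx _ u |>.trans (add_le_add a2 (hw.trans
        (mul_le_mul_of_nonneg_left a3 K0.le)))
      have b2 := (bt_part hx _ i).trans (mul_le_mul_of_nonneg_left b1 hA.le)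
      simp only [hc] at b2
      exact b2.trans (le_of_eq_of_le (by ring) v2)
    refine ⟨w, fun e => ?_, fun i => (a4 i).trans (min_le_right _ _)⟩
    by_contra hne
    have a5 := Y.dist (p b) (fun e => f b e w) 0 fun h => hne (congrFun h e)
    have a6 := hd_le_du (hm.comp Sum.inr) (cw (Y.gen (p b)) fun e => f b e w) 0
    have a7 := h2 w fun i => (a4 i).trans (min_le_left _ _)
    rw [show cw (Y.gen (p b)) 0 = 0 from funext fun _ => by simp [cw]] at a5
    change du (fun i => m (.inr i)) 0 ≤ _ at a1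
    change du (fun i => m (.inr i)) (cw (Y.gen (p b)) fun e => f b e w) ≤ _ at a7
    linarith
  · have k' : ∀ i, du (fun ξ => x (i, ξ)) (cw (Z.gen (p b)) fun v => w (i, v)) ≤ δ :=
      fun i => (k i).trans (by linarith)
    have a2 := h2 w k'
    simp only [hw, mul_zero, sum_const_zero] at a2
    refine t1 _ _ ((hP _).2.1 w) (bt_whole fun i => ?_) (h1 w k') a2
    simp only [hc]
    exact (k i).trans (by linarith)

theorem cellTest (h : CellAt l δ) : CellTestThm l δ := by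
  intro d C U _ _ a lg p hp hl V E Z A _ _ _ I O R f hf δ' β h' β0
  obtain ⟨v, K, v0, K0, g⟩ := bt_loc h (B := Σ c, O.T c) (a := fun _ => 0) (lg := fun z => lg z.1)
    (p := fun z => p z.1) (hp.comp pt_sigma_fst) (hl.comp fun z : Σ c, O.T c => z.1) E Z A
    (f := fun z j => f z.1 z.2 j) (bm_cur hf) h'
  refine ⟨v * β / 4, by positivity, fun w0 hw0 => ?_⟩
  obtain ⟨η, η0, η1, η2, η3, η4⟩ : ∃ η : ℝ, 0 < η ∧ η ≤ v ∧ η ≤ v * β / 4 ∧ η ≤ β / 2 ∧
      (K + 3) * η ≤ w0 := by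
    refine ⟨min (min v (v * β / 4)) (min (β / 2) (w0 / (K + 3))), by positivity,
      (min_le_left _ _).trans (min_le_left _ _), (min_le_left _ _).trans (min_le_right _ _),
      (min_le_right _ _).trans (min_le_left _ _), ?_⟩
    exact (le_div_iff₀' (by positivity)).1 ((min_le_right _ _).trans (min_le_right _ _))
  refine ⟨η, η0, ?_⟩
  have g1 := ImplS.arr0 O R.ne (g η η0 η1) R.size
    (fun z i => R.sl z.1 z.2 i.1 i.2) R.d_sl' R.κ R.dens' η0
  have g2 := ImplRS.rej (F := ZMod l) (a := a) (l := lg)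
    (I := Reg.sigma O (Reg.unit (Σ c, O.T c))) zero_ne_one (A := Unit) O R.ne
    (fun _ o _ => ⟨o, ()⟩) (fun _ _ s => s () ≠ 1)
    (fun _ => D.dsig_mk (W := fun (z : Σ c, O.T c) (_ : O.T z.1) => Unit) D.sigma_snd (D.const ()))
    (fun _ => PT.const _) 1 (fun c _ u => ?_) R.size η0
  · refine ImplS.mono (g1.trans g2) ?_
    rintro c x y - - ⟨m, hm, k1, k2⟩
    have := R.ne c
    have e : ∀ o : O.T c, prob (fun _ : Unit => m ⟨o, ()⟩) (fun s => ¬ s () ≠ 1) = m ⟨o, ()⟩ 1 :=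
      fun o => (prob_congr fun _ => not_not).trans (prob_slot (hm.comp _) () 1)
    simp only [e] at k2
    obtain ⟨k2, k3⟩ := abs_le.1 k2
    refine ⟨fun hT => ?_, fun w hw k => ?_⟩
    · have b1 := fr_markov (g := fun o : O.T c => m ⟨o, ()⟩ 1) (fun o => hm.nonneg _ _) v0
      have b2 : (𝔼 o : O.T c, m ⟨o, ()⟩ 1) / v ≤ β / 2 := by
        rw [div_le_iff₀ v0]
        linarith
      refine (fr_mono fun o ho => ?_).trans (((fr_or_le _ _).trans
        (add_le_add k1 (b1.trans b2))).trans (by linarith))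
      by_contra q
      obtain ⟨w, q1, q2⟩ := (not_not.1 (not_or.1 q).1).1 (not_le.1 (not_or.1 q).2)
      obtain ⟨i, hi⟩ := ho w q1
      exact hi.not_ge (q2 i)
    · have b2 := (fr_or_le _ _).trans (add_le_add k1 k)
      have b1 : 𝔼 o : O.T c, m ⟨o, ()⟩ 1 ≤ η + η + K * η := by
        refine (expect_le_fr (by positivity) (fun o => hm.le_one _ _) fun o ho => ?_).trans
          (add_le_add b2 le_rfl)
        exact (not_not.1 (not_or.1 ho).1).2 (w o) (hw o)
          fun i => not_lt.1 fun q => (not_or.1 ho).2 ⟨i, q⟩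
      linarith
  · refine (cq_fr_single _ fun x y a b => ?_).trans_eq ?_
    · exact congrArg Sigma.fst (a.trans b.symm)
    · show _ = 1 * ((1 : ℝ) / Fintype.card (O.T c))
      simp

end Vale.Agent.P330Q
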