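import Vale.Agent.P330Q.BcCh

/-! Long chains of cells: the local rules on the words of the line. -/

namespace Vale.Agent.P330Q

open Vale.Agent.Lib.PolyTime Vale.Agent.P330 Finset
open scoped Classical BigOperators

variable {P B V X F : Type} [Field F] {r q : ℕ} {π : B → Equiv.Perm P}
  {f : ℕ → P → V → (B × V → F) → F} {u : P → V → F}

theorem bal_sum (hq : q < r + 2) (E : ℕ → Prop) [DecidablePred E] (v : V) :
    (∑ j : Fin (r + 2), if E j then clk V F r q (j, v) else 0) = if E q then 1 else 0 := by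
  rw [sum_eq_single (⟨q, hq⟩ : Fin (r + 2))]
  · simp [clk]
  · intro b _ hb
    have : (b : ℕ) ≠ q := fun h => hb (Fin.ext h)
    simp [clk, this]
  · intro h
    exact absurd (mem_univ _) h

theorem sK_clk (hq : q < r + 2) : sK (clk V F r q) = clk V F r (q + 1) := by
  funext z
  unfold sK
  rw [bal_sum hq fun j => (z.1 : ℕ) = j + 1]
  simp only [clk]

theorem pK_clk (hq : q + 1 < r + 2) : pK (clk V F r (q + 1)) = clk V F r q := by
  funext z
  unfold pK
  rw [bal_sum hq fun j => j = (z.1 : ℕ) + 1]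
  simp only [clk]
  exact if_congr (by omega) rfl rfl

theorem gK_clk (hq : q < r + 2) (z : Fin (r + 2) × V) :
    gK (clk V F r q) z = if (z.1 : ℕ) < q then 1 else 0 := by
  unfold gK
  rw [bal_sum hq fun j => (z.1 : ℕ) < j]

theorem gv_run {x : P} {h k : Fin (r + 2) × V → F} {n : B → Fin (r + 2) × V → F}
    {z : Fin (r + 2) × V} (hz : (z.1 : ℕ) ≤ r)
    (hn : ∀ i (y : Fin (r + 2) × V), (y.1 : ℕ) + 1 = z.1 → n i y = prun π f u y.1 (π i x) y.2) :
    gv f x (tup h k (emb r (u x)) n) z = prun π f u z.1 x z.2 := by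
  unfold gv
  rcases Nat.eq_zero_or_pos z.1 with h0 | h0
  · rw [if_pos h0, h0]
    simp [tup, emb, h0, prun]
  · obtain ⟨t, ht⟩ : ∃ t, (z.1 : ℕ) = t + 1 := ⟨z.1 - 1, by omega⟩
    have htr : t < r := by omega
    rw [if_neg (by omega), sum_eq_single (⟨t, htr⟩ : Fin r), if_pos ht, ht]
    · show f t x z.2 _ = f t x z.2 _
      congr 1
      funext y
      exact hn y.1 ((⟨t, htr⟩ : Fin r).castSucc.castSucc, y.2) ht.symm
    · intro b _ hb
      refine if_neg fun h => hb (Fin.ext ?_)
      show (b : ℕ) = t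
      omega
    · intro h
      exact absurd (mem_univ _) h

theorem sucR_W (hq : q + 1 < r + 2) (x : P) (b : Bool) :
    sucR f x b (tup (hst π f u r q x) (clk V F r q) (emb r (u x)) fun i => hst π f u r q (π i x)) =
      if b = true then clk V F r (q + 1) else hst π f u r (q + 1) x := by
  funext z
  cases b
  · show hst π f u r q x z + clk V F r q z * gv f x _ z = hst π f u r (q + 1) x z
    rcases lt_trichotomy (z.1 : ℕ) q with h | h | h
    · simp only [hst, clk, if_pos h, if_neg h.ne, if_pos (Nat.lt_succ_of_lt h), zero_mul, add_zero]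
    · rw [gv_run (π := π) (z := z) (n := fun i => hst π f u r q (π i x)) (by omega)
        fun i y hy => if_pos (by omega)]
      simp only [hst, clk, if_neg (not_lt.2 h.ge), if_pos h, if_pos (Nat.lt_succ_of_le h.le),
        one_mul, zero_add]
    · simp only [hst, clk, if_neg (not_lt.2 h.le), if_neg h.ne',
        if_neg (not_lt.2 (Nat.succ_le_of_lt h)), zero_mul, add_zero]
  · show sK (clk V F r q) z = clk V F r (q + 1) z
    rw [sK_clk (by omega)]

theorem preR_W (hq : q + 1 < r + 2) (x : P) (b : Bool) :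
    preR b (fun y => (if y.1 = true then clk V F r (q + 1) else hst π f u r (q + 1) x) y.2) =
      if b = true then clk V F r q else hst π f u r q x := by
  funext z
  cases b
  · show hst π f u r (q + 1) x z * (1 - pK (clk V F r (q + 1)) z) = hst π f u r q x z
    rw [pK_clk hq]
    rcases lt_trichotomy (z.1 : ℕ) q with h | h | h
    · simp only [hst, clk, if_pos h, if_neg h.ne, if_pos (Nat.lt_succ_of_lt h), sub_zero, mul_one]
    · simp only [hst, clk, if_neg (not_lt.2 h.ge), if_pos h, sub_self, mul_zero]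
    · simp only [hst, if_neg (not_lt.2 h.le), if_neg (not_lt.2 (Nat.succ_le_of_lt h)), zero_mul]
  · show pK (clk V F r (q + 1)) z = clk V F r q z
    rw [pK_clk hq]

theorem clk_of_rel [Nonempty V] {k : Fin (r + 2) × V → F}
    (h1 : ∀ z z', k z * k z' - (if z.1 = z'.1 then k z else 0) = 0)
    (h2 : ∀ v, ∑ j : Fin (r + 2), k (j, v) - 1 = 0) : ∃ q, q < r + 2 ∧ k = clk V F r q := by
  obtain ⟨v₀⟩ := ‹Nonempty V›
  obtain ⟨j, hj⟩ : ∃ j, k (j, v₀) ≠ 0 := by
    by_contra h
    have := h2 v₀
    rw [sum_eq_zero fun j _ => not_not.1 fun hj => h ⟨j, hj⟩, zero_sub, neg_eq_zero] at this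
    exact one_ne_zero this
  refine ⟨j, j.2, funext fun z => ?_⟩
  have h3 := h1 (j, v₀) z
  unfold clk
  by_cases h : j = z.1
  · rw [if_pos h, ← mul_sub_one] at h3
    rw [if_pos (by rw [h])]
    exact sub_eq_zero.1 ((mul_eq_zero.1 h3).resolve_left hj)
  · rw [if_neg h, sub_zero] at h3
    rw [if_neg fun e => h (Fin.ext e.symm)]
    exact (mul_eq_zero.1 h3).resolve_left hj

theorem emb_inj {w w' : V → F} (h : emb r w = emb r w') : w = w' := by
  funext v
  exact congrFun h (0, v)

theorem BW_zero [Fintype V] (gen : X → Fin (r + 2) × V → F) (u u' : P → V → F) :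
    BW gen π f u 0 = BW gen π f u' 0 := by
  have : ∀ u : P → V → F, hst π f u r 0 = fun _ _ => 0 := fun u => by
    funext x z
    exact if_neg (Nat.not_lt_zero _)
  unfold BW
  rw [this, this]

theorem BW_dist [Fintype V] [Fintype P] [Fintype X] [Nonempty P] [Nonempty V]
    {gen : X → Fin (r + 2) × V → F} {Δ : ℝ}
    (h : ∀ w w', w ≠ w' → Δ ≤ hd (cw gen w) (cw gen w')) {q q' : ℕ} (hq : q < r + 2)
    (hne : q ≠ q') : Δ / 2 ≤ hd (BW gen π f u q) (BW gen π f u q') := by
  have h1 : clk V F r q ≠ clk V F r q' := fun e => by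
    have := congrFun e (⟨q, hq⟩, Classical.arbitrary V)
    simp [clk, hne] at this
  have h2 := h _ _ h1
  have h3 : fr (P × X) (fun z => BW gen π f u q (z.1, z.2, true) ≠ BW gen π f u q' (z.1, z.2, true))
      = hd (cw gen (clk V F r q)) (cw gen (clk V F r q')) :=
    fr_snd (X := P) fun y => cw gen (clk V F r q) y ≠ cw gen (clk V F r q') y
  rw [hd_tab, h3]
  have h4 := fr_nonneg
    (fun z : P × X => BW gen π f u q (z.1, z.2, false) ≠ BW gen π f u q' (z.1, z.2, false))
  linarith

end Vale.Agent.P330Q
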