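import Vale.Agent.P330Q.BcAlg

/-! Long chains of cells: the relations of the tester on the words of the line. -/

namespace Vale.Agent.P330Q

open Vale.Agent.Lib.PolyTime Vale.Agent.P330 Finset
open scoped Classical BigOperators

variable {B V F G S : Type} [Field F] {r q : ℕ} [Fintype V] {C0 : Bool → Submodule F (S → F)} {nb : S → Equiv.Perm G}
  {m : Bool → G × S → V → V → F} {π : B → Equiv.Perm (G × S)}
  {f : ℕ → G × S → V → (B × V → F) → F} {u : G × S → V → F}

theorem hst_mem (hu : ∀ t ≤ r, prun π f u t ∈ twc C0 nb m) (hq : q < r + 2) :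
    hst π f u r q ∈ twc C0 nb fun b x => blk (m b x) := by
  intro b g z
  simp only [cw_blk, hst]
  by_cases h : (z.1 : ℕ) < q
  · simp only [if_pos h]
    exact hu z.1 (by omega) b g z.2
  · simp only [if_neg h, cw, mul_zero, sum_const_zero]
    exact (C0 b).zero_mem

theorem relT_W [Fintype S] {H : Bool → S → S → F}
    (hH : ∀ b c, c ∈ C0 b → ∀ e, ∑ s, H b e s * c s = 0)
    (hu : ∀ t ≤ r, prun π f u t ∈ twc C0 nb m) (hq : q < r + 2) (x : G × S)
    (e : (Fin 4 × Bool × S) × (Fin (r + 2) × V) × Fin (r + 2) × V) :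
    relT H nb m f x e (tupT nb π (hst π f u r q) (clk V F r q) (emb r (u x)) x) = 0 := by
  obtain ⟨⟨i, b, s⟩, z, z'⟩ := e
  unfold relT
  split_ifs with h0 h1 h1' h2
  · have e1 : (fun y : (Fin 3 ⊕ B) × Fin (r + 2) × V =>
        tupT nb π (hst π f u r q) (clk V F r q) (emb r (u x)) x (.inl y.1, y.2)) =
        tup (hst π f u r q x) (clk V F r q) (emb r (u x)) fun j => hst π f u r q (π j x) := rfl
    rw [e1]
    show hst π f u r q x z - gK (clk V F r q) z * _ = 0
    rw [gK_clk hq, hst]
    split_ifs with h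
    · rw [one_mul, sub_eq_zero]
      exact (gv_run (z := z) (by omega) fun j y hy => if_pos (by omega)).symm
    · rw [zero_mul, sub_self]
  · show clk V F r q z * clk V F r q z' - clk V F r q z = 0
    have e1 : z.1 = z'.1 := h1'
    simp only [clk, e1]
    split_ifs <;> simp
  · show clk V F r q z * clk V F r q z' - 0 = 0
    have e1 : (z.1 : ℕ) ≠ z'.1 := fun k => h1' (Fin.ext k)
    simp only [clk]
    split_ifs with k k'
    · omega
    all_goals simp
  · show ∑ j : Fin (r + 2), clk V F r q (j, z.2) - 1 = 0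
    rw [sum_eq_single (⟨q, hq⟩ : Fin (r + 2))]
    · simp [clk]
    · exact fun j _ hj => if_neg fun k => hj (Fin.ext k)
    · simp
  · exact hH b _ (hst_mem hu hq b x.1 z) s

/-- What the relations of the tester say. -/
theorem relT_inv [Fintype S] [Nonempty V] {H : Bool → S → S → F}
    (hH : ∀ b c, (∀ e, ∑ s, H b e s * c s = 0) → c ∈ C0 b) {x : G × S}
    {w : ((Fin 3 ⊕ B) ⊕ Bool × S) × Fin (r + 2) × V → F} (h : ∀ e, relT H nb m f x e w = 0) :
    (∃ q, q < r + 2 ∧ (fun y => w (.inl (.inl 1), y)) = clk V F r q) ∧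
    (∀ z, w (.inl (.inl 0), z) =
      gK (fun y => w (.inl (.inl 1), y)) z * gv f x (fun y => w (.inl y.1, y.2)) z) ∧
    ∀ b z, (fun s => cw (blk (m b (vwp nb b x.1 s))) (fun y => w (.inr (b, s), y)) z) ∈ C0 b := by
  refine ⟨clk_of_rel (fun z z' => h ((1, false, x.2), z, z'))
    fun v => h ((2, false, x.2), (0, v), 0, v), fun z => sub_eq_zero.1 (h ((0, false, x.2), z, z)),
    fun b z => hH b _ fun e => h ((3, b, e), z, z)⟩

end Vale.Agent.P330Q
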