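import Vale.Agent.P330Q.BcCh

/-! Long chains of cells: small tools. -/

namespace Vale.Agent.P330Q

open Vale.Agent.Lib.PolyTime Vale.Agent.P330 Finset
open scoped Classical BigOperators

theorem bc_far {P X F : Type} [Fintype P] [Fintype X] [Fintype F] {x : P × X → F → ℝ}
    (hx : IsDist x) (u : P × X → F) {e : ℝ} (he : 0 < e) :
    fr P (fun o => e < du (fun ξ => x (o, ξ)) fun ξ => u (o, ξ)) ≤ du x u / e := by
  refine (fr_mono fun o h => le_of_lt h).trans
    ((fr_markov (g := fun o => du (fun ξ => x (o, ξ)) fun ξ => u (o, ξ))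
      (fun o => du_nonneg (hx.comp _) _) he).trans (le_of_eq ?_))
  exact congrArg (· / e) (expect_prod' fun z => 1 - x z (u z)).symm

theorem bau_le_one {X F : Type} [Fintype X] [Fintype F] [Nonempty X] {x : X → F → ℝ}
    (hx : IsDist x) (u : X → F) : du x u ≤ 1 :=
  (expect_le_expect fun ξ _ => sub_le_self (1 : ℝ) (hx.nonneg ξ (u ξ))).trans
    (Fintype.expect_const _).le

theorem bc_near {P X F : Type} [Fintype P] [Fintype X] [Fintype F] [Nonempty P] [Nonempty X]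
    {x : P × X → F → ℝ} (hx : IsDist x) (u : P × X → F) {E : P → Prop} {e : ℝ} (he : 0 ≤ e)
    (h : ∀ o, ¬ E o → du (fun ξ => x (o, ξ)) (fun ξ => u (o, ξ)) ≤ e) : du x u ≤ fr P E + e :=
  (expect_prod' fun z => 1 - x z (u z)).le.trans
    (expect_le_fr (g := fun o => du (fun ξ => x (o, ξ)) fun ξ => u (o, ξ)) he
      (fun _ => bau_le_one (hx.comp _) _) h)

theorem Arr.bc_far {l : ℕ} [Fact l.Prime] {δ : ℝ} {C U : Type} [Enc C] [Enc U] {a lg : C → ℕ}
    {p : C → U} {V : Fam U} {Z : Cell l δ V} {A : Type} [Fintype A] {I : Reg C} {O : Fam C}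
    (R : Arr l a lg p Z A I O) {c : C} {x : I.T c → ZMod l → ℝ} (hx : IsDist x)
    (u : I.T c → ZMod l) (w : O.T c → A × V.T (p c) → ZMod l)
    (hu : ∀ o i ξ, u (R.sl c o i ξ) = cw (Z.gen (p c)) (fun v => w o (i, v)) ξ) {e : ℝ}
    (he : 0 < e) :
    fr (O.T c) (fun o => R.Far e x o (w o)) ≤ Fintype.card A * R.κ * dw (I.w c) x u / e := by
  have k : ∀ i : A, fr (O.T c) (fun o => e < du (fun ξ => x (R.sl c o i ξ))
      (cw (Z.gen (p c)) fun v => w o (i, v))) ≤ R.κ * dw (I.w c) x u / e := fun i => by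
    have h1 := P330Q.bc_far (x := fun z : O.T c × Z.X.T (p c) => x (R.sl c z.1 i z.2)) (hx.comp _)
      (fun z => u (R.sl c z.1 i z.2)) he
    have h2 : du (fun z : O.T c × Z.X.T (p c) => x (R.sl c z.1 i z.2))
        (fun z => u (R.sl c z.1 i z.2)) ≤ R.κ * dw (I.w c) x u :=
      expect_le_dens (R.dens c i) (g := fun j => 1 - x j (u j))
        fun j => sub_nonneg.2 (hx.le_one j _)
    refine (le_of_eq (fr_congr fun o => ?_)).trans
      (h1.trans (div_le_div_of_nonneg_right h2 he.le))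
    rw [show (cw (Z.gen (p c)) fun v => w o (i, v)) = fun ξ => u (R.sl c o i ξ) from
      funext fun ξ => (hu o i ξ).symm]
  refine (fr_exists_le _).trans ((sum_le_sum fun i _ => k i).trans (le_of_eq ?_))
  rw [sum_const, card_univ, nsmul_eq_mul]
  ring

theorem bc_par {F S : Type} [Field F] [Fintype S] (C0 : Submodule F (S → F)) :
    ∃ H : S → S → F, ∀ c, c ∈ C0 ↔ ∀ e, ∑ s, H e s * c s = 0 := by
  obtain ⟨Q, hQ⟩ := C0.exists_isCompl
  refine ⟨fun e s => Q.projection C0 hQ.symm (fun j => if s = j then 1 else 0) e, fun c => ?_⟩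
  have h1 : c ∈ C0 ↔ Q.projection C0 hQ.symm c = 0 := by
    rw [← LinearMap.mem_ker, Submodule.ker_projection]
  rw [h1, LinearMap.pi_apply_eq_sum_univ, funext_iff]
  refine forall_congr' fun e => ?_
  simp only [Finset.sum_apply, Pi.smul_apply, smul_eq_mul, Pi.zero_apply, mul_comm]

theorem bc_uniq {X V F : Type} [Fintype X] [Fintype V] [Fintype F] [CommRing F] {gen : X → V → F}
    {Δ e : ℝ} (h : ∀ w w', w ≠ w' → Δ ≤ hd (cw gen w) (cw gen w')) {x : X → F → ℝ} (hx : IsDist x)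
    (he : 2 * e < Δ) {w w' : V → F} (h1 : du x (cw gen w) ≤ e) (h2 : du x (cw gen w') ≤ e) :
    w = w' := by
  by_contra k
  have h3 := h w w' k
  have h4 := hd_le_du hx (cw gen w) (cw gen w')
  linarith

variable {C F : Type} [Enc C] [Enc F] [Fintype F] {a lg : C → ℕ}

/-- The mean of many copies of a word. -/
theorem bc_mean {I : Reg C} (X P : Fam C) (hX : ∀ c, Nonempty (X.T c))
    (hP : ∀ c, Nonempty (P.T c)) (sl : ∀ c, P.T c → X.T c → I.T c) (ds : D3 sl) (κ : ℝ)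
    (hs : ∀ c u, fr (P.T c × X.T c) (fun z => sl c z.1 z.2 = u) ≤ κ * I.w c u)
    (hz : Sz a lg fun c => Fintype.card (P.T c × X.T c)) {η : ℝ} (hη : 0 < η) :
    ImplS F a lg I (.of X) fun c x y => ∀ u : X.T c → F,
      |du y u - du (fun z : P.T c × X.T c => x (sl c z.1 z.2)) fun z => u z.2| ≤ η := by
  have hκ : ∀ c (_ : Unit) u, fr (X.T c × P.T c) (fun z => sl c z.2 z.1 = u) ≤
      max κ 1 * I.w c u := fun c _ u =>
    (fr_equiv (Equiv.prodComm (X.T c) (P.T c)) fun z => sl c z.1 z.2 = u).le.trans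
      ((hs c u).trans (mul_le_mul_of_nonneg_right (le_max_left _ _) (I.w0 c u)))
  have h1 : D fun z : Σ c, X.T c × P.T c => z.2.1 := D.s1
  have h2 : D fun z : Σ c, X.T c × P.T c => z.2.2 := D.s2
  have ds' : D3 fun c (o : X.T c) (ρ : P.T c) => sl c ρ o := D3.app ds pt_sigma_fst h2 h1
  refine (ImplS.layer (O := Reg.of X) (A := Unit) P hP hX (fun c o ρ _ => sl c ρ o)
    (fun _ _ _ s => s ()) (fun _ => ds') (fun s => PT.const _) (max κ 1) ?_ hκ
    (hz.congr fun c => ?_) hη).mono ?_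
  · intro c o
    show (Fintype.card (X.T c) : ℝ)⁻¹ ≤ max κ 1 / Fintype.card (X.T c)
    rw [div_eq_mul_inv]
    exact le_mul_of_one_le_left (by positivity) (le_max_right _ _)
  · exact Fintype.card_congr (Equiv.prodComm _ _)
  · intro c x y hx hy h u
    have := hP c
    have := hX c
    have h0 : 𝔼 o : X.T c, ∑ b, |y o b -
        𝔼 ρ, law (fun _ : Unit => x (sl c ρ o)) (fun s => s ()) b| ≤ η :=
      (dd_unif _ _).symm.le.trans h
    have e1 : ∀ o ρ b, law (fun _ : Unit => x (sl c ρ o)) (fun s => s ()) b = x (sl c ρ o) b :=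
      fun o ρ b => law_slot (hx.comp _) () b
    simp only [e1] at h0
    have h3 := du_le_add (X := X.T c) y (fun o b => 𝔼 ρ, x (sl c ρ o) b) u
    have h4 := du_le_add (X := X.T c) (fun o b => 𝔼 ρ, x (sl c ρ o) b) y u
    have h5 : 𝔼 o : X.T c, ∑ b, |𝔼 ρ, x (sl c ρ o) b - y o b| ≤ η := by
      simpa only [abs_sub_comm] using h0
    have e2 : du (fun z : P.T c × X.T c => x (sl c z.1 z.2)) (fun z => u z.2) =
        du (X := X.T c) (fun o b => 𝔼 ρ, x (sl c ρ o) b) u := by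
      refine (expect_prod'' fun z : P.T c × X.T c => 1 - x (sl c z.1 z.2) (u z.2)).trans
        (expect_congr rfl fun o _ => ?_)
      rw [expect_sub_distrib, Fintype.expect_const]
    rw [e2, abs_le]
    constructor <;> linarith

/-- One table of a word of the line. -/
theorem bc_half (P X : Fam C) {O : Reg C}
    {S : ∀ c, (P.T c × X.T c → F → ℝ) → (O.T c → F → ℝ) → Prop}
    (h : ImplS F a lg (.of (P.prod X)) O S) (b : Bool) :
    ImplS F a lg (.of (P.prod (X.prod (Fam.const C Bool)))) O fun c x y =>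
      S c (fun z => x (z.1, z.2, b)) y := by
  have h1 : D fun z : Σ c, P.T c × X.T c => z.2.1 := D.s1
  have h2 : D fun z : Σ c, P.T c × X.T c => z.2.2 := D.s2
  have df : D2 fun c (z : P.T c × X.T c) => (z.1, z.2, b) := h1.pair (h2.pair (D.const b))
  refine (h.wire (I' := .of (P.prod (X.prod (Fam.const C Bool)))) (O' := O)
    (fun _ z => (z.1, z.2, b)) (fun _ o => o) df D.sigma_snd 2 (fun c u => ?_)
    (fun c u => (cE_id O c u).trans
      (mul_le_mul_of_nonneg_right one_le_two (O.w0 c u)))).mono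
    fun _ _ _ _ _ ⟨_, _, k, e⟩ => e ▸ k
  refine (cE_inj (f := fun z : P.T c × X.T c => (z.1, z.2, b))
    (w' := fun _ => 2 * (Fintype.card (P.T c × X.T c × Bool) : ℝ)⁻¹)
    (fun z z' e => Prod.ext (Prod.mk.inj e).1 (Prod.mk.inj (Prod.mk.inj e).2).1)
    (fun _ => by positivity) (fun z => le_of_eq ?_) u).trans (one_mul _).le
  show (Fintype.card (P.T c × X.T c) : ℝ)⁻¹ = _
  simp only [Fintype.card_prod, Fintype.card_bool, Nat.cast_mul, Nat.cast_ofNat, mul_inv]
  ring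

namespace BcD
variable {l : ℕ} [Fact l.Prime] {δ : ℝ} {d : ℕ} {C U : Type} [Enc C] [Enc U] {a lg : C → ℕ}
  {S B : Type} [Fintype S] [Enc S] [Fintype B] [Enc B] {lam : ℝ} (K : BcD l δ d U a lg S B lam)

theorem neP [Nonempty S] (c : C) : Nonempty (K.T.Y.G.T c × S) := by
  have := K.T.Y.ne c
  infer_instance

theorem szP : Sz a lg fun c => Fintype.card (K.T.Y.G.T c × S) :=
  K.size.card_prod (Sz.cardc S)

theorem szTb : Sz a lg fun c => Fintype.card (K.Tb.T c) :=
  K.szP.card_prod (Sz.card_comap K.Z.X K.hs)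

theorem szLn : Sz a lg fun c => Fintype.card (K.Ln.T c) :=
  K.szP.card_prod (Sz.card_comap (K.Z.X.prod (Fam.const U Bool)) K.hs)

theorem pt_src : PT fun z : Σ c, K.Ln.T c => K.Wd z.1 0 0 z.2 := by
  have hq : PT fun z : Σ c, K.Ln.T c => K.p z.1 := K.hp.comp pt_sigma_fst
  have h0 : D fun z : Σ c, K.Ln.T c => z.2.2 := D.snd D.sigma_snd
  have hq' : PT fun y : Σ z : Σ c, K.Ln.T c, K.W.T (K.p z.1) => K.p y.1.1 := hq.comp pt_sigma_fst
  have h1 : D fun y : Σ z : Σ c, K.Ln.T c, K.W.T (K.p z.1) => y.1.2.2 := h0.comp pt_sigma_fst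
  have h2 : D fun y : Σ z : Σ c, K.Ln.T c, K.W.T (K.p z.1) => y.2 := D.sigma_snd
  have h3 : PT fun y : Σ z : Σ c, K.Ln.T c, K.W.T (K.p z.1) => K.Z.gen (K.p y.1.1) y.1.2.2.1 y.2 :=
    pt_app2 K.Z.pt hq' h1.fst h2
  have h4 : PT fun y : Σ z : Σ c, K.Ln.T c, K.W.T (K.p z.1) => y.1.2.2.2 = true :=
    D.eq h1.snd (D.const true)
  have h5 : PT fun y : Σ z : Σ c, K.Ln.T c, K.W.T (K.p z.1) => (y.2.1 : ℕ) = 0 :=
    D.eq (D.of_pt (D.fin_iff.1 h2.fst)) (D.const 0)
  have h6 : PT fun y : Σ z : Σ c, K.Ln.T c, K.W.T (K.p z.1) =>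
      if y.1.2.2.2 = true ∧ (y.2.1 : ℕ) = 0 then K.Z.gen (K.p y.1.1) y.1.2.2.1 y.2 else 0 :=
    PT.ite (h4.and h5) h3 (PT.const 0)
  refine ((K.W.pf.comap hq).pt_sumZ (f := fun z y =>
    if z.2.2.2 = true ∧ (y.1 : ℕ) = 0 then K.Z.gen (K.p z.1) z.2.2.1 y else 0) h6).congr fun z => ?_
  refine sum_congr rfl fun y _ => ?_
  by_cases k : z.2.2.2 = true <;> by_cases k' : (y.1 : ℕ) = 0 <;> simp [k, k', clk, hst]

end BcD

end Vale.Agent.P330Q
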