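import Vale.Agent.P330Q.BcDefs

/-! Long chains of cells: the words of the line and the local rules. -/

namespace Vale.Agent.P330Q

open Vale.Agent.Lib.PolyTime Vale.Agent.P330 Finset
open scoped Classical BigOperators

section Pure
variable {P B V X F J : Type} [Field F] {r : ℕ}

/-- Block diagonal matrices. -/
noncomputable def blk (m : V → V → F) (z z' : J × V) : F := if z.1 = z'.1 then m z.2 z'.2 else 0

theorem cw_blk [Fintype J] [Fintype V] (m : V → V → F) (y : J × V → F) (z : J × V) :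
    cw (blk m) y z = cw m (fun v => y (z.1, v)) z.2 := by
  simp [cw, blk, Fintype.sum_prod_type]

/-- The history at time `p`. -/
def hst (π : B → Equiv.Perm P) (f : ℕ → P → V → (B × V → F) → F) (u : P → V → F) (r p : ℕ)
    (x : P) (z : Fin (r + 2) × V) : F := if (z.1 : ℕ) < p then prun π f u z.1 x z.2 else 0

/-- The clock at time `p`. -/
def clk (V F : Type) [Field F] (r p : ℕ) (z : Fin (r + 2) × V) : F :=
  if (z.1 : ℕ) = p then 1 else 0

/-- The input placed in the first slot. -/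
def emb (r : ℕ) (u : V → F) (z : Fin (r + 2) × V) : F := if (z.1 : ℕ) = 0 then u z.2 else 0

/-- Two tables of cells: a word `h` and copies of one message `k`. -/
def tbl {W : Type} [Fintype W] (gen : X → W → F) (k : W → F) (h : P → W → F) (z : P × X × Bool) :
    F := cw gen (if z.2.2 = true then k else h z.1) z.2.1

/-- The word of the line at time `p`. -/
def BW [Fintype V] (gen : X → Fin (r + 2) × V → F) (π : B → Equiv.Perm P)
    (f : ℕ → P → V → (B × V → F) → F) (u : P → V → F) (p : ℕ) : P × X × Bool → F :=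
  tbl gen (clk V F r p) (hst π f u r p)

/-- A tuple of messages: history, clock, input, histories of the neighbours. -/
def tup {W : Type} (h k e : W → F) (n : B → W → F) (z : (Fin 3 ⊕ B) × W) : F :=
  Sum.elim ![h, k, e] n z.1 z.2

/-- The value to be written in a slot. -/
def gv (f : ℕ → P → V → (B × V → F) → F) (x : P) (w : (Fin 3 ⊕ B) × Fin (r + 2) × V → F)
    (z : Fin (r + 2) × V) : F :=
  if (z.1 : ℕ) = 0 then w (.inl 2, z) else ∑ t : Fin r, if (z.1 : ℕ) = t + 1 then
    f t x z.2 (fun y => w (.inr y.1, t.castSucc.castSucc, y.2)) else 0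

/-- The next clock. -/
def sK (k : Fin (r + 2) × V → F) (z : Fin (r + 2) × V) : F :=
  ∑ j : Fin (r + 2), if (z.1 : ℕ) = j + 1 then k (j, z.2) else 0

/-- The previous clock. -/
def pK (k : Fin (r + 2) × V → F) (z : Fin (r + 2) × V) : F :=
  ∑ j : Fin (r + 2), if (j : ℕ) = z.1 + 1 then k (j, z.2) else 0

/-- The indicator of the filled slots. -/
def gK (k : Fin (r + 2) × V → F) (z : Fin (r + 2) × V) : F :=
  ∑ j : Fin (r + 2), if (z.1 : ℕ) < j then k (j, z.2) else 0

/-- The successor rule. -/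
def sucR (f : ℕ → P → V → (B × V → F) → F) (x : P) (b : Bool)
    (w : (Fin 3 ⊕ B) × Fin (r + 2) × V → F) (z : Fin (r + 2) × V) : F :=
  if b = true then sK (fun y => w (.inl 1, y)) z else w (.inl 0, z) + w (.inl 1, z) * gv f x w z

/-- The predecessor rule. -/
def preR (b : Bool) (w : Bool × Fin (r + 2) × V → F) (z : Fin (r + 2) × V) : F :=
  if b = true then pK (fun y => w (true, y)) z
  else w (false, z) * (1 - pK (fun y => w (true, y)) z)

/-- The relations of the tester. -/
noncomputable def relT {G S : Type} [Fintype S] [Fintype V] (H : Bool → S → S → F)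
    (nb : S → Equiv.Perm G) (m : Bool → G × S → V → V → F)
    (f : ℕ → G × S → V → (B × V → F) → F) (x : G × S)
    (e : (Fin 4 × Bool × S) × (Fin (r + 2) × V) × Fin (r + 2) × V)
    (w : ((Fin 3 ⊕ B) ⊕ Bool × S) × Fin (r + 2) × V → F) : F :=
  if e.1.1 = 0 then w (.inl (.inl 0), e.2.1) - gK (fun y => w (.inl (.inl 1), y)) e.2.1 *
    gv f x (fun y => w (.inl y.1, y.2)) e.2.1
  else if e.1.1 = 1 then w (.inl (.inl 1), e.2.1) * w (.inl (.inl 1), e.2.2) -
    if e.2.1.1 = e.2.2.1 then w (.inl (.inl 1), e.2.1) else 0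
  else if e.1.1 = 2 then ∑ j : Fin (r + 2), w (.inl (.inl 1), j, e.2.1.2) - 1
  else ∑ s, H e.1.2.1 e.1.2.2 s * cw (blk (m e.1.2.1 (vwp nb e.1.2.1 x.1 s)))
    (fun y => w (.inr (e.1.2.1, s), y)) e.2.1

/-- The messages read by the tester on a pair of words. -/
def tupT {G S W : Type} (nb : S → Equiv.Perm G) (π : B → Equiv.Perm (G × S))
    (y : G × S → W → F) (k e : W → F) (x : G × S) (z : ((Fin 3 ⊕ B) ⊕ Bool × S) × W) : F :=
  Sum.elim (fun i => tup (y x) k e (fun j => y (π j x)) (i, z.2))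
    (fun i => y (vwp nb i.1 x.1 i.2) z.2) z.1

/-- The nodes read by the tester. -/
def slT {G S : Type} (nb : S → Equiv.Perm G) (π : B → Equiv.Perm (G × S)) (x : G × S)
    (i : (Fin 3 ⊕ B) ⊕ Bool × S) (ξ : X) : ((G × S) × X ⊕ (G × S) × X × Bool) ⊕ X :=
  Sum.elim (Sum.elim ![.inl (.inr (x, ξ, false)), .inr ξ, .inl (.inl (x, ξ))]
    fun j => .inl (.inr (π j x, ξ, false))) (fun j => .inl (.inr (vwp nb j.1 x.1 j.2, ξ, false))) i

end Pure

theorem pt_blk {l : ℕ} [Fact l.Prime] {C : Type} [Enc C] {P J V : C → Type} [∀ c, Enc (P c)]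
    [∀ c, Enc (J c)] [∀ c, Enc (V c)] {m : ∀ c, P c → V c → V c → ZMod l}
    (h : PT fun z : Σ c, P c × V c × V c => m z.1 z.2.1 z.2.2.1 z.2.2.2) :
    PT fun z : Σ c, P c × (J c × V c) × J c × V c => blk (m z.1 z.2.1) z.2.2.1 z.2.2.2 := by
  have h1 : D fun z : Σ c, P c × (J c × V c) × J c × V c => z.2.1 := D.s1
  have h2 : D fun z : Σ c, P c × (J c × V c) × J c × V c => z.2.2.1 := D.fst D.s2
  have h3 : D fun z : Σ c, P c × (J c × V c) × J c × V c => z.2.2.2 := D.snd D.s2
  exact PT.ite (D.eq h2.fst h3.fst) (h.comp (pt_sigma_mk (X := fun c => P c × V c × V c)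
    pt_sigma_fst (h1.pair (h2.snd.pair h3.snd)))) (PT.const 0)

/-- Powers of twisted codes. -/
noncomputable def Tw.pow {l : ℕ} [Fact l.Prime] {C U : Type} [Enc C] [Enc U] {S : Type} [Fintype S]
    [Enc S] {lam : ℝ} {p : C → U} {V : Fam U} (T : Tw l S lam p V) (J : Fam U) :
    Tw l S lam p (J.prod V) where
  Y := T.Y
  m c b x := blk (T.m c b x)
  m' c b x := blk (T.m' c b x)
  pm b := pt_blk (m := fun c => T.m c b) (T.pm b)
  pm' b := pt_blk (m := fun c => T.m' c b) (T.pm' b)
  inv c b x w := funext fun z => by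
    simp only [cw_blk]
    exact congrFun (T.inv c b x fun v => w (z.1, v)) z.2

/-- The slots of the history. -/
@[reducible] def slots {U : Type} [Enc U] (V : Fam U) {r : U → ℕ} (hr : PT r) (hr' : PB r) : Fam U :=
  (Fam.ofFin (fun u => r u + 2) (hr.add (PT.const 2)) (hr'.add (PB.const 2))).prod V

/-- The data of a long chain. -/
structure BcD (l : ℕ) [Fact l.Prime] (δ : ℝ) (d : ℕ) {C : Type} [Enc C] (U : Type) [Enc U]
    (a lg : C → ℕ) (S B : Type) [Fintype S] [Enc S] [Fintype B] [Enc B] (lam : ℝ) : Type 1 where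
  p : C → U
  hp : PT p
  hs : Pl lg fun c => sz (p c)
  V : Fam U
  T : Tw l S lam p V
  π : ∀ c, B → Equiv.Perm (T.Y.G.T c × S)
  r : U → ℕ
  hr : PT r
  hr' : PB r
  f : ∀ c, ℕ → T.Y.G.T c × S → V.T (p c) → (B × V.T (p c) → ZMod l) → ZMod l
  neV : ∀ u, Nonempty (V.T u)
  size : Sz a lg fun c => Fintype.card (T.Y.G.T c)
  dπ : ∀ i, D2 fun c x => π c i x
  pol : Pol d ((Fam.const C B).prod (V.comap p hp))
    (T.Y.Pos.prod (((Fam.ofFin r hr hr').prod V).comap p hp)) fun c z => f c z.2.1 z.1 z.2.2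
  Z : Cell l δ (slots V hr hr')

namespace BcD
variable {l : ℕ} [Fact l.Prime] {δ : ℝ} {d : ℕ} {C U : Type} [Enc C] [Enc U] {a lg : C → ℕ}
  {S B : Type} [Fintype S] [Enc S] [Fintype B] [Enc B] {lam : ℝ} (K : BcD l δ d U a lg S B lam)

/-- The messages of the cells of the line. -/
@[reducible] def W : Fam U := slots K.V K.hr K.hr'

/-- The positions of one table of cells. -/
@[reducible] def Tb : Fam C := K.T.Y.Pos.prod (K.Z.X.comap K.p K.hp)

/-- The positions of the words of the line. -/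
@[reducible] def Ln : Fam C := K.T.Y.Pos.prod ((K.Z.X.prod (Fam.const U Bool)).comap K.p K.hp)

/-- The twisted code of the histories. -/
@[reducible] noncomputable def Tp : Tw l S lam K.p K.W := K.T.pow _

/-- The indices of the relations of the tester. -/
@[reducible] def E : Fam U := (Fam.const U (Fin 4 × Bool × S)).prod (K.W.prod K.W)

/-- The words of the line. -/
noncomputable def Wd (c : C) (u : K.T.Y.G.T c × S → K.V.T (K.p c) → ZMod l) (q : ℕ) :
    K.Ln.T c → ZMod l := BW (K.Z.gen (K.p c)) (K.π c) (K.f c) u q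

/-- The input as a table of cells. -/
noncomputable def In (c : C) (u : K.T.Y.G.T c × S → K.V.T (K.p c) → ZMod l) :
    K.Tb.T c → ZMod l := cells (K.Z.gen (K.p c)) fun x => emb (K.r (K.p c)) (u x)

/-- The promise on the input. -/
def Ok (C0 : Bool → Submodule (ZMod l) (S → ZMod l)) (c : C)
    (u : K.T.Y.G.T c × S → K.V.T (K.p c) → ZMod l) : Prop :=
  ∀ t ≤ K.r (K.p c), prun (K.π c) (K.f c) u t ∈ twc C0 (K.T.Y.nb c) (K.T.m c)

end BcD

end Vale.Agent.P330Q
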