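import Vale.Agent.P330Q.BcPol

/-! Long chains of cells: the maps of the line are computable polynomials. -/

namespace Vale.Agent.P330Q

open Vale.Agent.Lib.PolyTime Vale.Agent.P330 Finset
open scoped Classical BigOperators

namespace BcD
variable {l : ℕ} [Fact l.Prime] {δ : ℝ} {d : ℕ} {C U : Type} [Enc C] [Enc U] {a lg : C → ℕ}
  {S B : Type} [Fintype S] [Enc S] [Fintype B] [Enc B] {lam : ℝ} (K : BcD l δ d U a lg S B lam)

theorem bps_cw {e : ℕ} {V J : Fam C} {W : Fam U} (Z : Cell l δ W) {x : ∀ c, J.T c → Z.X.T (K.p c)}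
    (hx : D2 x) {g : ∀ c, J.T c → (V.T c → ZMod l) → W.T (K.p c) → ZMod l}
    (h : Pol e V (J.prod (W.comap K.p K.hp)) fun c z w => g c z.1 w z.2) :
    Pol e V J fun c j w => cw (Z.gen (K.p c)) (g c j w) (x c j) :=
  Pol.sum (K := W.comap K.p K.hp) (f := fun c j y w => Z.gen (K.p c) (x c j) y * g c j w y)
    (h.cmul (a := fun c (z : J.T c × W.T (K.p c)) => Z.gen (K.p c) (x c z.1) z.2)
      (pt_app2 Z.pt (K.hp.comp pt_sigma_fst) (hx.app pt_sigma_fst D.s1) D.s2))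

theorem bps_var {A : Type} [Fintype A] [Enc A] {W : Fam U} {J : Fam C} {i : ∀ c, J.T c → A}
    {y : ∀ c, J.T c → W.T (K.p c)} (hi : D2 (Y := fun _ => A) i) (hy : D2 y) :
    Pol (l := l) 1 ((Fam.const C A).prod (W.comap K.p K.hp)) J fun c j w => w (i c j, y c j) :=
  Pol.var (V := (Fam.const C A).prod (W.comap K.p K.hp)) (x := fun c j => (i c j, y c j))
    (D.pair hi hy)

theorem bps_sh {A : Type} [Fintype A] [Enc A] (i : A) {J : Fam C} {y : ∀ c, J.T c → K.W.T (K.p c)}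
    (hy : D2 y) (R : ℕ → ℕ → Prop) [∀ u v, Decidable (R u v)] (hR : PT fun z : ℕ × ℕ => R z.1 z.2) :
    Pol (l := l) 1 ((Fam.const C A).prod (K.W.comap K.p K.hp)) J fun c j w =>
      ∑ t : Fin (K.r (K.p c) + 2), if R (y c j).1 t then w (i, t, (y c j).2) else 0 := by
  have h1 : D fun z : Σ c, J.T c × Fin (K.r (K.p c) + 2) => y z.1 z.2.1 := hy.app pt_sigma_fst D.s1
  have h2 : D fun z : Σ c, J.T c × Fin (K.r (K.p c) + 2) => z.2.2 := D.s2
  refine Pol.sum (K := (Fam.ofFin _ (K.hr.add (PT.const 2)) (K.hr'.add (PB.const 2))).comap K.p K.hp)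
    ?_
  exact Pol.ite (hR.comp ((D.fin_iff.1 h1.fst).mk (D.fin_iff.1 h2)))
    (K.bps_var (W := K.W) (D.const i) (h2.pair h1.snd)) Pol.zero

theorem pol_in : Pol 1 ((Fam.const C Unit).prod (K.V.comap K.p K.hp)) K.Tb
    fun c z w => cw (K.Z.gen (K.p c)) (emb (K.r (K.p c)) fun v => w ((), v)) z.2 := by
  have h2 : D fun z : Σ c, K.Tb.T c × K.W.T (K.p c) => z.2.2 := D.s2
  refine K.bps_cw K.Z D.s2 ?_
  exact Pol.ite (PT.eq (D.fin_iff.1 h2.fst) (PT.const 0)) (K.bps_var (D.const ()) h2.snd) Pol.zero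

theorem pol_out (Z : Cell l δ K.V) : Pol 1 ((Fam.const C Unit).prod (K.W.comap K.p K.hp))
    (K.T.Y.Pos.prod (Z.X.comap K.p K.hp))
    fun c z w => cw (Z.gen (K.p c)) (fun v => w ((), (Fin.last _).castSucc, v)) z.2 := by
  refine K.bps_cw Z D.s2 ?_
  exact K.bps_var (W := K.W) (D.const ())
    ((D.fin_iff.2 (K.hr.comp (K.hp.comp pt_sigma_fst))).pair D.s2)

theorem pol_suc : Pol (d + 2) ((Fam.const C (Fin 3 ⊕ B)).prod (K.W.comap K.p K.hp)) K.Ln
    fun c z w => cw (K.Z.gen (K.p c)) (sucR (K.f c) z.1 z.2.2 w) z.2.1 := by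
  have h1 : D fun z : Σ c, K.Ln.T c × K.W.T (K.p c) => z.2.1 := D.s1
  have h2 : D fun z : Σ c, K.Ln.T c × K.W.T (K.p c) => z.2.2 := D.s2
  have h3 : ∀ i : Fin 3 ⊕ B, Pol (l := l) 1 ((Fam.const C (Fin 3 ⊕ B)).prod (K.W.comap K.p K.hp))
      (K.Ln.prod (K.W.comap K.p K.hp)) fun c z w => w (i, z.2) := fun i =>
    K.bps_var (D.const i) h2
  have h4 := K.pol_gv.comp (K := K.Ln.prod (K.W.comap K.p K.hp)) (x := fun _ z => (z.1.1, z.2))
    (h1.fst.pair h2)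
  have h5 := K.bps_sh (J := K.Ln.prod (K.W.comap K.p K.hp)) (y := fun _ z => z.2)
    (.inl 1 : Fin 3 ⊕ B) h2 (fun u v => u = v + 1) (by fun_prop)
  refine K.bps_cw K.Z (D.fst D.s2) ?_
  exact Pol.ite (PT.eq h1.snd.snd.pt (PT.const true)) (h5.mono (by omega))
    (((h3 _).mono (by omega)).add (((h3 _).mul h4).mono (by omega)))

theorem pol_pre : Pol 2 ((Fam.const C Bool).prod (K.W.comap K.p K.hp)) K.Ln
    fun c z w => cw (K.Z.gen (K.p c)) (preR z.2.2 w) z.2.1 := by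
  have h1 : D fun z : Σ c, K.Ln.T c × K.W.T (K.p c) => z.2.1 := D.s1
  have h2 : D fun z : Σ c, K.Ln.T c × K.W.T (K.p c) => z.2.2 := D.s2
  have h3 := K.bps_sh (J := K.Ln.prod (K.W.comap K.p K.hp)) (y := fun _ z => z.2) true h2
    (fun u v => v = u + 1) (by fun_prop)
  refine K.bps_cw K.Z (D.fst D.s2) ?_
  exact Pol.ite (PT.eq h1.snd.snd.pt (PT.const true)) (h3.mono (by omega))
    ((K.bps_var (D.const false) h2).mul (Pol.one.sub h3))

theorem pol_sel : Pol 1 ((Fam.const C Bool).prod (K.W.comap K.p K.hp)) K.Ln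
    fun c z w => cw (K.Z.gen (K.p c)) (fun y => w (z.2.2, y)) z.2.1 := by
  have h1 : D fun z : Σ c, K.Ln.T c × K.W.T (K.p c) => z.2.1 := D.s1
  refine K.bps_cw K.Z (D.fst D.s2) ?_
  exact K.bps_var h1.snd.snd D.s2

end BcD

end Vale.Agent.P330Q
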