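import Vale.Agent.P330Q.BcAux
import Vale.Agent.P330Q.BcPolS

/-! Long chains of cells: the corrector of the line. -/

namespace Vale.Agent.P330Q

open Vale.Agent.Lib.PolyTime Vale.Agent.P330 Finset
open scoped Classical BigOperators

theorem bcl_dens {P X : Type} [Fintype P] [Fintype X] [Nonempty P] (i : Bool) (u : (P × X) ⊕ X) :
    fr (P × X) (fun z =>
      (if i = true then Sum.inr z.2 else Sum.inl (z.1, z.2) : (P × X) ⊕ X) = u) ≤
      1 * Sum.elim (fun _ => (Fintype.card (P × X) : ℝ)⁻¹) (fun _ => (Fintype.card X : ℝ)⁻¹) u := by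
  rcases u with x | a
  · refine (fr_mono (E' := fun z => z = x) fun z h => ?_).trans ?_
    · split_ifs at h
      exact Sum.inl.inj h
    · rw [(MP.refl (X := P × X)).single, one_mul]
      exact le_rfl
  · refine (fr_mono (E' := fun z => z.2 = a) fun z h => ?_).trans ?_
    · split_ifs at h
      exact Sum.inr.inj h
    · rw [(MP.snd (X := P) (Y := X)).single, one_mul]
      exact le_rfl

theorem bcl_far {P X W F : Type} [Fintype P] [Fintype X] [Fintype W] [Field F] [Fintype F]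
    (gen : X → W → F) (k : W → F) (h : P → W → F) {y : (P × X) ⊕ X → F → ℝ} (hy : IsDist y)
    {δ e : ℝ} (hδ : 0 < δ) (h1 : du (fun z => y (.inl z)) (cells gen h) ≤ e)
    (h2 : du (fun ξ => y (.inr ξ)) (cw gen k) ≤ δ) :
    fr P (fun o => ∃ i : Bool, δ < du (fun ξ => y (if i = true then .inr ξ else .inl (o, ξ)))
      (cw gen fun v => (if i = true then k else h o) v)) ≤ e / δ := by
  have h3 := bc_far (x := fun z : P × X => y (.inl z)) (fun z => hy _) (cells gen h) hδ
  refine (fr_mono fun o ho => ?_).trans (h3.trans (div_le_div_of_nonneg_right h1 hδ.le))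
  obtain ⟨i, hi⟩ := ho
  cases i
  · exact hi
  · exact absurd (hi.trans_le h2) (lt_irrefl _)

theorem bcl_half {P X W F : Type} [Fintype P] [Fintype X] [Fintype W] [Field F] [Fintype F]
    (gen : X → W → F) (k : W → F) (h : P → W → F) {z : P × X × Bool → F → ℝ} (hz : IsDist z)
    {e : ℝ} (h1 : du z (tbl gen k h) ≤ e) :
    du (fun o : P × X => z (o.1, o.2, false)) (cells gen h) ≤ 2 * e ∧
      du (fun o : P × X => z (o.1, o.2, true)) (fun o => cw gen k o.2) ≤ 2 * e := by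
  have h2 : du z (tbl gen k h) = (du (fun o : P × X => z (o.1, o.2, false)) (cells gen h) +
      du (fun o : P × X => z (o.1, o.2, true)) (fun o => cw gen k o.2)) / 2 := du_tab z _
  have h3 := du_nonneg (p := fun o : P × X => z (o.1, o.2, false)) (fun o => hz _) (cells gen h)
  have h4 := du_nonneg (p := fun o : P × X => z (o.1, o.2, true)) (fun o => hz _)
    fun o => cw gen k o.2
  constructor <;> linarith

namespace BcD
variable {l : ℕ} [Fact l.Prime] {δ : ℝ} {d : ℕ} {C U : Type} [Enc C] [Enc U] {a lg : C → ℕ}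
  {S B : Type} [Fintype S] [Enc S] [Fintype B] [Enc B] {lam : ℝ} (K : BcD l δ d U a lg S B lam)
  {C0 : Bool → Submodule (ZMod l) (S → ZMod l)} {δ0 : ℝ}

/-- The corrected table and the mean of the copies, read as pairs of cells. -/
noncomputable def bcl_arr [Nonempty S] : Arr l a lg K.p K.Z Bool
    ((Reg.of K.Tb).sum (.of (K.Z.X.comap K.p K.hp))) K.T.Y.Pos where
  sl _ o b ξ := if b = true then .inr ξ else .inl (o, ξ)
  κ := 1
  ne := K.neP
  size := K.szP
  d_sl i := by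
    have h0 : D (Y := fun z : Σ c, K.T.Y.Pos.T c × K.Z.X.T (K.p c) =>
      K.T.Y.Pos.T z.1 × K.Z.X.T (K.p z.1)) fun z => z.2 := D.sigma_snd
    cases i
    · exact h0.inl
    · exact h0.snd.inr
  dens c i u := by
    have := K.neP c
    exact bcl_dens (P := K.T.Y.G.T c × S) (X := K.Z.X.T (K.p c)) i u

theorem impl_cor (hδ : 0 < δ) (hM : CellMapThm l δ) (hC : TwCorThm l δ) (hT : TanGood δ0 lam S)
    (hd0 : ∀ b, Dist0 (C0 b) δ0) {η : ℝ} (hη : 0 < η) :
    ImplS (ZMod l) a lg (.of K.Ln) (.of K.Ln) fun c z y =>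
      ∀ h ∈ twc C0 (K.T.Y.nb c) (K.Tp.m c), ∀ k,
        du z (tbl (K.Z.gen (K.p c)) k h) ≤ δ * δ0 ^ 2 / 256 →
          du y (tbl (K.Z.gen (K.p c)) k h) ≤ η := by
  have := hT.neS
  have h0 : D (Y := fun z : Σ c, K.T.Y.Pos.T c × K.Z.X.T (K.p c) =>
    K.T.Y.Pos.T z.1 × K.Z.X.T (K.p z.1)) fun z => z.2 := D.sigma_snd
  have g1 := bc_half K.T.Y.Pos (K.Z.X.comap K.p K.hp)
    (hC C U a lg K.p K.hp K.hs S C0 δ0 lam hT hd0 K.W K.Z K.Tp K.size (δ * η / 2)
      (by positivity)) false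
  have g2 := bc_mean (F := ZMod l) (a := a) (lg := lg) (I := .of K.Ln) (K.Z.X.comap K.p K.hp)
    K.T.Y.Pos (fun c => K.Z.ne _) K.neP (fun _ o ξ => (o, ξ, true))
    (h0.fst.pair (h0.snd.pair (D.const true))) 2
    (fun c u => fr_tab_le (f := fun z : K.T.Y.Pos.T c × K.Z.X.T (K.p c) => z) MP.refl
      (fun _ => true) u) K.szTb (η := δ / 2) (by positivity)
  have g3 := hM 1 C U a lg K.p K.hp K.hs K.W (K.Z.X.prod (Fam.const U Bool)) K.Z Bool
    ((Reg.of K.Tb).sum (.of (K.Z.X.comap K.p K.hp))) K.T.Y.Pos K.bcl_arr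
    (fun c _ j w => cw (K.Z.gen (K.p c)) (fun y => w (j.2, y)) j.1)
    (fun u => by have := K.Z.ne u; infer_instance) K.pol_sel (η / 2) (by positivity)
  refine ((ImplS.par (I := .of K.Ln) g1 g2).trans g3).mono ?_
  rintro c z y hz - ⟨y1, hy1, ⟨k1, k2⟩, k3⟩ h hh k hk
  obtain ⟨a1, a2⟩ := bcl_half (K.Z.gen (K.p c)) k h hz hk
  have a3 := k1 h hh (a1.trans (le_of_eq (by ring)))
  have a4 := (abs_le.1 (k2 (cw (K.Z.gen (K.p c)) k))).2
  have a5 : δ * δ0 ^ 2 ≤ δ := mul_le_of_le_one_right hδ.le (pow_le_one₀ hT.1.le hT.2.1)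
  have a8 := (sub_le_iff_le_add.1 a4).trans (add_le_add le_rfl a2)
  have a6 := bcl_far (K.Z.gen (K.p c)) k h hy1 hδ a3 (a8.trans (by linarith))
  have a7 : δ * η / 2 / δ = η / 2 := by field_simp
  refine (k3 fun o v => (if v.1 = true then k else h o) v.2).trans ?_
  rw [a7] at a6
  exact (add_le_add le_rfl a6).trans (le_of_eq (by ring))

end BcD

end Vale.Agent.P330Q
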