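import Vale.Agent.P330Q.BcAux
import Vale.Agent.P330Q.BcAlg
import Vale.Agent.P330Q.BcPolS

/-! Long chains of cells: the successor. -/

namespace Vale.Agent.P330Q

open Vale.Agent.Lib.PolyTime Vale.Agent.P330 Finset
open scoped Classical BigOperators

/-- The nodes read by the successor. -/
def bsu_sl {P X B : Type} (π : B → Equiv.Perm P) (o : P) (i : Fin 3 ⊕ B) (ξ : X) :
    P × X ⊕ P × X × Bool :=
  Sum.elim ![.inr (o, ξ, false), .inr (o, ξ, true), .inl (o, ξ)] (fun j => .inr (π j o, ξ, false)) i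

theorem bsu_inr {P X Q : Type} [Fintype P] [Fintype X] [Fintype Q] {f : Q → P × X} (hf : MP f)
    (b : Bool) (u : P × X ⊕ P × X × Bool) :
    fr Q (fun q => (Sum.inr ((f q).1, (f q).2, b) : P × X ⊕ P × X × Bool) = u) ≤
      2 * Sum.elim (fun _ => (Fintype.card (P × X) : ℝ)⁻¹)
        (fun _ => (Fintype.card (P × X × Bool) : ℝ)⁻¹) u := by
  rcases u with u | u
  · simp only [reduceCtorEq, fr_false, Sum.elim_inl]
    positivity
  · simp only [Sum.inr.injEq, Sum.elim_inr]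
    exact fr_tab_le hf (fun _ => b) u

theorem bsu_dens {P X B : Type} [Fintype P] [Fintype X] (π : B → Equiv.Perm P) (i : Fin 3 ⊕ B)
    (u : P × X ⊕ P × X × Bool) : fr (P × X) (fun z => bsu_sl π z.1 i z.2 = u) ≤
      2 * Sum.elim (fun _ => (Fintype.card (P × X) : ℝ)⁻¹)
        (fun _ => (Fintype.card (P × X × Bool) : ℝ)⁻¹) u := by
  rcases i with i | j
  · fin_cases i
    · exact bsu_inr MP.refl false u
    · exact bsu_inr MP.refl true u
    · show fr (P × X) (fun z => (Sum.inl (z.1, z.2) : P × X ⊕ P × X × Bool) = u) ≤ _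
      rcases u with u | u
      · simp only [Sum.inl.injEq, Sum.elim_inl, Prod.mk.eta, fr_single]
        have : (0 : ℝ) ≤ (Fintype.card (P × X) : ℝ)⁻¹ := by positivity
        linarith
      · simp only [reduceCtorEq, fr_false, Sum.elim_inr]
        positivity
  · exact bsu_inr (MP.prod (MP.equiv (π j)) MP.refl) false u

namespace BcD
variable {l : ℕ} [Fact l.Prime] {δ : ℝ} {d : ℕ} {C U : Type} [Enc C] [Enc U] {a lg : C → ℕ}
  {S B : Type} [Fintype S] [Enc S] [Fintype B] [Enc B] {lam : ℝ} (K : BcD l δ d U a lg S B lam)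
  {C0 : Bool → Submodule (ZMod l) (S → ZMod l)} {δ0 : ℝ}

theorem bsu_d (i : Fin 3 ⊕ B) : D3 fun c (o : K.T.Y.G.T c × S) (ξ : K.Z.X.T (K.p c)) =>
    bsu_sl (K.π c) o i ξ := by
  have h1 : D fun z : Σ c, (K.T.Y.G.T c × S) × K.Z.X.T (K.p c) => z.2.1 := D.s1
  have h2 : D fun z : Σ c, (K.T.Y.G.T c × S) × K.Z.X.T (K.p c) => z.2.2 := D.s2
  have h3 : ∀ b : Bool, D fun z : Σ c, (K.T.Y.G.T c × S) × K.Z.X.T (K.p c) => (z.2.2, b) :=
    fun b => h2.pair (D.const b)
  rcases i with i | j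
  · fin_cases i
    · exact D.inr (h1.pair (h3 false))
    · exact D.inr (h1.pair (h3 true))
    · exact D.inl (h1.pair h2)
  · exact D.inr (((K.dπ j).app pt_sigma_fst h1).pair (h3 false))

theorem impl_suc [Nonempty S] (hδ : 0 < δ) (hM : CellMapThm l δ) {η : ℝ} (hη : 0 < η) :
    ImplS (ZMod l) a lg ((Reg.of K.Tb).sum (.of K.Ln)) (.of K.Ln) fun c z y =>
      ∀ u q, q + 1 < K.r (K.p c) + 2 → du y (K.Wd c u (q + 1)) ≤ (Fintype.card B + 3) * 2 *
        (du (fun i => z (.inl i)) (K.In c u) + du (fun i => z (.inr i)) (K.Wd c u q)) / δ + η := by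
  let R : Arr l a lg K.p K.Z (Fin 3 ⊕ B) ((Reg.of K.Tb).sum (.of K.Ln)) K.T.Y.Pos :=
    ⟨fun c o i ξ => bsu_sl (K.π c) o i ξ, 2, K.neP, K.szP, K.bsu_d,
      fun c i u => bsu_dens (K.π c) i u⟩
  refine (hM (d + 2) C U a lg K.p K.hp K.hs K.W (K.Z.X.prod (Fam.const U Bool)) K.Z (Fin 3 ⊕ B)
    _ K.T.Y.Pos R (fun c o j w => cw (K.Z.gen (K.p c)) (sucR (K.f c) o j.2 w) j.1)
    (fun u => (K.Z.ne u).elim fun x => ⟨(x, true)⟩) K.pol_suc η hη).mono
    fun c z y hz _ h u q hq => ?_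
  have h1 := h fun o => tup (hst (K.π c) (K.f c) u (K.r (K.p c)) q o) (clk _ _ _ q)
    (emb _ (u o)) fun i => hst (K.π c) (K.f c) u (K.r (K.p c)) q (K.π c i o)
  have h2 := R.bc_far hz (Sum.elim (K.In c u) (K.Wd c u q))
    (fun o => tup (hst (K.π c) (K.f c) u (K.r (K.p c)) q o) (clk _ _ _ q)
      (emb _ (u o)) fun i => hst (K.π c) (K.f c) u (K.r (K.p c)) q (K.π c i o))
    (fun o i ξ => by
      rcases i with i | j
      · fin_cases i <;> rfl
      · rfl) hδ
  simp only [sucR_W hq] at h1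
  have e1 : dw (((Reg.of K.Tb).sum (.of K.Ln)).w c) z (Sum.elim (K.In c u) (K.Wd c u q)) =
      du (fun i => z (.inl i)) (K.In c u) + du (fun i => z (.inr i)) (K.Wd c u q) := by
    rw [← dw_unif, ← dw_unif]
    exact dw_sum _ _ _ _
  have e2 : (Fintype.card (Fin 3 ⊕ B) : ℝ) = Fintype.card B + 3 := by
    rw [Fintype.card_sum, Fintype.card_fin]
    push_cast
    ring
  rw [e1, e2] at h2
  exact h1.trans (by rw [add_comm]; exact add_le_add_left h2 η)

end BcD

end Vale.Agent.P330Q
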