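import Vale.Agent.P330Q.BcPol

/-! Long chains of cells: the relations of the tester are computable polynomials. -/

namespace Vale.Agent.P330Q

open Vale.Agent.Lib.PolyTime Vale.Agent.P330 Finset
open scoped Classical BigOperators

section Gen
variable {l : ℕ} [NeZero l] {C A S : Type} [Enc C] [Fintype A] [Enc A] [Fintype S] [Enc S]
  {V W J : Fam C} {n : C → ℕ}

theorem bpt_var (a : A) {x : ∀ c, J.T c → W.T c} (hx : D2 x) :
    Pol (l := l) 1 ((Fam.const C A).prod W) J fun c j w => w (a, x c j) :=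
  Pol.var (V := (Fam.const C A).prod W) (x := fun c j => (a, x c j)) ((D.const a).pair hx)

theorem bpt_gK (hn : PT n) (hn' : PB n) (a : A) {x : ∀ c, J.T c → Fin (n c) × V.T c} (hx : D2 x) :
    Pol (l := l) 1 ((Fam.const C A).prod ((Fam.ofFin n hn hn').prod V)) J fun c j w =>
      ∑ t : Fin (n c), if ((x c j).1 : ℕ) < t then w (a, t, (x c j).2) else 0 := by
  have h0 : D fun z : Σ c, J.T c × Fin (n c) => x z.1 z.2.1 := hx.app pt_sigma_fst D.s1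
  have h1 : D fun z : Σ c, J.T c × Fin (n c) => z.2.2 := D.s2
  exact Pol.sum (V := (Fam.const C A).prod ((Fam.ofFin n hn hn').prod V)) (J := J)
    (K := Fam.ofFin n hn hn')
    (f := fun c j t w => if ((x c j).1 : ℕ) < t then w (a, t, (x c j).2) else 0)
    (Pol.ite (PT.lt (D.fin_iff.1 h0.fst) (D.fin_iff.1 h1))
      (bpt_var (W := (Fam.ofFin n hn hn').prod V) (J := J.prod (Fam.ofFin n hn hn')) a
        (x := fun c z => (z.2, (x c z.1).2)) (h1.pair h0.snd)) Pol.zero)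

theorem bpt_sum (hn : PT n) (hn' : PB n) (a : A) {x : ∀ c, J.T c → V.T c} (hx : D2 x) :
    Pol (l := l) 1 ((Fam.const C A).prod ((Fam.ofFin n hn hn').prod V)) J fun c j w =>
      ∑ t : Fin (n c), w (a, t, x c j) := by
  have h0 : D fun z : Σ c, J.T c × Fin (n c) => x z.1 z.2.1 := hx.app pt_sigma_fst D.s1
  have h1 : D fun z : Σ c, J.T c × Fin (n c) => z.2.2 := D.s2
  exact Pol.sum (V := (Fam.const C A).prod ((Fam.ofFin n hn hn').prod V)) (J := J)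
    (K := Fam.ofFin n hn hn') (f := fun c j t w => w (a, t, x c j))
    (bpt_var (W := (Fam.ofFin n hn hn').prod V) (J := J.prod (Fam.ofFin n hn hn')) a
      (x := fun c z => (z.2, x c z.1)) (h1.pair h0))

theorem bpt_lin {h : ∀ c, J.T c → S → ZMod l} {M : ∀ c, J.T c → S → W.T c → ZMod l}
    {a : ∀ c, J.T c → S → A} (hh : PT fun z : Σ c, J.T c × S => h z.1 z.2.1 z.2.2)
    (hM : PT fun z : Σ c, (J.T c × S) × W.T c => M z.1 z.2.1.1 z.2.1.2 z.2.2)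
    (ha : PT fun z : Σ c, J.T c × S => a z.1 z.2.1 z.2.2) :
    Pol 1 ((Fam.const C A).prod W) J fun c j w =>
      ∑ s, h c j s * ∑ y, M c j s y * w (a c j s, y) := by
  have h0 : PT fun z : Σ c, (J.T c × S) × W.T c => a z.1 z.2.1.1 z.2.1.2 :=
    ha.comp (pt_sigma_mk (X := fun c => J.T c × S) pt_sigma_fst D.s1)
  have h1 : D fun z : Σ c, (J.T c × S) × W.T c => z.2.2 := D.s2
  have h2 : Pol (l := l) 1 ((Fam.const C A).prod W) ((J.prod (Fam.const C S)).prod W)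
      fun c z w => w (a c z.1.1 z.1.2, z.2) :=
    Pol.var (V := (Fam.const C A).prod W) (J := (J.prod (Fam.const C S)).prod W)
      (x := fun c z => (a c z.1.1 z.1.2, z.2)) ((D.of_pt h0).pair h1)
  have h3 : Pol 1 ((Fam.const C A).prod W) (J.prod (Fam.const C S))
      fun c z w => ∑ y, M c z.1 z.2 y * w (a c z.1 z.2, y) :=
    Pol.sum (V := (Fam.const C A).prod W) (J := J.prod (Fam.const C S)) (K := W)
      (f := fun c z y w => M c z.1 z.2 y * w (a c z.1 z.2, y)) (Pol.cmul hM h2)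
  exact Pol.sum (V := (Fam.const C A).prod W) (J := J) (K := Fam.const C S)
    (f := fun c j s w => h c j s * ∑ y, M c j s y * w (a c j s, y)) (Pol.cmul hh h3)

theorem bpt_vwp {B : Type} [Enc B] {lam : ℝ} (Y : TSys C S lam) (b : Bool) {q : B → C} (hq : PT q)
    {g : ∀ z, Y.G.T (q z)} (hg : D g) (s : S) : D fun z => vwp (Y.nb (q z)) b (g z) s := by
  cases b
  · exact hg.pair (D.const s)
  · exact ((Y.G.pf.d_symm (Y.d_nb s)).app hq hg).pair (D.const s)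

end Gen

namespace BcD
variable {l : ℕ} [Fact l.Prime] {δ : ℝ} {d : ℕ} {C U : Type} [Enc C] [Enc U] {a lg : C → ℕ}
  {S B : Type} [Fintype S] [Enc S] [Fintype B] [Enc B] {lam : ℝ} (K : BcD l δ d U a lg S B lam)

/-- The variables. -/
@[reducible] def bpt_V : Fam C :=
  (Fam.const C ((Fin 3 ⊕ B) ⊕ Bool × S)).prod (K.W.comap K.p K.hp)

/-- The indices. -/
@[reducible] def bpt_J : Fam C := K.T.Y.Pos.prod (K.E.comap K.p K.hp)

theorem bpt_x : D fun z : Σ c, K.bpt_J.T c => z.2.1 := D.s1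

theorem bpt_e : PT fun z : Σ c, K.bpt_J.T c => z.2.2.1 := (D.fst D.s2).pt

theorem bpt_y : D fun z : Σ c, K.bpt_J.T c => z.2.2.2.1 := D.fst (D.snd D.s2)

theorem bpt_y' : D fun z : Σ c, K.bpt_J.T c => z.2.2.2.2 := D.snd (D.snd D.s2)

theorem bpt_0 : Pol (d + 2) K.bpt_V K.bpt_J fun c z w =>
    w (.inl (.inl 0), z.2.2.1) - gK (fun y => w (.inl (.inl 1), y)) z.2.2.1 *
      gv (K.f c) z.1 (fun y => w (.inl y.1, y.2)) z.2.2.1 := by
  have h1 : Pol (l := l) 1 K.bpt_V K.bpt_J fun c z w => w (.inl (.inl 0), z.2.2.1) :=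
    bpt_var _ K.bpt_y
  have h2 : Pol (l := l) 1 K.bpt_V K.bpt_J fun c z w =>
      gK (fun y => w (.inl (.inl 1), y)) z.2.2.1 :=
    bpt_gK (V := K.V.comap K.p K.hp) ((K.hr.add (PT.const 2)).comp K.hp)
      ((K.hr'.add (PB.const 2)).comp K.hp) _ K.bpt_y
  have h3 : D fun z : Σ c, K.bpt_J.T c × (Fin 3 ⊕ B) × K.W.T (K.p c) => z.2.2 := D.s2
  have h4 : Pol (d + 1) K.bpt_V K.bpt_J fun c z w =>
      gv (K.f c) z.1 (fun y => w (.inl y.1, y.2)) z.2.2.1 :=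
    bc_pol_ren (V' := K.bpt_V) (K.pol_gv.comp (K := K.bpt_J) (x := fun c z => (z.1, z.2.2.1))
      (K.bpt_x.pair K.bpt_y)) (ρ := fun _ _ v => (Sum.inl v.1, v.2)) (h3.fst.inl.pair h3.snd)
  exact (h1.mono (by omega)).sub ((h2.mul h4).mono (by omega))

theorem bpt_1 : Pol (l := l) (d + 2) K.bpt_V K.bpt_J fun _ z w =>
    w (.inl (.inl 1), z.2.2.1) * w (.inl (.inl 1), z.2.2.2) -
      if z.2.2.1.1 = z.2.2.2.1 then w (.inl (.inl 1), z.2.2.1) else 0 := by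
  have h1 : Pol (l := l) 1 K.bpt_V K.bpt_J fun c z w => w (.inl (.inl 1), z.2.2.1) :=
    bpt_var _ K.bpt_y
  have h2 : Pol (l := l) 1 K.bpt_V K.bpt_J fun c z w => w (.inl (.inl 1), z.2.2.2) :=
    bpt_var _ K.bpt_y'
  exact ((h1.mul h2).mono (by omega)).sub
    (Pol.ite (D.eq K.bpt_y.fst K.bpt_y'.fst) (h1.mono (by omega)) Pol.zero)

theorem bpt_2 : Pol (l := l) (d + 2) K.bpt_V K.bpt_J fun c z w =>
    ∑ j : Fin (K.r (K.p c) + 2), w (.inl (.inl 1), j, z.2.2.1.2) - 1 := by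
  have h1 : Pol (l := l) 1 K.bpt_V K.bpt_J fun c z w =>
      ∑ j : Fin (K.r (K.p c) + 2), w (.inl (.inl 1), j, z.2.2.1.2) :=
    bpt_sum (V := K.V.comap K.p K.hp) ((K.hr.add (PT.const 2)).comp K.hp)
      ((K.hr'.add (PB.const 2)).comp K.hp) _ K.bpt_y.snd
  exact (h1.mono (by omega)).sub Pol.one

theorem bpt_m : PT fun z : Σ c, (K.bpt_J.T c × S) × K.W.T (K.p c) => K.Tp.m z.1 z.2.1.1.2.1.2.1
    (vwp (K.T.Y.nb z.1) z.2.1.1.2.1.2.1 z.2.1.1.1.1 z.2.1.2) z.2.1.1.2.2.1 z.2.2 := by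
  have h3 : D fun z : Σ c, (K.bpt_J.T c × S) × K.W.T (K.p c) => z.2.1 := D.s1
  have h4 : D fun z : Σ c, (K.bpt_J.T c × S) × K.W.T (K.p c) => z.2.2 := D.s2
  have h5 : PT fun z : Σ c, (K.bpt_J.T c × S) × K.W.T (K.p c) => (z.2.1.1.2.1.2.1, z.2.1.2) :=
    (h3.fst.snd.fst.snd.fst.pair h3.snd).pt
  have h6 : D fun z : Σ c, (K.bpt_J.T c × S) × K.W.T (K.p c) => z.2.1.1.1.1 := h3.fst.fst.fst
  have h7 : D fun z : Σ c, (K.bpt_J.T c × S) × K.W.T (K.p c) => z.2.1.1.2.2.1 := h3.fst.snd.snd.fst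
  have h8 : ∀ t : Bool × S, PT fun z : Σ c, (K.bpt_J.T c × S) × K.W.T (K.p c) =>
      K.Tp.m z.1 t.1 (vwp (K.T.Y.nb z.1) t.1 z.2.1.1.1.1 t.2) z.2.1.1.2.2.1 z.2.2 := fun t =>
    (K.Tp.pm t.1).comp (pt_sigma_mk
      (X := fun c => (K.T.Y.G.T c × S) × K.W.T (K.p c) × K.W.T (K.p c)) pt_sigma_fst
      ((bpt_vwp K.T.Y t.1 pt_sigma_fst h6 t.2).pair (h7.pair h4)))
  exact P325.pt_cases h5 _ h8

theorem bpt_3 (H : Bool → S → S → ZMod l) : Pol (d + 2) K.bpt_V K.bpt_J fun c z w =>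
    ∑ s, H z.2.1.2.1 z.2.1.2.2 s * ∑ y, K.Tp.m c z.2.1.2.1 (vwp (K.T.Y.nb c) z.2.1.2.1 z.1.1 s)
      z.2.2.1 y * w (.inr (z.2.1.2.1, s), y) := by
  have h1 : PT fun z : Σ c, K.bpt_J.T c × S => z.2.1.2.1.2 :=
    (K.bpt_e.comp (pt_sigma_mk (X := K.bpt_J.T) pt_sigma_fst D.s1)).snd
  have h2 : PT fun z : Σ c, K.bpt_J.T c × S => z.2.2 := D.s2.pt
  have h7 : PT fun z : Σ c, K.bpt_J.T c × S => (z.2.1.2.1.2, z.2.2) :=
    ((D.of_pt h1).pair (D.of_pt h2)).pt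
  have h8 : PT fun z : Σ c, K.bpt_J.T c × S => H z.2.1.2.1.2.1 z.2.1.2.1.2.2 z.2.2 :=
    P325.pt_finite h7 fun t => H t.1.1 t.1.2 t.2
  have h9 : PT fun z : Σ c, K.bpt_J.T c × S =>
      (Sum.inr (z.2.1.2.1.2.1, z.2.2) : (Fin 3 ⊕ B) ⊕ Bool × S) :=
    P325.pt_finite h7 fun t => Sum.inr (t.1.1, t.2)
  exact (bpt_lin (J := K.bpt_J) (W := K.W.comap K.p K.hp)
    (h := fun _ z s => H z.2.1.2.1 z.2.1.2.2 s) (a := fun _ z s => Sum.inr (z.2.1.2.1, s))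
    (M := fun c z s y => K.Tp.m c z.2.1.2.1 (vwp (K.T.Y.nb c) z.2.1.2.1 z.1.1 s) z.2.2.1 y)
    h8 K.bpt_m h9).mono (by omega)

theorem pol_rel (H : Bool → S → S → ZMod l) :
    Pol (d + 2) ((Fam.const C ((Fin 3 ⊕ B) ⊕ Bool × S)).prod (K.W.comap K.p K.hp))
      (K.T.Y.Pos.prod (K.E.comap K.p K.hp))
      fun c z w => relT H (K.T.Y.nb c) (K.T.m c) (K.f c) z.1 z.2 w :=
  (Pol.ite (PT.eq K.bpt_e.fst (PT.const 0)) K.bpt_0
    (Pol.ite (PT.eq K.bpt_e.fst (PT.const 1)) K.bpt_1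
      (Pol.ite (PT.eq K.bpt_e.fst (PT.const 2)) K.bpt_2 (K.bpt_3 H)))).congr fun _ _ _ => rfl

end BcD

end Vale.Agent.P330Q
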