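import Vale.Agent.P330Q.BcDefs
import Vale.Agent.P330.Tan

/-! Twisted Tanner codes: mixing, small-set soundness and distance. -/

namespace Vale.Agent.P330Q

open Vale.Agent.Lib.PolyTime Vale.Agent.P330 Finset
open scoped Classical BigOperators

section
variable {S G : Type} (nb : S → Equiv.Perm G)

/-- The left or right vertex of an edge. -/
def vtx : Bool → G × S → G
  | false, e => e.1
  | true, e => nb e.2 e.1

theorem vwp_snd (b : Bool) (g : G) (s : S) : (vwp nb b g s).2 = s := by cases b <;> rfl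

theorem vtx_vwp (b : Bool) (g : G) (s : S) : vtx nb b (vwp nb b g s) = g := by
  cases b
  · rfl
  · exact (nb s).apply_symm_apply g

theorem vwp_vtx (b : Bool) (e : G × S) : vwp nb b (vtx nb b e) e.2 = e := by
  cases b
  · rfl
  · exact Prod.ext ((nb e.2).symm_apply_apply e.1) rfl

theorem vwp_inj (b : Bool) {g g' : G} {s : S} (h : vwp nb b g s = vwp nb b g' s) : g = g' := by
  rw [← vtx_vwp nb b g s, h, vtx_vwp]

variable [Fintype S] [Fintype G]

theorem tw_sw (b : Bool) (f : G × S → ℝ) : 𝔼 e, f e = 𝔼 g, 𝔼 s, f (vwp nb b g s) := by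
  cases b
  · exact expect_prod' f
  · exact tmix_sw nb f

theorem tw_fr (b : Bool) (E : G × S → Prop) :
    fr (G × S) E = 𝔼 g, fr S fun s => E (vwp nb b g s) := by
  simp only [fr_eq_expect]
  exact tw_sw nb b _

theorem tw_frv [Nonempty S] (b : Bool) (E : G → Prop) :
    fr (G × S) (fun e => E (vtx nb b e)) = fr G E := by
  rw [tw_fr nb b, fr_eq_expect E]
  refine expect_congr rfl fun g _ => ?_
  simp only [vtx_vwp]
  split_ifs with h
  · exact (fr_congr fun _ => iff_true_intro h).trans fr_true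
  · exact (fr_congr fun _ => iff_false_intro h).trans fr_false

/-- The vertices with many edges in `W`. -/
def tbad (δ0 : ℝ) (b : Bool) (W : G × S → Prop) (g : G) : Prop :=
  δ0 / 4 ≤ fr S fun s => W (vwp nb b g s)

theorem tbad_le {δ0 : ℝ} (h0 : 0 < δ0) (b : Bool) (W : G × S → Prop) :
    fr G (tbad nb δ0 b W) ≤ 4 / δ0 * fr (G × S) W := by
  refine (fr_markov (g := fun g => fr S fun s => W (vwp nb b g s)) (fun _ => fr_nonneg _)
    (show 0 < δ0 / 4 by positivity)).trans (le_of_eq ?_)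
  rw [← tw_fr nb b W]
  field_simp

variable {nb}

theorem tw_gap {lam : ℝ} (hg : P325.Gap (fun s g => nb s g) lam) (b : Bool) :
    P325.Gap (fun s g => vtx nb b (vwp nb (!b) g s)) lam := by
  cases b
  · exact tan_adj hg
  · exact hg

/-- Mixing: edges at few bad vertices are spread out on the other side. -/
theorem tw_mix [Nonempty G] {δ0 lam : ℝ} (hT : TanGood δ0 lam S)
    (hg : P325.Gap (fun s g => nb s g) lam) (b : Bool) {B : G → Prop} {N W : G × S → Prop}
    (h : ∀ e, W e → B (vtx nb b e) ∨ N e) (hB : fr G B ≤ δ0 / 16) :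
    fr G (tbad nb δ0 (!b) W) ≤ fr G B / 8 + 8 / δ0 * fr (G × S) N := by
  have := tan_ne hT
  obtain ⟨d0, d1, -, d2, -⟩ := hT
  have v := tcore_var (tw_gap hg b) (ε := fun g => if B g then 1 else 0)
    (fun g => by positivity) fun g => by split_ifs <;> norm_num
  simp only [tmix_fr'] at v
  have b0 := fr_nonneg B
  have m1 := fr_markov (g := fun g => ((fr S fun s => B (vtx nb b (vwp nb (!b) g s))) - fr G B) ^ 2)
    (fun _ => sq_nonneg _) (show 0 < (δ0 / 16) ^ 2 by positivity)
  have m2 := fr_markov (g := fun g => fr S fun s => N (vwp nb (!b) g s)) (fun _ => fr_nonneg _)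
    (show 0 < δ0 / 8 by positivity)
  rw [← tw_fr nb (!b) N] at m2
  have m3 : lam ^ 2 * fr G B / (δ0 / 16) ^ 2 ≤ fr G B / 8 := by
    rw [div_le_div_iff₀ (by positivity) (by norm_num)]
    have : δ0 ^ 3 ≤ δ0 ^ 2 := pow_le_pow_of_le_one d0.le d1 (by norm_num)
    nlinarith [mul_le_mul_of_nonneg_right (d2.trans this) b0]
  have m4 := m1.trans ((div_le_div_of_nonneg_right v (by positivity)).trans m3)
  have e : fr (G × S) N / (δ0 / 8) = 8 / δ0 * fr (G × S) N := by field_simp
  refine le_trans ((fr_mono fun g hg => ?_).trans (fr_or_le _ _)) (add_le_add m4 (m2.trans e.le))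
  have k := hg.trans ((fr_mono fun s => h _).trans (fr_or_le _ _))
  refine or_iff_not_imp_right.2 fun k' => pow_le_pow_left₀ (by positivity) ?_ 2
  linarith [not_le.1 k']

end

theorem twSSSThm : TwSSSThm := by
  intro F S G K K' _ _ _ _ _ C0 nb δ0 lam β hT hd hg y y' hy hV hβ hw
  have := tan_ne hT
  obtain ⟨d0, d1, l0, l1, -⟩ := hT
  have l2 : lam ≤ δ0 / 4 := by
    refine (abs_le_of_sq_le_sq' ?_ (by positivity)).2
    have : δ0 ^ 3 ≤ δ0 ^ 2 := pow_le_pow_of_le_one d0.le d1 (by norm_num)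
    nlinarith
  have k : ∀ b, δ0 * fr G (fun g => ∃ s, y (vwp nb b g s) ≠ 0) ≤
      fr (G × S) (fun o => y o ≠ 0) + δ0 * β := fun b => by
    have a1 := tmix_view d0.le (hd b) fun g s => y' b (vwp nb b g s)
    simp only [ne_eq, hy] at a1
    rw [← tw_sw nb b fun o => if ¬ y o = 0 then (1 : ℝ) else 0, tmix_fr' fun o => ¬ y o = 0] at a1
    exact a1.trans (add_le_add le_rfl (mul_le_mul_of_nonneg_left (hV b) d0.le))
  have a1 := k false
  have b1 := k true
  have m := tan_mix l0 hg (fun g => ∃ s, y (vwp nb false g s) ≠ 0)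
    fun h => ∃ s, y (vwp nb true h s) ≠ 0
  have m1 : fr (G × S) (fun o => y o ≠ 0) ≤ fr (G × S) fun o =>
      (∃ s, y (vwp nb false o.1 s) ≠ 0) ∧ ∃ s, y (vwp nb true (nb o.2 o.1) s) ≠ 0 :=
    fr_mono fun o h => ⟨⟨o.2, h⟩, o.2, fun e => h ((congrArg y (vwp_vtx nb true o)).symm.trans e)⟩
  have β0 := (fr_nonneg _).trans (hV false)
  have a0 := fr_nonneg fun g => ∃ s, y (vwp nb false g s) ≠ 0
  have b0 := fr_nonneg fun h => ∃ s, y (vwp nb true h s) ≠ 0
  have w0 := fr_nonneg fun o => y o ≠ 0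
  replace m := m1.trans m
  generalize fr G (fun g => ∃ s, y (vwp nb false g s) ≠ 0) = a at *
  generalize fr G (fun h => ∃ s, y (vwp nb true h s) ≠ 0) = b at *
  generalize fr (G × S) (fun o => y o ≠ 0) = w at *
  obtain ⟨M, hM⟩ : ∃ M, δ0 * M = w + δ0 * β := ⟨(w + δ0 * β) / δ0, by field_simp⟩
  have a2 : a ≤ M := le_of_mul_le_mul_left (by nlinarith) d0
  have b2 : b ≤ M := le_of_mul_le_mul_left (by nlinarith) d0
  have M1 : M ≤ δ0 / 4 := le_of_mul_le_mul_left (by nlinarith) d0
  have ab : a * b ≤ M * M := mul_le_mul a2 b2 b0 (a0.trans a2)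
  have sq : √(a * b) ≤ M := by
    rw [← Real.sqrt_mul_self (a0.trans a2)]
    exact Real.sqrt_le_sqrt ab
  have := mul_le_mul l2 sq (Real.sqrt_nonneg _) (by positivity)
  have := mul_le_mul_of_nonneg_left M1 (a0.trans a2)
  nlinarith

theorem cw_sub {X V F : Type} [Fintype V] [CommRing F] (g : X → V → F) (w w' : V → F) :
    cw g (w - w') = cw g w - cw g w' := by
  funext x
  simp only [cw, Pi.sub_apply, mul_sub, sum_sub_distrib]

theorem cw_cw {X V W F : Type} [Fintype V] [Fintype W] [CommRing F] (g : X → V → F)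
    (m : V → W → F) (w : W → F) (x : X) :
    cw g (cw m w) x = ∑ k, (∑ v, g x v * m v k) * w k := by
  simp only [cw, mul_sum, sum_mul, mul_assoc]
  exact sum_comm

/-- Distinct twisted codewords differ on many edges. -/
theorem twc_dist {F S G V : Type} [Field F] [Fintype S] [Fintype G] [Nonempty G] [Fintype V]
    {C0 : Bool → Submodule F (S → F)} {nb : S → Equiv.Perm G} {δ0 lam : ℝ}
    (hT : TanGood δ0 lam S) (hd : ∀ b, Dist0 (C0 b) δ0) (hg : P325.Gap (fun s g => nb s g) lam)
    {m m' : Bool → G × S → V → V → F} (inv : ∀ b x w, cw (m' b x) (cw (m b x) w) = w)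
    {u u' : G × S → V → F} (hu : u ∈ twc C0 nb m) (hu' : u' ∈ twc C0 nb m) (h : u ≠ u') :
    δ0 ^ 2 / 8 < fr (G × S) fun e => u e ≠ u' e := by
  by_contra k
  have e : fr (G × S) (fun e => u e ≠ u' e) = fr (G × S) fun e => u e - u' e ≠ 0 :=
    fr_congr fun _ => sub_ne_zero.symm
  rw [not_lt, e] at k
  have z : ∀ g : V → V → F, cw g 0 = 0 := fun g => funext fun v => by simp [cw]
  have := twSSSThm F S G V (V → F) C0 nb δ0 lam 0 hT hd hg (fun e => u e - u' e)
    (fun b e => cw (m b e) (u e - u' e))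
    (fun b x => ⟨fun k => by rw [← inv b x (u x - u' x), k, z], fun k => by rw [k, z]⟩)
    (fun b => (fr_mono fun g ⟨v, hv⟩ => hv (by
      simp only [cw_sub]
      exact (C0 b).sub_mem (hu b g v) (hu' b g v))).trans fr_false.le) (by linarith [hT.1]) k
  exact h (funext fun x => sub_eq_zero.1 (not_not.1 (fr_eq_zero this x)))

/-- The distance of the words of cells. -/
theorem cells_dist {F P X V : Type} [CommRing F] [Fintype P] [Fintype X] [Fintype V]
    {gen : X → V → F} {Δ : ℝ} (h : ∀ w w', w ≠ w' → Δ ≤ hd (cw gen w) (cw gen w'))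
    (u u' : P → V → F) : Δ * fr P (fun e => u e ≠ u' e) ≤ hd (cells gen u) (cells gen u') := by
  rw [hd, fr_prod, fr_eq_expect, mul_expect]
  refine expect_le_expect fun e _ => ?_
  split_ifs with k
  · rw [mul_one]
    exact h (u e) (u' e) k
  · rw [mul_zero]
    exact fr_nonneg _

end Vale.Agent.P330Q
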