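import Vale.Agent.P330Q.BcAux
import Vale.Agent.P330Q.TwSSS

/-! Long chains of cells: the reads of the tester. -/

namespace Vale.Agent.P330Q

open Vale.Agent.Lib.PolyTime Vale.Agent.P330 Finset
open scoped Classical BigOperators

theorem btb_ln {G S X : Type} [Fintype G] [Fintype S] [Fintype X] [Nonempty G] [Nonempty S]
    (nb : S → Equiv.Perm G) (b : Bool) (s : S) (u : (G × S) × X × Bool) :
    fr ((G × S) × X) (fun z => (vwp nb b z.1.1 s, z.2, false) = u) ≤
      2 * Fintype.card S * (Fintype.card ((G × S) × X × Bool) : ℝ)⁻¹ := by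
  have hX : Nonempty X := ⟨u.2.1⟩
  have m : MP fun z : (G × S) × X => (z.1.1, z.2) := MP.prod (X := G × S) MP.fst MP.refl
  refine (fr_mono (E' := fun z => (z.1.1, z.2) = (vtx nb b u.1, u.2.1)) fun z h => ?_).trans ?_
  · rw [← h, vtx_vwp]
  · rw [m.single]
    have h1 : (0 : ℝ) < Fintype.card G := Nat.cast_pos.2 Fintype.card_pos
    have h2 : (0 : ℝ) < Fintype.card S := Nat.cast_pos.2 Fintype.card_pos
    have h3 : (0 : ℝ) < Fintype.card X := Nat.cast_pos.2 Fintype.card_pos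
    simp only [Fintype.card_prod, Fintype.card_bool, Nat.cast_mul, Nat.cast_ofNat]
    exact le_of_eq (by field_simp)

theorem btb_up {S : Type} [Fintype S] [Nonempty S] {t k : ℝ} (ht : 0 ≤ t) (hk : k ≤ 2) :
    k * t ≤ 2 * Fintype.card S * t := by
  have h1 : (1 : ℝ) ≤ Fintype.card S := Nat.one_le_cast.2 Fintype.card_pos
  exact mul_le_mul_of_nonneg_right (by linarith) ht

theorem btb_one {S : Type} [Fintype S] [Nonempty S] (n : ℕ) :
    (n : ℝ)⁻¹ ≤ 2 * Fintype.card S * (n : ℝ)⁻¹ :=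
  (one_mul _).ge.trans (btb_up (by positivity) one_le_two)

theorem btb_em {S Q : Type} [Fintype S] [Fintype Q] {E : Q → Prop} (n : ℕ) (h : ∀ z, ¬ E z) :
    fr Q E ≤ 2 * Fintype.card S * (n : ℝ)⁻¹ :=
  ((fr_mono h).trans fr_false.le).trans (by positivity)

theorem btb_tb {G S X : Type} [Fintype G] [Fintype S] [Fintype X] [Nonempty S]
    {f : (G × S) × X → (G × S) × X} (hf : MP f) (u : ((G × S) × X ⊕ (G × S) × X × Bool) ⊕ X) :
    fr ((G × S) × X) (fun z => .inl (.inr ((f z).1, (f z).2, false)) = u) ≤ 2 * Fintype.card S *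
      Sum.elim (Sum.elim (fun _ => (Fintype.card ((G × S) × X) : ℝ)⁻¹)
        fun _ => (Fintype.card ((G × S) × X × Bool) : ℝ)⁻¹)
        (fun _ => (Fintype.card X : ℝ)⁻¹) u := by
  rcases u with (u | u) | u
  · exact btb_em _ fun z h => by simp at h
  · exact ((fr_mono fun z h => Sum.inr.inj (Sum.inl.inj h)).trans
      (fr_tab_le hf (fun _ => false) u)).trans (btb_up (by positivity) le_rfl)
  · exact btb_em _ fun z h => by simp at h

theorem btb_dens {G S X B : Type} [Fintype G] [Fintype S] [Fintype X] [Nonempty G] [Nonempty S]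
    (nb : S → Equiv.Perm G) (π : B → Equiv.Perm (G × S)) (i : (Fin 3 ⊕ B) ⊕ Bool × S)
    (u : ((G × S) × X ⊕ (G × S) × X × Bool) ⊕ X) :
    fr ((G × S) × X) (fun z => slT nb π z.1 i z.2 = u) ≤ 2 * Fintype.card S *
      Sum.elim (Sum.elim (fun _ => (Fintype.card ((G × S) × X) : ℝ)⁻¹)
        fun _ => (Fintype.card ((G × S) × X × Bool) : ℝ)⁻¹)
        (fun _ => (Fintype.card X : ℝ)⁻¹) u := by
  rcases i with (j | j) | ⟨b, s⟩
  · match j with
    | 0 => exact btb_tb MP.refl u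
    | 1 =>
      have e : ∀ z : (G × S) × X, slT nb π z.1 (.inl (.inl 1)) z.2 = .inr z.2 := fun _ => rfl
      simp only [e]
      rcases u with (u | u) | u
      · exact btb_em _ fun z h => by simp at h
      · exact btb_em _ fun z h => by simp at h
      · have k : fr ((G × S) × X) (fun z => z.2 = u) = (Fintype.card X : ℝ)⁻¹ :=
          (MP.snd (X := G × S) (Y := X)).single u
        simp only [Sum.inr.injEq, Sum.elim_inr, k]
        exact btb_one _
    | 2 =>
      have e : ∀ z : (G × S) × X, slT nb π z.1 (.inl (.inl 2)) z.2 = .inl (.inl z) := fun _ => rfl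
      simp only [e]
      rcases u with (u | u) | u
      · simp only [Sum.inl.injEq, Sum.elim_inl, fr_single]
        exact btb_one _
      · exact btb_em _ fun z h => by simp at h
      · exact btb_em _ fun z h => by simp at h
  · exact btb_tb (f := fun z => (π j z.1, z.2)) (MP.prod (MP.equiv (π j)) MP.refl) u
  · have e : ∀ z : (G × S) × X, slT nb π z.1 (.inr (b, s)) z.2 =
        .inl (.inr (vwp nb b z.1.1 s, z.2, false)) := fun _ => rfl
    simp only [e]
    rcases u with (u | u) | u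
    · exact btb_em _ fun z h => by simp at h
    · exact (fr_mono fun z h => Sum.inr.inj (Sum.inl.inj h)).trans (btb_ln nb b s u)
    · exact btb_em _ fun z h => by simp at h

namespace BcD
variable {l : ℕ} [Fact l.Prime] {δ : ℝ} {d : ℕ} {C U : Type} [Enc C] [Enc U] {a lg : C → ℕ}
  {S B : Type} [Fintype S] [Enc S] [Fintype B] [Enc B] {lam : ℝ} (K : BcD l δ d U a lg S B lam)
  {C0 : Bool → Submodule (ZMod l) (S → ZMod l)} {δ0 : ℝ}

/-- The input of the tester: input table, word of the line, mean of the clocks. -/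
@[reducible] noncomputable def IT : Reg C :=
  ((Reg.of K.Tb).sum (.of K.Ln)).sum (.of (K.Z.X.comap K.p K.hp))

theorem arrT [Nonempty S] :
    ∃ R : Arr l a lg K.p K.Z ((Fin 3 ⊕ B) ⊕ Bool × S) K.IT K.T.Y.Pos, 0 < R.κ ∧
      ∀ c o i ξ, R.sl c o i ξ = slT (K.T.Y.nb c) (K.π c) o i ξ := by
  have h1 : D fun z : Σ c, (K.T.Y.G.T c × S) × K.Z.X.T (K.p c) => z.2.1 := D.s1
  have h2 : D fun z : Σ c, (K.T.Y.G.T c × S) × K.Z.X.T (K.p c) => z.2.2 := D.s2
  have h3 : D fun z : Σ c, (K.T.Y.G.T c × S) × K.Z.X.T (K.p c) => (z.2.2, false) :=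
    h2.pair (D.const false)
  have hS : (0 : ℝ) < Fintype.card S := Nat.cast_pos.2 Fintype.card_pos
  refine ⟨⟨fun c o i ξ => slT (K.T.Y.nb c) (K.π c) o i ξ, 2 * Fintype.card S, K.neP, K.szP,
    fun i => ?_, fun c i u => ?_⟩, by positivity, fun _ _ _ _ => rfl⟩
  · rcases i with (j | j) | ⟨b, s⟩
    · fin_cases j
      · exact D.inl (D.inr (h1.pair h3))
      · exact D.inr h2
      · exact D.inl (D.inl (h1.pair h2))
    · exact D.inl (D.inr (((K.dπ j).app pt_sigma_fst h1).pair h3))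
    · cases b
      · exact D.inl (D.inr ((h1.fst.pair (D.const s)).pair h3))
      · exact D.inl (D.inr (((D2.app (K.T.Y.G.pf.d_symm (K.T.Y.d_nb s)) pt_sigma_fst
          h1.fst).pair (D.const s)).pair h3))
  · have := K.T.Y.ne c
    exact btb_dens (K.T.Y.nb c) (K.π c) i u

theorem mean_clk [Nonempty S] {η : ℝ} (hη : 0 < η) :
    ImplS (ZMod l) a lg ((Reg.of K.Tb).sum (.of K.Ln)) (.of (K.Z.X.comap K.p K.hp)) fun c z y =>
      ∀ k, |du y k - du (fun i : K.Tb.T c => z (.inr (i.1, i.2, true))) fun i => k i.2| ≤ η := by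
  have h1 : D fun z : Σ c, (K.T.Y.G.T c × S) × K.Z.X.T (K.p c) => z.2.1 := D.s1
  have h2 : D fun z : Σ c, (K.T.Y.G.T c × S) × K.Z.X.T (K.p c) => z.2.2 := D.s2
  refine bc_mean (I := (Reg.of K.Tb).sum (.of K.Ln)) (K.Z.X.comap K.p K.hp) K.T.Y.Pos
    (fun c => K.Z.ne _) K.neP (fun c o ξ => .inr (o, ξ, true))
    (D.inr (h1.pair (h2.pair (D.const true)))) 2 (fun c u => ?_) K.szTb hη
  rcases u with u | u
  · exact ((fr_mono fun z h => by simp at h).trans fr_false.le).trans
      (mul_nonneg zero_le_two (((Reg.of K.Tb).sum (.of K.Ln)).w0 c _))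
  · exact (fr_mono fun z h => Sum.inr.inj h).trans (fr_tab_le MP.refl (fun _ => true) u)

theorem slT_W (c : C) (u : K.T.Y.G.T c × S → K.V.T (K.p c) → ZMod l) (q : ℕ)
    (o : K.T.Y.G.T c × S) (i : (Fin 3 ⊕ B) ⊕ Bool × S) (ξ : K.Z.X.T (K.p c)) :
    Sum.elim (Sum.elim (K.In c u) (K.Wd c u q)) (cw (K.Z.gen (K.p c)) (clk _ _ _ q))
      (slT (K.T.Y.nb c) (K.π c) o i ξ) = cw (K.Z.gen (K.p c)) (fun v => tupT (K.T.Y.nb c) (K.π c)
        (hst (K.π c) (K.f c) u _ q) (clk _ _ _ q) (emb _ (u o)) o (i, v)) ξ := by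
  rcases i with (j | j) | ⟨b, s⟩
  · fin_cases j <;> rfl
  · rfl
  · rfl

end BcD

end Vale.Agent.P330Q
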