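import Vale.Agent.P330Q.BcTstA
import Vale.Agent.P330Q.BcTstB
import Vale.Agent.P330Q.BcPolT

/-! Long chains of cells: the tester. -/

namespace Vale.Agent.P330Q

open Vale.Agent.Lib.PolyTime Vale.Agent.P330 Finset
open scoped Classical BigOperators

namespace BcD
variable {l : ℕ} [Fact l.Prime] {δ : ℝ} {d : ℕ} {C U : Type} [Enc C] [Enc U] {a lg : C → ℕ}
  {S B : Type} [Fintype S] [Enc S] [Fintype B] [Enc B] {lam : ℝ} (K : BcD l δ d U a lg S B lam)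
  {C0 : Bool → Submodule (ZMod l) (S → ZMod l)} {δ0 : ℝ}

theorem impl_test (hδ : 0 < δ) (hC : CellTestThm l δ) (hT : TanGood δ0 lam S)
    (hd0 : ∀ b, Dist0 (C0 b) δ0) {δ1 : ℝ} (h1 : 0 < δ1) : ∃ v1 η0 : ℝ, 0 < v1 ∧ 0 < η0 ∧
    ImplRS (ZMod l) a lg ((Reg.of K.Tb).sum (.of K.Ln)) fun c z T =>
      ∀ u, K.Ok C0 c u → du (fun i => z (.inl i)) (K.In c u) ≤ η0 →
        (T < v1 → ∃ q, q < K.r (K.p c) + 2 ∧ du (fun i => z (.inr i)) (K.Wd c u q) ≤ δ1) ∧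
        ∀ q, q < K.r (K.p c) + 2 → du (fun i => z (.inr i)) (K.Wd c u q) ≤ η0 → T ≤ v1 / 2 := by
  have := hT.neS
  have h0 := hT.1
  have h0' := hT.2.1
  obtain ⟨R, hκ, hR⟩ := K.arrT
  choose H hH using fun b => bc_par (C0 b)
  have hb : (0 : ℝ) < Fintype.card B + 2 := by positivity
  have hA : (0 : ℝ) < Fintype.card ((Fin 3 ⊕ B) ⊕ Bool × S) := by
    exact_mod_cast Fintype.card_pos
  obtain ⟨δ', d0, d1, d2⟩ : ∃ δ' : ℝ, 0 < δ' ∧ δ' ≤ δ ∧ δ' ≤ δ1 / 4 :=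
    ⟨min δ (δ1 / 4), lt_min hδ (by positivity), min_le_left _ _, min_le_right _ _⟩
  obtain ⟨β, b0, b1, b2⟩ : ∃ β : ℝ, 0 < β ∧ β ≤ δ1 / 4 ∧
      β ≤ δ0 ^ 2 / 16 / (Fintype.card B + 2) :=
    ⟨min _ _, lt_min (by positivity) (by positivity), min_le_left _ _, min_le_right _ _⟩
  rw [le_div_iff₀ hb] at b2
  have b3 : β ≤ δ0 / 8 := by
    nlinarith [mul_nonneg b0.le (Nat.cast_nonneg (α := ℝ) (Fintype.card B))]
  obtain ⟨v1, hv, h⟩ := hC (d + 2) C U a lg K.p K.hp K.hs K.W K.E K.Z _ K.IT K.T.Y.Pos R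
    (fun c o e w => relT H (K.T.Y.nb c) (K.T.m c) (K.f c) o e w) (K.pol_rel H) δ' β d0 b0
  obtain ⟨η, hη, h⟩ := h (v1 / 2) (half_pos hv)
  obtain ⟨e, e0, e1, e2, e3⟩ : ∃ e : ℝ, 0 < e ∧ e ≤ δ0 ^ 2 / 16 * δ' ∧ e ≤ δ1 / 4 ∧
      e ≤ η * η / 8 / (Fintype.card ((Fin 3 ⊕ B) ⊕ Bool × S) * R.κ) :=
    ⟨min _ (min _ _), lt_min (by positivity) (lt_min (by positivity) (by positivity)),
      min_le_left _ _, (min_le_right _ _).trans (min_le_left _ _),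
      (min_le_right _ _).trans (min_le_right _ _)⟩
  rw [← div_le_iff₀ d0] at e1
  rw [le_div_iff₀ (mul_pos hA hκ)] at e3
  refine ⟨v1, e, hv, e0, ((K.mean_clk e0).seq' h).mono ?_⟩
  rintro c z y hz - ⟨k, hk, h2, h3, h4⟩ u hu h5
  have := K.T.Y.ne c
  have := K.neV (K.p c)
  have := K.Z.ne (K.p c)
  refine ⟨fun hy => ?_, fun q hq h6 => ?_⟩
  · have h6 := h3 hy
    simp only [Arr.Far, hR] at h6
    obtain ⟨q, hq, h7⟩ := bc_test_sound hT hd0 (K.T.Y.gap c) (K.T.inv c) hu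
      (fun b t => (hH b t).2) (K.Z.dist (K.p c)) (z := Sum.elim z k) (hz.elim hk) (ν := e)
      (fun t => sub_le_iff_le_add'.1 ((le_abs_self _).trans ((abs_sub_comm _ _).trans_le (h2 t))))
      h5 h6 d0 (by linarith) b3 (by linarith)
    exact ⟨q, hq, h7.trans (by linarith)⟩
  · refine h4 (fun o => tupT (K.T.Y.nb c) (K.π c) (hst (K.π c) (K.f c) u _ q) (clk _ _ _ q)
      (emb _ (u o)) o) (fun o i => relT_W (fun b t => (hH b t).1) hu hq o i) ?_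
    refine (R.bc_far (hz.elim hk) (Sum.elim (Sum.elim (K.In c u) (K.Wd c u q))
      (cw (K.Z.gen (K.p c)) (clk _ _ _ q))) _ (fun o i ξ => by rw [hR, K.slT_W]) hη).trans ?_
    have h7 : dw (K.IT.w c) (Sum.elim z k) (Sum.elim (Sum.elim (K.In c u) (K.Wd c u q))
        (cw (K.Z.gen (K.p c)) (clk _ _ _ q))) = du (fun i => z (.inl i)) (K.In c u) +
        du (fun i => z (.inr i)) (K.Wd c u q) + du k (cw (K.Z.gen (K.p c)) (clk _ _ _ q)) := by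
      rw [← dw_unif, ← dw_unif, ← dw_unif]
      exact (dw_sum _ _ _ _).trans (congrArg (· + _) (dw_sum _ _ _ _))
    have h8 := (abs_le.1 (h2 (cw (K.Z.gen (K.p c)) (clk _ _ _ q)))).2
    have h9 := du_tab (fun i => z (.inr i)) (K.Wd c u q)
    have h10 := du_nonneg (hz.comp fun i : K.Tb.T c => .inr (i.1, i.2, false))
      fun i => K.Wd c u q (i.1, i.2, false)
    have h11 : du (fun i : K.Tb.T c => z (.inr (i.1, i.2, true)))
        (fun i => cw (K.Z.gen (K.p c)) (clk _ _ _ q) i.2) =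
        du (fun i : K.Tb.T c => z (.inr (i.1, i.2, true))) fun i => K.Wd c u q (i.1, i.2, true) :=
      rfl
    rw [h7, div_le_iff₀ hη]
    refine (mul_le_mul_of_nonneg_left (show _ ≤ 8 * e by linarith) (mul_pos hA hκ).le).trans ?_
    linarith

end BcD

end Vale.Agent.P330Q
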