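import Vale.Agent.P330Q.Comb
import Vale.Agent.P330.HPV

/-! The fixed point gadget with a size bound. -/

namespace Vale.Agent.P330Q

open Vale.Agent.Lib.PolyTime Vale.Agent.P330 Finset
open scoped Classical BigOperators

variable {C F : Type} [Enc C] [Enc F] [Fintype F] [Zero F] [One F] {a l : C → ℕ}

/-- A continuous function of heavy nodes. -/
theorem bernS (h01 : (0 : F) ≠ 1) (I : Reg C) (A : Type) [Fintype A] (nd : ∀ c, A → I.T c)
    (dnd : ∀ i, D fun c => nd c i) (hw : ∀ c i, 1 ≤ I.w c (nd c i)) (g : (A → ℝ) → ℝ) (hg : U01 g)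
    (η : ℝ) (hη : 0 < η) : ImplRS F a l I fun c x r => |r - g fun i => x (nd c i) 1| ≤ η := by
  have : Nontrivial F := ⟨0, 1, h01⟩
  obtain ⟨ρ, hρ, hu⟩ := bern_unif hg.1 (ε := η / 4) (by positivity)
  obtain ⟨K, hK⟩ := exists_nat_gt (Fintype.card A / (ρ ^ 2 * (η / 4)))
  obtain ⟨J, hJ⟩ := exists_nat_gt (4 / η)
  have hK0 : (0 : ℝ) < K := lt_of_le_of_lt (by positivity) hK
  have hJ0 : (0 : ℝ) < J := lt_trans (by positivity) hJ
  have hK1 : 0 < K := by exact_mod_cast hK0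
  have hJ1 : 0 < J := by exact_mod_cast hJ0
  have hK2 : (Fintype.card A : ℝ) / (K * ρ ^ 2) ≤ η / 4 := by
    rw [div_lt_iff₀ (by positivity)] at hK
    rw [div_le_iff₀ (by positivity)]
    nlinarith
  have hJ2 : (1 : ℝ) / J ≤ η / 4 := by
    rw [div_lt_iff₀ hη] at hJ
    rw [div_le_iff₀ hJ0]
    nlinarith
  have : Nonempty (Fin J) := ⟨⟨0, hJ1⟩⟩
  have h := ImplRS.rej (a := a) (l := l) (I := I) h01 (A := A × Fin K) (Fam.const C (Fin J)) (fun _ => ⟨⟨0, hJ1⟩⟩)
    (fun c _ j => nd c j.1) (fun _ t s => ¬ (((t : ℕ) : ℝ) / J < g (bern_emp s)))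
    (fun j => (dnd j.1).comp pt_sigma_fst)
    (fun s => Vale.Agent.P325.pt_finite (D.pt (D.sigma_snd (X := fun _ : C => Fin J)))
      fun t => ¬ (((t : ℕ) : ℝ) / J < g (bern_emp s))) 1
    (fun c j u => by
      rw [one_mul]
      by_cases hju : nd c j.1 = u
      · exact (fr_le_one _).trans (hju ▸ hw c j.1)
      · rw [fr_congr (E' := fun _ => False) fun _ => iff_false_intro hju, fr_false]
        exact I.w0 c u) (Sz.cardc (Fin J)) (η := η / 4) (by positivity)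
  refine h.mono fun c x r hx _ _ hS => ?_
  have hx' : IsDist fun i => x (nd c i) := hx.comp (nd c)
  have hq : IsDist fun j : A × Fin K => x (nd c j.1) := hx'.comp Prod.fst
  have e : (𝔼 t : Fin J, prob (fun j : A × Fin K => x (nd c j.1))
      fun s => ¬¬ (((t : ℕ) : ℝ) / J < g (bern_emp s))) =
      ex (fun j : A × Fin K => x (nd c j.1))
        fun s => fr (Fin J) fun t => ((t : ℕ) : ℝ) / J < g (bern_emp s) := by
    simp only [fr_eq_expect, not_not, prob_eq_ex]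
    rw [ex_expect]
  have hS' : |r - ex (fun j : A × Fin K => x (nd c j.1))
      fun s => fr (Fin J) fun t => ((t : ℕ) : ℝ) / J < g (bern_emp s)| ≤ η / 4 := e ▸ hS
  have h2 := bern_ex hK1 hx' hρ (by positivity) hg hu
  have up : ex (fun j : A × Fin K => x (nd c j.1))
      (fun s => fr (Fin J) fun t => ((t : ℕ) : ℝ) / J < g (bern_emp s)) ≤
      ex (fun j : A × Fin K => x (nd c j.1)) (fun s => ((g fun i => x (nd c i) 1) + 1 / J) +
        |g (bern_emp s) - g fun i => x (nd c i) 1|) := ex_mono hq fun s => by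
    have a := abs_le.1 (bern_count hJ1 (hg.2 (bern_emp s)).1 (hg.2 (bern_emp s)).2)
    linarith [a.2, le_abs_self (g (bern_emp s) - g fun i => x (nd c i) 1)]
  have lo : ex (fun j : A × Fin K => x (nd c j.1)) (fun s => ((g fun i => x (nd c i) 1) - 1 / J) -
        |g (bern_emp s) - g fun i => x (nd c i) 1|) ≤ ex (fun j : A × Fin K => x (nd c j.1))
      (fun s => fr (Fin J) fun t => ((t : ℕ) : ℝ) / J < g (bern_emp s)) := ex_mono hq fun s => by
    have a := abs_le.1 (bern_count hJ1 (hg.2 (bern_emp s)).1 (hg.2 (bern_emp s)).2)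
    linarith [a.1, neg_abs_le (g (bern_emp s) - g fun i => x (nd c i) 1)]
  rw [ex_add, ex_const hq] at up
  rw [ex_sub, ex_const hq] at lo
  have a := abs_le.1 hS'
  rw [abs_le]
  constructor <;> linarith [a.1, a.2]

/-- The multiplexer and the distance from a fixed word. -/
theorem mixS (h01 : (0 : F) ≠ 1) (I : Reg C) (U : Fam C) (hU : ∀ c, Nonempty (U.T c))
    (hz : Sz a l fun c => Fintype.card (U.T c)) (src : ∀ c, U.T c → F)
    (hsrc : PT fun z : Σ c, U.T c => src z.1 z.2) (η : ℝ) (hη : 0 < η) :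
    (∀ w, Emb U I w → ImplRS F a l I fun c x r => |r - du (fun o => x (w c o)) (src c)| ≤ η) ∧
    ∀ (nd : Fin 3 → ∀ c, I.T c) (w : Fin 4 → ∀ c, U.T c → I.T c), (∀ i, D (nd i)) →
      (∀ c i, 1 ≤ I.w c (nd i c)) → (∀ j, Emb U I (w j)) →
      ImplS F a l I (.of U) fun c x y => ∀ u,
        |du y u - mixv (x (nd 0 c) 1) (x (nd 1 c) 1) (x (nd 2 c) 1)
        (hd (src c) u) (du (fun o => x (w 0 c o)) u) (du (fun o => x (w 1 c o)) u)
        (du (fun o => x (w 2 c o)) u) (du (fun o => x (w 3 c o)) u)| ≤ η := by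
  have : Nontrivial F := ⟨0, 1, h01⟩
  refine ⟨fun w hw => ?_, fun nd w hnd hI hw => ?_⟩
  · refine (ImplRS.rej h01 (A := Unit) U hU (fun c t _ => w c t) (fun c t s => s () = src c t)
      (fun _ => hw.1) (fun s => D.eq (X := fun _ => F) (D.const _) (D.of_pt hsrc)) 1
      (fun c _ u => mix_fr (hw.2 c).1 (hw.2 c).2 (I.w0 c) u) hz hη).mono fun c x r hx _ _ h => ?_
    have e : ∀ t, prob (fun _ : Unit => x (w c t)) (fun s => ¬ s () = src c t) =
        1 - x (w c t) (src c t) := fun t => prob_slot_ne (hx.comp _) () _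
    simpa only [e, du] using h
  · refine (ImplS.layer (O := .of U) (A := Fin 3 ⊕ Fin 4) (Fam.const C Unit) (fun _ => ⟨()⟩) hU
      (fun c o _ => Sum.elim (fun i => nd i c) fun j => w j c o) (fun c o _ => mix_fn (src c o))
      (fun i => ?_) (fun s => ?_) 1 (fun c o => (one_div _).ge) (fun c i u => ?_) hz.card_unit hη).mono
      fun c x y hx hy h u => ?_
    · rcases i with i | j
      · exact (hnd i).comp pt_sigma_fst
      · exact (hw j).1.app pt_sigma_fst (D.fst D.sigma_snd)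
    · have h1 : PT fun z : Σ c, U.T c × Unit => src z.1 z.2.1 :=
        hsrc.comp (pt_sigma_mk pt_sigma_fst (D.fst D.sigma_snd))
      unfold mix_fn
      split_ifs
      exacts [h1, PT.const _, PT.const _, PT.const _, PT.const _]
    · rcases i with i | j
      · by_cases e : nd i c = u
        · exact (fr_le_one _).trans (by rw [one_mul, ← e]; exact hI c i)
        · refine (fr_mono (E' := fun _ => False) fun _ h => e h).trans ?_
          rw [fr_false, one_mul]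
          exact I.w0 c u
      · exact (fr_fst (Y := Unit) fun t => w j c t = u).trans_le
          (mix_fr ((hw j).2 c).1 ((hw j).2 c).2 (I.w0 c) u)
    · have := hU c
      have h2 : 𝔼 o, ∑ b, |y o b - mixv (x (nd 0 c) 1) (x (nd 1 c) 1) (x (nd 2 c) 1)
          (if src c o = b then 1 else 0) (x (w 0 c o) b) (x (w 1 c o) b) (x (w 2 c o) b)
          (x (w 3 c o) b)| ≤ η := by
        refine le_trans (le_of_eq ?_) ((dd_unif _ _).symm.trans_le h)
        refine expect_congr rfl fun o _ => sum_congr rfl fun b _ => ?_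
        rw [Fintype.expect_const, mix_law (hx.comp _)]
        rfl
      have h3 := du_le_add y (fun o b => mixv (x (nd 0 c) 1) (x (nd 1 c) 1) (x (nd 2 c) 1)
          (if src c o = b then 1 else 0) (x (w 0 c o) b) (x (w 1 c o) b) (x (w 2 c o) b)
          (x (w 3 c o) b)) u
      have h4 := du_le_add (fun o b => mixv (x (nd 0 c) 1) (x (nd 1 c) 1) (x (nd 2 c) 1)
          (if src c o = b then 1 else 0) (x (w 0 c o) b) (x (w 1 c o) b) (x (w 2 c o) b)
          (x (w 3 c o) b)) y u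
      simp only [abs_sub_comm _ (y _ _)] at h4
      rw [← du_pure]
      have h5 := mix_expect (x (nd 0 c) 1) (x (nd 1 c) 1) (x (nd 2 c) 1)
        (fun o => if src c o = u o then 1 else 0) (fun o => x (w 0 c o) (u o))
        (fun o => x (w 1 c o) (u o)) (fun o => x (w 2 c o) (u o)) fun o => x (w 3 c o) (u o)
      simp only [du] at h3 h4 ⊢
      rw [← h5, abs_le]
      constructor <;> linarith

section
variable {I : Reg C}

theorem asmS_bern2 (h01 : (0 : F) ≠ 1) {n m : ∀ c, I.T c} (hn : Hv I n) (hm : Hv I m)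
    {g : ℝ × ℝ → ℝ} (hg : U01 g) {η : ℝ} (hη : 0 < η) :
    ImplS F a l I (.unit C) fun c x y => |y () 1 - g (x (n c) 1, x (m c) 1)| ≤ η :=
  bernS h01 I Bool (fun c i => cond i (n c) (m c))
    (fun i => by cases i; exacts [hm.1, hn.1]) (fun c i => by cases i; exacts [hm.2 c, hn.2 c])
    (fun v => g (v true, v false)) ⟨hg.1.comp (by fun_prop), fun _ => hg.2 _⟩ η hη

theorem asmS_bern6 (h01 : (0 : F) ≠ 1) {n0 n1 n2 n3 n4 n5 : ∀ c, I.T c} (h0 : Hv I n0)
    (h1 : Hv I n1) (h2 : Hv I n2) (h3 : Hv I n3) (h4 : Hv I n4) (h5 : Hv I n5)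
    {G : (ℝ × ℝ) × ℝ × ℝ → ℝ} (hG : U01 G) {wX wY : ℝ × ℝ → ℝ} (hX : U01 wX) (hY : U01 wY)
    (η δ v0 v1 : ℝ) {e : ℝ} (he : 0 < e) :
    ImplS F a l I (.unit C) fun c x y => |y () 1 - G ((x (n0 c) 1, x (n1 c) 1),
      psi η δ v0 v1 (wX (x (n0 c) 1, x (n1 c) 1)) (wY (x (n0 c) 1, x (n1 c) 1)) (x (n2 c) 1)
        (x (n3 c) 1) (x (n5 c) 1), sig η (x (n4 c) 1))| ≤ e := by
  have hX1 := hX.1
  have hY1 := hY.1
  refine bernS h01 I (Fin 6) (fun c => ![n0 c, n1 c, n2 c, n3 c, n4 c, n5 c])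
    (fun i => by fin_cases i; exacts [h0.1, h1.1, h2.1, h3.1, h4.1, h5.1])
    (fun c i => by fin_cases i; exacts [h0.2 c, h1.2 c, h2.2 c, h3.2 c, h4.2 c, h5.2 c])
    (fun v => G ((v 0, v 1), psi η δ v0 v1 (wX (v 0, v 1)) (wY (v 0, v 1)) (v 2) (v 3) (v 5),
      sig η (v 4))) ⟨hG.1.comp ?_, fun _ => hG.2 _⟩ e he
  unfold psi sig
  fun_prop

theorem asmS_mix (h01 : (0 : F) ≠ 1) {U : Fam C} (hU : ∀ c, Nonempty (U.T c))
    (hz : Sz a l fun c => Fintype.card (U.T c)) {src : ∀ c, U.T c → F} (hs : PT fun z : Σ c, U.T c => src z.1 z.2) {n0 n1 n2 : ∀ c, I.T c}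
    (h0 : Hv I n0) (h1 : Hv I n1) (h2 : Hv I n2) {w0 w1 w2 w3 : ∀ c, U.T c → I.T c}
    (e0 : Emb U I w0) (e1 : Emb U I w1) (e2 : Emb U I w2) (e3 : Emb U I w3) {η : ℝ} (hη : 0 < η) :
    ImplS F a l I (.of U) fun c x y => ∀ u, |du y u - mixv (x (n0 c) 1) (x (n1 c) 1) (x (n2 c) 1)
      (hd (src c) u) (du (fun o => x (w0 c o)) u) (du (fun o => x (w1 c o)) u)
      (du (fun o => x (w2 c o)) u) (du (fun o => x (w3 c o)) u)| ≤ η :=
  (mixS h01 I U hU hz src hs η hη).2 ![n0, n1, n2] ![w0, w1, w2, w3]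
    (fun i => by fin_cases i; exacts [h0.1, h1.1, h2.1])
    (fun c i => by fin_cases i; exacts [h0.2 c, h1.2 c, h2.2 c])
    (fun j => by fin_cases j; exacts [e0, e1, e2, e3])

end

/-- Approximate fixed points find the end of a line, with a size bound. -/
theorem hpvS (h01 : (0 : F) ≠ 1) (I : Reg C) (U : Fam C) (hU : ∀ c, Nonempty (U.T c))
    (hsz : Sz a l fun c => Fintype.card (U.T c)) (src : ∀ c, U.T c → F)
    (hs : PT fun z : Σ c, U.T c => src z.1 z.2)
    (Pre : ∀ c, (I.T c → F → ℝ) → Prop) (L : ∀ c, (I.T c → F → ℝ) → Line (U.T c) F)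
    (η δ Δ v0 v1 : ℝ) (hη : 0 < η) (hδ : 4 * η ≤ δ) (hΔ : 8 * δ ≤ Δ) (hv : v0 < v1)
    (hOK : ∀ c x, IsDist x → Pre c x → (L c x).OK Δ (src c))
    (hstep : ImplS F a l (I.sum (.of U))
      ((Reg.of U).sum ((Reg.of U).sum ((Reg.of U).sum (.unit C))))
      fun c z y => Pre c (fun i => z (.inl i)) →
        (L c fun i => z (.inl i)).Step η δ v0 v1 (src c) (fun i => z (.inr i))
          (fun i => y (.inl i)) (fun i => y (.inr (.inl i))) (fun i => y (.inr (.inr (.inl i))))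
          (y (.inr (.inr (.inr ()))) 1)) :
    ImplS F a l I ((Reg.of U).sum (.of U)) fun c x y => Pre c x →
      (∃ u ∈ (L c x).Val, u ∈ (L c x).EndS ∧ du (fun i => y (.inl i)) u ≤ η) ∨
      ∃ v ∈ (L c x).Val, v ≠ src c ∧ v ∈ (L c x).EndP ∧ du (fun i => y (.inr i)) v ≤ η := by
  obtain ⟨ν, a1, b, wX, wY, G1, G2, m, hm0, hν, ha, hb', hwX, hwY, hG1, hG2, hck⟩ := clockThm
  obtain ⟨e, he, he1, he2⟩ : ∃ e : ℝ, 0 < e ∧ e ≤ η / 20 ∧ e < m :=
    ⟨min (η / 20) (m / 2), by positivity, min_le_left _ _, (min_le_right _ _).trans_lt (by linarith)⟩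
  let UU : Reg C := .of U
  let N : Reg C := .unit C
  let St : Reg C := UU.sum (UU.sum (UU.sum N))
  let M : Reg C := UU.sum (UU.sum (N.sum N))
  let J : Reg C := I.sum M
  let W : Reg C := St.sum (St.sum (N.sum (N.sum (N.sum (N.sum N)))))
  have eX : Emb U M fun _ o => .inl o := (Emb.id U).inl
  have eY : Emb U M fun _ o => .inr (.inl o) := (Emb.id U).inl.inr
  have np : Hv J fun _ => .inr (.inr (.inr (.inl ()))) := Hv.unit.inl.inr.inr.inr
  have nq : Hv J fun _ => .inr (.inr (.inr (.inr ()))) := Hv.unit.inr.inr.inr.inr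
  have s1 := (hstep.plug eX).par ((hstep.plug eY).par
    (ImplS.par ((mixS h01 J U hU hsz src hs e he).1 _ eX.inr)
      (ImplS.par ((mixS h01 J U hU hsz src hs e he).1 _ eY.inr)
        ((asmS_bern2 h01 np nq hν he).par
          ((asmS_bern2 h01 np nq ha he).par (asmS_bern2 h01 np nq hb' he))))))
  have nν : Hv (J.sum W) fun _ => .inr (.inr (.inr (.inr (.inr (.inl ()))))) :=
    Hv.unit.inl.inr.inr.inr.inr.inr
  have na : Hv (J.sum W) fun _ => .inr (.inr (.inr (.inr (.inr (.inr (.inl ())))))) :=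
    Hv.unit.inl.inr.inr.inr.inr.inr.inr
  have nb : Hv (J.sum W) fun _ => .inr (.inr (.inr (.inr (.inr (.inr (.inr ())))))) :=
    Hv.unit.inr.inr.inr.inr.inr.inr.inr
  have nTX : Hv (J.sum W) fun _ => .inr (.inl (.inr (.inr (.inr ())))) :=
    Hv.unit.inr.inr.inr.inl.inr
  have nTY : Hv (J.sum W) fun _ => .inr (.inr (.inl (.inr (.inr (.inr ()))))) :=
    Hv.unit.inr.inr.inr.inl.inr.inr
  have nsX : Hv (J.sum W) fun _ => .inr (.inr (.inr (.inl ()))) := Hv.unit.inl.inr.inr.inr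
  have nsY : Hv (J.sum W) fun _ => .inr (.inr (.inr (.inr (.inl ())))) :=
    Hv.unit.inl.inr.inr.inr.inr
  have eCX : Emb U (J.sum W) fun _ o => .inr (.inl (.inl o)) := (Emb.id U).inl.inl.inr
  have eSX : Emb U (J.sum W) fun _ o => .inr (.inl (.inr (.inl o))) := (Emb.id U).inl.inr.inl.inr
  have eCY : Emb U (J.sum W) fun _ o => .inr (.inr (.inl (.inl o))) := (Emb.id U).inl.inl.inr.inr
  have ePY : Emb U (J.sum W) fun _ o => .inr (.inr (.inl (.inr (.inr (.inl o))))) :=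
    (Emb.id U).inl.inr.inr.inl.inr.inr
  have s2 := (asmS_mix h01 hU hsz hs nν na nb ePY eCY eCX eCX he).par
    ((asmS_mix h01 hU hsz hs nν na nb eCY eCY eSX eCX he).par
      ((asmS_bern6 (a := a) (l := l) h01 np.inl nq.inl nTX nTY nsX nsY hG1 hwX hwY η δ v0 v1 he).par
        (asmS_bern6 (a := a) (l := l) h01 np.inl nq.inl nTX nTY nsX nsY hG2 hwX hwY η δ v0 v1 he)))
  have s3 := (ImplS.seq (M := W) (O := M) s1 s2).wireOut (O' := (UU.sum UU).sum M)
    (fun c => Sum.map (Sum.map Sum.inl fun o => Sum.inl (Sum.inl o)) id) ?_ ?_ ?_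
  · refine (ImplS.loop s3).mono ?_
    rintro c x y hx hy ⟨z, hz, y0, h0, ⟨⟨k1, k2, k3, k4, k5, k6, k7⟩, k8, k9, k10, k11⟩, hE⟩ hP
    have hy1 : ∀ o, y0 (.inl (.inl (.inl o))) = y (.inl o) := fun o =>
      (congrFun hE (.inl (.inl o))).symm
    have hy2 : ∀ o, y0 (.inl (.inr (.inl (.inl o)))) = y (.inr o) := fun o =>
      (congrFun hE (.inl (.inr o))).symm
    have hz1 : ∀ o, y0 (.inr o) = z o := fun o => (congrFun hE (.inr o)).symm
    have := hU c
    simp only [hz1] at k8 k9 k10 k11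
    have key := regThm (U.T c) F (L c x) η δ Δ v0 v1 e (src c) _ _ _ _ _ _ _ _ _ _ _ _ _ _ _ _ _ _ _ _
      hη hδ hΔ hv he1 (hOK c x hx hP) (hz.comp _) (hz.comp _) (h0.comp _) (h0.comp _) (h0.comp _)
      (h0.comp _) (h0.comp _) (h0.comp _) (k1 hP) (k2 hP) k3 k4 (hν.2 _).1 (hν.2 _).2 (ha.2 _).1
      (ha.2 _).2 (hb'.2 _).1 (hb'.2 _).2 (h0.nonneg _ _) (h0.le_one _ _) (h0.nonneg _ _)
      (h0.le_one _ _) (h0.nonneg _ _) (h0.le_one _ _)
      (hwX.2 (z (.inr (.inr (.inl ()))) 1, z (.inr (.inr (.inr ()))) 1)).1 (hwX.2 _).2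
      (hwY.2 (z (.inr (.inr (.inl ()))) 1, z (.inr (.inr (.inr ()))) 1)).1 (hwY.2 _).2 k5 k6 k7 k8 k9
    rcases key with ⟨u, h1, h2, h3⟩ | ⟨u, h1, h2, h3, h4⟩ | h1
    · exact Or.inl ⟨u, h1, h2, by simpa only [hy1] using h3⟩
    · exact Or.inr ⟨u, h1, h2, h3, by simpa only [hy2] using h4⟩
    · exfalso
      have h2 := hck _ _ _ _ (hz.nonneg _ _) (hz.le_one _ _) (hz.nonneg _ _) (hz.le_one _ _)
        (psi_mem (hwX.2 _).1 (hwX.2 _).2 (hwY.2 _).2).1 (psi_mem (hwX.2 _).1 (hwX.2 _).2 (hwY.2 _).2).2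
        (cl_nonneg _) (cl_le_one _) h1
      rw [abs_sub_comm] at k10 k11
      rcases h2 with h2 | h2
      · exact absurd (h2.trans k10) (not_le.2 he2)
      · exact absurd (h2.trans k11) (not_le.2 he2)
  · refine D.congr (D.sum_elim (Z := fun z : Σ c, ((UU.sum UU).sum M).T c => (W.sum M).T z.1)
      (f := fun z a => Sum.inl (Sum.elim (fun o => Sum.inl (Sum.inl o))
        (fun o => Sum.inr (Sum.inl (Sum.inl o))) a))
      (g := fun z a => Sum.inr a) D.sigma_snd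
      (D.inl (D.sum_elim D.sigma_snd (D.inl (D.inl D.sigma_snd)) (D.inr (D.inl (D.inl D.sigma_snd)))))
      (D.inr D.sigma_snd)) ?_
    rintro ⟨c, (o | o) | o⟩ <;> rfl
  · intro c
    exact Sum.map_injective.2 ⟨Sum.map_injective.2 ⟨Sum.inl_injective,
      Sum.inl_injective.comp Sum.inl_injective⟩, Function.injective_id⟩
  · rintro c ((o | o) | o) <;> exact le_rfl

end Vale.Agent.P330Q
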