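import Vale.Agent.P330Q.TwMap

/-! Error reduction for the cells of a twisted codeword. -/

namespace Vale.Agent.P330Q

open Vale.Agent.Lib.PolyTime Vale.Agent.P330 Finset
open scoped Classical BigOperators

section
variable {C S : Type} [Enc C] [Fintype S] [Enc S] {lam : ℝ} (Y : TSys C S lam) {B : Type} [Enc B]
  {q : B → C}

theorem d_vtx (b : Bool) (hq : PT q) {e : ∀ z, Y.G.T (q z) × S} (he : D e) :
    D fun z => vtx (Y.nb (q z)) b (e z) := by
  cases b
  · exact he.fst
  · exact D.cases (X := fun z => Y.G.T (q z)) (D.pt he.snd) (fun s z => Y.nb (q z) s (e z).1)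
      fun s => (Y.d_nb s).app hq he.fst

theorem d_vwp (b : Bool) (hq : PT q) {g : ∀ z, Y.G.T (q z)} (hg : D g) (s : S) :
    D fun z => vwp (Y.nb (q z)) b (g z) s := by
  cases b
  · exact hg.pair (D.const s)
  · exact ((PFam.d_symm Y.G.pf (Y.d_nb s)).app hq hg).pair (D.const s)

/-- One layer of local decoding, separately in every coordinate of the cells. -/
theorem tw_layer {F : Type} [Field F] [Fintype F] [Enc F] [Nonempty S] (C0 : Submodule F (S → F))
    (δ0 : ℝ) (X : Fam C) (hX : ∀ c, Nonempty (X.T c)) (b : Bool) {a l : C → ℕ}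
    (hz : Sz a l fun c => Fintype.card (Y.G.T c)) (hz' : Pl l fun c => Fintype.card (X.T c))
    {η : ℝ} (hη : 0 < η) :
    ImplS F a l (.of (Y.Pos.prod X)) (.of (Y.Pos.prod X)) fun c x y => 𝔼 o, ∑ t,
      |y o t - law (fun i => x (vwp (Y.nb c) b (vtx (Y.nb c) b o.1) i, o.2))
        (fun t => dec0 C0 δ0 t o.1.2) t| ≤ η := by
  have ne : ∀ c, Nonempty ((Y.G.T c × S) × X.T c) := fun c =>
    have := Y.ne c; have := hX c; inferInstance
  refine (ImplS.layer (I := .of (Y.Pos.prod X)) (O := .of (Y.Pos.prod X)) (Fam.const C Unit)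
    (fun _ => ⟨()⟩) ne (fun c o _ i => (vwp (Y.nb c) b (vtx (Y.nb c) b o.1) i, o.2))
    (fun c o _ t => dec0 C0 δ0 t o.1.2)
    (fun i => (d_vwp Y b pt_sigma_fst (d_vtx Y b pt_sigma_fst D.sigma_snd.fst.fst) i).pair
      D.sigma_snd.fst.snd)
    (fun s => P325.pt_finite (D.pt D.sigma_snd.fst.fst.snd) (dec0 C0 δ0 s)) (Fintype.card S)
    (fun c o => ?_) (fun c i u => ?_) ((hz.card_prod (Sz.cardc S)).card_prod hz').card_unit
    hη).mono fun c x y _ _ h => ?_
  · exact (one_div _).symm.trans_le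
      (div_le_div_of_nonneg_right (Nat.one_le_cast.2 Fintype.card_pos) (Nat.cast_nonneg _))
  · have e : Fintype.card (((Y.G.T c × S) × X.T c) × Unit) =
        Fintype.card ((Y.G.T c × S) × X.T c) := by
      rw [Fintype.card_prod _ Unit, Fintype.card_unit, mul_one]
    refine (tzem_fr _ (fun z : ((Y.G.T c × S) × X.T c) × Unit => z.1.1.2) ?_).trans (le_of_eq ?_)
    · rintro ⟨⟨g, ξ⟩, _⟩ ⟨⟨g', ξ'⟩, _⟩ h1 h2 (h3 : g.2 = g'.2)
      obtain ⟨h4, (rfl : ξ = ξ')⟩ := Prod.mk.inj (h1.trans h2.symm)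
      rw [← vwp_vtx (Y.nb c) b g, vwp_inj _ b h4, h3, vwp_vtx]
    · rw [e]
      rfl
  · refine le_trans (le_of_eq ?_) h
    rw [Fintype.expect_eq_sum_div_card, div_eq_inv_mul, mul_sum]
    simp only [dd, univ_unique, expect_singleton]

end

/-- Decoding succeeds up to the errors at the good ports. -/
theorem tw_law {F S : Type} [Field F] [Fintype F] [Fintype S] {C0 : Submodule F (S → F)} {δ0 : ℝ}
    (h0 : 0 < δ0) (hd : Dist0 C0 δ0) {q : S → F → ℝ} (hq : IsDist q) {c : S → F} (hc : c ∈ C0)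
    (j : S) {W : S → Prop} (hW : ¬ δ0 / 4 ≤ fr S W) :
    1 - law q (fun t => dec0 C0 δ0 t j) (c j) ≤
      4 / δ0 * 𝔼 s, if W s then 0 else 1 - q s (c s) := by
  have h1 := prob_markov hq (g := fun t => fr S fun s => ¬ W s ∧ t s ≠ c s)
    (fun _ => fr_nonneg _) (show 0 < δ0 / 4 by positivity)
  have h2 : ex q (fun t => fr S fun s => ¬ W s ∧ t s ≠ c s) =
      𝔼 s, if W s then 0 else 1 - q s (c s) := by
    simp only [fr_eq_expect]
    rw [ex_expect]
    refine expect_congr rfl fun s _ => ?_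
    by_cases h : W s
    · simp only [h, not_true, false_and, if_false, if_true, ex_const hq]
    · rw [if_neg h, ← prob_slot_ne hq, prob_eq_ex]
      simp only [h, not_false_iff, true_and]
      convert rfl
  refine (tan_law hd hq hc j).trans ((prob_mono hq fun t ht => ?_).trans (h1.trans (le_of_eq ?_)))
  · have h3 : fr S (fun s => t s ≠ c s) ≤ fr S W + fr S fun s => ¬ W s ∧ t s ≠ c s :=
      (fr_mono fun s k => or_iff_not_imp_left.2 fun k' => ⟨k', k⟩).trans (fr_or_le _ _)
    linarith [not_le.1 hW]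
  · rw [h2]
    field_simp

theorem twc_slice {F S G V X : Type} [Field F] [Fintype V] {C0 : Bool → Submodule F (S → F)}
    {nb : S → Equiv.Perm G} {m : Bool → G × S → V → V → F} {u : G × S → V → F}
    (hu : u ∈ twc C0 nb m) (gen : X → V → F) (b : Bool) (g : G) (ξ : X) :
    (fun s => cw gen (cw (m b (vwp nb b g s)) (u (vwp nb b g s))) ξ) ∈ C0 b := by
  have := (C0 b).sum_mem (t := univ) fun v _ => (C0 b).smul_mem (gen ξ v) (hu b g v)
  convert this using 1
  funext s
  rw [Finset.sum_apply]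
  rfl

/-- The analysis of a half round. -/
theorem tw_half {F S G V X : Type} [Field F] [Fintype F] [Fintype S] [Nonempty S] [Fintype G]
    [Fintype V] [Fintype X] [Nonempty X] {C0 : Submodule F (S → F)} {δ0 δ : ℝ} (h0 : 0 < δ0)
    (hδ : 0 < δ) (hd : Dist0 C0 δ0) (nb : S → Equiv.Perm G) (b : Bool) {gen : X → V → F}
    {x t z y : (G × S) × X → F → ℝ} (ht : IsDist t) (hy : IsDist y) {u u1 : G × S → V → F}
    (hu : ∀ g ξ, (fun s => cw gen (u1 (vwp nb b g s)) ξ) ∈ C0) :
    𝔼 e, (if tbad nb δ0 b (fun e => δ < cer gen x u e) (vtx nb b e) then 0 else cer gen y u e) ≤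
      𝔼 e, (if cer gen z u1 e ≤ δ then cer gen y u e else 0) +
        (4 / δ0 * 𝔼 e, (if cer gen x u e ≤ δ then cer gen t u1 e else 0) +
        𝔼 o, ∑ k, |z o k - law (fun i => t (vwp nb b (vtx nb b o.1) i, o.2))
          (fun t => dec0 C0 δ0 t o.1.2) k|) / δ := by
  set ρ : G × S → ℝ := fun e => if cer gen x u e ≤ δ then cer gen t u1 e else 0 with hρ
  have r0 : ∀ e, 0 ≤ ρ e := fun e => by
    simp only [hρ]
    split_ifs
    exacts [cer_nonneg ht _ _, le_rfl]
  have e1 : 𝔼 e, ρ e = 𝔼 e : G × S, 𝔼 s, ρ (vwp nb b (vtx nb b e) s) := by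
    rw [tw_sw nb b ρ, tw_sw nb b]
    simp only [vtx_vwp, Fintype.expect_const]
  rw [e1, mul_expect, expect_prod' (X := G × S) (Y := X), ← expect_add_distrib, expect_div,
    ← expect_add_distrib]
  refine expect_le_expect fun e _ => ?_
  have n0 : 0 ≤ 𝔼 ξ, ∑ k, |z (e, ξ) k - law (fun i => t (vwp nb b (vtx nb b e) i, ξ))
      (fun t => dec0 C0 δ0 t e.2) k| := expect_nonneg fun _ _ => sum_nonneg fun _ _ => abs_nonneg _
  have n1 : 0 ≤ 4 / δ0 * 𝔼 s, ρ (vwp nb b (vtx nb b e) s) :=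
    mul_nonneg (by positivity) (expect_nonneg fun _ _ => r0 _)
  have n2 := div_nonneg (add_nonneg n1 n0) hδ.le
  have n3 := cer_nonneg (gen := gen) hy u e
  split_ifs with h1 h2 h2
  · exact add_nonneg n3 n2
  · exact add_nonneg le_rfl n2
  · exact le_add_of_nonneg_right n2
  rw [zero_add, le_div_iff₀ hδ]
  refine ((mul_le_of_le_one_left hδ.le (cer_le_one hy u e)).trans (not_le.1 h2).le).trans
    ((du_le_add _ (fun ξ => law (fun i => t (vwp nb b (vtx nb b e) i, ξ))
      fun t => dec0 C0 δ0 t e.2) _).trans (add_le_add ?_ le_rfl))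
  have e2 : 𝔼 s, ρ (vwp nb b (vtx nb b e) s) = 𝔼 ξ, 𝔼 s,
      if δ < cer gen x u (vwp nb b (vtx nb b e) s) then 0 else
        1 - t (vwp nb b (vtx nb b e) s, ξ) (cw gen (u1 (vwp nb b (vtx nb b e) s)) ξ) := by
    rw [expect_comm]
    refine expect_congr rfl fun s _ => ?_
    simp only [hρ, ← not_le, ite_not]
    split_ifs
    · rfl
    · exact (Fintype.expect_const _).symm
  rw [e2, mul_expect]
  refine expect_le_expect fun ξ _ => ?_
  have k := tw_law h0 hd (q := fun i => t (vwp nb b (vtx nb b e) i, ξ)) (ht.comp _)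
    (hu (vtx nb b e) ξ) e.2 h1
  rw [vwp_vtx] at k
  convert k

variable {l : ℕ} [Fact l.Prime] {δ : ℝ}

theorem twCorThm (hδ : 0 < δ) (hM : CellMapThm l δ) : TwCorThm l δ := by
  intro C U _ _ a lg p hp hl S _ _ C0 δ0 lam hT hd V Z T hz η hη
  have h0 := hT.1
  have := tan_ne hT
  have hP : ∀ c, Nonempty (T.Y.Pos.T c) := fun c => have := T.Y.ne c; inferInstance
  have lin := fun L hL η hη => cells_lin (η := η) hM hp hl Z T.Y.Pos hP
    (hz.card_prod (Sz.cardc S)) L hL hη
  have half : ∀ b η, 0 < η → ImplS (ZMod l) a lg (.of (T.Y.Pos.prod (Z.X.comap p hp)))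
      (.of (T.Y.Pos.prod (Z.X.comap p hp))) fun c x y => ∀ u ∈ twc C0 (T.Y.nb c) (T.m c),
        𝔼 e, (if tbad (T.Y.nb c) δ0 b (fun e => δ < cer (Z.gen (p c)) x u e) (vtx (T.Y.nb c) b e)
          then 0 else cer (Z.gen (p c)) y u e) ≤ η := fun b η hη => by
    refine ((lin (fun c => T.m c b) (T.pm b) (δ * δ0 * η / 16) (by positivity)).trans
      ((tw_layer T.Y (C0 b) δ0 (Z.X.comap p hp) (fun c => Z.ne _) b hz (Sz.card_comap Z.X hl)
        (η := δ * η / 4) (by positivity)).trans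
        (lin (fun c => T.m' c b) (T.pm' b) (η / 2) (half_pos hη)))).mono ?_
    rintro c x y - hy ⟨t, ht, h1, z, -, h2, h3⟩ u hu
    have := Z.ne (p c)
    have h4 := h3 fun e => cw (T.m c b e) (u e)
    simp only [T.inv] at h4
    refine (tw_half (z := z) h0 hδ (hd b) (T.Y.nb c) b ht hy
      (twc_slice hu (Z.gen (p c)) b)).trans ((add_le_add h4 (div_le_div_of_nonneg_right
        (add_le_add (mul_le_mul_of_nonneg_left (h1 u) (by positivity)) h2) hδ.le)).trans
          (le_of_eq ?_))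
    field_simp
    ring
  have mix : ∀ b η, 0 < η → ImplS (ZMod l) a lg (.of (T.Y.Pos.prod (Z.X.comap p hp)))
      (.of (T.Y.Pos.prod (Z.X.comap p hp))) fun c x y => ∀ u ∈ twc C0 (T.Y.nb c) (T.m c),
        fr _ (tbad (T.Y.nb c) δ0 b fun e => δ < cer (Z.gen (p c)) x u e) ≤ δ0 / 16 →
        fr _ (tbad (T.Y.nb c) δ0 (!b) fun e => δ < cer (Z.gen (p c)) y u e) ≤
          fr _ (tbad (T.Y.nb c) δ0 b fun e => δ < cer (Z.gen (p c)) x u e) / 8 + η :=
    fun b η hη => by
    refine (half b (δ * δ0 * η / 8) (by positivity)).mono fun c x y _ hy h u hu k => ?_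
    have := T.Y.ne c
    have h1 := (fr_markov (fun e => ?_) hδ).trans (div_le_div_of_nonneg_right (h u hu) hδ.le)
    · refine (tw_mix hT (T.Y.gap c) b (fun e he => or_iff_not_imp_left.2 fun k => ?_) k).trans
        (add_le_add le_rfl ((mul_le_mul_of_nonneg_left h1 (by positivity)).trans (le_of_eq ?_)))
      · rw [if_neg k]
        exact he.le
      · field_simp
    · split_ifs
      exacts [le_rfl, cer_nonneg hy _ _]
  have it := ImplS.iterP (fun c u => u ∈ twc C0 (T.Y.nb c) (T.m c))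
    (fun c x u => fr _ (tbad (T.Y.nb c) δ0 false fun e => δ < cer (Z.gen (p c)) x u e))
    (show 0 < δ0 / 16 by positivity) (fun η hη => ((mix false (min η (δ0 / 32))
      (lt_min hη (by positivity))).trans (mix true (η / 2) (half_pos hη))).mono (by
        rintro c x z - - ⟨y, -, h1, h2⟩ u hu k
        have h3 := h1 u hu k
        have h4 := min_le_left η (δ0 / 32)
        have h5 := min_le_right η (δ0 / 32)
        have h6 := h2 u hu (by simp only [Bool.not_false] at h3; linarith)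
        have h7 := fr_nonneg (tbad (T.Y.nb c) δ0 false fun e => δ < cer (Z.gen (p c)) x u e)
        simp only [Bool.not_false, Bool.not_true] at h3 h6
        linarith)) (half_pos hη)
  refine (it.trans (half false (η / 2) (half_pos hη))).mono ?_
  rintro c x z hx hz ⟨y, -, h1, h2⟩ u hu k
  have h3 := (fr_mono (E := fun e => δ < cer (Z.gen (p c)) x u e) fun _ k => k.le).trans
    (fr_markov (cer_nonneg hx u) hδ)
  rw [← du_cells] at h3
  have h4 := h1 u hu ((tbad_le _ h0 false _).trans ((mul_le_mul_of_nonneg_left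
    (h3.trans (div_le_div_of_nonneg_right k hδ.le)) (by positivity)).trans (by
      rw [show 4 / δ0 * (δ * δ0 ^ 2 / 128 / δ) = δ0 / 32 by field_simp; ring]
      linarith)))
  rw [← tw_frv (T.Y.nb c) false, fr_eq_expect] at h4
  rw [du_cells]
  refine le_trans ?_ ((add_le_add h4 (h2 u hu)).trans (add_halves η).le)
  rw [← expect_add_distrib]
  refine expect_le_expect fun e _ => ?_
  have := Z.ne (p c)
  split_ifs
  exacts [(cer_le_one hz u e).trans (add_zero _).ge, (zero_add _).ge]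

end Vale.Agent.P330Q
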