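import Vale.Agent.P330Q.BcImpl
import Vale.Agent.P330Q.BcSuc
import Vale.Agent.P330Q.BcCorL
import Vale.Agent.P330Q.BcTst
import Vale.Agent.P330Q.HPV
import Vale.Agent.P330Q.BM
import Vale.Agent.P330Q.BT
import Vale.Agent.P330Q.TwCor
import Vale.Agent.P330.ChAcc

/-! Long chains of cells: assembly. -/

namespace Vale.Agent.P330Q

open Vale.Agent.Lib.PolyTime Vale.Agent.P330 Finset
open scoped Classical BigOperators

namespace BcD
variable {l : ℕ} [Fact l.Prime] {δ : ℝ} {d : ℕ} {C U : Type} [Enc C] [Enc U] {a lg : C → ℕ}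
  {S B : Type} [Fintype S] [Enc S] [Fintype B] [Enc B] {lam : ℝ} (K : BcD l δ d U a lg S B lam)
  {C0 : Bool → Submodule (ZMod l) (S → ZMod l)} {δ0 : ℝ}

theorem w_zero (c : C) (u : K.T.Y.G.T c × S → K.V.T (K.p c) → ZMod l) :
    K.Wd c u 0 = K.Wd c 0 0 := BW_zero _ _ _

theorem w_dist [Nonempty S] (c : C) (u : K.T.Y.G.T c × S → K.V.T (K.p c) → ZMod l) (p : ℕ)
    (hp : p < K.r (K.p c) + 2) (q : ℕ) (_ : q < K.r (K.p c) + 2) (h : p ≠ q) :
    2 * δ ≤ hd (K.Wd c u p) (K.Wd c u q) :=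
  haveI := K.neP c
  haveI := K.neV (K.p c)
  (le_of_eq (by ring)).trans (BW_dist (K.Z.dist _) hp h)

theorem cor_W (hδ : 0 < δ) (hM : CellMapThm l δ) (hC : TwCorThm l δ) (hT : TanGood δ0 lam S)
    (hd0 : ∀ b, Dist0 (C0 b) δ0) {η : ℝ} (hη : 0 < η) :
    ImplS (ZMod l) a lg (.of K.Ln) (.of K.Ln) fun c z y => ∀ u, K.Ok C0 c u →
      ∀ q, q < K.r (K.p c) + 2 → du z (K.Wd c u q) ≤ δ * δ0 ^ 2 / 256 → du y (K.Wd c u q) ≤ η :=
  (K.impl_cor hδ hM hC hT hd0 hη).mono fun _ _ _ _ _ h _ hu _ hq => h _ (hst_mem hu hq) _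

theorem step_suc (hδ : 0 < δ) (hM : CellMapThm l δ) (hC : TwCorThm l δ) (hT : TanGood δ0 lam S)
    (hd0 : ∀ b, Dist0 (C0 b) δ0) {η : ℝ} (hη : 0 < η) : ∃ e : ℝ, 0 < e ∧
    ImplS (ZMod l) a lg ((Reg.of K.Tb).sum (.of K.Ln)) (.of K.Ln) fun c z y =>
      ∀ u, K.Ok C0 c u → du (fun i => z (.inl i)) (K.In c u) ≤ e →
        ∀ q, q + 1 < K.r (K.p c) + 2 → du (fun i => z (.inr i)) (K.Wd c u q) ≤ δ * δ0 ^ 2 / 256 →
          du y (K.Wd c u (q + 1)) ≤ η := by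
  have := hT.neS
  have hk : (0 : ℝ) < (Fintype.card B + 3) * 2 := by positivity
  have he : 0 < η * δ / (4 * ((Fintype.card B + 3) * 2)) := by positivity
  have h := (K.impl_suc hδ hM (half_pos hη)).wireIn
    (I' := ((Reg.of K.Tb).sum (.of K.Ln)).sum (.of K.Ln)) (fun _ => Sum.map Sum.inl id)
    (D.sum_elim D.sigma_snd (D.inl (D.inl D.sigma_snd)) (D.inr D.sigma_snd))
    (fun _ => Sum.map_injective.2 ⟨Sum.inl_injective, Function.injective_id⟩)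
    (fun _ i => by rcases i with i | i <;> exact le_rfl)
  refine ⟨_, he, (((K.cor_W hδ hM hC hT hd0 he).inr (I := .of K.Tb)).seq' h).mono ?_⟩
  rintro c z y - - ⟨m, -, h1, h2⟩ u hu hx q hq hz
  have h3 := add_le_add hx (h1 u hu q (by omega) hz)
  refine (h2 u q hq).trans ?_
  have h4 := div_le_div_of_nonneg_right (mul_le_mul_of_nonneg_left h3 hk.le) hδ.le
  refine (add_le_add_left h4 _).trans (le_of_eq ?_)
  field_simp
  ring

theorem step_pre (hδ : 0 < δ) (hM : CellMapThm l δ) (hC : TwCorThm l δ) (hT : TanGood δ0 lam S)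
    (hd0 : ∀ b, Dist0 (C0 b) δ0) {η : ℝ} (hη : 0 < η) :
    ImplS (ZMod l) a lg (.of K.Ln) (.of K.Ln) fun c z y =>
      ∀ u, K.Ok C0 c u → ∀ q, q + 1 < K.r (K.p c) + 2 →
        du z (K.Wd c u (q + 1)) ≤ δ * δ0 ^ 2 / 256 → du y (K.Wd c u q) ≤ η := by
  have := hT.neS
  refine ((K.cor_W hδ hM hC hT hd0 (η := η * δ / 8) (by positivity)).trans
    (K.impl_pre hδ hM (half_pos hη))).mono ?_
  rintro c z y - - ⟨m, -, h1, h2⟩ u hu q hq hz
  have h3 := h1 u hu _ hq hz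
  refine (h2 u q hq).trans ?_
  have h4 : 4 * du m (K.Wd c u (q + 1)) / δ ≤ η / 2 := by
    rw [div_le_iff₀ hδ]
    linarith
  linarith

/-- The input close to a table of cells. -/
noncomputable def near (C0 : Bool → Submodule (ZMod l) (S → ZMod l)) (e : ℝ) (c : C)
    (x : K.Tb.T c → ZMod l → ℝ) : K.T.Y.G.T c × S → K.V.T (K.p c) → ZMod l :=
  if h : ∃ u, K.Ok C0 c u ∧ du x (K.In c u) ≤ e then h.choose else 0

theorem near_spec {e : ℝ} {c : C} {x : K.Tb.T c → ZMod l → ℝ}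
    (h : ∃ u, K.Ok C0 c u ∧ du x (K.In c u) ≤ e) :
    K.Ok C0 c (K.near C0 e c x) ∧ du x (K.In c (K.near C0 e c x)) ≤ e := by
  rw [near, dif_pos h]
  exact h.choose_spec

theorem near_eq (hδ : 0 < δ) (hT : TanGood δ0 lam S) (hd0 : ∀ b, Dist0 (C0 b) δ0) {e : ℝ}
    (he : e ≤ δ * δ0 ^ 2 / 4) {c : C} {x : K.Tb.T c → ZMod l → ℝ} (hx : IsDist x)
    {u : K.T.Y.G.T c × S → K.V.T (K.p c) → ZMod l} (hu : K.Ok C0 c u) (h : du x (K.In c u) ≤ e) :
    K.near C0 e c x = u := by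
  obtain ⟨h1, h2⟩ := K.near_spec ⟨u, hu, h⟩
  have := K.T.Y.ne c
  by_contra hne
  have h3 := twc_dist hT hd0 (K.T.Y.gap c) (K.T.inv c) (h1 0 (Nat.zero_le _))
    (hu 0 (Nat.zero_le _)) hne
  have h4 := (cells_dist (K.Z.dist (K.p c)) (fun o => emb _ (K.near C0 e c x o))
    fun o => emb _ (u o)).trans (hd_le_du hx _ _)
  have h5 := h3.trans_le (fr_mono (E' := fun o => emb (K.r (K.p c)) (K.near C0 e c x o) ≠
    emb (K.r (K.p c)) (u o)) fun o ho e => ho (emb_inj e))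
  have h6 := mul_lt_mul_of_pos_left h5 (show 0 < 4 * δ by positivity)
  have h7 := add_le_add h2 h
  have h8 := h6.trans_le (h4.trans h7)
  linarith

theorem line_end (hδ : 0 < δ) (hM : CellMapThm l δ) (hE : CellTestThm l δ) (hC : TwCorThm l δ)
    (hT : TanGood δ0 lam S) (hd0 : ∀ b, Dist0 (C0 b) δ0) {ξ : ℝ} (hξ : 0 < ξ) :
    ∃ e : ℝ, 0 < e ∧ e ≤ δ * δ0 ^ 2 / 4 ∧
    ImplS (ZMod l) a lg (.of K.Tb) ((Reg.of K.Ln).sum (.of K.Ln)) fun c x y =>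
      (∃ u, K.Ok C0 c u ∧ du x (K.In c u) ≤ e) →
        du (fun i => y (.inl i)) (K.Wd c (K.near C0 e c x) (K.r (K.p c) + 1)) ≤ ξ := by
  have := hT.neS
  have h0 : 0 < δ0 := hT.1
  have h1 : δ * δ0 ^ 2 ≤ δ := mul_le_of_le_one_right hδ.le (pow_le_one₀ h0.le hT.2.1)
  have h2 : 0 < δ * δ0 ^ 2 := by positivity
  obtain ⟨v1, η0, hv1, hη0, htest⟩ := K.impl_test hδ hE hT hd0 (δ1 := δ * δ0 ^ 2 / 256)
    (by positivity)
  obtain ⟨η, hη, a1, a2, a3⟩ : ∃ η : ℝ, 0 < η ∧ η ≤ δ * δ0 ^ 2 / 1024 ∧ η ≤ η0 / 2 ∧ η ≤ ξ :=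
    ⟨min (δ * δ0 ^ 2 / 1024) (min (η0 / 2) ξ), by positivity, min_le_left _ _,
      (min_le_right _ _).trans (min_le_left _ _), (min_le_right _ _).trans (min_le_right _ _)⟩
  obtain ⟨e0, he0, hsuc⟩ := K.step_suc hδ hM hC hT hd0 hη
  obtain ⟨e, he, e1, e2, e3⟩ : ∃ e : ℝ, 0 < e ∧ e ≤ δ * δ0 ^ 2 / 4 ∧ e ≤ η0 ∧ e ≤ e0 :=
    ⟨min (δ * δ0 ^ 2 / 4) (min η0 e0), by positivity, min_le_left _ _,
      (min_le_right _ _).trans (min_le_left _ _), (min_le_right _ _).trans (min_le_right _ _)⟩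
  refine ⟨e, he, e1, (hpvS zero_ne_one (.of K.Tb) K.Ln
    (fun c => haveI := K.neP c; haveI := K.Z.ne (K.p c); inferInstance) K.szLn
    (fun c => K.Wd c 0 0) K.pt_src (fun c x => ∃ u, K.Ok C0 c u ∧ du x (K.In c u) ≤ e)
    (fun c x => chLine (K.Wd c (K.near C0 e c x)) (K.r (K.p c) + 2)) η (δ * δ0 ^ 2 / 256) (2 * δ)
    (v1 / 2) v1 hη (by linarith) (by linarith) (by linarith) (fun c x _ _ => ?_) ?_).mono ?_⟩
  · rw [← K.w_zero c (K.near C0 e c x)]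
    exact chLine_ok (by positivity) (by omega) (K.w_dist c _)
  · refine (((K.cor_W hδ hM hC hT hd0 hη).inr (I := .of K.Tb)).par
      (hsuc.par (((K.step_pre hδ hM hC hT hd0 hη).inr (I := .of K.Tb)).par htest))).mono ?_
    rintro c z y - - ⟨g1, g2, g3, g4⟩ hp
    obtain ⟨hu, hx⟩ := K.near_spec hp
    rw [← K.w_zero c (K.near C0 e c fun i => z (.inl i))]
    exact chLine_step (Δ := 2 * δ) (by positivity) (K.w_dist c _)
      (fun k hk h => g1 _ hu k hk h) (fun k hk => g2 _ hu (hx.trans e3) k hk)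
      (fun k hk => g3 _ hu k hk) (g4 _ hu (hx.trans e2)).1
      fun k hk h => (g4 _ hu (hx.trans e2)).2 k hk (h.trans (by linarith))
  · intro c x y _ _ h hp
    rcases h hp with ⟨u, -, hu, h⟩ | ⟨v, -, -, hv, -⟩
    · obtain rfl : u = K.Wd c (K.near C0 e c x) (K.r (K.p c) + 1) := hu
      exact h.trans a3
    · exact hv.elim

end BcD

theorem bigChain {l : ℕ} [Fact l.Prime] {δ : ℝ} (hA : CellAt l δ) (hM : CellMapThm l δ)
    (hE : CellTestThm l δ) (hC : TwCorThm l δ) : BigChainThm l δ := by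
  intro d C U _ _ a lg p hp hs S B _ _ _ _ C0 δ0 lam hT hd0 V Z T π r hr hr' f neV size dπ pol η hη
  have hδ := hA.1
  obtain ⟨Z'⟩ := hA.2 U (slots V hr hr')
  let K : BcD l δ d U a lg S B lam := ⟨p, hp, hs, V, T, π, r, hr, hr', f, neV, size, dπ, pol, Z'⟩
  have := hT.neS
  obtain ⟨e, he, e1, h⟩ := K.line_end hδ hM hE hC hT hd0 (ξ := η * δ / 4) (by positivity)
  refine (((hC C U a lg p hp hs S C0 δ0 lam hT hd0 V Z T size (e * δ / 2) (by positivity)).trans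
    (K.impl_in hδ hM Z (half_pos he))).trans
    (h.trans ((K.impl_out hδ hM Z (half_pos hη)).inl (I' := .of K.Ln)))).mono ?_
  rintro c x y - - ⟨x', hx', ⟨x1, -, h1, h2⟩, m, -, h3, h4⟩ u hu hx
  have h5 := h1 u (hu 0 (Nat.zero_le _)) hx
  have h6 : du x' (K.In c u) ≤ e := by
    refine (h2 u).trans ?_
    have : du x1 (cells (Z.gen (p c)) u) / δ ≤ e / 2 := by
      rw [div_le_iff₀ hδ]
      linarith
    linarith
  have h7 := h3 ⟨u, hu, h6⟩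
  rw [K.near_eq hδ hT hd0 e1 hx' hu h6] at h7
  refine (h4 u).trans ?_
  have : 2 * du (fun i => m (.inl i)) (K.Wd c u (K.r (K.p c) + 1)) / δ ≤ η / 2 := by
    rw [div_le_iff₀ hδ]
    linarith
  linarith

theorem bigChainThm {l : ℕ} [Fact l.Prime] {δ : ℝ} (hA : CellAt l δ) : BigChainThm l δ :=
  bigChain hA (cellMap hA) (cellTest hA) (twCorThm hA.1 (cellMap hA))

end Vale.Agent.P330Q
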