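import Vale.Agent.P330Q.Comb
import Vale.Agent.P330.CodeQ
import Vale.Agent.P330.ChMP
import Vale.Agent.P330.PolT

/-! Cells of polylogarithmic size, twisted Tanner codes and long chains: definitions. -/

namespace Vale.Agent.P330Q

open Vale.Agent.Lib.PolyTime Vale.Agent.P330 Finset
open scoped Classical BigOperators

/-- Polynomials of degree `d` of the message held by the register `I` can be read. -/
def PRd (l : ℕ) [NeZero l] (d : ℕ) {C : Type} [Enc C] (I : Reg C) (V : Fam C)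
    (P : ∀ c, (I.T c → ZMod l → ℝ) → (V.T c → ZMod l) → Prop) : Prop :=
  ∀ (J : Fam C) (f : ∀ c, J.T c → (V.T c → ZMod l) → ZMod l), (∀ c, Nonempty (J.T c)) →
    Pol d V J f → ∀ η : ℝ, 0 < η → Impl (ZMod l) I (.of J) fun c x y =>
      ∀ w, P c x w → du y (fun j => f c j w) ≤ η

/-- A code for the messages `V` on which polynomials can be read in every context. -/
structure Cell (l : ℕ) [Fact l.Prime] (δ : ℝ) {U : Type} [Enc U] (V : Fam U) : Type 1 where
  X : Fam U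
  gen : ∀ u, X.T u → V.T u → ZMod l
  ne : ∀ u, Nonempty (X.T u)
  pt : PT fun z : Σ u, X.T u × V.T u => gen z.1 z.2.1 z.2.2
  dist : ∀ u w w', w ≠ w' → 4 * δ ≤ hd (cw (gen u) w) (cw (gen u) w')
  rd : ∀ (d : ℕ) (B : Type) [Enc B] (p : B → U) (hp : PT p),
    PRd l d (.of (X.comap p hp)) (V.comap p hp) fun b x w => du x (cw (gen (p b)) w) ≤ δ
  dec : ∀ (B : Type) [Enc B] (p : B → U) (u : ∀ b, X.T (p b) → ZMod l), PT p →
    PT (fun z : Σ b, X.T (p b) => u z.1 z.2) →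
    ∃ v : ∀ b, V.T (p b) → ZMod l, PT (fun z : Σ b, V.T (p b) => v z.1 z.2) ∧
      ∀ b w, hd (u b) (cw (gen (p b)) w) ≤ δ → v b = w

/-- Every family of messages has a cell code. -/
def CellAt (l : ℕ) [Fact l.Prime] (δ : ℝ) : Prop :=
  0 < δ ∧ ∀ (U : Type) [Enc U] (V : Fam U), Nonempty (Cell l δ V)

/-- The word of the cells of a vector valued word. -/
def cells {P X V F : Type} [Fintype V] [CommRing F] (gen : X → V → F) (u : P → V → F) :
    P × X → F := fun z => cw gen (u z.1) z.2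

/-- The edges at a left (`false`) or right (`true`) vertex. -/
def vwp {S G : Type} (nb : S → Equiv.Perm G) : Bool → G → S → G × S
  | false, g, s => (g, s)
  | true, g, s => ((nb s)⁻¹ g, s)

/-- Twisted Tanner codes of vector valued words. -/
def twc {F S G V : Type} [Field F] [Fintype V] (C0 : Bool → Submodule F (S → F))
    (nb : S → Equiv.Perm G) (m : Bool → G × S → V → V → F) : Set (G × S → V → F) :=
  {y | ∀ b g v, (fun s => cw (m b (vwp nb b g s)) (y (vwp nb b g s)) v) ∈ C0 b}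

/-- A computable family of expanders with invertible twisting matrices. -/
structure Tw (l : ℕ) [Fact l.Prime] {C U : Type} [Enc C] [Enc U] (S : Type) [Fintype S] [Enc S]
    (lam : ℝ) (p : C → U) (V : Fam U) : Type 1 where
  Y : TSys C S lam
  m : ∀ c, Bool → Y.G.T c × S → V.T (p c) → V.T (p c) → ZMod l
  m' : ∀ c, Bool → Y.G.T c × S → V.T (p c) → V.T (p c) → ZMod l
  pm : ∀ b, PT fun z : Σ c, (Y.G.T c × S) × V.T (p c) × V.T (p c) =>
    m z.1 b z.2.1 z.2.2.1 z.2.2.2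
  pm' : ∀ b, PT fun z : Σ c, (Y.G.T c × S) × V.T (p c) × V.T (p c) =>
    m' z.1 b z.2.1 z.2.2.1 z.2.2.2
  inv : ∀ c b x w, cw (m' c b x) (cw (m c b x) w) = w

/-- The run of a local program. -/
def prun {P B V F : Type} (π : B → Equiv.Perm P) (f : ℕ → P → V → (B × V → F) → F)
    (u : P → V → F) : ℕ → P → V → F
  | 0 => u
  | t + 1 => fun x v => f t x v fun z => prun π f u t (π z.1 x) z.2

/-- An array of cells: for every index `o` a tuple of cells is read in the register `I`. -/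
structure Arr (l : ℕ) [Fact l.Prime] {δ : ℝ} {C U : Type} [Enc C] [Enc U] (a lg : C → ℕ)
    (p : C → U) {V : Fam U} (Z : Cell l δ V) (A : Type) (I : Reg C) (O : Fam C) : Type where
  sl : ∀ c, O.T c → A → Z.X.T (p c) → I.T c
  κ : ℝ
  ne : ∀ c, Nonempty (O.T c)
  size : Sz a lg fun c => Fintype.card (O.T c)
  d_sl : ∀ i, D3 fun c o ξ => sl c o i ξ
  dens : ∀ c i u, fr (O.T c × Z.X.T (p c)) (fun z => sl c z.1 i z.2 = u) ≤ κ * I.w c u

/-- Some cell read at `o` is at distance more than `e` from the codeword of its message. -/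
def Arr.Far {l : ℕ} [Fact l.Prime] {δ : ℝ} {C U : Type} [Enc C] [Enc U] {a lg : C → ℕ}
    {p : C → U} {V : Fam U} {Z : Cell l δ V} {A : Type} {I : Reg C} {O : Fam C}
    (R : Arr l a lg p Z A I O) (e : ℝ) {c : C} (x : I.T c → ZMod l → ℝ) (o : O.T c)
    (w : A × V.T (p c) → ZMod l) : Prop :=
  ∃ i, e < du (fun ξ => x (R.sl c o i ξ)) (cw (Z.gen (p c)) fun v => w (i, v))

/-- Polynomial maps of tuples of cells. -/
def CellMapThm (l : ℕ) [Fact l.Prime] (δ : ℝ) : Prop :=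
  ∀ (d : ℕ) (C U : Type) [Enc C] [Enc U] (a lg : C → ℕ) (p : C → U) (hp : PT p),
    Pl lg (fun c => sz (p c)) → ∀ (V J : Fam U) (Z : Cell l δ V) (A : Type) [Fintype A] [Enc A]
    [Nonempty A] (I : Reg C) (O : Fam C) (R : Arr l a lg p Z A I O)
    (f : ∀ c, O.T c → J.T (p c) → (A × V.T (p c) → ZMod l) → ZMod l), (∀ u, Nonempty (J.T u)) →
    Pol d ((Fam.const C A).prod (V.comap p hp)) (O.prod (J.comap p hp))
      (fun c z => f c z.1 z.2) → ∀ η : ℝ, 0 < η →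
    ImplS (ZMod l) a lg I (.of (O.prod (J.comap p hp))) fun c x y =>
      ∀ w : O.T c → A × V.T (p c) → ZMod l,
        du y (fun z => f c z.1 z.2 (w z.1)) ≤ η + fr (O.T c) fun o => R.Far δ x o (w o)

/-- Tests of polynomial relations between tuples of cells. -/
def CellTestThm (l : ℕ) [Fact l.Prime] (δ : ℝ) : Prop :=
  ∀ (d : ℕ) (C U : Type) [Enc C] [Enc U] (a lg : C → ℕ) (p : C → U) (hp : PT p),
    Pl lg (fun c => sz (p c)) → ∀ (V E : Fam U) (Z : Cell l δ V) (A : Type) [Fintype A] [Enc A]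
    [Nonempty A] (I : Reg C) (O : Fam C) (R : Arr l a lg p Z A I O)
    (f : ∀ c, O.T c → E.T (p c) → (A × V.T (p c) → ZMod l) → ZMod l),
    Pol d ((Fam.const C A).prod (V.comap p hp)) (O.prod (E.comap p hp))
      (fun c z => f c z.1 z.2) → ∀ δ' β : ℝ, 0 < δ' → 0 < β →
    ∃ v1 : ℝ, 0 < v1 ∧ ∀ v0 : ℝ, 0 < v0 → ∃ η : ℝ, 0 < η ∧ ImplRS (ZMod l) a lg I fun c x T =>
      (T < v1 → fr (O.T c) (fun o => ∀ w, (∀ e, f c o e w = 0) → R.Far δ' x o w) ≤ β) ∧
      ∀ w : O.T c → A × V.T (p c) → ZMod l, (∀ o e, f c o e (w o) = 0) →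
        fr (O.T c) (fun o => R.Far η x o (w o)) ≤ η → T ≤ v0

/-- Small-set soundness of twisted codes. -/
def TwSSSThm : Prop :=
  ∀ (F S G K K' : Type) [Field F] [Fintype S] [Fintype G] [Nonempty G] [Zero K']
    (C0 : Bool → Submodule F (S → F)) (nb : S → Equiv.Perm G) (δ0 lam β : ℝ), TanGood δ0 lam S →
    (∀ b, Dist0 (C0 b) δ0) → P325.Gap (fun s g => nb s g) lam →
    ∀ (y : G × S → K') (y' : Bool → G × S → K → F), (∀ b x, y' b x = 0 ↔ y x = 0) →
      (∀ b, fr G (fun g => ∃ k, (fun s => y' b (vwp nb b g s) k) ∉ C0 b) ≤ β) → β ≤ δ0 / 8 →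
      fr (G × S) (fun x => y x ≠ 0) ≤ δ0 ^ 2 / 8 → fr (G × S) (fun x => y x ≠ 0) ≤ β

/-- Error reduction for the cells of a twisted codeword. -/
def TwCorThm (l : ℕ) [Fact l.Prime] (δ : ℝ) : Prop :=
  ∀ (C U : Type) [Enc C] [Enc U] (a lg : C → ℕ) (p : C → U) (hp : PT p),
    Pl lg (fun c => sz (p c)) → ∀ (S : Type) [Fintype S] [Enc S]
    (C0 : Bool → Submodule (ZMod l) (S → ZMod l)) (δ0 lam : ℝ), TanGood δ0 lam S →
    (∀ b, Dist0 (C0 b) δ0) →
    ∀ (V : Fam U) (Z : Cell l δ V) (T : Tw l S lam p V),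
    Sz a lg (fun c => Fintype.card (T.Y.G.T c)) → ∀ η : ℝ, 0 < η →
    ImplS (ZMod l) a lg (.of (T.Y.Pos.prod (Z.X.comap p hp))) (.of (T.Y.Pos.prod (Z.X.comap p hp)))
      fun c x y => ∀ u ∈ twc C0 (T.Y.nb c) (T.m c),
        du x (cells (Z.gen (p c)) u) ≤ δ * δ0 ^ 2 / 128 → du y (cells (Z.gen (p c)) u) ≤ η

/-- Decoding of the cells of a twisted codeword in polynomial time. -/
def TwDecThm (l : ℕ) [Fact l.Prime] (δ : ℝ) : Prop :=
  ∀ (C U : Type) [Enc C] [Enc U] (p : C → U), PT p → ∀ (S : Type) [Fintype S] [Enc S]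
    (C0 : Bool → Submodule (ZMod l) (S → ZMod l)) (δ0 lam : ℝ), TanGood δ0 lam S →
    (∀ b, Dist0 (C0 b) δ0) →
    ∀ (V : Fam U) (Z : Cell l δ V) (T : Tw l S lam p V) (B : Type) [Enc B] (q : B → C)
      (w : ∀ b, (T.Y.G.T (q b) × S) × Z.X.T (p (q b)) → ZMod l), PT q →
      PT (fun z : Σ b, (T.Y.G.T (q b) × S) × Z.X.T (p (q b)) => w z.1 z.2) →
      ∃ v : ∀ b, T.Y.G.T (q b) × S → V.T (p (q b)) → ZMod l,
        PT (fun z : Σ b, (T.Y.G.T (q b) × S) × V.T (p (q b)) => v z.1 z.2.1 z.2.2) ∧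
        ∀ b, ∀ u ∈ twc C0 (T.Y.nb (q b)) (T.m (q b)),
          hd (w b) (cells (Z.gen (p (q b))) u) ≤ δ * δ0 ^ 2 / 128 → v b = u

/-- Polylogarithmically many local polynomial steps between twisted codewords. -/
def BigChainThm (l : ℕ) [Fact l.Prime] (δ : ℝ) : Prop :=
  ∀ (d : ℕ) (C U : Type) [Enc C] [Enc U] (a lg : C → ℕ) (p : C → U) (hp : PT p),
    Pl lg (fun c => sz (p c)) → ∀ (S B : Type) [Fintype S] [Enc S] [Fintype B] [Enc B]
    (C0 : Bool → Submodule (ZMod l) (S → ZMod l)) (δ0 lam : ℝ), TanGood δ0 lam S →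
    (∀ b, Dist0 (C0 b) δ0) →
    ∀ (V : Fam U) (Z : Cell l δ V) (T : Tw l S lam p V)
      (π : ∀ c, B → Equiv.Perm (T.Y.G.T c × S)) (r : U → ℕ) (hr : PT r) (hr' : PB r)
      (f : ∀ c, ℕ → T.Y.G.T c × S → V.T (p c) → (B × V.T (p c) → ZMod l) → ZMod l),
    (∀ u, Nonempty (V.T u)) → Sz a lg (fun c => Fintype.card (T.Y.G.T c)) →
    (∀ i, D2 fun c x => π c i x) →
    Pol d ((Fam.const C B).prod (V.comap p hp))
      (T.Y.Pos.prod (((Fam.ofFin r hr hr').prod V).comap p hp))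
      (fun c z => f c z.2.1 z.1 z.2.2) → ∀ η : ℝ, 0 < η →
    ImplS (ZMod l) a lg (.of (T.Y.Pos.prod (Z.X.comap p hp))) (.of (T.Y.Pos.prod (Z.X.comap p hp)))
      fun c x y => ∀ u, (∀ t ≤ r (p c), prun (π c) (f c) u t ∈ twc C0 (T.Y.nb c) (T.m c)) →
        du x (cells (Z.gen (p c)) u) ≤ δ * δ0 ^ 2 / 128 →
          du y (cells (Z.gen (p c)) (prun (π c) (f c) u (r (p c)))) ≤ η

end Vale.Agent.P330Q
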