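import Vale.Agent.P330Q.BcAux
import Vale.Agent.P330Q.BcAlg
import Vale.Agent.P330Q.BcPolS

/-! Long chains of cells: input, output, successor, predecessor. -/

namespace Vale.Agent.P330Q

open Vale.Agent.Lib.PolyTime Vale.Agent.P330 Finset
open scoped Classical BigOperators

namespace BcD
variable {l : ℕ} [Fact l.Prime] {δ : ℝ} {d : ℕ} {C U : Type} [Enc C] [Enc U] {a lg : C → ℕ}
  {S B : Type} [Fintype S] [Enc S] [Fintype B] [Enc B] {lam : ℝ} (K : BcD l δ d U a lg S B lam)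
  {C0 : Bool → Submodule (ZMod l) (S → ZMod l)} {δ0 : ℝ}

theorem impl_in [Nonempty S] (hδ : 0 < δ) (hM : CellMapThm l δ) (Z : Cell l δ K.V) {η : ℝ}
    (hη : 0 < η) :
    ImplS (ZMod l) a lg (.of (K.T.Y.Pos.prod (Z.X.comap K.p K.hp))) (.of K.Tb) fun c x y =>
      ∀ u, du y (K.In c u) ≤ du x (cells (Z.gen (K.p c)) u) / δ + η := by
  let R : Arr l a lg K.p Z Unit (.of (K.T.Y.Pos.prod (Z.X.comap K.p K.hp))) K.T.Y.Pos :=
    ⟨fun _ o _ ξ => (o, ξ), 1, K.neP, K.szP, fun _ => D.sigma_snd,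
      fun _ _ u => ((fr_single u).trans (one_mul _).symm).le⟩
  refine (hM 1 C U a lg K.p K.hp K.hs K.V K.Z.X Z Unit _ K.T.Y.Pos R
    (fun c _ ξ w => cw (K.Z.gen (K.p c)) (emb (K.r (K.p c)) fun v => w ((), v)) ξ) K.Z.ne
    K.pol_in η hη).mono fun c x y hx _ h u => ?_
  have h1 := h fun o z => u o z.2
  have h2 := R.bc_far hx (cells (Z.gen (K.p c)) u) (fun o z => u o z.2) (fun _ _ _ => rfl) hδ
  have h3 : dw ((Reg.of (K.T.Y.Pos.prod (Z.X.comap K.p K.hp))).w c) x (cells (Z.gen (K.p c)) u) =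
      du x (cells (Z.gen (K.p c)) u) := dw_unif _ _
  rw [h3, show R.κ = 1 from rfl, Fintype.card_unit, Nat.cast_one, one_mul, one_mul] at h2
  exact h1.trans ((add_le_add_right h2 η).trans (add_comm _ _).le)

theorem impl_out [Nonempty S] (hδ : 0 < δ) (hM : CellMapThm l δ) (Z : Cell l δ K.V) {η : ℝ}
    (hη : 0 < η) :
    ImplS (ZMod l) a lg (.of K.Ln) (.of (K.T.Y.Pos.prod (Z.X.comap K.p K.hp))) fun c x y =>
      ∀ u, du y (cells (Z.gen (K.p c)) (prun (K.π c) (K.f c) u (K.r (K.p c)))) ≤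
        2 * du x (K.Wd c u (K.r (K.p c) + 1)) / δ + η := by
  let R : Arr l a lg K.p K.Z Unit (.of K.Ln) K.T.Y.Pos :=
    ⟨fun _ o _ ξ => (o, ξ, false), 2, K.neP, K.szP,
      fun _ => D.sigma_snd.fst.pair (D.sigma_snd.snd.pair (D.const false)),
      fun _ _ u => fr_tab_le MP.refl (fun _ => false) u⟩
  refine (hM 1 C U a lg K.p K.hp K.hs K.W Z.X K.Z Unit _ K.T.Y.Pos R
    (fun c _ ξ w => cw (Z.gen (K.p c)) (fun v => w ((), (Fin.last _).castSucc, v)) ξ) Z.ne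
    (K.pol_out Z) η hη).mono fun c x y hx _ h u => ?_
  have h1 := h fun o z => hst (K.π c) (K.f c) u (K.r (K.p c)) (K.r (K.p c) + 1) o z.2
  have h2 := R.bc_far hx (K.Wd c u (K.r (K.p c) + 1))
    (fun o z => hst (K.π c) (K.f c) u (K.r (K.p c)) (K.r (K.p c) + 1) o z.2) (fun _ _ _ => rfl) hδ
  have h3 : dw ((Reg.of K.Ln).w c) x (K.Wd c u (K.r (K.p c) + 1)) =
      du x (K.Wd c u (K.r (K.p c) + 1)) := dw_unif _ _
  rw [h3, show R.κ = 2 from rfl, Fintype.card_unit, Nat.cast_one, one_mul] at h2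
  refine le_trans (le_of_eq (congrArg (du y) (funext fun z => ?_)))
    (h1.trans ((add_le_add_right h2 η).trans (add_comm _ _).le))
  exact congrArg (fun t => cw (Z.gen (K.p c)) t z.2)
    (funext fun v => (if_pos (Nat.lt_succ_self (K.r (K.p c)))).symm)

theorem impl_pre [Nonempty S] (hδ : 0 < δ) (hM : CellMapThm l δ) {η : ℝ} (hη : 0 < η) :
    ImplS (ZMod l) a lg (.of K.Ln) (.of K.Ln) fun c z y =>
      ∀ u q, q + 1 < K.r (K.p c) + 2 →
        du y (K.Wd c u q) ≤ 4 * du z (K.Wd c u (q + 1)) / δ + η := by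
  let R : Arr l a lg K.p K.Z Bool (.of K.Ln) K.T.Y.Pos :=
    ⟨fun _ o b ξ => (o, ξ, b), 2, K.neP, K.szP,
      fun b => D.sigma_snd.fst.pair (D.sigma_snd.snd.pair (D.const b)),
      fun _ b u => fr_tab_le MP.refl (fun _ => b) u⟩
  refine (hM 2 C U a lg K.p K.hp K.hs K.W (K.Z.X.prod (Fam.const U Bool)) K.Z Bool _ K.T.Y.Pos R
    (fun c _ ξ w => cw (K.Z.gen (K.p c)) (preR ξ.2 w) ξ.1)
    (fun u => ⟨((K.Z.ne u).some, true)⟩) K.pol_pre η hη).mono fun c x y hx _ h u q hq => ?_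
  have h1 := h fun o z => (if z.1 = true then clk _ _ (K.r (K.p c)) (q + 1) else
    hst (K.π c) (K.f c) u (K.r (K.p c)) (q + 1) o) z.2
  have h2 := R.bc_far hx (K.Wd c u (q + 1)) (fun o z => (if z.1 = true then
    clk _ _ (K.r (K.p c)) (q + 1) else hst (K.π c) (K.f c) u (K.r (K.p c)) (q + 1) o) z.2)
    (fun _ _ _ => rfl) hδ
  have h3 : dw ((Reg.of K.Ln).w c) x (K.Wd c u (q + 1)) = du x (K.Wd c u (q + 1)) := dw_unif _ _
  rw [h3, show R.κ = 2 from rfl, Fintype.card_bool,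
    show ((2 : ℕ) : ℝ) * 2 = 4 by norm_num] at h2
  refine le_trans (le_of_eq (congrArg (du y) (funext fun z => ?_)))
    (h1.trans ((add_le_add_right h2 η).trans (add_comm _ _).le))
  exact congrArg (fun t => cw (K.Z.gen (K.p c)) t z.2.1) (preR_W hq z.1 z.2.2).symm

end BcD

end Vale.Agent.P330Q
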