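import Vale.Agent.P330Q.BcCh
import Vale.Agent.P330.TopA

/-! Long chains of cells: the local rules are computable polynomials. -/

namespace Vale.Agent.P330Q

open Vale.Agent.Lib.PolyTime Vale.Agent.P330 Finset
open scoped Classical BigOperators

theorem bc_pol_ren {C : Type} [Enc C] {l : ℕ} [NeZero l] {d : ℕ} {V V' J : Fam C}
    {f : ∀ c, J.T c → (V.T c → ZMod l) → ZMod l} (h : Pol d V J f)
    {ρ : ∀ c, J.T c → V.T c → V'.T c} (hρ : D3 ρ) :
    Pol d V' J fun c j w => f c j fun v => w (ρ c j v) := by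
  obtain ⟨φ, h1, h2⟩ := h
  refine ⟨fun c j m' => ∑ m : Fin d → Option (V.T c),
    if (fun i => (m i).map (ρ c j)) = m' then φ c j m else 0, ?_, fun c j w => ?_⟩
  · refine ((V.option.pw d).pf.comap (B := Σ c, J.T c × (Fin d → Option (V'.T c)))
      pt_sigma_fst).pt_sumZ (f := fun z m =>
        if (fun i => (m i).map (ρ z.1 z.2.1)) = z.2.2 then φ z.1 z.2.1 m else 0) ?_
    have a0 : PT fun w : Σ z : (Σ c, J.T c × (Fin d → Option (V'.T c))), Fin d → Option (V.T z.1) =>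
        w.1.1 := pt_sigma_fst.comp pt_sigma_fst
    have a1 : D fun w : Σ z : (Σ c, J.T c × (Fin d → Option (V'.T c))), Fin d → Option (V.T z.1) =>
        w.1.2.1 := D.s1.comp pt_sigma_fst
    have a2 : D fun w : Σ z : (Σ c, J.T c × (Fin d → Option (V'.T c))), Fin d → Option (V.T z.1) =>
        w.1.2.2 := D.s2.comp pt_sigma_fst
    have a3 : D fun w : Σ z : (Σ c, J.T c × (Fin d → Option (V'.T c))), Fin d → Option (V.T z.1) =>
        w.2 := D.sigma_snd
    refine PT.ite (D.eq (cq_fn_const fun i => D.f_option_map (cq_app_const a3 i) ?_) a2)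
      (pt_app2 h1 a0 a1 a3) (PT.const _)
    exact hρ.app (a0.comp pt_sigma_fst) (a1.comp pt_sigma_fst) D.sigma_snd
  · have e : ∀ o, ev w (Option.map (ρ c j) o) = ev (fun v => w (ρ c j v)) o := fun o => by
      cases o <;> rfl
    beta_reduce
    rw [h2]
    simp only [sum_mul, ite_mul, zero_mul]
    rw [sum_comm]
    simp only [sum_ite_eq, mem_univ, if_true, e]

namespace BcD
variable {l : ℕ} [Fact l.Prime] {δ : ℝ} {d : ℕ} {C U : Type} [Enc C] [Enc U] {a lg : C → ℕ}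
  {S B : Type} [Fintype S] [Enc S] [Fintype B] [Enc B] {lam : ℝ} (K : BcD l δ d U a lg S B lam)

theorem pol_gv : Pol (d + 1) ((Fam.const C (Fin 3 ⊕ B)).prod (K.W.comap K.p K.hp))
    (K.T.Y.Pos.prod (K.W.comap K.p K.hp)) fun c z w => gv (K.f c) z.1 w z.2 := by
  have a1 : D fun z : Σ c, (K.T.Y.Pos.prod (K.W.comap K.p K.hp)).T c => z.2.2 := D.s2
  have b1 : D fun z : Σ c, ((K.T.Y.Pos.prod (K.W.comap K.p K.hp)).prod
      ((Fam.ofFin K.r K.hr K.hr').comap K.p K.hp)).T c => z.2.1 := D.s1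
  have b2 : D fun z : Σ c, ((K.T.Y.Pos.prod (K.W.comap K.p K.hp)).prod
      ((Fam.ofFin K.r K.hr K.hr').comap K.p K.hp)).T c => z.2.2 := D.s2
  have c1 : D fun z : Σ c, ((K.T.Y.Pos.prod (K.W.comap K.p K.hp)).prod
      ((Fam.ofFin K.r K.hr K.hr').comap K.p K.hp)).T c ×
      ((Fam.const C B).prod (K.V.comap K.p K.hp)).T c => z.2.1 := D.s1
  have c2 : D fun z : Σ c, ((K.T.Y.Pos.prod (K.W.comap K.p K.hp)).prod
      ((Fam.ofFin K.r K.hr K.hr').comap K.p K.hp)).T c ×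
      ((Fam.const C B).prod (K.V.comap K.p K.hp)).T c => z.2.2 := D.s2
  have h1 := K.pol.comp (K := (K.T.Y.Pos.prod (K.W.comap K.p K.hp)).prod
      ((Fam.ofFin K.r K.hr K.hr').comap K.p K.hp)) (x := fun _ z => (z.1.1, z.2, z.1.2.2))
    (b1.fst.pair (b2.pair b1.snd.snd))
  have h2 := bc_pol_ren (V' := (Fam.const C (Fin 3 ⊕ B)).prod (K.W.comap K.p K.hp)) h1
    (ρ := fun _ z y => (.inr y.1, z.2.castSucc.castSucc, y.2))
    (c2.fst.inr.pair (D.pair (D.fin_iff.2 (D.fin_iff.1 c1.snd)) c2.snd))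
  have h3 := Pol.ite (J := (K.T.Y.Pos.prod (K.W.comap K.p K.hp)).prod
      ((Fam.ofFin K.r K.hr K.hr').comap K.p K.hp)) (p := fun _ z => (z.1.2.1 : ℕ) = z.2 + 1)
    (PT.eq (D.fin_iff.1 b1.snd.fst) ((D.fin_iff.1 b2).add (PT.const 1)))
    (h2.mono (Nat.le_succ d)) Pol.zero
  have h4 := Pol.var (l := l) (V := (Fam.const C (Fin 3 ⊕ B)).prod (K.W.comap K.p K.hp))
    (J := K.T.Y.Pos.prod (K.W.comap K.p K.hp)) (x := fun _ z => (.inl 2, z.2))
    ((D.const _).pair a1)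
  exact Pol.ite (J := K.T.Y.Pos.prod (K.W.comap K.p K.hp)) (p := fun _ z => (z.2.1 : ℕ) = 0)
    (PT.eq (D.fin_iff.1 a1.fst) (PT.const 0))
    (h4.mono (Nat.le_add_left 1 d))
    (Pol.sum (V := (Fam.const C (Fin 3 ⊕ B)).prod (K.W.comap K.p K.hp))
      (J := K.T.Y.Pos.prod (K.W.comap K.p K.hp))
      (K := (Fam.ofFin K.r K.hr K.hr').comap K.p K.hp) (f := fun c z t w =>
      if (z.2.1 : ℕ) = t + 1 then K.f c t z.1 z.2.2
        (fun y => w (.inr y.1, t.castSucc.castSucc, y.2)) else 0) h3)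

end BcD

end Vale.Agent.P330Q
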