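import Vale.Agent.P330Q.BcAlgT
import Vale.Agent.P330Q.TwSSS

/-! Long chains of cells: induction along the history. -/

namespace Vale.Agent.P330Q

open Vale.Agent.Lib.PolyTime Vale.Agent.P330 Finset
open scoped Classical BigOperators

theorem bso_zero {F J V : Type} [Field F] [Fintype J] [Fintype V] {m m' : V → V → F}
    (inv : ∀ w, cw m' (cw m w) = w) (y : J × V → F) : cw (blk m) y = 0 ↔ y = 0 := by
  have z : ∀ {X W : Type} [Fintype W] (g : X → W → F), cw g 0 = 0 :=
    fun g => funext fun v => by simp [cw]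
  refine ⟨fun h => funext fun a => ?_, fun h => by rw [h, z]⟩
  have e : cw m (fun v => y (a.1, v)) = 0 := funext fun v => (cw_blk m y (a.1, v)).symm.trans
    (congrFun h _)
  have := congrFun (inv fun v => y (a.1, v)) a.2
  rw [e, z] at this
  exact this.symm

theorem bc_sound {F S G V B : Type} [Field F] [Fintype S] [Fintype G] [Nonempty G] [Fintype V]
    [Fintype B] {C0 : Bool → Submodule F (S → F)} {nb : S → Equiv.Perm G} {δ0 lam : ℝ}
    (hT : TanGood δ0 lam S) (hd0 : ∀ b, Dist0 (C0 b) δ0) (hg : P325.Gap (fun s g => nb s g) lam)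
    {m m' : Bool → G × S → V → V → F} (inv : ∀ b x w, cw (m' b x) (cw (m b x) w) = w)
    {π : B → Equiv.Perm (G × S)} {f : ℕ → G × S → V → (B × V → F) → F} {u : G × S → V → F}
    {r q : ℕ} (hu : ∀ t ≤ r, prun π f u t ∈ twc C0 nb m) (hq : q < r + 2)
    (y : G × S → Fin (r + 2) × V → F) {β b : ℝ}
    (h1 : ∀ i, fr G (fun g => ∃ z, (fun s => cw (blk (m i (vwp nb i g s))) (y (vwp nb i g s)) z) ∉
      C0 i) ≤ β)
    (h2 : fr (G × S) (fun x => ∃ z, y x z ≠ gK (clk V F r q) z *
      gv f x (tup (y x) (clk V F r q) (emb r (u x)) fun i => y (π i x)) z) ≤ b)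
    (hβ : β ≤ δ0 / 8) (hb : b + (Fintype.card B + 1) * β ≤ δ0 ^ 2 / 8) :
    fr (G × S) (fun x => y x ≠ hst π f u r q x) ≤ β := by
  have β0 : 0 ≤ β := (fr_nonneg _).trans (h1 false)
  have hH := hst_mem hu hq
  have key : ∀ k : ℕ, fr (G × S) (fun x => ∃ z : Fin (r + 2) × V, (z.1 : ℕ) < k ∧
      y x z ≠ hst π f u r q x z) ≤ β := by
    intro k
    induction k with
    | zero =>
      exact (fr_mono (E' := fun _ => False) fun x ⟨_, hz, _⟩ => Nat.not_lt_zero _ hz).trans
        (fr_false.le.trans β0)
    | succ k ih =>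
      have e : ∀ x, (∃ z : Fin (r + 2) × V, (z.1 : ℕ) < k + 1 ∧ y x z ≠ hst π f u r q x z) ↔
          (fun z : Fin (r + 2) × V =>
            if (z.1 : ℕ) < k + 1 then y x z - hst π f u r q x z else 0) ≠ 0 := fun x => by
        rw [Function.ne_iff]
        refine exists_congr fun z => ?_
        by_cases h : (z.1 : ℕ) < k + 1 <;> simp [h, sub_eq_zero]
      rw [fr_congr e]
      refine twSSSThm F S G (Fin (r + 2) × V) (Fin (r + 2) × V → F) C0 nb δ0 lam β hT hd0 hg _
        (fun i x => cw (blk (m i x)) fun z : Fin (r + 2) × V =>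
          if (z.1 : ℕ) < k + 1 then y x z - hst π f u r q x z else 0)
        (fun i x => bso_zero (inv i x) _) (fun i => le_trans (fr_mono fun g ⟨z, hz⟩ => ⟨z, fun hy =>
          hz ?a⟩) (h1 i)) hβ ?b
      case a =>
        by_cases h : (z.1 : ℕ) < k + 1
        · have := (C0 i).sub_mem hy (hH i g z)
          refine (congrArg (· ∈ C0 i) (funext fun s => ?_)).mpr this
          simp only [cw_blk, if_pos h, Pi.sub_apply]
          exact congrFun (cw_sub (m i (vwp nb i g s)) (fun v => y (vwp nb i g s) (z.1, v))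
            fun v => hst π f u r q (vwp nb i g s) (z.1, v)) z.2
        · refine (congrArg (· ∈ C0 i) (funext fun s => ?_)).mpr (C0 i).zero_mem
          rw [cw_blk]
          simp only [if_neg h, cw, mul_zero, sum_const_zero, Pi.zero_apply]
      case b =>
        rw [← fr_congr e]
        have h3 : fr (G × S) (fun x => ∃ i, ∃ z : Fin (r + 2) × V, (z.1 : ℕ) < k ∧
            y (π i x) z ≠ hst π f u r q (π i x) z) ≤ Fintype.card B * β := by
          refine (fr_exists_le _).trans ?_
          rw [← nsmul_eq_mul, ← card_univ]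
          exact sum_le_card_nsmul _ _ _ fun i _ => (fr_equiv (π i) fun x =>
            ∃ z : Fin (r + 2) × V, (z.1 : ℕ) < k ∧ y x z ≠ hst π f u r q x z).trans_le ih
        refine le_trans ((fr_mono fun x ⟨z, hz, hne⟩ => ?_).trans ((fr_or_le _ _).trans
          (add_le_add ih ((fr_or_le _ _).trans (add_le_add h2 h3))))) (by linarith)
        by_contra hc
        simp only [not_or, not_exists, not_and, not_not] at hc
        obtain ⟨a1, a2, a3⟩ := hc
        have hk : (z.1 : ℕ) = k := by
          by_contra h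
          exact hne (a1 z (by omega))
        refine hne ((a2 z).trans ?_)
        rw [gK_clk hq, hst]
        split_ifs with h
        · rw [one_mul]
          refine gv_run (by omega) fun i w hw => (a3 i w (by omega)).trans ?_
          rw [hst, if_pos (by omega)]
        · exact zero_mul _
  refine le_trans (fr_mono fun x hx => ?_) (key (r + 2))
  obtain ⟨z, hz⟩ := Function.ne_iff.1 hx
  exact ⟨z, z.1.2, hz⟩

end Vale.Agent.P330Q
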