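import Vale.Agent.P330Q.BcAux
import Vale.Agent.P330Q.BcSound

/-! Long chains of cells: soundness of the tester. -/

namespace Vale.Agent.P330Q

open Vale.Agent.Lib.PolyTime Vale.Agent.P330 Finset
open scoped Classical BigOperators

theorem bc_test_sound {F S G V B X : Type} [Field F] [Fintype F] [Fintype S] [Fintype G]
    [Nonempty G] [Fintype V] [Nonempty V] [Fintype B] [Fintype X] [Nonempty X]
    {C0 : Bool → Submodule F (S → F)} {nb : S → Equiv.Perm G} {δ0 lam : ℝ}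
    (hT : TanGood δ0 lam S) (hd0 : ∀ b, Dist0 (C0 b) δ0) (hg : P325.Gap (fun s g => nb s g) lam)
    {m m' : Bool → G × S → V → V → F} (inv : ∀ b x w, cw (m' b x) (cw (m b x) w) = w)
    {π : B → Equiv.Perm (G × S)} {f : ℕ → G × S → V → (B × V → F) → F} {u : G × S → V → F}
    {r : ℕ} (hu : ∀ t ≤ r, prun π f u t ∈ twc C0 nb m) {H : Bool → S → S → F}
    (hH : ∀ b c, (∀ e, ∑ s, H b e s * c s = 0) → c ∈ C0 b) {gen : X → Fin (r + 2) × V → F} {Δ : ℝ}
    (hΔ : ∀ w w', w ≠ w' → Δ ≤ hd (cw gen w) (cw gen w'))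
    {z : ((G × S) × X ⊕ (G × S) × X × Bool) ⊕ X → F → ℝ} (hz : IsDist z) {δ' β e ν : ℝ}
    (h1 : ∀ k : X → F, du (fun y : (G × S) × X => z (.inl (.inr (y.1, y.2, true)))) (fun y => k y.2) ≤
      du (fun ξ => z (.inr ξ)) k + ν)
    (h2 : du (fun y => z (.inl (.inl y))) (cells gen fun x => emb r (u x)) ≤ e)
    (h3 : fr (G × S) (fun o => ∀ w, (∀ i, relT H nb m f o i w = 0) →
      ∃ i, δ' < du (fun ξ => z (slT nb π o i ξ)) (cw gen fun v => w (i, v))) ≤ β)
    (d0 : 0 < δ') (d1 : 2 * δ' < Δ) (b1 : β ≤ δ0 / 8)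
    (b2 : e / δ' + (Fintype.card B + 2) * β ≤ δ0 ^ 2 / 8) :
    ∃ q, q < r + 2 ∧ du (fun y => z (.inl (.inr y))) (BW gen π f u q) ≤ β + δ' + ν / 2 := by
  have := hT.neS
  let c : G × S → X → F → ℝ := fun x ξ => z (.inl (.inr (x, ξ, false)))
  have hy : ∀ x, ∃ y, ∀ w, du (c x) (cw gen w) ≤ δ' → y = w := fun x => by
    by_cases h : ∃ w, du (c x) (cw gen w) ≤ δ'
    · obtain ⟨y, h⟩ := h
      exact ⟨y, fun w hw => bc_uniq hΔ (hz.comp _) d1 h hw⟩
    · exact ⟨0, fun w hw => absurd ⟨w, hw⟩ h⟩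
  choose y hy using hy
  let Bad : G × S → Prop := fun o => ∀ w, (∀ i, relT H nb m f o i w = 0) →
    ∃ i, δ' < du (fun ξ => z (slT nb π o i ξ)) (cw gen fun v => w (i, v))
  have good : ∀ o, ¬ Bad o → ∃ w, (∀ i, relT H nb m f o i w = 0) ∧
      ∀ i, du (fun ξ => z (slT nb π o i ξ)) (cw gen fun v => w (i, v)) ≤ δ' := fun o h => by
    simp only [Bad] at h
    push Not at h
    exact h
  obtain ⟨o0, h0⟩ := exists_of_fr_lt (E := Bad) (h3.trans_lt (by linarith [hT.2.1]))
  obtain ⟨w0, r0, n0⟩ := good o0 h0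
  obtain ⟨q, hq, eq⟩ := (relT_inv hH r0).1
  have hk : du (fun ξ => z (.inr ξ)) (cw gen (clk V F r q)) ≤ δ' := eq ▸ n0 (.inl (.inl 1))
  have hs := bc_sound hT hd0 hg inv hu hq y (β := β) (b := β + e / δ') (fun i => ?_) ?_ b1
    (by linarith)
  · refine ⟨q, hq, ?_⟩
    have a1 := bc_near (x := fun t : (G × S) × X => c t.1 t.2) (hz.comp _)
      (fun t => cw gen (hst π f u r q t.1) t.2) (E := fun o => Bad o ∨ y o ≠ hst π f u r q o) d0.le
      fun o ho => by
        obtain ⟨w, -, n⟩ := good o (not_or.1 ho).1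
        have k := n (.inl (.inl 0))
        change du (c o) (cw gen (hst π f u r q o)) ≤ δ'
        rw [← not_not.1 (not_or.1 ho).2, hy o _ k]
        exact k
    have a2 := (fr_or_le _ _).trans (add_le_add h3 hs)
    have a3 := h1 (cw gen (clk V F r q))
    rw [du_tab]
    change (du (fun t : (G × S) × X => c t.1 t.2) (fun t => cw gen (hst π f u r q t.1) t.2) +
      du (fun t : (G × S) × X => z (.inl (.inr (t.1, t.2, true))))
        fun t => cw gen (clk V F r q) t.2) / 2 ≤ _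
    linarith [a1.trans (add_le_add a2 le_rfl)]
  · rw [← fr_fst (Y := S)]
    refine (fr_mono fun o ⟨t, ht⟩ => ?_).trans h3
    by_contra ho
    obtain ⟨w, rw, n⟩ := good o ho
    refine ht ?_
    simp only [fun s => hy (vwp nb i o.1 s) _ (n (.inr (i, s)))]
    exact (relT_inv hH rw).2.2 i t
  · have a1 := (bc_far (x := fun t => z (.inl (.inl t))) (hz.comp _)
      (cells gen fun x => emb r (u x)) d0).trans (div_le_div_of_nonneg_right h2 d0.le)
    refine (fr_mono fun o ⟨t, ht⟩ => ?_).trans ((fr_or_le _ _).trans (add_le_add h3 a1))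
    by_contra ho
    obtain ⟨w, rw, n⟩ := good o (not_or.1 ho).1
    have e0 := hy o _ (n (.inl (.inl 0)))
    have e1 : clk V F r q = fun v => w (.inl (.inl 1), v) :=
      bc_uniq hΔ (hz.comp _) d1 hk (n (.inl (.inl 1)))
    have e2 : emb r (u o) = fun v => w (.inl (.inl 2), v) :=
      bc_uniq hΔ (hz.comp _) d1 (not_lt.1 (not_or.1 ho).2) (n (.inl (.inl 2)))
    have e3 : ∀ i, y (π i o) = fun v => w (.inl (.inr i), v) := fun i => hy _ _ (n (.inl (.inr i)))
    have e4 : (tup (y o) (clk V F r q) (emb r (u o)) fun i => y (π i o)) =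
        fun t => w (.inl t.1, t.2) := by
      funext ⟨i, v⟩
      rcases i with i | i
      · fin_cases i
        exacts [congrFun e0 v, congrFun e1 v, congrFun e2 v]
      · exact congrFun (e3 i) v
    refine ht ?_
    rw [e4, e1, e0]
    exact (relT_inv hH rw).2.1 t

end Vale.Agent.P330Q
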