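import Vale.Agent.P330Q.Sz

/-! Sized gadget combinators: rewiring, feedback, one layer. -/

namespace Vale.Agent.P330Q

open Vale.Agent.Lib.PolyTime Vale.Agent.P330 Finset
open scoped Classical BigOperators

variable {C F : Type} [Enc C] [Enc F] [Fintype F] {a l : C → ℕ} {I I' M O O' : Reg C}

omit [Enc C] in
/-- A fixed finite type has bounded size. -/
theorem Sz.cardc (A : Type) [Fintype A] : Sz a l fun _ => Fintype.card A := Sz.const _

omit [Enc C] in
theorem Sz.card_unit {X : C → Type} [∀ c, Fintype (X c)] (h : Sz a l fun c => Fintype.card (X c)) :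
    Sz a l fun c => Fintype.card (X c × Unit) := h.card_prod (Sz.cardc Unit)

theorem ImplS.impl {S : ∀ c, (I.T c → F → ℝ) → (O.T c → F → ℝ) → Prop} (h : ImplS F a l I O S) :
    Impl F I O S := by
  obtain ⟨A, hA, G, κ, γ, h0, h1, -, h2⟩ := h
  exact ⟨A, hA, G, κ, γ, h0, h1, h2⟩

/-- Change of the size bound. -/
theorem ImplS.weaken {S : ∀ c, (I.T c → F → ℝ) → (O.T c → F → ℝ) → Prop} (h : ImplS F a l I O S)
    {a' l' : C → ℕ} (ha : Sz a' l' a) (hl : Pl l' l) : ImplS F a' l' I O S := by
  obtain ⟨A, hA, G, κ, γ, h0, h1, hz, h2⟩ := h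
  exact ⟨A, hA, G, κ, γ, h0, h1, hz.trans ha hl, h2⟩

/-- Small gadgets are gadgets of every larger class. -/
theorem ImplS.of_pl {S : ∀ c, (I.T c → F → ℝ) → (O.T c → F → ℝ) → Prop}
    (h : ImplS F (fun _ => 0) l I O S) : ImplS F a l I O S := h.weaken (Sz.const 0) Sz.log

/-- Every gadget has polynomial size in the length of the context. -/
theorem toS {S : ∀ c, (I.T c → F → ℝ) → (O.T c → F → ℝ) → Prop} (h : Impl F I O S) :
    ImplS F (fun _ => 0) (fun c => sz c) I O S := by
  obtain ⟨A, hA, G, κ, γ, h0, h1, h2⟩ := h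
  exact ⟨A, hA, G, κ, γ, h0, h1, Sz.card_comap G.T (p := fun c => c) Sz.log, h2⟩

theorem ImplS.mono {S S' : ∀ c, (I.T c → F → ℝ) → (O.T c → F → ℝ) → Prop} (h : ImplS F a l I O S)
    (hS : ∀ c x y, IsDist x → IsDist y → S c x y → S' c x y) : ImplS F a l I O S' := by
  obtain ⟨A, hA, G, κ, γ, h0, h1, hz, h2⟩ := h
  exact ⟨A, hA, G, κ, γ, h0, h1, hz, fun c x p hx hp he =>
    hS c x _ hx (hp.comp _) (h2 c x p hx hp he)⟩

theorem ImplS.comap {B : Type} [Enc B] {S : ∀ c, (I.T c → F → ℝ) → (O.T c → F → ℝ) → Prop}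
    (h : ImplS F a l I O S) (p : B → C) (hp : PT p) :
    ImplS F (fun b => a (p b)) (fun b => l (p b)) (I.comap p hp) (O.comap p hp)
      fun b => S (p b) := by
  obtain ⟨A, hA, G, κ, γ, h0, h1, hz, h2⟩ := h
  have hq : PT fun z : Σ b, G.T.T (p b) => p z.1 := ((D.of_pt hp).comp pt_sigma_fst).pt
  have hq' : PT fun z : Σ b, O.T (p b) => p z.1 := ((D.of_pt hp).comp pt_sigma_fst).pt
  exact ⟨A, hA,
    { T := G.T.comap p hp
      V := G.V.comap p hp
      ne := fun b => G.ne (p b)
      out := fun b => G.out (p b)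
      slot := fun b => G.slot (p b)
      fn := fun b => G.fn (p b)
      res := fun b => G.res (p b)
      d_out := G.d_out.app hq (D.sigma_snd (X := fun b => G.T.T (p b)))
      d_slot := fun i => (G.d_slot i).app hq (D.sigma_snd (X := fun b => G.T.T (p b)))
      d_fn := fun s => ((D.of_pt (G.d_fn s)).comp
        (pt_sigma_mk hq (D.sigma_snd (X := fun b => G.T.T (p b))))).pt
      d_res := G.d_res.app hq' (D.sigma_snd (X := fun b => O.T (p b))) },
    κ, γ, h0, fun b => h1 (p b), hz.comp p, fun b => h2 (p b)⟩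

/-- A gadget over a short context is small. -/
theorem comapS {B : Type} [Enc B] {S : ∀ c, (I.T c → F → ℝ) → (O.T c → F → ℝ) → Prop}
    (h : Impl F I O S) (p : B → C) (hp : PT p) {a l : B → ℕ} (hl : Pl l fun b => sz (p b)) :
    ImplS F a l (I.comap p hp) (O.comap p hp) fun b => S (p b) :=
  ((toS h).comap p hp).weaken (Sz.const 0) hl

/-- Rewiring of inputs and outputs along maps of bounded density. -/
theorem ImplS.wire {S : ∀ c, (I.T c → F → ℝ) → (O.T c → F → ℝ) → Prop} (h : ImplS F a l I O S)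
    (f : ∀ c, I.T c → I'.T c) (g : ∀ c, O'.T c → O.T c) (df : D2 f) (dg : D2 g) (κ : ℝ)
    (hf : ∀ c u, ∑ i ∈ univ.filter fun i => f c i = u, I.w c i ≤ κ * I'.w c u)
    (hg : ∀ c o, ∑ i ∈ univ.filter fun i => g c i = o, O'.w c i ≤ κ * O.w c o) :
    ImplS F a l I' O' fun c x y => ∃ y0, IsDist y0 ∧ S c (fun i => x (f c i)) y0 ∧
      y = fun o => y0 (g c o) := by
  obtain ⟨A, hA, G, κ0, γ, h0, h1, hz, h2⟩ := h
  refine ⟨A, hA,
    { T := G.T
      V := G.V
      ne := G.ne
      out := G.out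
      slot := fun c t i => Sum.elim (fun j => Sum.inl (f c j)) Sum.inr (G.slot c t i)
      fn := G.fn
      res := fun c o => G.res c (g c o)
      d_out := G.d_out
      d_slot := fun i => D.sum_elim (G.d_slot i)
        (D.inl (df.app cA_fst2 (D.sigma_snd (X := fun z : Σ c, G.T.T c => I.T z.1))))
        (D.inr (D.sigma_snd (X := fun z : Σ c, G.T.T c => G.V.T z.1)))
      d_fn := G.d_fn
      d_res := G.d_res.app pt_sigma_fst dg },
    max κ0 0 * max κ 1, γ, h0, fun c => ⟨fun i u => ?_, fun v => ?_⟩, hz, fun c x p hx hp he =>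
      ⟨fun o => p (G.res c o), hp.comp _, h2 c _ p (hx.comp _) hp (le_of_eq_of_le ?_ he), rfl⟩⟩
  · refine (cA_fr_le (fun t => G.slot c t i) (Sum.elim (fun j => Sum.inl (f c j)) Sum.inr) u
      (cA_W G c) ((h1 c).1 i)).trans ?_
    rw [mul_assoc]
    refine mul_le_mul_of_nonneg_left ?_ (le_max_right _ _)
    rcases u with u | u
    · simp only [Fintype.sum_sum_type, Sum.elim_inl, Sum.elim_inr, Sum.inl.injEq, reduceCtorEq,
        if_false, sum_const_zero, add_zero]
      rw [← sum_filter]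
      exact (hf c u).trans (mul_le_mul_of_nonneg_right (le_max_left _ _) (I'.w0 c u))
    · simp only [Fintype.sum_sum_type, Sum.elim_inl, Sum.elim_inr, Sum.inr.injEq, reduceCtorEq,
        if_false, sum_const_zero, zero_add, sum_ite_eq', mem_univ, if_true]
      exact le_mul_of_one_le_left (cA_wt G c u) (le_max_right _ _)
  · have e := sum_fiberwise_eq_sum_filter univ (univ.filter fun o => G.res c o = v) (g c) (O'.w c)
    simp only [mem_filter, mem_univ, true_and] at e
    refine le_of_eq_of_le e.symm ((sum_le_sum fun o _ => (hg c o).trans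
      (mul_le_mul_of_nonneg_right (le_max_left κ 1) (O.w0 c o))).trans ?_)
    rw [← mul_sum, mul_comm (max κ0 0), mul_assoc]
    exact mul_le_mul_of_nonneg_left (((h1 c).2 v).trans
      (mul_le_mul_of_nonneg_right (le_max_left _ _) (cA_wt G c v)))
      (zero_le_one.trans (le_max_right _ _))
  · have e : ∀ u : I.T c ⊕ G.V.T c, Sum.elim x p (Sum.elim (fun j => Sum.inl (f c j)) Sum.inr u) =
        Sum.elim (fun i => x (f c i)) p u := fun u => by rcases u with u | u <;> rfl
    simp only [Gad.err, e]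

theorem ImplS.loop {S : ∀ c, ((I.sum M).T c → F → ℝ) → ((O.sum M).T c → F → ℝ) → Prop}
    (h : ImplS F a l (I.sum M) (O.sum M) S) :
    ImplS F a l I O fun c x y => ∃ m, IsDist m ∧ S c (Sum.elim x m) (Sum.elim y m) := by
  obtain ⟨A, hA, G, κ, γ, h0, h1, hz, h2⟩ := h
  have k0 : 0 ≤ max κ 0 := le_max_right _ _
  refine ⟨A, hA,
    { T := G.T
      V := G.V
      ne := G.ne
      out := G.out
      slot := fun c t i => Sum.elim (Sum.elim Sum.inl fun m => Sum.inr (G.res c (Sum.inr m)))
        Sum.inr (G.slot c t i)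
      fn := G.fn
      res := fun c o => G.res c (Sum.inl o)
      d_out := G.d_out
      d_slot := fun i => D.sum_elim (G.d_slot i)
        (D.sum_elim (D.sigma_snd (X := fun z : Σ c, G.T.T c => I.T z.1 ⊕ M.T z.1))
          (D.inl (D.sigma_snd
            (X := fun w : Σ z : (Σ c, G.T.T c), I.T z.1 ⊕ M.T z.1 => I.T w.1.1)))
          (D.inr (G.d_res.app ((D.of_pt cA_fst2).comp pt_sigma_fst).pt (D.inr (D.sigma_snd
            (X := fun w : Σ z : (Σ c, G.T.T c), I.T z.1 ⊕ M.T z.1 => M.T w.1.1))))))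
        (D.inr (D.sigma_snd (X := fun z : Σ c, G.T.T c => G.V.T z.1)))
      d_fn := G.d_fn
      d_res := G.d_res.app pt_sigma_fst (D.inl (D.sigma_snd (X := O.T))) },
    max κ 0 * (max κ 0 + 1), γ, h0, fun c => ⟨fun i u => ?_, fun v => ?_⟩, hz, fun c x p hx hp he =>
      ⟨fun j => p (G.res c (Sum.inr j)), hp.comp _, ?_⟩⟩
  · refine (cA_fr_le (fun t => G.slot c t i)
      (Sum.elim (Sum.elim Sum.inl fun m => Sum.inr (G.res c (Sum.inr m))) Sum.inr) u
      (cA_W G c) ((h1 c).1 i)).trans ?_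
    rw [mul_assoc]
    refine mul_le_mul_of_nonneg_left ?_ k0
    rcases u with u | u
    · simp only [Fintype.sum_sum_type, Sum.elim_inl, Sum.elim_inr, Sum.inl.injEq, reduceCtorEq,
        if_false, sum_const_zero, add_zero, sum_ite_eq', mem_univ, if_true]
      exact le_mul_of_one_le_left (I.w0 c u) (by linarith)
    · have k := (h1 c).2 u
      rw [sum_filter] at k
      simp only [Fintype.sum_sum_type, Sum.elim_inl, Sum.elim_inr] at k
      simp only [Fintype.sum_sum_type, Sum.elim_inl, Sum.elim_inr, Sum.inr.injEq, reduceCtorEq,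
        if_false, sum_const_zero, zero_add, sum_ite_eq', mem_univ, if_true]
      have k1 : 0 ≤ ∑ o, if G.res c (Sum.inl o) = u then O.w c o else 0 :=
        sum_nonneg fun o _ => by
          split_ifs
          exacts [O.w0 c o, le_rfl]
      have k2 := mul_le_mul_of_nonneg_right (le_max_left κ 0) (cA_wt G c u)
      change _ ≤ (max κ 0 + 1) * G.wt c u
      linarith
  · have k := (h1 c).2 v
    rw [sum_filter] at k
    simp only [Fintype.sum_sum_type, Sum.elim_inl, Sum.elim_inr] at k
    have k1 : 0 ≤ ∑ o, if G.res c (Sum.inr o) = v then M.w c o else 0 :=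
      sum_nonneg fun o _ => by
        split_ifs
        exacts [M.w0 c o, le_rfl]
    have k2 := mul_le_mul_of_nonneg_right (le_max_left κ 0) (cA_wt G c v)
    have k3 := mul_nonneg (mul_nonneg k0 k0) (cA_wt G c v)
    rw [sum_filter]
    change (∑ o, if G.res c (Sum.inl o) = v then O.w c o else 0) ≤
      max κ 0 * (max κ 0 + 1) * G.wt c v
    linarith
  · have e : ∀ u : (I.T c ⊕ M.T c) ⊕ G.V.T c, Sum.elim x p (Sum.elim (Sum.elim Sum.inl
        fun m => Sum.inr (G.res c (Sum.inr m))) Sum.inr u) =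
        Sum.elim (Sum.elim x fun j => p (G.res c (Sum.inr j))) p u := fun u => by
      rcases u with (u | u) | u <;> rfl
    have k := h2 c (Sum.elim x fun j => p (G.res c (Sum.inr j))) p (hx.elim (hp.comp _)) hp
      (le_of_eq_of_le (by simp only [Gad.err, e]) he)
    have e2 : (fun o => p (G.res c o)) = Sum.elim (fun o => p (G.res c (Sum.inl o)))
        fun j => p (G.res c (Sum.inr j)) := funext fun o => by rcases o with o | o <;> rfl
    rw [e2] at k
    exact k

/-- One layer of local functions with internal randomness `Rn`. -/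
theorem ImplS.layer {A : Type} [Fintype A] (Rn : Fam C) (hR : ∀ c, Nonempty (Rn.T c))
    (hO : ∀ c, Nonempty (O.T c)) (slot : ∀ c, O.T c → Rn.T c → A → I.T c)
    (fn : ∀ c, O.T c → Rn.T c → (A → F) → F) (ds : ∀ i, D3 fun c o ρ => slot c o ρ i)
    (df : ∀ s, PT fun z : Σ c, O.T c × Rn.T c => fn z.1 z.2.1 z.2.2 s) (κ : ℝ)
    (hw : ∀ c o, O.w c o ≤ κ / Fintype.card (O.T c))
    (hs : ∀ c i u, fr (O.T c × Rn.T c) (fun z => slot c z.1 z.2 i = u) ≤ κ * I.w c u)
    (hz : Sz a l fun c => Fintype.card (O.T c × Rn.T c)) {η : ℝ} (hη : 0 < η) :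
    ImplS F a l I O fun c x y =>
      dd (O.w c) y (fun o b => 𝔼 ρ, law (fun i => x (slot c o ρ i)) (fn c o ρ) b) ≤ η := by
  have hκ : ∀ _ : C, 0 ≤ κ := fun c => by
    have hOc : (0 : ℝ) < Fintype.card (O.T c) := by
      have := hO c
      exact_mod_cast Fintype.card_pos
    have h := (O.w0 c (hO c).some).trans (hw c (hO c).some)
    rwa [le_div_iff₀ hOc, zero_mul] at h
  have hwt : ∀ c (v : O.T c), (cB_gad Rn hR hO slot fn ds df).wt c v =
      (Fintype.card (O.T c) : ℝ)⁻¹ := fun c v => by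
    have := hR c
    exact (fr_fst (Y := Rn.T c) fun o : O.T c => o = v).trans (fr_single v)
  refine ⟨A, inferInstance, cB_gad Rn hR hO slot fn ds df, κ, η / (|κ| + 1), by positivity,
    fun c => ⟨fun i u => ?_, fun v => ?_⟩, hz, fun c x p _ _ herr => ?_⟩
  · rcases u with u | v
    · refine le_trans (le_of_eq ?_) (hs c i u)
      exact fr_congr fun t => Sum.inl_injective.eq_iff
    · have h0 : fr ((cB_gad Rn hR hO slot fn ds df).T.T c)
          (fun t => (cB_gad Rn hR hO slot fn ds df).slot c t i = Sum.inr v) = 0 :=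
        (fr_congr fun t => ⟨fun h => Sum.inl_ne_inr h, False.elim⟩).trans fr_false
      rw [h0]
      exact mul_nonneg (hκ c) (fr_nonneg _)
  · rw [hwt c v]
    have e : ∑ o ∈ univ.filter (fun o => (cB_gad Rn hR hO slot fn ds df).res c o = v), O.w c o =
        O.w c v := by
      rw [sum_filter]
      exact (sum_congr rfl fun o _ => by congr).trans (sum_ite_eq' univ (v : O.T c) (O.w c) |>.trans
        (if_pos (mem_univ _)))
    rw [e]
    exact hw c v
  · have := hR c
    have := hO c
    have hOc : (0 : ℝ) < Fintype.card (O.T c) := by exact_mod_cast Fintype.card_pos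
    have hRc : (0 : ℝ) < Fintype.card (Rn.T c) := by exact_mod_cast Fintype.card_pos
    have e : (cB_gad Rn hR hO slot fn ds df).err c x p = (∑ o : O.T c, ∑ b,
        |p o b - 𝔼 ρ, law (fun i => x (slot c o ρ i)) (fn c o ρ) b|) / Fintype.card (O.T c) := by
      have e1 : ∀ (o : O.T c) (b : F), |∑ t ∈ univ.filter (fun t : O.T c × Rn.T c => t.1 = o),
          (p o b - law (fun i => x (slot c t.1 t.2 i)) (fn c t.1 t.2) b)| = Fintype.card (Rn.T c) *
          |p o b - 𝔼 ρ, law (fun i => x (slot c o ρ i)) (fn c o ρ) b| := fun o b => by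
        rw [cB_fibre, cB_abs]
      have e2 : (cB_gad Rn hR hO slot fn ds df).err c x p = (∑ o : O.T c, ∑ b,
          |∑ t ∈ univ.filter (fun t : O.T c × Rn.T c => t.1 = o),
          (p o b - law (fun i => x (slot c t.1 t.2 i)) (fn c t.1 t.2) b)|) /
          Fintype.card (O.T c × Rn.T c) := rfl
      rw [e2]
      simp only [e1, ← mul_sum, Fintype.card_prod, Nat.cast_mul]
      field_simp
    rw [e] at herr
    set E := ∑ o : O.T c, ∑ b, |p o b - 𝔼 ρ, law (fun i => x (slot c o ρ i)) (fn c o ρ) b|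
      with hE
    have h1 : dd (O.w c) (fun o => p ((cB_gad Rn hR hO slot fn ds df).res c o))
        (fun o b => 𝔼 ρ, law (fun i => x (slot c o ρ i)) (fn c o ρ) b) ≤
        κ * (E / Fintype.card (O.T c)) := by
      rw [hE, mul_div_assoc', mul_div_right_comm, mul_sum]
      exact sum_le_sum fun o _ => mul_le_mul_of_nonneg_right (hw c o)
        (sum_nonneg fun b _ => abs_nonneg _)
    refine h1.trans ((mul_le_mul_of_nonneg_left herr (hκ c)).trans ?_)
    rw [abs_of_nonneg (hκ c), mul_div_assoc', div_le_iff₀ (by linarith [hκ c])]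
    nlinarith [hκ c]

end Vale.Agent.P330Q
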