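import Vale.Agent.P330Q.CombA

/-! Sized gadget combinators: padding and sequential composition. -/

namespace Vale.Agent.P330Q

open Vale.Agent.Lib.PolyTime Vale.Agent.P330 Finset
open scoped Classical BigOperators

section Plain

/-- The share of the left summand. -/
noncomputable def qC_a (X Y : Type) [Fintype X] [Fintype Y] : ℝ :=
  Fintype.card X / (Fintype.card X + Fintype.card Y)

/-- The share of the right summand. -/
noncomputable def qC_b (X Y : Type) [Fintype X] [Fintype Y] : ℝ :=
  Fintype.card Y / (Fintype.card X + Fintype.card Y)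

theorem qC_fr {X Y : Type} [Fintype X] [Fintype Y] [Nonempty X] [Nonempty Y] {Z : Type}
    (f : X → Z) (g : Y → Z) (u : Z) :
    fr (X ⊕ Y) (fun t => Sum.elim f g t = u) =
      qC_a X Y * fr X (fun x => f x = u) + qC_b X Y * fr Y fun y => g y = u := by
  have hX : (0 : ℝ) < Fintype.card X := by exact_mod_cast Fintype.card_pos
  have hY : (0 : ℝ) < Fintype.card Y := by exact_mod_cast Fintype.card_pos
  simp only [fr_eq_expect, Fintype.expect_eq_sum_div_card, Fintype.sum_sum_type, Fintype.card_sum,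
    Nat.cast_add, qC_a, qC_b, Sum.elim_inl, Sum.elim_inr]
  field_simp
  congr

theorem qC_err_plain {X Y V W F : Type} [Fintype X] [Fintype Y] [Fintype V] [Fintype W] [Fintype F]
    [Nonempty X] [Nonempty Y] (o : X → V) (o' : Y → W)
    (g : V ⊕ W → F → X ⊕ Y → ℝ) (g1 : V → F → X → ℝ) (g2 : W → F → Y → ℝ)
    (h1 : ∀ v b t, g (.inl v) b (.inl t) = g1 v b t)
    (h2 : ∀ v b t, g (.inr v) b (.inr t) = g2 v b t) :
    (∑ v, ∑ b, |∑ t, if Sum.elim (fun t => Sum.inl (o t)) (fun t => Sum.inr (o' t)) t = v then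
      g v b t else 0|) / Fintype.card (X ⊕ Y) =
    qC_a X Y * ((∑ v, ∑ b, |∑ t, if o t = v then g1 v b t else 0|) / Fintype.card X) +
      qC_b X Y * ((∑ v, ∑ b, |∑ t, if o' t = v then g2 v b t else 0|) / Fintype.card Y) := by
  have hX : (0 : ℝ) < Fintype.card X := by exact_mod_cast Fintype.card_pos
  have hY : (0 : ℝ) < Fintype.card Y := by exact_mod_cast Fintype.card_pos
  rw [Fintype.sum_sum_type]
  simp only [Fintype.sum_sum_type, Sum.elim_inl, Sum.elim_inr, Sum.inl.injEq, Sum.inr.injEq, h1, h2,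
    reduceCtorEq, if_false, sum_const_zero, add_zero, zero_add, Fintype.card_sum, Nat.cast_add,
    qC_a, qC_b]
  field_simp

theorem qC_ab {X Y : Type} [Fintype X] [Fintype Y] [Nonempty X] {L : ℕ}
    (h1 : L ≤ Fintype.card X ∧ Fintype.card X ≤ 2 * L)
    (h2 : L ≤ Fintype.card Y ∧ Fintype.card Y ≤ 2 * L) :
    1 / 3 ≤ qC_a X Y ∧ 1 / 3 ≤ qC_b X Y ∧ qC_a X Y + qC_b X Y = 1 := by
  have hX : (0 : ℝ) < Fintype.card X := by exact_mod_cast Fintype.card_pos
  have a1 : (Fintype.card Y : ℝ) ≤ 2 * Fintype.card X := by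
    exact_mod_cast h2.2.trans (Nat.mul_le_mul_left 2 h1.1)
  have a2 : (Fintype.card X : ℝ) ≤ 2 * Fintype.card Y := by
    exact_mod_cast h1.2.trans (Nat.mul_le_mul_left 2 h2.1)
  have h0 : (0 : ℝ) < Fintype.card X + Fintype.card Y := by positivity
  refine ⟨?_, ?_, ?_⟩
  · rw [qC_a, le_div_iff₀ h0]; linarith
  · rw [qC_b, le_div_iff₀ h0]; linarith
  · rw [qC_a, qC_b, ← add_div, div_self h0.ne']

end Plain

variable {C F : Type} [Enc C] [Enc F] [Fintype F] {a l : C → ℕ} {I I' M O O' : Reg C}

/-- Every term is repeated `k` times. -/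
@[reducible] noncomputable def qC_pad {A : Type} (G : Gad F A I O) (k : C → ℕ) (hk : PT k)
    (hk' : PB k) (h0 : ∀ c, 0 < k c) : Gad F A I O where
  T := G.T.prod (Fam.ofFin k hk hk')
  V := G.V
  ne c := ⟨((G.ne c).some, ⟨0, h0 c⟩)⟩
  out c t := G.out c t.1
  slot c t := G.slot c t.1
  fn c t := G.fn c t.1
  res := G.res
  d_out := cC_comp G.d_out cC_fst
  d_slot i := cC_comp (G.d_slot i) cC_fst
  d_fn s := (G.d_fn s).comp (pt_sigma_mk pt_sigma_fst cC_fst)
  d_res := G.d_res

/-- Padding to a prescribed size. -/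
theorem qC_exists_pad {A : Type} [Fintype A] (G : Gad F A I O) {κ γ : ℝ}
    {S : ∀ c, (I.T c → F → ℝ) → (O.T c → F → ℝ) → Prop} (hD : G.Dens κ)
    (hS : ∀ c x p, IsDist x → IsDist p → G.err c x p ≤ γ → S c x fun o => p (G.res c o))
    {L : C → ℕ} (hL : PT L) (hL' : PB L) (hLe : ∀ c, Fintype.card (G.T.T c) ≤ L c) :
    ∃ G' : Gad F A I O, G'.Dens κ ∧
      (∀ c x p, IsDist x → IsDist p → G'.err c x p ≤ γ → S c x fun o => p (G'.res c o)) ∧
      ∀ c, L c ≤ Fintype.card (G'.T.T c) ∧ Fintype.card (G'.T.T c) ≤ 2 * L c := by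
  have hk : PT fun c => L c / Fintype.card (G.T.T c) + 1 :=
    (Vale.Agent.P325.pt_div hL G.T.pf.pt_card).add (PT.const 1)
  have hk' : PB fun c => L c / Fintype.card (G.T.T c) + 1 :=
    (hL'.of_le fun _ => Nat.div_le_self _ _).add (PB.const 1)
  have hf : ∀ c (E : G.T.T c → Prop),
      fr (G.T.T c × Fin (L c / Fintype.card (G.T.T c) + 1)) (fun t => E t.1) = fr (G.T.T c) E :=
    fun c E => fr_fst E
  refine ⟨qC_pad G _ hk hk' fun _ => Nat.succ_pos _, fun c => ⟨fun i u => ?_, fun v => ?_⟩,
    fun c x p hx hp he => hS c x p hx hp (le_of_eq_of_le ?_ he), fun c => ?_⟩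
  · refine (hf c fun t => G.slot c t i = u).trans_le (((hD c).1 i u).trans_eq ?_)
    rcases u with u | u
    · rfl
    · exact congrArg _ (hf c fun t => G.out c t = u).symm
  · exact ((hD c).2 v).trans_eq (congrArg _ (hf c fun t => G.out c t = v).symm)
  · have := G.ne c
    have h : ((L c / Fintype.card (G.T.T c) + 1 : ℕ) : ℝ) ≠ 0 :=
      Nat.cast_ne_zero.2 (Nat.succ_ne_zero _)
    have e : ∀ v b, |∑ t ∈ univ.filter
        (fun t : G.T.T c × Fin (L c / Fintype.card (G.T.T c) + 1) => G.out c t.1 = v),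
        (p v b - law (fun i => Sum.elim x p (G.slot c t.1 i)) (G.fn c t.1) b)| =
        (L c / Fintype.card (G.T.T c) + 1 : ℕ) * |∑ t ∈ univ.filter fun t => G.out c t = v,
          (p v b - law (fun i => Sum.elim x p (G.slot c t i)) (G.fn c t) b)| := fun v b => by
      rw [cD_rep _ (fun t => G.out c t = v)
        fun t => p v b - law (fun i => Sum.elim x p (G.slot c t i)) (G.fn c t) b, abs_mul,
        abs_of_nonneg (Nat.cast_nonneg _)]
    have e2 : (qC_pad G _ hk hk' fun _ => Nat.succ_pos _).err c x p = (∑ v, ∑ b,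
        |∑ t ∈ univ.filter
          (fun t : G.T.T c × Fin (L c / Fintype.card (G.T.T c) + 1) => G.out c t.1 = v),
        (p v b - law (fun i => Sum.elim x p (G.slot c t.1 i)) (G.fn c t.1) b)|) /
        Fintype.card (G.T.T c × Fin (L c / Fintype.card (G.T.T c) + 1)) := rfl
    rw [e2]
    simp only [e, ← mul_sum, Fintype.card_prod, Fintype.card_fin, Nat.cast_mul, Gad.err]
    rw [mul_comm (Fintype.card (G.T.T c) : ℝ), mul_div_mul_left _ _ h]
  · have := G.ne c
    have h1 := Nat.lt_div_mul_add (a := L c) (Fintype.card_pos (α := G.T.T c))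
    have h2 := Nat.div_mul_le_self (L c) (Fintype.card (G.T.T c))
    have h3 := hLe c
    have h4 : Fintype.card (G.T.T c × Fin (L c / Fintype.card (G.T.T c) + 1)) =
        L c / Fintype.card (G.T.T c) * Fintype.card (G.T.T c) + Fintype.card (G.T.T c) := by
      rw [Fintype.card_prod, Fintype.card_fin, mul_comm, add_mul, one_mul]
    change L c ≤ Fintype.card (G.T.T c × Fin (L c / Fintype.card (G.T.T c) + 1)) ∧
      Fintype.card (G.T.T c × Fin (L c / Fintype.card (G.T.T c) + 1)) ≤ 2 * L c
    omega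

/-- The sequential composition of two gadgets, on the union of the terms. -/
@[reducible] noncomputable def qC_gad {A A' : Type} (G : Gad F A I M) (H : Gad F A' (I.sum M) O) :
    Gad F (A ⊕ A') I (M.sum O) where
  T := G.T.sum H.T
  V := G.V.sum H.V
  ne c := ⟨.inl (G.ne c).some⟩
  out c := Sum.elim (fun t => .inl (G.out c t)) fun t => .inr (H.out c t)
  slot c t a := Sum.elim
    (fun t => Sum.elim (fun a => cC_mq (G.slot c t a)) (fun _ => .inr (.inl (G.out c t))) a)
    (fun t => Sum.elim (fun _ => .inr (.inr (H.out c t)))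
      (fun a => cC_mp (G.res c) (H.slot c t a)) a) t
  fn c t s := Sum.elim (fun t => G.fn c t fun a => s (.inl a))
    (fun t => H.fn c t fun a => s (.inr a)) t
  res c := Sum.elim (fun m => .inl (G.res c m)) fun o => .inr (H.res c o)
  d_out := cC_elim (cC_inl G.d_out) (cC_inr H.d_out)
  d_slot i := by
    rcases i with a | a
    · exact cC_elim (cC_comp (cC_elim (cC_inl cC_id) (cC_inr (cC_inl cC_id))) (G.d_slot a))
        (cC_inr (cC_inr H.d_out))
    · exact cC_elim (cC_inr (cC_inl G.d_out))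
        (cC_comp (cC_elim (cC_elim (cC_inl cC_id) (cC_inr (cC_inl G.d_res)))
          (cC_inr (cC_inr cC_id))) (H.d_slot a))
  d_fn s := by
    have h1 : D2 (Y := fun _ => F) fun c t => G.fn c t fun a => s (.inl a) := D.of_pt (G.d_fn _)
    have h2 : D2 (Y := fun _ => F) fun c t => H.fn c t fun a => s (.inr a) := D.of_pt (H.d_fn _)
    exact D.pt (cC_elim h1 h2)
  d_res := cC_elim (cC_inl G.d_res) (cC_inr H.d_res)

section Facts
variable {A A' : Type} [Fintype A] [Fintype A'] (G : Gad F A I M) (H : Gad F A' (I.sum M) O)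

omit [Fintype F] [Fintype A] [Fintype A'] in
theorem qC_wt_inl (c : C) (v : G.V.T c) :
    (qC_gad G H).wt c (.inl v) = qC_a (G.T.T c) (H.T.T c) * G.wt c v := by
  have := G.ne c
  have := H.ne c
  refine (qC_fr (fun t => Sum.inl (G.out c t)) (fun t => Sum.inr (H.out c t)) _).trans ?_
  rw [cC_fr_zero (X := H.T.T c) (by simp), mul_zero, add_zero, Gad.wt]
  simp only [Sum.inl.injEq]

omit [Fintype F] [Fintype A] [Fintype A'] in
theorem qC_wt_inr (c : C) (v : H.V.T c) :
    (qC_gad G H).wt c (.inr v) = qC_b (G.T.T c) (H.T.T c) * H.wt c v := by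
  have := G.ne c
  have := H.ne c
  refine (qC_fr (fun t => Sum.inl (G.out c t)) (fun t => Sum.inr (H.out c t)) _).trans ?_
  rw [cC_fr_zero (X := G.T.T c) (by simp), mul_zero, zero_add, Gad.wt]
  simp only [Sum.inr.injEq]

theorem qC_err (c : C) {x : I.T c → F → ℝ} {p : G.V.T c ⊕ H.V.T c → F → ℝ} (hx : IsDist x)
    (hp : IsDist p) : (qC_gad G H).err c x p =
      qC_a (G.T.T c) (H.T.T c) * G.err c x (fun v => p (.inl v)) + qC_b (G.T.T c) (H.T.T c) *
      H.err c (Sum.elim x fun m => p (.inl (G.res c m))) fun v => p (.inr v) := by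
  have := G.ne c
  have := H.ne c
  simp only [Gad.err, sum_filter]
  have key := qC_err_plain (G.out c) (H.out c)
    (fun v b t => p v b - law (fun i => Sum.elim x p ((qC_gad G H).slot c t i))
      ((qC_gad G H).fn c t) b)
    (fun v b t => p (.inl v) b - law (fun i => Sum.elim x (fun v => p (.inl v)) (G.slot c t i))
      (G.fn c t) b)
    (fun v b t => p (.inr v) b - law (fun i => Sum.elim (Sum.elim x fun m => p (.inl (G.res c m)))
      (fun v => p (.inr v)) (H.slot c t i)) (H.fn c t) b)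
    (fun v b t => by
      congr 1
      refine (law_comp ((hx.elim hp).comp _) Sum.inl_injective (G.fn c t) b).trans ?_
      congr 1
      funext i
      change Sum.elim x p (cC_mq (G.slot c t i)) = _
      rcases G.slot c t i with u | u <;> rfl)
    (fun v b t => by
      congr 1
      refine (law_comp ((hx.elim hp).comp _) Sum.inr_injective (H.fn c t) b).trans ?_
      congr 1
      funext i
      change Sum.elim x p (cC_mp (G.res c) (H.slot c t i)) = _
      rcases H.slot c t i with (u | u) | u <;> rfl)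
  convert key

omit [Fintype F] [Fintype A] [Fintype A'] in
theorem qC_dens {k k' : ℝ} (hk : 0 ≤ k) (hk' : 0 ≤ k') (hG : G.Dens k) (hH : H.Dens k')
    (hab : ∀ c, 1 / 3 ≤ qC_a (G.T.T c) (H.T.T c) ∧ 1 / 3 ≤ qC_b (G.T.T c) (H.T.T c) ∧
      qC_a (G.T.T c) (H.T.T c) + qC_b (G.T.T c) (H.T.T c) = 1) :
    (qC_gad G H).Dens (3 * k + 3 * k' + 2 * (k * k') + 1) := by
  intro c
  have := G.ne c
  have := H.ne c
  have hkk := mul_nonneg hk hk'
  obtain ⟨ha, hb, hs⟩ := hab c
  have w1 : ∀ v, 0 ≤ G.wt c v := fun v => fr_nonneg _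
  have w2 : ∀ v, 0 ≤ H.wt c v := fun v => fr_nonneg _
  have up : ∀ {s r w t : ℝ}, 0 ≤ s → 0 ≤ w → r ≤ t * w → t ≤ 3 * k + 3 * k' + 2 * (k * k') + 1 →
      s * r ≤ (3 * k + 3 * k' + 2 * (k * k') + 1) * (s * w) := fun hs hw h ht => by
    rw [mul_left_comm]
    exact mul_le_mul_of_nonneg_left (h.trans (mul_le_mul_of_nonneg_right ht hw)) hs
  have up1 : ∀ {s r w t : ℝ}, s ≤ 1 → 0 ≤ r → 0 ≤ w → r ≤ t * w →
      t ≤ 3 * k + 3 * k' + 2 * (k * k') + 1 →
      s * r ≤ (3 * k + 3 * k' + 2 * (k * k') + 1) * w := fun hs hr hw h ht =>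
    (mul_le_of_le_one_left hr hs).trans (h.trans (mul_le_mul_of_nonneg_right ht hw))
  have up3 : ∀ {s r w t : ℝ}, 1 / 3 ≤ s → 0 ≤ t → 0 ≤ w → r ≤ t * w →
      3 * t ≤ 3 * k + 3 * k' + 2 * (k * k') + 1 →
      r ≤ (3 * k + 3 * k' + 2 * (k * k') + 1) * (s * w) := fun {s r w t} hs ht0 hw h ht => by
    have h1 := mul_le_mul_of_nonneg_right hs (mul_nonneg ht0 hw)
    have h2 := mul_le_mul_of_nonneg_right ht (mul_nonneg (by linarith : 0 ≤ s) hw)
    nlinarith
  refine ⟨fun i u => ?_, fun v => ?_⟩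
  · rcases i with a | a
    · refine (qC_fr (fun t => cC_mq (G.slot c t a))
        (fun t => Sum.inr (Sum.inr (H.out c t))) u).trans_le ?_
      rcases u with u | u | u
      · rw [cC_fr_zero (X := H.T.T c) (by simp), fr_congr (E' := fun t => G.slot c t a = .inl u)
          fun t => by rcases G.slot c t a with z | z <;> simp [cC_mq], mul_zero, add_zero]
        exact up1 (by linarith) (fr_nonneg _) (I.w0 c u) ((hG c).1 a (.inl u)) (by linarith)
      · rw [cC_fr_zero (X := H.T.T c) (by simp), fr_congr (E' := fun t => G.slot c t a = .inr u)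
          fun t => by rcases G.slot c t a with z | z <;> simp [cC_mq], mul_zero, add_zero,
          Sum.elim_inr, qC_wt_inl]
        exact up (by linarith) (w1 u) ((hG c).1 a (.inr u)) (by linarith)
      · rw [cC_fr_zero (X := G.T.T c)
          fun t => by rcases G.slot c t a with z | z <;> simp [cC_mq], mul_zero, zero_add,
          Sum.elim_inr, qC_wt_inr]
        simp only [Sum.inr.injEq]
        exact up (by linarith) (w2 u) (one_mul _).ge (by linarith)
    · refine (qC_fr (fun t => Sum.inr (Sum.inl (G.out c t)))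
        (fun t => cC_mp (G.res c) (H.slot c t a)) u).trans_le ?_
      rcases u with u | u | u
      · rw [cC_fr_zero (X := G.T.T c) (by simp),
          fr_congr (E' := fun t => H.slot c t a = .inl (.inl u))
          fun t => by rcases H.slot c t a with (z | z) | z <;> simp [cC_mp], mul_zero, zero_add]
        exact up1 (by linarith) (fr_nonneg _) (I.w0 c u) ((hH c).1 a (.inl (.inl u))) (by linarith)
      · have h0 := w1 u
        have h1 : fr (H.T.T c) (fun t => cC_mp (G.res c) (H.slot c t a) = .inr (.inl u)) ≤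
            k' * (k * G.wt c u) := by
          refine (fr_mono (E' := fun t => ∃ m, G.res c m = u ∧ H.slot c t a = .inl (.inr m))
            fun t => ?_).trans ((fr_exists_le _).trans ?_)
          · rcases H.slot c t a with (z | z) | z <;> simp [cC_mp]
          · refine le_trans ?_ (mul_le_mul_of_nonneg_left ((hG c).2 u) hk')
            rw [sum_filter, mul_sum]
            refine sum_le_sum fun m _ => ?_
            by_cases hm : G.res c m = u
            · simp only [hm, true_and, if_true]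
              exact (hH c).1 a (.inl (.inr m))
            · simp only [hm, false_and, if_false, mul_zero, fr_false, le_refl]
        simp only [Sum.elim_inr, qC_wt_inl, Sum.inr.injEq, Sum.inl.injEq]
        change _ * G.wt c u + _ ≤ _
        have h2 := mul_le_mul_of_nonneg_left h1 (by linarith : 0 ≤ qC_b (G.T.T c) (H.T.T c))
        have h3 := mul_le_mul_of_nonneg_right
          (by linarith : qC_b (G.T.T c) (H.T.T c) ≤ 2 * qC_a (G.T.T c) (H.T.T c))
          (mul_nonneg hkk h0)
        have h4 := mul_nonneg (add_nonneg hk hk')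
          (mul_nonneg (by linarith : 0 ≤ qC_a (G.T.T c) (H.T.T c)) h0)
        nlinarith
      · rw [cC_fr_zero (X := G.T.T c) (by simp), fr_congr (E' := fun t => H.slot c t a = .inr u)
          fun t => by rcases H.slot c t a with (z | z) | z <;> simp [cC_mp], mul_zero, zero_add,
          Sum.elim_inr, qC_wt_inr]
        exact up (by linarith) (w2 u) ((hH c).1 a (.inr u)) (by linarith)
  · rw [sum_filter]
    refine (Fintype.sum_sum_type (α₁ := M.T c) (α₂ := O.T c) _).trans_le ?_
    rcases v with v | v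
    · have h := (hG c).2 v
      rw [sum_filter] at h
      rw [qC_wt_inl]
      simp only [qC_gad, Sum.elim_inl, Sum.elim_inr, Sum.inl.injEq, reduceCtorEq, if_false,
        sum_const_zero, add_zero]
      exact up3 ha hk (w1 v) h (by linarith)
    · have h := (hH c).2 v
      rw [sum_filter] at h
      rw [qC_wt_inr]
      simp only [qC_gad, Sum.elim_inl, Sum.elim_inr, Sum.inr.injEq, reduceCtorEq, if_false,
        sum_const_zero, zero_add]
      exact up3 hb hk' (w2 v) h (by linarith)

end Facts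

theorem ImplS.seq {S : ∀ c, (I.T c → F → ℝ) → (M.T c → F → ℝ) → Prop}
    {S' : ∀ c, ((I.sum M).T c → F → ℝ) → (O.T c → F → ℝ) → Prop} (h : ImplS F a l I M S)
    (h' : ImplS F a l (I.sum M) O S') :
    ImplS F a l I (M.sum O) fun c x z => S c x (fun m => z (.inl m)) ∧
      S' c (Sum.elim x fun m => z (.inl m)) fun o => z (.inr o) := by
  obtain ⟨A, _, G0, k, γ, hγ, hG, hz, h⟩ := h
  obtain ⟨A', _, H0, k', γ', hγ', hH, hz', h'⟩ := h'
  have hL := G0.T.pf.pt_card.add H0.T.pf.pt_card
  have hL' := G0.T.pf.pb_card.add H0.T.pf.pb_card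
  obtain ⟨G, hG, h, b⟩ := qC_exists_pad G0 hG h hL hL' fun _ => Nat.le_add_right _ _
  obtain ⟨H, hH, h', b'⟩ := qC_exists_pad H0 hH h' hL hL' fun _ => Nat.le_add_left _ _
  have hab := fun c => have := G.ne c; qC_ab (b c) (b' c)
  refine ⟨A ⊕ A', inferInstance, qC_gad G H, _, min γ γ' / 3, by positivity,
    qC_dens G H (le_max_right _ _) (le_max_right _ _) (cC_dens_max hG) (cC_dens_max hH) hab,
    Sz.card_sum (((hz.add hz').cmul 2).of_le fun c => (b c).2)
      (((hz.add hz').cmul 2).of_le fun c => (b' c).2), fun c x p hx hp he => ?_⟩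
  rw [qC_err G H c hx hp] at he
  have e1 := cC_err_nonneg G c x fun v => p (.inl v)
  have e2 := cC_err_nonneg H c (Sum.elim x fun m => p (.inl (G.res c m))) fun v => p (.inr v)
  have m1 := min_le_left γ γ'
  have m2 := min_le_right γ γ'
  have f1 := mul_le_mul_of_nonneg_right (hab c).1 e1
  have f2 := mul_le_mul_of_nonneg_right (hab c).2.1 e2
  exact ⟨h c x (fun v => p (.inl v)) hx (hp.comp _) (by linarith),
    h' c (Sum.elim x fun m => p (.inl (G.res c m))) (fun v => p (.inr v))
      (hx.elim (hp.comp _)) (hp.comp _) (by linarith)⟩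

end Vale.Agent.P330Q
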