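import Vale.Agent.P330Q.CombC
import Vale.Agent.P330.HAsm

/-! Sized gadget combinators: arrays and derived forms. -/

namespace Vale.Agent.P330Q

open Vale.Agent.Lib.PolyTime Vale.Agent.P330 Finset
open scoped Classical BigOperators

variable {C F : Type} [Enc C] [Enc F] [Fintype F] {a l : C → ℕ} {I I' M O O' : Reg C}

theorem qD_card {J : Type} [Fintype J] {T : J → Type} [∀ j, Fintype (T j)] (hT : ∀ j, Nonempty (T j))
    {L : ℕ} (hL : ∀ j, Fintype.card (T j) ≤ L) :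
    Fintype.card (Σ j, T j × Fin (L / Fintype.card (T j) + 1)) ≤ Fintype.card J * (2 * L) := by
  rw [Fintype.card_sigma, ← smul_eq_mul, ← card_univ]
  refine sum_le_card_nsmul _ _ _ fun j _ => ?_
  have := Nat.div_mul_le_self L (Fintype.card (T j))
  have := hL j
  rw [Fintype.card_prod, Fintype.card_fin, mul_comm, add_mul, one_mul]
  omega

/-- Arrays of gadgets. -/
theorem ImplS.arr (J : Fam C) (hJ : ∀ c, Nonempty (J.T c)) {I1 O1 : Reg (Σ c, J.T c)}
    {S : ∀ z, (I1.T z → F → ℝ) → (O1.T z → F → ℝ) → Prop} {a0 : C → ℕ}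
    (h : ImplS F (fun z => a0 z.1) (fun z => l z.1) I1 O1 S)
    (hz : Sz a l fun c => Fintype.card (J.T c) * (a0 c + 1))
    (f : ∀ z, I1.T z → I.T z.1) (df : D2 (Y := fun z : Σ c, J.T c => I.T z.1) f) (κ : ℝ)
    (hf : ∀ c u, 𝔼 j, ∑ i ∈ univ.filter fun i => f ⟨c, j⟩ i = u, I1.w ⟨c, j⟩ i ≤ κ * I.w c u)
    {θ : ℝ} (hθ : 0 < θ) :
    ImplS F a l I (Reg.sigma J O1) fun c x y =>
      fr (J.T c) (fun j => ¬ S ⟨c, j⟩ (fun i => x (f ⟨c, j⟩ i)) fun o => y ⟨j, o⟩) ≤ θ := by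
  obtain ⟨A, _, G, κ₁, γ, hγ, hG, ⟨K, k, hK⟩, hS⟩ := h
  obtain ⟨L, hL, hL', hLe, hLb⟩ : ∃ L : C → ℕ, PT L ∧ PB L ∧
      (∀ c j, Fintype.card (G.T.T ⟨c, j⟩) ≤ L c) ∧ ∀ c, L c ≤ K * (a0 c + 1) * (l c + 1) ^ k := by
    obtain ⟨m, hm, hm'⟩ := J.pf.choose
      (p := fun c j => ∀ j', Fintype.card (G.T.T ⟨c, j'⟩) ≤ Fintype.card (G.T.T ⟨c, j⟩))
      ((J.pf.comap pt_sigma_fst).pt_forall (PT.le
        (G.T.pf.pt_card.comp (pt_sigma_mk (pt_sigma_fst.comp pt_sigma_fst) D.sigma_snd))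
        (G.T.pf.pt_card.comp pt_sigma_fst)))
      fun c => by
        have := hJ c
        obtain ⟨j, hj⟩ := Finite.exists_max fun j => Fintype.card (G.T.T ⟨c, j⟩)
        exact ⟨j, hj⟩
    have hp := pt_sigma_mk PT.id hm
    exact ⟨fun c => Fintype.card (G.T.T ⟨c, m c⟩), G.T.pf.pt_card.comp hp, G.T.pf.pb_card.comp hp,
      hm', fun c => hK ⟨c, m c⟩⟩
  have hk : PT fun z : Σ c, J.T c => L z.1 / Fintype.card (G.T.T z) + 1 :=
    (Vale.Agent.P325.pt_div (hL.comp pt_sigma_fst) G.T.pf.pt_card).add (PT.const 1)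
  have hk' : PB fun z : Σ c, J.T c => L z.1 / Fintype.card (G.T.T z) + 1 :=
    ((hL'.comp pt_sigma_fst).of_le fun _ => Nat.div_le_self _ _).add (PB.const 1)
  have ha := fun c => cD_bounds (hJ c) (fun j => G.ne ⟨c, j⟩) (L c)
    (fun j => L c / Fintype.card (G.T.T ⟨c, j⟩) + 1) (hLe c) fun _ => rfl
  refine ⟨A, inferInstance, cD_gad J hJ G f df _ hk hk' fun _ => Nat.succ_pos _,
    2 * max κ₁ 0 * max κ 1, θ * γ / 2, by positivity,
    cD_dens J hJ G f df _ hk hk' _ hG (le_max_left _ _) (le_max_right _ _) hf ha,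
    ((hz.cmul (2 * K)).mul ((Sz.log (a := fun _ => 0)).succ.pow k)).of_le fun c => ?_,
    fun c x p hx hp he => ?_⟩
  · refine (qD_card (fun j => G.ne ⟨c, j⟩) (hLe c)).trans ?_
    calc _ ≤ Fintype.card (J.T c) * (2 * (K * (a0 c + 1) * (l c + 1) ^ k)) :=
          Nat.mul_le_mul_left _ (Nat.mul_le_mul_left _ (hLb c))
      _ = _ := by ring
  replace he := (cD_err J hJ G f df _ hk hk' (fun _ => Nat.succ_pos _) c x p).ge.trans he
  have e0 : ∀ j, 0 ≤ G.err ⟨c, j⟩ (fun i => x (f ⟨c, j⟩ i)) fun v => p ⟨j, v⟩ := fun j => by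
    unfold Gad.err
    positivity
  refine le_trans (fr_mono fun j hj => ?_) ((fr_markov e0 hγ).trans ?_)
  · exact le_of_not_ge fun h => hj (hS ⟨c, j⟩ _ _ (hx.comp _) (hp.comp _) h)
  · rw [div_le_iff₀ hγ, Fintype.expect_eq_sum_div_card, div_eq_inv_mul, mul_sum]
    refine (sum_le_sum fun j _ => mul_le_mul_of_nonneg_right (ha c j).1 (e0 j)).trans ?_
    simp only [mul_assoc]
    rw [← mul_sum]
    linarith

/-- Use only the left part of the input. -/
theorem ImplS.inl {S : ∀ c, (I.T c → F → ℝ) → (O.T c → F → ℝ) → Prop} (h : ImplS F a l I O S) :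
    ImplS F a l (I.sum I') O fun c x y => S c (fun i => x (.inl i)) y :=
  (h.wire (I' := I.sum I') (O' := O) (fun _ i => .inl i) (fun _ o => o) D.sigma_snd.inl D.sigma_snd 1
    (fun c u => cE_inj Sum.inl_injective ((I.sum I').w0 c) (fun _ => le_rfl) u) (cE_id O)).mono
    fun _ _ _ _ _ ⟨_, _, k, e⟩ => e ▸ k

/-- Use only the right part of the input. -/
theorem ImplS.inr {S : ∀ c, (I'.T c → F → ℝ) → (O.T c → F → ℝ) → Prop} (h : ImplS F a l I' O S) :
    ImplS F a l (I.sum I') O fun c x y => S c (fun i => x (.inr i)) y :=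
  (h.wire (I' := I.sum I') (O' := O) (fun _ i => .inr i) (fun _ o => o) D.sigma_snd.inr D.sigma_snd 1
    (fun c u => cE_inj Sum.inr_injective ((I.sum I').w0 c) (fun _ => le_rfl) u) (cE_id O)).mono
    fun _ _ _ _ _ ⟨_, _, k, e⟩ => e ▸ k

theorem ImplS.seq' {S : ∀ c, (I.T c → F → ℝ) → (M.T c → F → ℝ) → Prop}
    {S' : ∀ c, ((I.sum M).T c → F → ℝ) → (O.T c → F → ℝ) → Prop} (h : ImplS F a l I M S)
    (h' : ImplS F a l (I.sum M) O S') :
    ImplS F a l I O fun c x z => ∃ y, IsDist y ∧ S c x y ∧ S' c (Sum.elim x y) z :=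
  ((h.seq h').wire (I' := I) (O' := O) (fun _ i => i) (fun _ o => .inr o) D.sigma_snd
    D.sigma_snd.inr 1 (cE_id I)
    fun c u => cE_inj Sum.inr_injective ((M.sum O).w0 c) (fun _ => le_rfl) u).mono
    fun _ _ _ _ _ ⟨_, d, k, e⟩ => ⟨_, d.comp Sum.inl, k.1, e ▸ k.2⟩

theorem ImplS.trans {S : ∀ c, (I.T c → F → ℝ) → (M.T c → F → ℝ) → Prop}
    {S' : ∀ c, (M.T c → F → ℝ) → (O.T c → F → ℝ) → Prop} (h : ImplS F a l I M S)
    (h' : ImplS F a l M O S') :
    ImplS F a l I O fun c x z => ∃ y, IsDist y ∧ S c x y ∧ S' c y z := h.seq' h'.inr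

theorem ImplS.par {S : ∀ c, (I.T c → F → ℝ) → (O.T c → F → ℝ) → Prop}
    {S' : ∀ c, (I.T c → F → ℝ) → (O'.T c → F → ℝ) → Prop} (h : ImplS F a l I O S) (h' : ImplS F a l I O' S') :
    ImplS F a l I (O.sum O') fun c x z => S c x (fun o => z (.inl o)) ∧ S' c x fun o => z (.inr o) :=
  h.seq h'.inl

/-- Iteration of a contraction. -/
theorem ImplS.iter (U : Fam C) (hU : ∀ c, Nonempty (U.T c)) (K : ∀ c, Set (U.T c → F)) {δ : ℝ}
    (hδ : 0 < δ) (h : ∀ η : ℝ, 0 < η → ImplS F a l (Reg.of U) (Reg.of U) fun c x y =>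
      ∀ u ∈ K c, du x u ≤ δ → du y u ≤ du x u / 2 + η) {η : ℝ} (hη : 0 < η) :
    ImplS F a l (Reg.of U) (Reg.of U) fun c x y => ∀ u ∈ K c, du x u ≤ δ → du y u ≤ η := by
  have _ := hU
  have key : ∀ n : ℕ, ∀ η : ℝ, 0 < η → ImplS F a l (Reg.of U) (Reg.of U) fun c x y =>
      ∀ u ∈ K c, du x u ≤ δ → du y u ≤ δ * (1 / 2) ^ (n + 1) + η := by
    intro n
    induction n with
    | zero =>
      refine fun η hη => (h η hη).mono fun c x y _ _ k u hu e => ?_
      have := k u hu e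
      rw [zero_add, pow_one]
      linarith
    | succ n ih =>
      refine fun η hη => ((ih (min η (δ / 2)) (lt_min hη (half_pos hδ))).trans
        (h (η / 2) (half_pos hη))).mono fun c x z _ _ ⟨y, _, k, k'⟩ u hu e => ?_
      have h1 := k u hu e
      have h2 := min_le_left η (δ / 2)
      have h3 := min_le_right η (δ / 2)
      have h4 : δ * (1 / 2) ^ (n + 1) ≤ δ * (1 / 2) ^ 1 :=
        mul_le_mul_of_nonneg_left (pow_le_pow_of_le_one (by norm_num) (by norm_num) (by omega)) hδ.le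
      have h5 := k' u hu (by linarith)
      rw [pow_succ _ (n + 1)]
      linarith
  obtain ⟨n, hn⟩ := exists_pow_lt_of_lt_one (div_pos hη hδ) (by norm_num : (1 / 2 : ℝ) < 1)
  refine (key n (η / 2) (half_pos hη)).mono fun c x y _ _ k u hu e => (k u hu e).trans ?_
  rw [lt_div_iff₀ hδ] at hn
  rw [pow_succ]
  linarith

/-- An array of gadgets, each with one heavy output node, fills a uniform register. -/
theorem ImplS.symbols (J : Fam C) (hJ : ∀ c, Nonempty (J.T c))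
    (P : ∀ c, (I.T c → F → ℝ) → (J.T c → F) → Prop)
    {a0 : C → ℕ} (h : ∀ η : ℝ, 0 < η → ImplS F (fun z => a0 z.1) (fun z => l z.1)
      (I.comap (fun z : Σ c, J.T c => z.1) pt_sigma_fst)
      (Reg.unit (Σ c, J.T c)) fun z x y => ∀ v, P z.1 x v → 1 - η ≤ y () (v z.2))
    (hz : Sz a l fun c => Fintype.card (J.T c) * (a0 c + 1)) {η : ℝ} (hη : 0 < η) :
    ImplS F a l I (Reg.of J) fun c x y => ∀ v, P c x v → du y v ≤ η := by
  have b := ImplS.arr (I := I) J hJ (h (η / 2) (half_pos hη)) hz (fun _ i => i) D.sigma_snd 1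
    (fun c u => have := hJ c; expect_le univ_nonempty fun _ _ => cE_id I c u) (half_pos hη)
  refine (b.wire (I' := I) (O' := Reg.of J) (fun _ i => i) (fun _ j => ⟨j, ()⟩) D.sigma_snd
    (D.dsig_mk (X := fun z : Σ c, J.T c => J.T z.1) (W := fun _ _ => Unit) D.sigma_snd
      (D.const ())) 1 (cE_id I) fun c u =>
      cE_inj (fun _ _ e => congrArg Sigma.fst e) ((Reg.sigma J (Reg.unit _)).w0 c)
        (fun _ => (one_div _).ge) u).mono fun c x y _ hy ⟨y0, _, k, e⟩ v hv => ?_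
  have := hJ c
  refine (expect_le_fr (half_pos hη).le (fun j => sub_le_self _ (hy.nonneg j _))
    fun j hj => ?_).trans ((add_le_add k le_rfl).trans (add_halves η).le)
  have := not_not.1 hj v hv
  subst e
  linarith

theorem ImplS.wireIn {S : ∀ c, (I.T c → F → ℝ) → (O.T c → F → ℝ) → Prop} (h : ImplS F a l I O S)
    (f : ∀ c, I.T c → I'.T c) (df : D2 f) (hi : ∀ c, Function.Injective (f c))
    (hw : ∀ c i, I.w c i ≤ I'.w c (f c i)) :
    ImplS F a l I' O fun c x y => S c (fun i => x (f c i)) y := by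
  refine (h.wire (O' := O) f (fun _ o => o) df D.sigma_snd 1
    (fun c u => asm_dens (hi c) (I'.w0 c) (hw c) u)
    (fun c u => asm_dens Function.injective_id (O.w0 c) (fun _ => le_rfl) u)).mono ?_
  rintro c x y - - ⟨y0, -, h1, rfl⟩
  exact h1

theorem ImplS.wireOut {S : ∀ c, (I.T c → F → ℝ) → (O.T c → F → ℝ) → Prop} (h : ImplS F a l I O S)
    (g : ∀ c, O'.T c → O.T c) (dg : D2 g) (hi : ∀ c, Function.Injective (g c))
    (hw : ∀ c i, O'.w c i ≤ O.w c (g c i)) :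
    ImplS F a l I O' fun c x y => ∃ y0, IsDist y0 ∧ S c x y0 ∧ y = fun o => y0 (g c o) :=
  h.wire (I' := I) (fun _ o => o) g D.sigma_snd dg 1
    (fun c u => asm_dens Function.injective_id (I.w0 c) (fun _ => le_rfl) u)
    (fun c u => asm_dens (hi c) (O.w0 c) (hw c) u)

theorem ImplS.plug {U : Fam C} {S : ∀ c, ((I.sum (.of U)).T c → F → ℝ) → (O.T c → F → ℝ) → Prop}
    (h : ImplS F a l (I.sum (.of U)) O S) {w : ∀ c, U.T c → I'.T c} (hw : Emb U I' w) :
    ImplS F a l (I.sum I') O fun c x y => S c (fun i => x (Sum.map id (w c) i)) y := by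
  refine h.wireIn (I' := I.sum I') (fun c => Sum.map id (w c)) ?_
    (fun c => Sum.map_injective.2 ⟨Function.injective_id, (hw.2 c).1⟩) ?_
  · refine D.congr (D.sum_elim (f := fun z a => (Sum.inl a : I.T z.1 ⊕ I'.T z.1))
      (g := fun z a => Sum.inr (w z.1 a)) D.sigma_snd (D.inl D.sigma_snd)
      (D.inr (hw.1.app (pt_sigma_fst.comp pt_sigma_fst) D.sigma_snd))) ?_
    rintro ⟨c, a | a⟩ <;> rfl
  · rintro c (a | a)
    · exact le_rfl
    · exact (hw.2 c).2 a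

end Vale.Agent.P330Q
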