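import Vale.Agent.P330Q.BPD

/-! Closure properties of polynomial maps over the big field. -/

namespace Vale.Agent.P330Q

open Vale.Agent.Lib.PolyTime Vale.Agent.P330 Finset
open scoped Classical BigOperators

variable {C : Type} [Enc C] {l : ℕ} [Fact l.Prime] {d d' : ℕ}

section Pol
variable {V V' J : Fam C}

theorem pol_prod {n : ℕ} {f : Fin n → ∀ c, J.T c → (V.T c → ZMod l) → ZMod l}
    (h : ∀ i, Pol d V J (f i)) : Pol (n * d) V J fun c j w => ∏ i, f i c j w := by
  induction n with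
  | zero => exact Pol.one.congr fun _ _ _ => by simp
  | succ n ih =>
    rw [Nat.succ_mul]
    exact ((ih fun i => h i.castSucc).mul (h (Fin.last n))).congr fun _ _ _ =>
      Fin.prod_univ_castSucc _

theorem pol_ev {g : ∀ c, J.T c → V.T c → (V'.T c → ZMod l) → ZMod l}
    (hg : Pol d V' (J.prod V) fun c z => g c z.1 z.2) :
    Pol d V' (J.prod V.option) fun c z w => ev (fun v => g c z.1 v w) z.2 := by
  have h1 : Pol d V' ((J.prod V.option).prod V) fun c z w =>
      if z.1.2 = some z.2 then g c z.1.1 z.2 w else 0 :=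
    Pol.ite (J := (J.prod V.option).prod V)
      (p := fun c (z : (J.T c × Option (V.T c)) × V.T c) => z.1.2 = some z.2)
      (D.eq D.s1.snd D.s2.some)
      (hg.comp (K := (J.prod V.option).prod V) (x := fun c (z : (J.T c × Option (V.T c)) × V.T c) => (z.1.1, z.2))
        (D.pair D.s1.fst D.s2)) Pol.zero
  refine (Pol.ite (J := J.prod V.option) (p := fun c (z : J.T c × Option (V.T c)) => z.2 = none)
    (D.eq D.s2 D.none) Pol.one
    (Pol.sum (K := V) (f := fun c (z : J.T c × Option (V.T c)) v w =>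
      if z.2 = some v then g c z.1 v w else 0) h1)).congr fun c z w => ?_
  rcases z with ⟨j, _ | v⟩ <;> simp [ev]

/-- Substitution of polynomials. -/
theorem pol_subst {f : ∀ c, J.T c → (V.T c → ZMod l) → ZMod l} (h : Pol d V J f)
    {g : ∀ c, J.T c → V.T c → (V'.T c → ZMod l) → ZMod l}
    (hg : Pol d' V' (J.prod V) fun c z => g c z.1 z.2) :
    Pol (d * d') V' J fun c j w => f c j fun v => g c j v w := by
  obtain ⟨φ, h1, h2⟩ := h
  let K : Fam C := V.option.fn (fun _ => d) (PT.const _) (PB.const _) (V.option.pf.pb_card.pow d)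
  refine (Pol.sum (K := K) (f := fun c j m w => φ c j m * ∏ i, ev (fun v => g c j v w) (m i))
    (Pol.cmul (J := J.prod K) (a := fun c (z : J.T c × K.T c) => φ c z.1 z.2) h1
      (pol_prod (J := J.prod K) (f := fun i c (z : J.T c × K.T c) w => ev (fun v => g c z.1 v w) (z.2 i))
        fun i => ?_))).congr fun c j w => ?_
  · exact (pol_ev hg).comp (K := J.prod K) (x := fun c (z : J.T c × K.T c) => (z.1, z.2 i))
      (D.pair D.s1 (D.fn_app (n := fun _ => d) D.s2 (D.const i)))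
  · rw [h2]

/-- Renaming of variables. -/
theorem pol_ren {f : ∀ c, J.T c → (V.T c → ZMod l) → ZMod l} (h : Pol d V J f)
    {ρ : ∀ c, J.T c → V.T c → V'.T c} (hρ : D3 ρ) :
    Pol d V' J fun c j w => f c j fun v => w (ρ c j v) := by
  have := pol_subst h (g := fun c j v w => w (ρ c j v))
    (Pol.var (J := J.prod V) (x := fun c z => ρ c z.1 z.2) hρ)
  rwa [mul_one] at this

end Pol

variable {Φ : FF C l}

theorem FF.ptCo {B : Type} [Enc B] {p : B → C} (hp : PT p) {f : ∀ b, Φ.F (p b)} (hf : D f)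
    {k : ∀ b, Fin (Φ.m (p b))} (hk : D k) : PT fun b => Φ.co (p b) (f b) (k b) :=
  (D.fn_app (n := fun b => Φ.m (p b)) (X := fun _ => ZMod l) (Φ.d_co.app hp hf) hk).pt

theorem FF.dBas {B : Type} [Enc B] {p : B → C} (hp : PT p) {k : ∀ b, Fin (Φ.m (p b))} (hk : D k) :
    D fun b => (Φ.co (p b)).symm (Pi.single (k b) 1) :=
  Φ.d_co'.app hp ((D.fn_mk (n := fun b => Φ.m (p b)) (X := fun _ => ZMod l)
    (f := fun b i => if i = k b then 1 else 0) (Φ.pt_m.comp hp) (Φ.pb_m.comp hp)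
    (D.of_pt (PT.ite (D.eq D.sigma_snd (hk.comp pt_sigma_fst)) (PT.const _) (PT.const _)))).congr
      fun _ => funext fun _ => Pi.single_apply _ _ _)

theorem FF.bas_sum (c : C) (x : Φ.F c) :
    x = ∑ i, Φ.co c x i • (Φ.co c).symm (Pi.single i 1) := by
  apply (Φ.co c).injective
  ext k
  simp [Pi.single_apply]

theorem FF.co_mul (c : C) (x y : Φ.F c) (k : Fin (Φ.m c)) : Φ.co c (x * y) k =
    ∑ z : Fin (Φ.m c) × Fin (Φ.m c),
      Φ.co c ((Φ.co c).symm (Pi.single z.1 1) * (Φ.co c).symm (Pi.single z.2 1)) k *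
        (Φ.co c x z.1 * Φ.co c y z.2) := by
  conv_lhs => rw [Φ.bas_sum c x, Φ.bas_sum c y, sum_mul_sum, ← Fintype.sum_prod_type']
  simp only [map_sum, smul_mul_smul_comm, map_smul, Finset.sum_apply, Pi.smul_apply, smul_eq_mul]
  exact sum_congr rfl fun _ _ => mul_comm _ _

@[simp] theorem FF.co_un (c : C) {V : Type} (w : V × Fin (Φ.m c) → ZMod l) (v : V)
    (k : Fin (Φ.m c)) : Φ.co c (Φ.un c w v) k = w (v, k) := by simp [FF.un]

theorem FF.un_co (c : C) {V : Type} (y : V → Φ.F c) :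
    Φ.un c (fun z => Φ.co c (y z.1) z.2) = y := funext fun v => by
  apply (Φ.co c).injective
  ext k
  simp

namespace FPol
variable {V V' : Fam C} {J K : C → Type} [∀ c, Enc (J c)] [∀ c, Enc (K c)]
  {f g : ∀ c, J c → (V.T c → Φ.F c) → Φ.F c}

theorem congr (h : FPol Φ d V f) (e : ∀ c j w, g c j w = f c j w) : FPol Φ d V g :=
  Pol.congr h fun _ _ _ => by rw [e]

theorem mono (h : FPol Φ d V f) (hd : d ≤ d') : FPol Φ d' V f := Pol.mono h hd

theorem add (h : FPol Φ d V f) (h' : FPol Φ d V g) :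
    FPol Φ d V fun c j w => f c j w + g c j w := (Pol.add h h').congr fun _ _ _ => by simp

theorem neg (h : FPol Φ d V f) : FPol Φ d V fun c j w => - f c j w :=
  (Pol.neg h).congr fun _ _ _ => by simp

theorem sub (h : FPol Φ d V f) (h' : FPol Φ d V g) :
    FPol Φ d V fun c j w => f c j w - g c j w := (Pol.sub h h').congr fun _ _ _ => by simp

theorem zero : FPol Φ d V fun c (_ : J c) _ => 0 := Pol.zero.congr fun _ _ _ => by simp

theorem const {a : ∀ c, J c → Φ.F c} (ha : D2 a) : FPol Φ d V fun c j _ => a c j :=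
  Pol.const (FF.ptCo (pt_sigma_fst.comp pt_sigma_fst) (ha.comp pt_sigma_fst) D.sigma_snd)

theorem var {x : ∀ c, J c → V.T c} (hx : D2 x) : FPol Φ 1 V fun c j w => w (x c j) :=
  (Pol.var (x := fun (z : Σ c, J c) (k : Fin (Φ.m z.1)) => (x z.1 z.2, k))
    (D.pair (hx.comp pt_sigma_fst) D.sigma_snd)).congr fun _ _ _ => FF.co_un _ _ _ _

theorem ite {p : ∀ c, J c → Prop} [∀ c j, Decidable (p c j)]
    (hp : PT fun z : Σ c, J c => p z.1 z.2) (h : FPol Φ d V f) (h' : FPol Φ d V g) :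
    FPol Φ d V fun c j w => if p c j then f c j w else g c j w :=
  (Pol.ite (p := fun (z : Σ c, J c) _ => p z.1 z.2) (hp.comp pt_sigma_fst) h h').congr
    fun _ _ _ => by beta_reduce; split_ifs <;> rfl

/-- Change of the index. -/
theorem comp (h : FPol Φ d V f) {x : ∀ c, K c → J c} (hx : D2 x) :
    FPol Φ d V fun c k w => f c (x c k) w :=
  Pol.comap h (fun z : Σ c, K c => ⟨z.1, x z.1 z.2⟩) (pt_sigma_mk pt_sigma_fst hx)

/-- Change of the base. -/
theorem comap {B : Type} [Enc B] (h : FPol Φ d V f) (p : B → C) (hp : PT p) :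
    FPol (Φ.comap p hp) d (V.comap p hp) (J := fun b => J (p b)) fun b => f (p b) :=
  Pol.comap h (fun z : Σ b, J (p b) => ⟨p z.1, z.2⟩)
    (pt_sigma_mk (hp.comp pt_sigma_fst) D.sigma_snd)

theorem mul (h : FPol Φ d V f) (h' : FPol Φ d' V g) :
    FPol Φ (d + d') V fun c j w => f c j w * g c j w := by
  let M := Φ.M.comap (fun z : Σ c, J c => z.1) pt_sigma_fst
  have q : PT fun z : Σ z : Σ c, J c, Fin (Φ.m z.1) × Fin (Φ.m z.1) × Fin (Φ.m z.1) => z.1.1 :=
    pt_sigma_fst.comp pt_sigma_fst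
  refine (Pol.comb (J := M) (K := M.prod M) (a := fun z k y =>
      Φ.co z.1 ((Φ.co z.1).symm (Pi.single y.1 1) * (Φ.co z.1).symm (Pi.single y.2 1)) k)
    (FF.ptCo q (Φ.d_mul.app q (FF.dBas q D.s2.fst) (FF.dBas q D.s2.snd)) D.s1)
    (Pol.mul (Pol.comp h (K := M.prod M) (x := fun _ y => y.1) D.s1)
      (Pol.comp h' (K := M.prod M) (x := fun _ y => y.2) D.s2))).congr fun z k w => ?_
  exact Φ.co_mul _ _ _ _

/-- Multiplication by a computable coefficient. -/
theorem cmul {a : ∀ c, J c → Φ.F c} (ha : D2 a) (h : FPol Φ d V f) :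
    FPol Φ d V fun c j w => a c j * f c j w :=
  (h.mul (d' := 0) (const ha)).congr fun _ _ _ => mul_comm _ _

/-- Sums over a family. -/
theorem sum {A : Fam C} {f : ∀ c, J c → A.T c → (V.T c → Φ.F c) → Φ.F c}
    (h : FPol Φ d V (J := fun c => J c × A.T c) fun c z => f c z.1 z.2) :
    FPol Φ d V fun c j w => ∑ a, f c j a w := by
  obtain ⟨φ, h1, h2⟩ := h
  refine (Pol.sum (K := A.comap (fun z : Σ c, J c => z.1) pt_sigma_fst)
    (f := fun z k a w => Φ.co z.1 (f z.1 z.2 a (Φ.un z.1 w)) k)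
    ⟨fun z y m => φ ⟨z.1, z.2, y.2⟩ y.1 m, ?_, fun z y w => h2 ⟨z.1, z.2, y.2⟩ y.1 w⟩).congr
    fun _ _ _ => by simp
  exact pt_app2 h1 (pt_sigma_mk (X := fun c => J c × A.T c) (pt_sigma_fst.comp pt_sigma_fst)
    (D.pair (D.sigma_snd.comp pt_sigma_fst) D.s1.snd)) D.s1.fst D.s2

/-- The coordinates are polynomials over the prime field. -/
theorem pol {A : Fam C} {f : ∀ c, A.T c → (V.T c → Φ.F c) → Φ.F c} (h : FPol Φ d V f) :
    Pol d (V.prod Φ.M) (A.prod Φ.M) fun c z w => Φ.co c (f c z.1 (Φ.un c w)) z.2 := by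
  obtain ⟨φ, h1, h2⟩ := h
  exact ⟨fun c z m => φ ⟨c, z.1⟩ z.2 m,
    pt_app2 h1 (pt_sigma_mk pt_sigma_fst D.s1.fst) D.s1.snd D.s2, fun c z w => h2 ⟨c, z.1⟩ z.2 w⟩

/-- Substitution. -/
theorem subst (h : FPol Φ d V f) {g : ∀ c, J c → V.T c → (V'.T c → Φ.F c) → Φ.F c}
    (hg : FPol Φ d' V' (J := fun c => J c × V.T c) fun c z => g c z.1 z.2) :
    FPol Φ (d * d') V' fun c j w => f c j fun v => g c j v w := by
  obtain ⟨φ, h1, h2⟩ := hg
  refine (pol_subst h (g := fun z _ y w => Φ.co z.1 (g z.1 z.2 y.1 (Φ.un z.1 w)) y.2)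
    ⟨fun z y m => φ ⟨z.1, z.2, y.2.1⟩ y.2.2 m, ?_,
      fun z y w => h2 ⟨z.1, z.2, y.2.1⟩ y.2.2 w⟩).congr fun z k w => ?_
  · exact pt_app2 h1 (pt_sigma_mk (X := fun c => J c × V.T c) (pt_sigma_fst.comp pt_sigma_fst)
      (D.pair (D.sigma_snd.comp pt_sigma_fst) D.s1.snd.fst)) D.s1.snd.snd D.s2
  · beta_reduce
    rw [Φ.un_co z.1 fun v => g z.1 z.2 v (Φ.un z.1 w)]

/-- Renaming of variables. -/
theorem ren (h : FPol Φ d V f) {ρ : ∀ c, J c → V.T c → V'.T c} (hρ : D3 ρ) :
    FPol Φ d V' fun c j w => f c j fun v => w (ρ c j v) := by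
  have := h.subst (g := fun c j v w => w (ρ c j v))
    (var (J := fun c => J c × V.T c) (x := fun c z => ρ c z.1 z.2) hρ)
  rwa [mul_one] at this

/-- A variable or a given polynomial. -/
theorem elim {A : Fam C} {x : ∀ c, J c → Option (A.T c)} (hx : D2 x) (h : FPol Φ d V f)
    {g : ∀ c, J c → A.T c → (V.T c → Φ.F c) → Φ.F c}
    (hg : FPol Φ d V (J := fun c => J c × A.T c) fun c z => g c z.1 z.2) :
    FPol Φ d V fun c j w => (x c j).elim (f c j w) fun a => g c j a w := by
  refine (ite (p := fun c j => x c j = none) (D.eq hx D.none) h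
    (sum (f := fun c j a w => if x c j = some a then g c j a w else 0)
      (ite (p := fun c (z : J c × A.T c) => x c z.1 = some z.2)
        (D.eq (hx.app pt_sigma_fst D.s1) D.s2.some) hg zero))).congr fun c j w => ?_
  cases x c j <;> simp

/-- Case distinction on a sum of families. -/
theorem sum_elim {A A' : Fam C} {x : ∀ c, J c → A.T c ⊕ A'.T c} (hx : D2 x)
    {g : ∀ c, J c → A.T c → (V.T c → Φ.F c) → Φ.F c}
    {g' : ∀ c, J c → A'.T c → (V.T c → Φ.F c) → Φ.F c}
    (hg : FPol Φ d V (J := fun c => J c × A.T c) fun c z => g c z.1 z.2)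
    (hg' : FPol Φ d V (J := fun c => J c × A'.T c) fun c z => g' c z.1 z.2) :
    FPol Φ d V fun c j w => (x c j).elim (fun a => g c j a w) fun a => g' c j a w := by
  refine (add (sum (f := fun c j a w => if x c j = .inl a then g c j a w else 0)
      (ite (p := fun c (z : J c × A.T c) => x c z.1 = .inl z.2)
        (D.eq (hx.app pt_sigma_fst D.s1) D.s2.inl) hg zero))
    (sum (f := fun c j a w => if x c j = .inr a then g' c j a w else 0)
      (ite (p := fun c (z : J c × A'.T c) => x c z.1 = .inr z.2)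
        (D.eq (hx.app pt_sigma_fst D.s1) D.s2.inr) hg' zero))).congr fun c j w => ?_
  cases x c j <;> simp

/-- Linear forms with computable coefficients. -/
theorem lin {A : Fam C} {a : ∀ c, J c → A.T c → Φ.F c} (ha : D3 a)
    {x : ∀ c, J c → A.T c → V.T c} (hx : D3 x) :
    FPol Φ 1 V fun c j w => ∑ i, a c j i * w (x c j i) :=
  sum (f := fun c j i w => a c j i * w (x c j i))
    (cmul (a := fun c (z : J c × A.T c) => a c z.1 z.2) ha
      (var (x := fun c (z : J c × A.T c) => x c z.1 z.2) hx))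

theorem one : FPol Φ d V fun c (_ : J c) _ => 1 := by
  have h0 : ∀ c, 0 < Φ.m c := fun c => Nat.pos_of_ne_zero fun h => by
    have : IsEmpty (Fin (Φ.m c)) := by rw [h]; infer_instance
    exact zero_ne_one ((Φ.co c).injective (Subsingleton.elim (Φ.co c 0) (Φ.co c 1)))
  refine const ((FF.dBas (k := fun z : Σ c, J c => ⟨0, h0 z.1⟩) pt_sigma_fst
    (D.fin_iff.2 (PT.const 0))).congr fun z => ?_)
  rw [← Φ.co_θ]
  simp

/-- Quadratic forms with computable coefficients. -/
theorem qf {φ : ∀ c, J c → Option (V.T c) → Option (V.T c) → Φ.F c}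
    (hφ : D3 fun c j (u : Option (V.T c) × Option (V.T c)) => φ c j u.1 u.2) :
    FPol Φ 2 V fun c j w => qf (φ c j) w := by
  have e : ∀ {x : ∀ c, J c × Option (V.T c) × Option (V.T c) → Option (V.T c)}, D2 x →
      FPol Φ 1 V fun c j w => ev w (x c j) := fun hx =>
    elim (A := V) hx one (g := fun _ _ a w => w a)
      (var (J := fun c => (J c × Option (V.T c) × Option (V.T c)) × V.T c) (x := fun _ z => z.2) D.s2)
  refine (sum (A := V.option.prod V.option)
    (f := fun c j u w => φ c j u.1 u.2 * (ev w u.1 * ev w u.2))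
    (cmul (a := fun c (z : J c × Option (V.T c) × Option (V.T c)) => φ c z.1 z.2.1 z.2.2) hφ
      ((e D.s2.fst).mul (e D.s2.snd)))).congr fun c j w => ?_
  simp only [P330Q.qf, mul_assoc]
  exact (Fintype.sum_prod_type' _).symm

end FPol

end Vale.Agent.P330Q
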