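import Vale.Agent.P330.Real
import Vale.Agent.P330Q.Sz

/-! Realisation of closed gadgets by generalized circuits, with a bound on the length. -/

namespace Vale.Agent.P330Q

open Vale.Agent.Lib.PolyTime Vale.Agent.P330 Finset
open scoped Classical BigOperators

theorem len_natsG_eq (G : GCirc) : (natsG G).length = 6 * G.2.length + 1 := by
  obtain ⟨n, l⟩ := G
  simp only [natsG, List.length_cons]
  induction l with
  | nil => simp
  | cons a l ih => rw [List.flatMap_cons, List.length_append, List.length_cons]; simp at ih ⊢; omega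

theorem size_mul_le (a b : ℕ) : (a * b).size ≤ a.size + b.size :=
  Nat.size_le.2 (by
    rw [pow_add]
    exact Nat.mul_lt_mul'' (Nat.lt_size_self a) (Nat.lt_size_self b))

theorem len_bound {t : ℕ} (ht : 0 < t) (L s : ℕ) :
    (2 * ((t * L).size + s + 4) + 1) * (6 * (t * L) + 1) ≤
      (2 * (L.size + s + 4) + 3) * (6 * L + 1) * t * (t.size + 1) := by
  have h1 : 2 * ((t * L).size + s + 4) + 1 ≤ (2 * (L.size + s + 4) + 3) * (t.size + 1) := by
    have := size_mul_le t L
    nlinarith [Nat.zero_le (t.size * (L.size + s))]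
  have h2 : 6 * (t * L) + 1 ≤ (6 * L + 1) * t := by nlinarith
  exact (Nat.mul_le_mul h1 h2).trans (le_of_eq (by ring))

open RCompx in
theorem rCompS (C : Type) [Enc C] (N : Fam C) (k : ∀ c, N.T c → ℕ) (q : ∀ c, N.T c → ℚ)
    (a b : ∀ c, N.T c → N.T c) (hne : ∀ c, Nonempty (N.T c))
    (hk : PT fun z : Σ c, N.T c => k z.1 z.2) (hq : PT fun z : Σ c, N.T c => q z.1 z.2) (ha : D2 a)
    (hb : D2 b) (hw : ∀ c n, k c n ≤ 8 ∧ 0 ≤ q c n ∧ q c n ≤ 1) (s : ℕ)
    (hs : ∀ c n, (q c n).num.toNat.size ≤ s ∧ (q c n).den.size ≤ s) (ε δ : ℝ) (hε : 0 < ε)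
    (hε' : ε ≤ 1 / 4) (hδ : 0 ≤ δ) :
    ∃ (p : Polynomial ℕ) (R : C → GCirc) (ix : ∀ c, N.T c → ℕ), PT R ∧
      PT (fun z : Σ c, N.T c => ix z.1 z.2) ∧
      (∀ c, (bitsOf (natsG (R c))).length ≤
        (2 * ((Fintype.card (N.T c)).size + s + 4) + 1) * (6 * Fintype.card (N.T c) + 1)) ∧
      ∀ c, GCircOK (R c) ∧ (∃ x, Acceptable ε δ p (R c) x) ∧
        ∀ x, Acceptable ε δ p (R c) x → (∀ i, 0 ≤ x.getD i 0 ∧ x.getD i 0 ≤ 1) ∧
          fr (N.T c) (fun n => ¬ GateSat ε (k c n) (q c n) (x.getD (ix c n) 0 : ℚ)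
            (x.getD (ix c (a c n)) 0 : ℚ) (x.getD (ix c (b c n)) 0 : ℚ)) ≤ δ := by
  obtain ⟨M, hM, hex⟩ := rExist ε hε hε'
  obtain ⟨l, hl, hl'⟩ := N.pf
  have hix : PT fun z : Σ c, N.T c => (l z.1).idxOf z.2 :=
    D.idxOf (hl.comp pt_sigma_fst) D.sigma_snd
  refine ⟨Polynomial.C (4 * M.size + 2) * Polynomial.X,
    fun c => ((l c).length, (l c).map fun n =>
      (k c n, (l c).idxOf n, (l c).idxOf (a c n), (l c).idxOf (b c n), q c n)),
    fun c n => (l c).idxOf n, ?_, hix, fun c => ?_, fun c => ⟨⟨?_, ?_, ?_⟩, ?_, ?_⟩⟩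
  · refine hl.length.mk (D.pt (D.map (Y := fun _ => GGate) hl (D.of_pt ?_)))
    exact hk.mk (hix.mk ((hix.comp (pt_sigma_mk pt_sigma_fst ha)).mk
      ((hix.comp (pt_sigma_mk pt_sigma_fst hb)).mk hq)))
  · have e := length_eq (hl' c).1 (hl' c).2
    refine (len_le _ ((Fintype.card (N.T c)).size + s + 4) fun t ht => ?_).trans (le_of_eq ?_)
    · have h1 : ∀ m, ((l c).idxOf m).size ≤ (Fintype.card (N.T c)).size := fun m =>
        Nat.size_le_size (e ▸ List.idxOf_le_length)
      rcases List.mem_cons.1 ht with rfl | ht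
      · dsimp only
        rw [e]
        omega
      obtain ⟨g, hg, ht⟩ := List.mem_flatMap.1 ht
      obtain ⟨n, -, rfl⟩ := List.mem_map.1 hg
      have h2 : (k c n).size ≤ 4 := Nat.size_le.2 ((hw c n).1.trans_lt (by norm_num))
      have h3 := hs c n
      have h4 := h1 n
      have h5 := h1 (a c n)
      have h6 := h1 (b c n)
      simp only [List.mem_cons, List.not_mem_nil, or_false] at ht
      rcases ht with rfl | rfl | rfl | rfl | rfl | rfl <;> omega
    · rw [len_natsG_eq, List.length_map, e]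
  · obtain ⟨n⟩ := hne c
    simpa using List.ne_nil_of_mem ((hl' c).2 n)
  · rw [List.map_map]
    exact (hl' c).1.map_on fun x hx y _ e => (List.idxOf_inj hx).1 e
  · intro g hg
    obtain ⟨n, -, rfl⟩ := List.mem_map.1 hg
    have h1 := fun m => List.idxOf_lt_length_iff.2 ((hl' c).2 m)
    exact ⟨(hw c n).1, h1 _, h1 _, h1 _, (hw c n).2⟩
  · obtain ⟨v, hv, hs'⟩ := hex (N.T c) (k c) (q c) (a c) (b c) fun n => (hw c n).2
    refine ⟨(l c).map fun n => (v n : ℚ) / M, by simp, ?_, ?_, ?_⟩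
    · intro r hr
      obtain ⟨n, -, rfl⟩ := List.mem_map.1 hr
      exact ⟨by positivity, div_le_one_of_le₀ (by exact_mod_cast hv n) (Nat.cast_nonneg _)⟩
    · refine (len_le _ M.size fun t ht => ?_).trans ?_
      · obtain ⟨r, hr, ht⟩ := List.mem_flatMap.1 ht
        obtain ⟨n, -, rfl⟩ := List.mem_map.1 hr
        have h1 := rat_le hM (hv n)
        rw [List.mem_cons, List.mem_singleton] at ht
        rcases ht with rfl | rfl
        · exact Nat.size_le_size h1.1
        · exact Nat.size_le_size h1.2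
      · rw [len_natsX, Polynomial.eval_mul, Polynomial.eval_C, Polynomial.eval_X, ← mul_assoc,
          show (2 * M.size + 1) * 2 = 4 * M.size + 2 by ring]
        refine Nat.mul_le_mul_left _ (le_trans ?_ ((len_natsG _).trans (le_len _)))
        simp
    · rw [List.countP_eq_length.2]
      · exact mul_le_of_le_one_left (Nat.cast_nonneg _) (by linarith)
      · intro g hg
        obtain ⟨n, -, rfl⟩ := List.mem_map.1 hg
        have h1 := fun m => getD_idx (fun n => (v n : ℚ) / M) ((hl' c).2 m)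
        simp only [Sat, h1, decide_eq_true_eq]
        push_cast
        exact hs' n
  · rintro x ⟨-, h1, -, h2⟩
    refine ⟨fun i => ?_, ?_⟩
    · by_cases hi : i < x.length
      · rw [List.getD_eq_getElem _ _ hi]
        exact h1 _ (List.getElem_mem hi)
      · rw [List.getD_eq_default _ _ (not_lt.1 hi)]
        exact ⟨le_rfl, zero_le_one⟩
    · have := hne c
      rw [List.countP_map, List.length_map] at h2
      exact fr_le (hl' c).1 (hl' c).2 _ h2

open RAsmx RErrx in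
/-- Realisation of an explicit closed gadget, with a bound on the length of the circuit. -/
theorem real_gad {C F A : Type} [Enc C] [Enc F] [Fintype F] [Nonempty F] [Fintype A] {O : Reg C}
    {S : ∀ c, (O.T c → F → ℝ) → Prop} (G : Gad F A (Reg.empty C) O) {κ γ : ℝ} (hγ : 0 < γ)
    (hD : G.Dens κ)
    (hS : ∀ c x p, IsDist x → IsDist p → G.err c x p ≤ γ → S c fun o => p (G.res c o)) :
    ∃ (ε δ : ℝ) (p : Polynomial ℕ) (R : C → GCirc) (rd : ∀ z : C × List ℚ, O.T z.1 → F) (K : ℕ),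
      0 < ε ∧ ε < 1 ∧ 0 < δ ∧ δ < 1 ∧ PT R ∧
      PT (fun z : Σ z : C × List ℚ, O.T z.1 => rd z.1 z.2) ∧
      (∀ c, (bitsOf (natsG (R c))).length ≤
        K * Fintype.card (G.T.T c) * ((Fintype.card (G.T.T c)).size + 1)) ∧
      ∀ c, GCircOK (R c) ∧ (∃ x, Acceptable ε δ p (R c) x) ∧
        ∀ x, Acceptable ε δ p (R c) x → ∃ y, IsDist y ∧ S c y ∧ Plur y (rd (c, x)) := by
  have hn := rNb rSamp
  have hN := rNode rSym rExp rTpl
  let sl : ∀ c, G.T.T c → A → G.V.T c := fun c t i =>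
    Sum.elim (fun _ => G.out c t) id (G.slot c t i)
  have hsl : ∀ c t i, G.slot c t i = .inr (sl c t i) := fun c t i => by
    rcases h : G.slot c t i with e | e
    · exact e.elim
    · simp only [sl, h, Sum.elim_inr, id]
  have dsl : ∀ i, D2 fun c t => sl c t i := fun i =>
    D.sum_elim (G.d_slot i) (G.d_out.comp pt_sigma_fst) D.sigma_snd
  have dens : ∀ i c u, fr (G.T.T c) (fun t => sl c t i = u) ≤
      κ * fr (G.T.T c) fun t => G.out c t = u := fun i c u => by
    have := (hD c).1 i (.inr u)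
    simp only [hsl, Sum.inr.injEq] at this
    exact this
  obtain ⟨Wk, _, _, h1⟩ := hn κ (γ / (4 * (Fintype.card A * Fintype.card F + 1))) (by positivity)
  choose nb dnb hnb using fun i => h1 C G.T G.V G.out (fun c t => sl c t i) G.d_out (dsl i) (dens i)
  obtain ⟨B, J, L, _, _, _, _, _, dec, θ, τ, ε, hε, hε4, hτ⟩ := hN F A Wk (γ / 4) (by positivity)
  let : Enc L := Enc.fin L
  have : Nonempty L := ⟨τ.o (Classical.arbitrary B)⟩
  set δ := min (1 / 2) (γ / (4 * (Fintype.card L + 1))) with hδ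
  have δ0 : 0 < δ := lt_min (by norm_num) (by positivity)
  obtain ⟨s, hs⟩ : ∃ s, ∀ z : ((A → F) → F) × L,
      (τ.q z.1 z.2).num.toNat.size + (τ.q z.1 z.2).den.size ≤ s :=
    (Set.finite_range _).bddAbove.imp fun _ h z => h ⟨z, rfl⟩
  obtain ⟨p, R, ix, hR, hix, hlen, h2⟩ := rCompS C (G.T.prod (Fam.const C L))
    (fun c n => τ.k (G.fn c n.1) n.2) (fun c n => τ.q (G.fn c n.1) n.2)
    (fun c n => rdn (fun i => nb i c) τ.o n.1 (τ.a (G.fn c n.1) n.2))
    (fun c n => rdn (fun i => nb i c) τ.o n.1 (τ.b (G.fn c n.1) n.2))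
    (fun c => ⟨((G.ne c).some, Classical.arbitrary L)⟩) (pt_tpl G.d_fn τ.k) (pt_tpl G.d_fn τ.q)
    (d_tpl G.d_fn dnb τ.o τ.a) (d_tpl G.d_fn dnb τ.o τ.b) (fun c n => τ.wf _ _) s
    (fun c n => by have := hs (G.fn c n.1, n.2); dsimp only at this; omega) ε δ hε hε4 δ0.le
  let E : ∀ z : C × List ℚ, G.T.T z.1 → J → F → Prop := fun z t j s =>
    dec (fun b => decide ((θ j : ℝ) < (z.2.getD (ix z.1 (t, τ.o b)) 0 : ℚ))) = s
  let cnt : (Σ z : C × List ℚ, O.T z.1) → F → ℕ := fun z s =>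
    ∑ j, (univ.filter fun t => G.out z.1.1 t = G.res z.1.1 z.2 ∧ E z.1 t j s).card
  have p1 : PT fun z : Σ z : C × List ℚ, O.T z.1 => z.1.1 := PT.fst pt_sigma_fst
  have pcnt : ∀ s, PT fun z => cnt z s := fun s => P325.pt_finsum _ _ fun j _ =>
    pt_cnt p1 (PT.snd pt_sigma_fst) (G.d_res.app p1 D.sigma_snd) G.d_out hix τ.o dec (θ j) s
  obtain ⟨rd, hrd, hmax⟩ := pt_max pcnt
  refine ⟨ε, δ, p, R, fun z o => rd ⟨z, o⟩,
    (2 * ((Fintype.card L).size + s + 4) + 3) * (6 * Fintype.card L + 1), hε, by linarith, δ0,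
    (min_le_left _ _).trans_lt (by norm_num), hR, hrd, fun c => (hlen c).trans ?_,
    fun c => ⟨(h2 c).1, (h2 c).2.1, ?_⟩⟩
  · have := G.ne c
    rw [show Fintype.card ((G.T.prod (Fam.const C L)).T c) =
      Fintype.card (G.T.T c) * Fintype.card L from Fintype.card_prod _ _]
    exact len_bound Fintype.card_pos _ _
  intro x hx
  obtain ⟨h01, hbad⟩ := (h2 c).2.2 x hx
  have := G.ne c
  let val : G.T.T c × L → ℝ := fun n => (x.getD (ix c n) 0 : ℚ)
  let P : G.T.T c → F → ℝ := fun t => pd dec θ fun b => val (t, τ.o b)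
  have hP : IsDist P := pd_dist dec θ _
  have hpb := pbar_dist (G.out c) hP
  refine ⟨fun o => pbar (G.out c) P (G.res c o), hpb.comp _,
    hS c (fun e => e.elim) _ (fun e => e.elim) hpb ?_, fun o s => ?_⟩
  · let bad : G.T.T c × L → Prop := fun n => ¬ GateSat ε (τ.k (G.fn c n.1) n.2)
      (τ.q (G.fn c n.1) n.2) (val n) (val (rdn (fun i => nb i c) τ.o n.1 (τ.a (G.fn c n.1) n.2)))
      (val (rdn (fun i => nb i c) τ.o n.1 (τ.b (G.fn c n.1) n.2)))
    have hb : fr (G.T.T c × L) bad ≤ δ := hbad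
    have key := err_le (G.out c) (sl c) (G.fn c) hP (fun i => nb i c) (fun t => ∃ l, bad (t, l))
      (η1 := γ / 4) (by positivity) (fun t i => ?_) (fun t ht => ?_)
      (fun i s => hnb i c (fun t => P t s) fun t => ⟨hP.nonneg t s, hP.le_one t s⟩)
      ((fr_bad bad).trans (mul_le_mul_of_nonneg_left hb (Nat.cast_nonneg _)))
    · unfold Gad.err
      simp only [hsl, Sum.elim_inr]
      refine key.trans ?_
      have a1 : (Fintype.card L : ℝ) * δ ≤ γ / 4 := by
        refine (mul_le_mul_of_nonneg_left (min_le_right _ _) (Nat.cast_nonneg _)).trans ?_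
        rw [mul_div_assoc', div_le_div_iff₀ (by positivity) (by positivity)]
        nlinarith
      have a2 : (Fintype.card A : ℝ) * Fintype.card F *
          (γ / (4 * (Fintype.card A * Fintype.card F + 1))) ≤ γ / 4 := by
        rw [mul_div_assoc', div_le_div_iff₀ (by positivity) (by positivity)]
        nlinarith
      linarith
    · by_contra hne
      have h0 : fr (G.T.T c) (fun t' => G.out c t' = sl c t i) = 0 :=
        (fr_congr fun t' => ⟨fun h => hne ⟨t', h⟩, False.elim⟩).trans fr_false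
      exact fr_eq_zero ((dens i c (sl c t i)).trans_eq (by rw [h0, mul_zero])) t rfl
    · refine hτ (G.fn c t) (fun e => val (nb e.1 c e.2.1 t, τ.o e.2.2)) (fun l => val (t, l))
        (fun l => ⟨Rat.cast_nonneg.2 (h01 _).1, (Rat.cast_le.2 (h01 _).2).trans_eq Rat.cast_one⟩)
        fun l => ?_
      rw [elim_rdn (fun i => nb i c), elim_rdn (fun i => nb i c)]
      exact not_not.1 fun h => ht ⟨l, h⟩
  · exact pbar_le (G.out c) (E (c, x)) (G.res c o) (hmax ⟨(c, x), o⟩ s)

/-- The binary length of a quasi-linear quantity is polylogarithmic. -/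
theorem Sz.size {C : Type} {a l n : C → ℕ} (h : Sz a l n) (ha : Pl l fun c => (a c).size) :
    Pl l fun c => (n c).size := by
  obtain ⟨K, k, h⟩ := h
  have h1 : ∀ (m j : ℕ), ((m + 1) ^ j).size ≤ j * m + 1 := fun m j => by
    rw [Nat.size_le, pow_succ, mul_comm j, pow_mul]
    have : (m + 1) ^ j ≤ (2 ^ m) ^ j := Nat.pow_le_pow_left (Nat.lt_two_pow_self (n := m)) j
    have h0 : 0 < (2 ^ m) ^ j := by positivity
    omega
  refine (((Sz.const K.size).add ha.succ).add (Sz.log.cmul k).succ).of_le fun c => ?_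
  have h2 : (a c + 1).size ≤ (a c).size + 1 := Nat.size_le.2 (by
    have := Nat.lt_size_self (a c)
    rw [pow_succ]
    omega)
  have h3 := size_mul_le (K * (a c + 1)) ((l c + 1) ^ k)
  have h4 := size_mul_le K (a c + 1)
  have h5 := h1 (l c) k
  have h6 := Nat.size_le_size (h c)
  omega

/-- Closed gadgets with `a · poly l` terms are realised by generalized circuits of length
`a · poly l`. -/
def RealThmS : Prop :=
  ∀ (C F : Type) [Enc C] [Enc F] [Fintype F] [Nonempty F] (a l : C → ℕ) (O : Reg C)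
    (S : ∀ c, (O.T c → F → ℝ) → Prop), (Pl l fun c => (a c).size) →
    ImplS F a l (Reg.empty C) O (fun c _ y => S c y) →
    ∃ (ε δ : ℝ) (p : Polynomial ℕ) (R : C → GCirc) (rd : ∀ z : C × List ℚ, O.T z.1 → F),
      0 < ε ∧ ε < 1 ∧ 0 < δ ∧ δ < 1 ∧ PT R ∧
      PT (fun z : Σ z : C × List ℚ, O.T z.1 => rd z.1 z.2) ∧
      (Sz a l fun c => (bitsOf (natsG (R c))).length) ∧
      ∀ c, GCircOK (R c) ∧ (∃ x, Acceptable ε δ p (R c) x) ∧
        ∀ x, Acceptable ε δ p (R c) x → ∃ y, IsDist y ∧ S c y ∧ Plur y (rd (c, x))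

theorem realThmS : RealThmS := by
  intro C F _ _ _ _ a l O S ha ⟨A, _, G, κ, γ, hγ, hD, hz, hS⟩
  obtain ⟨ε, δ, p, R, rd, K, h1, h2, h3, h4, h5, h6, h7, h8⟩ := real_gad G hγ hD hS
  exact ⟨ε, δ, p, R, rd, h1, h2, h3, h4, h5, h6, ((hz.cmul K).mul (hz.size ha).succ).of_le h7, h8⟩

end Vale.Agent.P330Q
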