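import Vale.Agent.P330.Fin
import Vale.Agent.P330Q.RealS

/-! The quasi-linear statement: from coded types to Turing machines. -/

namespace Vale.Agent.P330Q

open Vale.Agent.Lib.PolyTime Vale.Agent.Lib.PolyTime.Q Vale.Agent.P330
open scoped Classical BigOperators

/-- The length of an instance. -/
def NI (c : VI) : ℕ := (bitsOf (natsI c.1)).length

/-- The logarithm of the length of an instance. -/
def LI (c : VI) : ℕ := (NI c).size

/-- The side condition of `RealThmS`. -/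
theorem pl_size_NI : Pl LI fun c => (NI c).size := Sz.log

theorem two_le_NI (c : VI) : 2 ≤ NI c :=
  le_trans (by simp [natsI, natsC]) (RCompx.le_len (natsI c.1))

/-- The theorem on valid instances, at the level of coded types. -/
def CoreThmS : Prop :=
  ∃ (ε δ : ℝ) (p : Polynomial ℕ) (R : VI → GCirc) (Dc : VI × List ℚ → List Bool),
    0 < ε ∧ ε < 1 ∧ 0 < δ ∧ δ < 1 ∧ PT R ∧ PT Dc ∧
    (Sz NI LI fun c => (bitsOf (natsG (R c))).length) ∧
    ∀ c, GCircOK (R c) ∧ (∃ x, Acceptable ε δ p (R c) x) ∧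
      ∀ x, Acceptable ε δ p (R c) x → EoLSol c.1 (Dc (c, x))

/-- The final statement. -/
def GoalS : Prop :=
  ∃ ε δ : ℝ, 0 < ε ∧ ε < 1 ∧ 0 < δ ∧ δ < 1 ∧
    ∃ (p : Polynomial ℕ) (R : EoL → GCirc) (Dc : EoL × List ℚ → List Bool) (K k : ℕ),
      (∃ M : Turing.TM2ComputableInPolyTime (fun I => bitsOf (natsI I))
        (fun G => bitsOf (natsG G)) R, ∀ k, Finite (M.tm.Γ k)) ∧
      (∃ M : Turing.TM2ComputableInPolyTime (fun z : EoL × List ℚ => bitsOf (natsI z.1 ++ natsX z.2))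
        (fun v : List Bool => bitsOf (v.map Bool.toNat)) Dc, ∀ k, Finite (M.tm.Γ k)) ∧
      ∀ I, EoLOK I → GCircOK (R I) ∧
        (bitsOf (natsG (R I))).length ≤
          K * (bitsOf (natsI I)).length * Nat.log 2 (bitsOf (natsI I)).length ^ k ∧
        (∃ x, Acceptable ε δ p (R I) x) ∧
        ∀ x, Acceptable ε δ p (R I) x → EoLSol I (Dc (I, x))

theorem fin_bound {N : ℕ} (h : 2 ≤ N) (K k : ℕ) :
    K * (N + 1) * (N.size + 1) ^ k ≤ K * 2 * 3 ^ k * N * Nat.log 2 N ^ k := by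
  have h1 : 1 ≤ Nat.log 2 N := Nat.log_pos (by norm_num) h
  have h2 : N.size ≤ Nat.log 2 N + 1 := Nat.size_le.2 (Nat.lt_pow_succ_log_self (by norm_num) N)
  calc _ ≤ K * (2 * N) * (3 * Nat.log 2 N) ^ k := by gcongr <;> omega
    _ = _ := by rw [mul_pow]; ring

open _root_.Vale.Agent.P330.Fn in
theorem goal_of_coreS (h : CoreThmS) : GoalS := by
  obtain ⟨ε, δ, p, R, Dc, e0, e1, e2, e3, dR, dD, ⟨K, k, hK⟩, h⟩ := h
  let R' : EoL → GCirc := fun I => if h : EoLOK I then R ⟨I, h⟩ else (0, [])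
  let D' : EoL × List ℚ → List Bool := fun z => if h : EoLOK z.1 then Dc (⟨z.1, h⟩, z.2) else []
  have a1 : PT R' := (D.dite (X := fun _ => GCirc) (f := fun I h => R ⟨I, h⟩)
    (g := fun _ _ => (0, [])) pt_ok (D.of_pt dR) (D.const _)).pt
  have a2 : PT D' := by
    have b1 : PT fun z : {z : EoL × List ℚ // EoLOK z.1} => z.1 := pt_val
    have b2 : PT fun z : {z : EoL × List ℚ // EoLOK z.1} => (⟨z.1.1, z.2⟩ : VI) :=
      (D.sub_mk (X := fun _ => EoL) (p := fun _ => EoLOK) (D.of_pt b1.fst) fun z => z.2).pt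
    exact (D.dite (X := fun _ => List Bool) (p := fun z : EoL × List ℚ => EoLOK z.1)
      (f := fun z h => Dc (⟨z.1, h⟩, z.2)) (g := fun _ _ => []) (pt_ok.comp (PT.fst PT.id))
      (D.of_pt (dD.comp (b2.mk b1.snd))) (D.const _)).pt
  have a3 : PT fun l : List ℕ => natsG (R' (rdI l).1) := pt_natsG.comp (a1.comp pt_rdI.fst)
  have a4 : PT fun l : List ℕ => D' ((rdI l).1, rdX (rdI l).2) :=
    a2.comp (pt_rdI.fst.mk (pt_rdX.comp pt_rdI.snd))
  have a5 : PT fun l : List ℕ => (D' ((rdI l).1, rdX (rdI l).2)).map Bool.toNat :=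
    PT.map (f := fun _ => Bool.toNat) (P325.pt_toNat (PT.snd PT.id)) a4
  refine ⟨ε, δ, e0, e1, e2, e3, p, R', fun z => D' (z.1, rdX (natsX z.2)), K * 2 * 3 ^ k, k,
    a3.machine natsI natsG R' fun I => ?_,
    a5.machine (fun z : EoL × List ℚ => natsI z.1 ++ natsX z.2) (fun v : List Bool => v.map Bool.toNat)
      (fun z => D' (z.1, rdX (natsX z.2)))
      fun z => by rw [rdI_nats], fun I hI => ?_⟩
  · have := rdI_nats I []
    rw [List.append_nil] at this
    rw [this]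
  · simp only [R', D', dif_pos hI]
    refine ⟨(h ⟨I, hI⟩).1, (hK ⟨I, hI⟩).trans (fin_bound (two_le_NI ⟨I, hI⟩) K k),
      (h ⟨I, hI⟩).2.1, fun x hx => ?_⟩
    rw [rdX_nats x fun q hq => (hx.2.1 q hq).1]
    exact (h ⟨I, hI⟩).2.2 x hx

end Vale.Agent.P330Q
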