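import Vale.Agent.P330.PolT

/-! Routing of packets by fixing digits: statement. -/

namespace Vale.Agent.P330Q

open Vale.Agent.Lib.PolyTime Vale.Agent.P330 Finset
open scoped Classical BigOperators

/-- The digits from `k` on vanish. -/
def InH {l n : ℕ} (k : ℕ) (h : Fin n → ZMod l) : Prop := ∀ i : Fin n, k ≤ i → h i = 0

/-- Paths and colours for an injective family of packets: the packet with target `g` starts at
`src g`, changes the digit `j % ρ` in round `j`, and meets no other packet of its colour. -/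
def Routes {l n : ℕ} (ρ : ℕ) (act : (Fin n → ZMod l) → Prop)
    (src : (Fin n → ZMod l) → Fin n → ZMod l) (pos : (Fin n → ZMod l) → ℕ → Fin n → ZMod l)
    (col : (Fin n → ZMod l) → ℕ) : Prop :=
  ∀ g, act g → col g < 2 * ρ + 2 ∧ pos g 0 = src g ∧ pos g (2 * ρ) = g ∧ (∀ j, InH ρ (pos g j)) ∧
    (∀ j < 2 * ρ, ∀ i : Fin n, (i : ℕ) ≠ j % ρ → pos g (j + 1) i = pos g j i) ∧
    ∀ g', act g' → col g = col g' → ∀ j ≤ 2 * ρ, pos g j = pos g' j → g = g'

/-- Routing in polynomial time. -/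
def RouteThm : Prop :=
  ∀ (l : ℕ) [Fact l.Prime] (C : Type) [Enc C] (n ρ : C → ℕ), PT n → PT ρ → (PB fun c => l ^ n c) →
    (∀ c, ρ c ≤ n c) → ∀ (act : ∀ c, (Fin (n c) → ZMod l) → Prop)
      (src : ∀ c, (Fin (n c) → ZMod l) → Fin (n c) → ZMod l),
      (PT fun z : Σ c, Fin (n c) → ZMod l => act z.1 z.2) → D2 src →
      (∀ c g, act c g → InH (ρ c) g ∧ InH (ρ c) (src c g)) →
      (∀ c g g', act c g → act c g' → src c g = src c g' → g = g') →
      ∃ (pos : ∀ c, (Fin (n c) → ZMod l) → ℕ → Fin (n c) → ZMod l)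
        (col : ∀ c, (Fin (n c) → ZMod l) → ℕ),
        D3 (X' := fun _ => ℕ) pos ∧ (PT fun z : Σ c, Fin (n c) → ZMod l => col z.1 z.2) ∧
        ∀ c, Routes (ρ c) (act c) (src c) (pos c) (col c)

end Vale.Agent.P330Q
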