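import Vale.Agent.P330Q.PPD
import Vale.Agent.P330Q.RouteD

/-! Low degree extensions of tables: the interface. -/

namespace Vale.Agent.P330Q

open Vale.Agent.Lib.PolyTime Vale.Agent.P330 Finset
open scoped Classical BigOperators

/-- Low degree tables and low degree extensions on one group of cells. -/
structure RK (l n : ℕ) [Fact l.Prime] (F : Type) [Field F] where
  lde : ℕ → ((Fin n → ZMod l) → F) →ₗ[F] ((Fin n → ZMod l) → F)
  IsP : ℕ → ((Fin n → ZMod l) → F) → Prop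
  isP_lde : ∀ k u, k ≤ n → IsP (l ^ k) (lde k u)
  lde_eq : ∀ k u h, k ≤ n → InH k h → lde k u h = u h
  uniq : ∀ k u, k ≤ n → IsP (l ^ k) u → (∀ h, InH k h → u h = 0) → u = 0
  zero : ∀ D, IsP D 0
  add : ∀ D u v, IsP D u → IsP D v → IsP D (u + v)
  neg : ∀ D u, IsP D u → IsP D (-u)
  mul : ∀ D D' u v, IsP D u → IsP D' v → IsP (D + D') (u * v)
  shift : ∀ D u a, IsP D u → IsP D fun h => u (h + a)
  mono : ∀ D D' u, IsP D u → D ≤ D' → IsP D' u
  dist : ∀ D u, IsP D u → u ≠ 0 → fr (Fin n → ZMod l) (fun h => u h = 0) ≤ D / (l : ℝ) ^ n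

/-- The computable family version, with Lagrange multipliers `mL`. -/
structure Kit {C : Type} [Enc C] {l : ℕ} [Fact l.Prime] (Y : PS C l) : Type 1 where
  rk : ∀ c, RK l (Y.n c) (Y.F c)
  mL : ∀ c, ℕ → (Fin (Y.n c) → Y.F c) → Y.Tab c
  mL_eq : ∀ c k (a : Y.H c), k ≤ Y.n c → InH k a →
    mL c k (fun i => algebraMap (ZMod l) (Y.F c) (a i)) = (rk c).lde k (Pi.single a 1)
  pp_lde : ∀ (I O : SF Y.lg) (f : ∀ c, O.T c → (I.T c → Y.Tab c) → Y.Tab c) (k : C → ℕ), PT k →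
    PP Y I O f → PP Y I O fun c o w => (rk c).lde (k c) (f c o w)
  pp_mL : ∀ (I O : SF Y.lg) (f : ∀ c, O.T c → (I.T c → Y.Tab c) → Y.Tab c)
    (t : ∀ c, O.T c → Fin (Y.n c) → (I.T c → Y.Tab c) → Y.Tab c) (k : C → ℕ), PT k →
    PP Y I (O.prod Y.co) (fun c z w => t c z.1 z.2 w) → PP Y I O f →
    PP Y I O fun c o w => mL c (k c) (fun i => ∑ x, t c o i w x) * f c o w
  d_lde : ∀ (B : Type) [Enc B] (p : B → C) (u : ∀ b, Y.Tab (p b)) (k : B → ℕ), PT p → PT k →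
    D2 u → D2 fun b => (rk (p b)).lde (k b) (u b)

/-- The kit exists. -/
def KitThm : Prop :=
  ∀ (C : Type) [Enc C] (l : ℕ) [Fact l.Prime] (Y : PS C l), Nonempty (Kit Y)

end Vale.Agent.P330Q
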