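import Vale.Agent.P330Q.RS
import Vale.Agent.P330Q.KitD

/-! The Reed-Solomon kit exists. -/

namespace Vale.Agent.P330Q

open Vale.Agent.Lib.PolyTime Vale.Agent.P330 Finset
open scoped Classical BigOperators

/-- The kit on one group of cells. -/
noncomputable def rkOf {l n : ℕ} [Fact l.Prime] {F : Type} [Field F] [Algebra (ZMod l) F]
    (b : ℕ → F) (hb : Ind l n b) : RK l n F where
  lde k := lde b (min k n)
  IsP := IsP b
  isP_lde k u hk := by rw [min_eq_left hk]; exact isP_lde hb hk u
  lde_eq k u h hk hh := by rw [min_eq_left hk]; exact lde_low hb u hh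
  uniq k u hk h e := h.uniq hb hk IsP.zero e
  zero _ := IsP.zero
  add _ _ _ h h' := h.add h'
  neg _ u h := by
    have e : (-u) = fun x => (-1 : F) * u x := by funext x; simp
    rw [e]; exact h.cmul _
  mul _ _ _ _ h h' := h.mul h'
  shift _ _ a h := h.shift a
  mono _ _ _ h e := h.mono e
  dist _ _ h h0 := h.dist hb h0

theorem kitThm : KitThm := by
  intro C _ l _ Y
  refine ⟨⟨fun c => rkOf (Y.b c) (Y.ind c), fun c k => lgS (Y.b c) k, ?_, ?_, ?_, ?_⟩⟩
  · intro c k a hk ha
    show _ = lde (Y.b c) (min k (Y.n c)) (Pi.single a 1)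
    rw [min_eq_left hk, ← lde_single ha]
    congr 1
    funext h
    rw [Pi.single_apply]
  · intro I O f k hk hf
    exact hf.lde (k := fun c _ => min (k c) (Y.n c))
      ((PT.min hk Y.pt_n).comp pt_sigma_fst) fun c _ => min_le_right _ _
  · intro I O f t k hk ht hf
    exact (PM.lgS (k := fun c _ => k c) (hk.comp pt_sigma_fst) ht).app hf
  · intro B _ p u k hp hk hu
    exact PS.d_lde (p := fun z : Σ b, Y.H (p b) => p z.1) (hp.comp pt_sigma_fst)
      (k := fun z => min (k z.1) (Y.n (p z.1)))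
      ((PT.min hk (Y.pt_n.comp hp)).comp pt_sigma_fst) (u := fun z => u z.1)
      (hu.app (pt_sigma_fst.comp pt_sigma_fst) D.sigma_snd) D.sigma_snd

end Vale.Agent.P330Q
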