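import Vale.Agent.P330Q.MqE

/-! The machine on tables: the change of one cell. -/

namespace Vale.Agent.P330Q.Mq

open Vale.Agent.Lib.PolyTime Vale.Agent.P330 Vale.Agent.P330.Mach Finset
open scoped Classical BigOperators

variable {l : ℕ} [Fact l.Prime] {Y : PS VI l} (A : Cx Y) {c : VI}

theorem Cx.mqu_ld (u : Y.Tab c) (β : Y.F c) {q : Y.H c} (hq : InH (ro Y c) q) (h : Y.H c) :
    A.ld c (ro Y c) (fun x => u x + if x = q then β else 0) h =
      A.ld c (ro Y c) u h + β * A.K.mL c (ro Y c) (fun i => am Y c (q i)) h := by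
  have e : (fun x => u x + if x = q then β else 0) = u + β • (Pi.single q 1 : Y.Tab c) := by
    funext x
    rw [Pi.add_apply, Pi.smul_apply, Pi.single_apply, smul_eq_mul, mul_ite, mul_one, mul_zero]
  rw [e, A.K.mL_eq c (ro Y c) q (Nat.sub_le _ _) hq, Cx.ld, map_add, map_smul]
  rfl

theorem Cx.mqu_pv (X : Y.Tab c) (α : Y.F c) {p : Y.H c} (hp : InH (ro Y c) p) (z : (JK Y).T c)
    (h : Y.H c) :
    A.ld c (ro Y c) (A.lin c (fun x => X x + if x = p then α else 0) (pv Y c z)) h =
      A.ld c (ro Y c) (A.lin c X (pv Y c z)) h +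
        α * A.ce c z p * A.K.mL c (ro Y c) (A.ad c z p) h := by
  by_cases hz : (z.1 : ℕ) = 0
  · have e1 : A.ad c z p = fun i => am Y c (p i) := funext fun i => if_pos hz
    have e2 : A.ce c z p = 1 := if_pos hz
    have e3 : pv Y c z = .inl () := if_pos hz
    rw [e1, e2, e3, mul_one]
    exact A.mqu_ld X α hp h
  · have e3 : pv Y c z = .inr (.inl (⟨z.1 - 1, (Nat.sub_le _ _).trans_lt z.1.2⟩, z.2)) :=
      if_neg hz
    have e4 : ∀ X : Y.Tab c, A.lin c X (pv Y c z) = fun h => ∑ g, if actH Y c g ∧
        A.col c g = z.2 ∧ A.pos c g z.1 = h then ep Y c g * X (srcH Y c g) else 0 := by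
      intro X
      have e5 : (z.1 : ℕ) - 1 + 1 = z.1 := by omega
      rw [e3]
      change (fun h => ∑ g, if actH Y c g ∧ A.col c g = z.2 ∧ A.pos c g ((z.1 : ℕ) - 1 + 1) = h
        then ep Y c g * X (srcH Y c g) else 0) = _
      rw [e5]
    rw [e4, e4]
    by_cases hg : ∃ g, actH Y c g ∧ srcH Y c g = p
    · obtain ⟨g0, a0, s0⟩ := hg
      have hu : ∀ g, actH Y c g → srcH Y c g = p → g = g0 := fun g a s =>
        srcH_inj A.hl (A.hn c) (A.hm c) a a0 (s.trans s0.symm)
      have e1 : A.ad c z p = fun i => am Y c (A.pos c g0 z.1 i) := by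
        funext i
        rw [Cx.ad, if_neg hz, sum_eq_single g0 (fun g _ k => if_neg fun a => k (hu g a.1 a.2))
          (fun k => absurd (mem_univ _) k), if_pos ⟨a0, s0⟩]
      have e2 : A.ce c z p = if A.col c g0 = z.2 then ep Y c g0 else 0 := by
        rw [Cx.ce, if_neg hz, sum_eq_single g0 (fun g _ k => if_neg fun a => k (hu g a.1 a.2.1))
          (fun k => absurd (mem_univ _) k)]
        simp only [a0, s0, true_and]
      rw [e1, ← A.mqu_ld _ _ ((A.rt c g0 a0).2.2.2.1 z.1) h]
      refine congrArg (fun u => A.ld c (ro Y c) u h) (funext fun x => ?_)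
      have e6 : (if x = A.pos c g0 z.1 then α * A.ce c z p else 0) =
          ∑ g, if actH Y c g ∧ A.col c g = z.2 ∧ A.pos c g z.1 = x then
            ep Y c g * (if srcH Y c g = p then α else 0) else 0 := by
        rw [sum_eq_single g0 _ (fun k => absurd (mem_univ _) k), e2, if_pos s0]
        · by_cases k1 : x = A.pos c g0 z.1
          · by_cases k2 : A.col c g0 = z.2
            · rw [if_pos k1, if_pos k2, if_pos ⟨a0, k2, k1.symm⟩, mul_comm]
            · rw [if_pos k1, if_neg k2, if_neg fun a => k2 a.2.1, mul_zero]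
          · rw [if_neg k1, if_neg fun a => k1 a.2.2.symm]
        · intro g _ k
          split_ifs with k1 k2
          · exact absurd (hu g k1.1 k2) k
          · exact mul_zero _
          · rfl
      rw [e6, ← sum_add_distrib]
      refine sum_congr rfl fun g _ => ?_
      split_ifs
      · exact mul_add _ _ _
      · exact mul_add _ _ _ |>.trans (by rw [mul_zero])
      · exact (add_zero _).symm
    · have e2 : A.ce c z p = 0 := by
        rw [Cx.ce, if_neg hz]
        exact sum_eq_zero fun g _ => if_neg fun a => hg ⟨g, a.1, a.2.1⟩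
      rw [e2, mul_zero, zero_mul, add_zero]
      refine congrArg (fun u => A.ld c (ro Y c) u h) (funext fun x => ?_)
      refine sum_congr rfl fun g _ => ?_
      split_ifs with k1 k2
      · exact absurd ⟨g, k1.1, k2⟩ hg
      · rw [add_zero]
      · rfl

theorem Cx.grp_upd (X : Y.Tab c) (α : Y.F c) {p : Y.H c} (hp : InH (ro Y c) p) (t : (LL Y).T c)
    (h : Y.H c) : A.grp c (fun x => X x + if x = p then α else 0) t h = A.grp c X t h +
      α * A.dl c α (fun i => am Y c (p i)) (fun z => A.ad c z p) (fun z => A.ce c z p)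
        (A.ld c (ro Y c) X) t h := by
  rcases t with u | z | b
  · exact A.mqu_ld X α hp h
  · change (∑ a, A.cf c (.inl z) a h * A.ld c (ro Y c)
        (A.lin c (fun x => X x + if x = p then α else 0) (pv Y c z))
          (h + a • ee (z.1 % ro Y c)) * 1) =
      (∑ a, A.cf c (.inl z) a h * A.ld c (ro Y c) (A.lin c X (pv Y c z))
          (h + a • ee (z.1 % ro Y c)) * 1) +
        α * (A.ce c z p * ∑ a, A.K.mL c (ro Y c) (A.ad c z p) (h + a • ee (z.1 % ro Y c)) *
          A.cf c (.inl z) a h)
    rw [mul_sum, mul_sum, ← sum_add_distrib]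
    refine sum_congr rfl fun a _ => ?_
    rw [A.mqu_pv X α hp]
    ring
  · have e : ∀ X : Y.Tab c, A.grp c X (.inr (.inr b)) h =
        A.ld c (ro Y c) X (h + sv Y c b false) * A.ld c (ro Y c) X (h + sv Y c b true) := by
      intro X
      change (∑ a : ZMod l, (if a = 0 then 1 else 0) * A.ld c (ro Y c) X (h + sv Y c b false) *
        A.ld c (ro Y c) X (h + sv Y c b true)) = _
      rw [sum_eq_single 0 (fun a _ k => by rw [if_neg k, zero_mul, zero_mul])
        (fun k => absurd (mem_univ _) k), if_pos rfl, one_mul]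
    rw [e, e, A.mqu_ld X α hp, A.mqu_ld X α hp]
    change _ = _ + α * (A.K.mL c (ro Y c) (fun i => am Y c (p i)) (h + sv Y c b false) *
        A.ld c (ro Y c) X (h + sv Y c b true) +
      A.K.mL c (ro Y c) (fun i => am Y c (p i)) (h + sv Y c b true) *
        (A.ld c (ro Y c) X (h + sv Y c b false) +
          α * A.K.mL c (ro Y c) (fun i => am Y c (p i)) (h + sv Y c b false)))
    ring

end Vale.Agent.P330Q.Mq
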