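import Vale.Agent.P330Q.MqG
import Vale.Agent.P330Q.MqU

/-! The machine on tables: steps. -/

namespace Vale.Agent.P330Q.Mq

open Vale.Agent.Lib.PolyTime Vale.Agent.P330 Vale.Agent.P330.Mach Finset
open scoped Classical BigOperators

variable {l : ℕ} [Fact l.Prime] {Y : PS VI l} (A : Cx Y) {c : VI}

theorem idx_dig_ro {s : ℕ} (hs : s < l ^ ro Y c) : idx (dig l (Y.n c) s) = s :=
  idx_dig (hs.trans_le (Nat.pow_le_pow_right l_one.le (Nat.sub_le _ _)))

theorem tr_succ {s : ℕ} (hs : s < l ^ ro Y c) (y : List Bool) (h : Y.H c) :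
    tr Y c (s + 1) y h =
      tr Y c s y h + if h = dig l _ s then bf (vl c l (ps Y c) y s) else 0 := by
  unfold tr
  split_ifs with e
  · simp [e, idx_dig_ro hs, bf]
  · have : idx h ≠ s := fun a => e (by rw [← a, dig_idx])
    simp [le_iff_lt_or_eq, this]

theorem Cx.stp_st (d φ : Bool) {s : ℕ} (hs : s < l ^ ro Y c) {x : List Bool}
    (hx : x.length = nn c) : (fun i => A.stp c d i (A.st c φ s x (fn c φ x))) =
      if d = φ ∧ s + 1 = l ^ ro Y c then A.st c (!φ) s (fn c φ x) x
      else A.st c (nfl (l ^ ro Y c) d φ s) (nct (l ^ ro Y c) d φ s) x (fn c φ x) := by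
  have hi := idx_dig_ro hs
  have hs1 : s - 1 < l ^ ro Y c := by omega
  have hp : InH (ro Y c) (pc Y c d φ (dig l _ s)) := by
    unfold pc
    split_ifs
    · exact inH_iff.2 (hi.trans_lt hs)
    · rw [hi, inH_iff, idx_dig_ro hs1]
      exact hs1
  have e1 : A.pd c d (A.st c φ s x (fn c φ x)) = fun i => am Y c (pc Y c d φ (dig l _ s) i) :=
    funext fun i => A.rv_st _ _ _ _ _
  have e2 : ∀ h, tr Y c s (fn c φ x) h + (if h = pc Y c d φ (dig l _ s) then
      A.al c d (A.st c φ s x (fn c φ x)) else 0) = tr Y c (nct (l ^ ro Y c) d φ s) (fn c φ x) h := by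
    intro h
    rw [Cx.al, e1, A.rd_eq, A.rv_st, A.rv_st, hi, nct]
    by_cases h1 : d = φ
    · rw [if_neg (c := d ≠ φ ∧ _) fun a => a.1 h1, zero_mul, sub_zero, if_pos h1]
      by_cases h2 : s + 1 = l ^ ro Y c
      · simp [h2]
      · rw [if_pos (And.intro h1 h2), one_mul, if_neg h2, tr_succ hs, pc, if_pos h1,
          A.nva_eq (X := tr Y c s (fn c φ x)) hx (fl_of fun _ => rfl) rfl (fun _ => rfl)
            (inH_iff.2 (hi.trans_lt hs)) fun g hg => by simp [tr, hg.trans_eq hi], hi]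
    · rw [if_neg (c := d = φ ∧ _) fun a => h1 a.1, zero_mul, zero_sub, if_neg h1]
      rcases s with _ | s
      · simp
      · have h3 : pc Y c d φ (dig l _ (s + 1)) = dig l _ s := by rw [pc, if_neg h1, hi]; rfl
        have h4 := idx_dig_ro hs1
        rw [Nat.add_sub_cancel] at h4 hs1 ⊢
        rw [h3] at hp
        rw [if_pos (And.intro h1 s.succ_ne_zero), one_mul, h3, tr_succ hs1,
          show A.st c φ (s + 1) x (fn c φ x) (.inl (true, .inl ())) =
            A.ld c (ro Y c) (tr Y c (s + 1) (fn c φ x)) from rfl,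
          Cx.ld, (A.K.rk c).lde_eq (ro Y c) _ _ (Nat.sub_le _ _) hp]
        split_ifs <;> simp [tr, h4]
  have e3 : ∀ t h, A.grp c (tr Y c s (fn c φ x)) t h + A.al c d (A.st c φ s x (fn c φ x)) *
      A.dw c d t (A.st c φ s x (fn c φ x)) h =
        A.grp c (tr Y c (nct (l ^ ro Y c) d φ s) (fn c φ x)) t h := fun t h => by
    rw [← funext e2, A.grp_upd _ _ hp, Cx.dw, e1]
    simp only [A.rv_st]
    rfl
  funext i h
  rcases i with ⟨r, t⟩ | k
  · simp only [Cx.stp, Sum.elim_inl, Cx.sw, A.rv_st, hi]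
    split_ifs with h1 h2 h2
    · subst h2
      have := e3 t h
      rw [nct, if_pos h1.1, if_pos h1.2, add_eq_left] at this
      rw [this, show s = l ^ ro Y c - 1 by omega]
      simp [Cx.st, A.tr_last]
    · obtain rfl : r = false := by simpa using h2
      rw [show s = l ^ ro Y c - 1 by omega]
      simp [Cx.st, A.tr_last]
    · subst h2
      simpa [Cx.st] using e3 t h
    · obtain rfl : r = false := by simpa using h2
      simp [Cx.st]
  · simp only [Cx.stp, Sum.elim_inr, A.rv_st, hi]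
    split_ifs with h1
    · simp [Cx.st, nfl, nct, h1]
    · rfl

end Vale.Agent.P330Q.Mq
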