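import Vale.Agent.P330Q.MqT

/-! The machine on tables: the steps are plain programs. -/

namespace Vale.Agent.P330Q.Mq

open Vale.Agent.Lib.PolyTime Vale.Agent.P330 Vale.Agent.P330.Mach Finset
open scoped Classical BigOperators

variable {l : ℕ} [Fact l.Prime] {Y : PS VI l} (A : Cx Y) {c : VI}

section
variable {J : SF Y.lg} {f : ∀ c, J.T c → ((II Y).T c → Y.Tab c) → Y.Tab c}

theorem Cx.mqv_tab {T : ∀ c, J.T c → Bool → Y.Tab c} (hT : ∀ φ, D3 fun c j x => T c j φ x) :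
    PP Y (II Y) J fun c j w => A.K.mL c (Y.n c) (dg Y c w) *
      fun x => fl Y c w * T c j true x + (1 - fl Y c w) * T c j false x :=
  A.K.pp_mL (II Y) J _ (fun _ _ i w => w (.inr (.inr i))) Y.n Y.pt_n
    (PP.var (D.inr (D.inr D.s2)))
    ((pm_fl.app (PP.cst (hT true))).add ((PM.one.sub pm_fl).app (PP.cst (hT false))))

theorem Cx.mqv_rv {T : ∀ c, J.T c → Bool → Y.Tab c} (hT : ∀ φ, D3 fun c j x => T c j φ x) :
    PM Y (II Y) J fun c j w _ => A.rv c (T c j) w := PM.scal (A.mqv_tab hT)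

theorem Cx.mqv_ml {T : ∀ c, J.T c × Fin (Y.n c) → Bool → Y.Tab c}
    (hT : ∀ φ, D3 fun c j x => T c j φ x) {k : VI → ℕ} (hk : PT k) (hf : PP Y (II Y) J f) :
    PP Y (II Y) J fun c j w => A.K.mL c (k c) (fun i => A.rv c (T c (j, i)) w) * f c j w :=
  A.K.pp_mL (II Y) J f (fun c j i w => A.K.mL c (Y.n c) (dg Y c w) *
      fun x => fl Y c w * T c (j, i) true x + (1 - fl Y c w) * T c (j, i) false x) k hk
    (A.mqv_tab (J := J.prod Y.co) hT) hf

theorem Cx.mqv_sh {T : ∀ c, J.T c × Fin (Y.n c) → Bool → Y.Tab c}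
    (hT : ∀ φ, D3 fun c j x => T c j φ x) {a : ∀ c, J.T c → ZMod l} {k : ∀ c, J.T c → ℕ}
    (ha : PT fun z : Σ c, J.T c => a z.1 z.2) (hk : PT fun z : Σ c, J.T c => k z.1 z.2)
    (hf : PP Y (II Y) J f) : PP Y (II Y) J fun c j w h =>
      A.K.mL c (ro Y c) (fun i => A.rv c (T c (j, i)) w) (h + a c j • ee (k c j)) * f c j w h := by
  have h1 : D2 fun c (j : J.T c) => ((-a c j) • ee (k c j) : Y.H c) :=
    d_see pt_sigma_fst (pt_negZ ha) hk
  have h2 : D2 fun c (j : J.T c) => (a c j • ee (k c j) : Y.H c) := d_see pt_sigma_fst ha hk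
  have h3 := (A.mqv_ml hT (pt_ro Y) (hf.shv h1)).shv h2
  refine h3.congr fun c j w => funext fun h => ?_
  rw [Pi.mul_apply, neg_smul, add_neg_cancel_right]

theorem mqv_pd (d φ : Bool) : D3 fun c (z : J.T c × Fin (Y.n c)) (x : Y.H c) =>
    am Y c (pc Y c d φ x z.2) :=
  PS.dCast pt_sigma_fst (D.fn_app (n := fun z : Σ c, (J.T c × Fin (Y.n c)) × Y.H c => Y.n z.1)
    (X := fun _ => ZMod l) ((d_pc d φ).app pt_sigma_fst D.s2) D.s1.snd).pt

theorem mqv_ind {p : ∀ c, Y.H c → Prop} [∀ c x, Decidable (p c x)]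
    (hp : PT fun z : Σ c, J.T c × Y.H c => p z.1 z.2.2) :
    D3 fun c (_ : J.T c) (x : Y.H c) => if p c x then (1 : Y.F c) else 0 :=
  D.ite hp (PS.dOne pt_sigma_fst) (PS.dZero pt_sigma_fst)

theorem mqv_idx : PT fun z : Σ c, J.T c × Y.H c => idx z.2.2 := pt_idx pt_sigma_fst D.s2

theorem mqv_pow : PT fun z : Σ c, J.T c × Y.H c => l ^ ro Y z.1 := pt_pow_ro.comp pt_sigma_fst

theorem Cx.mqv_al (d : Bool) : PM Y (II Y) J fun c _ w _ => A.al c d w := by
  have h1 := mqv_idx (J := J)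
  have h2 := mqv_pow (J := J)
  exact PM.scal (A.mqv_ml (T := fun c z φ x => am Y c (pc Y c d φ x z.2)) (mqv_pd d) Y.pt_n
    (((A.mqv_rv (T := fun c _ φ x => if d = φ ∧ idx x + 1 ≠ l ^ ro Y c then 1 else 0)
      fun φ => mqv_ind (by fun_prop)).app pp_nva).sub
    ((A.mqv_rv (T := fun c _ φ x => if d ≠ φ ∧ idx x ≠ 0 then 1 else 0)
      fun φ => mqv_ind (by fun_prop)).app
      (PP.var (D.inl (D.pair (D.const true) (D.inl (D.const ()))))))))

theorem Cx.mqv_sw (d : Bool) : PM Y (II Y) J fun c _ w _ => A.sw c d w := by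
  have h1 := mqv_idx (J := J)
  have h2 := mqv_pow (J := J)
  exact A.mqv_rv (T := fun c _ φ x => if d = φ ∧ idx x + 1 = l ^ ro Y c then 1 else 0)
    fun φ => mqv_ind (by fun_prop)

end

theorem Cx.mqv_d1 (d : Bool) :
    PP Y (II Y) (UU Y) fun c _ w => A.K.mL c (ro Y c) (A.pd c d w) := by
  have h := A.mqv_ml (J := UU Y) (T := fun c z φ x => am Y c (pc Y c d φ x z.2)) (mqv_pd d)
    (pt_ro Y) PP.one
  exact h.congr fun c j w => funext fun h => (mul_one _).symm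

theorem Cx.mqv_d2 (d : Bool) : PP Y (II Y) (JK Y) fun c z w h =>
    A.rv c (fun φ x => A.ce c z (pc Y c d φ x)) w * ∑ a : ZMod l,
      A.K.mL c (ro Y c) (fun i => A.rv c (fun φ x => A.ad c z (pc Y c d φ x) i) w)
        (h + a • ee (z.1 % ro Y c)) * A.cf c (.inl z) a h := by
  have h1 := A.mqv_rv (J := JK Y) (T := fun c z φ x => A.ce c z (pc Y c d φ x))
    fun φ => A.d_ce.app pt_sigma_fst D.s1 ((d_pc d φ).app pt_sigma_fst D.s2)
  have h0 := A.d_cf.app (B := Σ c, ((JK Y).T c × ZMod l) × Y.H c) pt_sigma_fst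
    (x := fun z => (.inl z.2.1.1, z.2.1.2)) (D.pair (D.inl D.s1.fst) D.s1.snd) D.s2
  have h2 : PP Y (II Y) ((JK Y).prod (ZZ Y)) fun c z _ => A.cf c (.inl z.1) z.2 := PP.cst h0
  have h4 : PT fun z : Σ c, (JK Y).T c × ZMod l => (z.2.1.1 : ℕ) % ro Y z.1 :=
    PT.mod (D.fin_iff.1 D.s1.fst) ((pt_ro Y).comp pt_sigma_fst)
  have h5 : ∀ φ, D3 fun c (z : ((JK Y).T c × ZMod l) × Fin (Y.n c)) (x : Y.H c) =>
      A.ad c z.1.1 (pc Y c d φ x) z.2 := fun φ =>
    A.d_ad.app pt_sigma_fst (D.pair D.s1.fst.fst D.s1.snd) ((d_pc d φ).app pt_sigma_fst D.s2)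
  have h3 := A.mqv_sh (J := (JK Y).prod (ZZ Y))
    (T := fun c z φ x => A.ad c z.1.1 (pc Y c d φ x) z.2) h5 (a := fun _ z => z.2)
    (k := fun c z => z.1.1 % ro Y c) D.s2.pt h4 h2
  have h6 := PP.sum (J := JK Y) (K := ZZ Y) (f := fun c z a w h =>
    A.K.mL c (ro Y c) (fun i => A.rv c (fun φ x => A.ad c z (pc Y c d φ x) i) w)
      (h + a • ee (z.1 % ro Y c)) * A.cf c (.inl z) a h) h3
  exact h1.app h6

theorem Cx.mqv_d3 (d β : Bool) {f : ∀ c, (BB Y).T c → ((II Y).T c → Y.Tab c) → Y.Tab c}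
    (hf : PP Y (II Y) (BB Y) f) : PP Y (II Y) (BB Y) fun c b w h =>
      A.K.mL c (ro Y c) (A.pd c d w) (h + sv Y c b β) * f c b w h := by
  have q : PT fun z : Σ c, (BB Y).T c =>
      (if z.2 = true then 0 else if β = true then -1 else -2 : ZMod l) :=
    PT.ite (PT.eq D.sigma_snd.pt (PT.const true)) (PT.const _) (PT.const _)
  have h := A.mqv_sh (T := fun c z φ x => am Y c (pc Y c d φ x z.2)) (mqv_pd d)
    (a := fun _ (b : Bool) => (if b = true then 0 else if β = true then -1 else -2 : ZMod l))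
    (k := fun _ _ => 0) q (PT.const 0) hf
  exact h

theorem mqv_x (β : Bool) :
    PP Y (II Y) (BB Y) fun c b w h => w (.inl (true, .inl ())) (h + sv Y c b β) := by
  have h1 : D2 fun c (b : (BB Y).T c) => sv Y c b β :=
    d_sv pt_sigma_fst D.sigma_snd.pt (PT.const β)
  have h2 : PP Y (II Y) (BB Y) fun c _ w => w (.inl (true, .inl ())) :=
    PP.var (D.inl (D.pair (D.const true) (D.inl (D.const ()))))
  exact h2.shv h1

theorem Cx.mqv_dw (d : Bool) : PP Y (II Y) (LL Y) fun c => A.dw c d := by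
  have p0 : PP Y (II Y) (BB Y) fun c b w h =>
      A.K.mL c (ro Y c) (A.pd c d w) (h + sv Y c b false) :=
    (A.mqv_d3 d false PP.one).congr fun c j w => funext fun h => (mul_one _).symm
  have p3 := (A.mqv_d3 d false (mqv_x true)).add
    (A.mqv_d3 d true ((mqv_x false).add ((A.mqv_al d).app p0)))
  exact ((A.mqv_d1 d).sum_elim ((A.mqv_d2 d).sum_elim p3)).congr fun c t w => by
    rcases t with t | t | t <;> rfl

theorem Cx.pp_stp (d : Bool) : PP Y (II Y) (II Y) fun c => A.stp c d := by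
  have h1 := mqv_idx (J := CT Y)
  have h2 := mqv_pow (J := CT Y)
  have p1 : PP Y (II Y) ((BB Y).prod (LL Y)) fun c e w h =>
      A.sw c d w * w (.inl (!e.1, e.2)) h + (1 - A.sw c d w) * w (.inl e) h +
        (if e.1 = true then 1 else 0) * (A.al c d w * A.dw c d e.2 w h) :=
    (((A.mqv_sw d).app (PP.var (D.inl (D.pair (D.of_pt D.s1.pt.bnot) D.s2)))).add
      ((PM.one.sub (A.mqv_sw d)).app (PP.var (D.inl D.sigma_snd)))).add
      (PP.cmul (D.ite (PT.eq D.s1.pt (PT.const true)) (PS.dOne pt_sigma_fst)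
        (PS.dZero pt_sigma_fst)) ((A.mqv_al d).app ((A.mqv_dw d).reindex D.s2)))
  have p2 : PP Y (II Y) (CT Y) fun c k w h =>
      A.rv c (fun φ x => ctl Y c (nfl (l ^ ro Y c) d φ (idx x))
        (nct (l ^ ro Y c) d φ (idx x)) k) w * d0 Y c h :=
    (A.mqv_rv fun φ => d_ctl pt_sigma_fst (by unfold nfl; fun_prop) (by unfold nct; fun_prop)
      D.s1).app (PP.cst (d_d0.app pt_sigma_fst D.s2))
  exact (p1.sum_elim p2).congr fun c t w => by cases t <;> rfl

end Vale.Agent.P330Q.Mq
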