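import Vale.Agent.P330Q.MqS

/-! The machine on tables: the first state and the solutions are computable. -/

namespace Vale.Agent.P330Q.Mq

open Vale.Agent.Lib.PolyTime Vale.Agent.P330 Vale.Agent.P330.Mach Finset
open scoped Classical BigOperators

variable {l : ℕ} [Fact l.Prime] {Y : PS VI l} (A : Cx Y) {c : VI}

section Aux
variable {B : Type} [Enc B] {p : B → VI}

theorem mqw_el {X X' H Z : B → Type} [∀ b, Enc (X b)] [∀ b, Enc (X' b)] [∀ b, Enc (Z b)]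
    {z : ∀ b, X b ⊕ X' b} {h : ∀ b, H b} {f : ∀ b, X b → H b → Z b} {g : ∀ b, X' b → H b → Z b}
    (hz : D z) (hf : D2 fun b x => f b x (h b)) (hg : D2 fun b x => g b x (h b)) :
    D fun b => Sum.elim (f b) (g b) (z b) (h b) :=
  (D.sum_elim hz hf hg).congr fun b => by cases z b <;> rfl

theorem mqw_c2 {B' : Type} [Enc B'] {X Z : B → Type} [∀ b, Enc (X b)] [∀ b, Enc (Z b)]
    {f : ∀ b, X b → Z b} (hf : D2 f) {q : B' → B} (hq : PT q) : D2 fun b => f (q b) :=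
  hf.app (hq.comp pt_sigma_fst) D.sigma_snd

theorem mqw_c3 {B' : Type} [Enc B'] {X X' Z : B → Type} [∀ b, Enc (X b)] [∀ b, Enc (X' b)]
    [∀ b, Enc (Z b)] {f : ∀ b, X b → X' b → Z b} (hf : D3 f) {q : B' → B} (hq : PT q) :
    D3 fun b => f (q b) :=
  hf.app (hq.comp pt_sigma_fst) D.s1 D.s2

theorem mqw_tr (hp : PT p) {s : B → ℕ} (hs : PT s) {x : B → List Bool} (hx : PT x) :
    D2 fun b => tr Y (p b) (s b) (x b) := by
  have hq : PT fun z : Σ b, Y.H (p b) => p z.1 := hp.comp pt_sigma_fst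
  have h1 : PT fun z : Σ b, Y.H (p b) => idx z.2 := pt_idx hq D.sigma_snd
  exact D.ite (PT.eq (PT.band (PT.decide (PT.lt h1 (hs.comp pt_sigma_fst)))
    (pt_vl hq (pt_ps.comp hq) (hx.comp pt_sigma_fst) h1)) (PT.const true))
    (PS.dOne hq) (PS.dZero hq)

theorem mqw_l1 (hp : PT p) {X : ∀ b, Y.Tab (p b)} (hX : D2 X) {z : ∀ b, (JK Y).T (p b)} (hz : D z)
    {h : ∀ b, Y.H (p b)} (hh : D h) : D fun b => ∑ g, if actH Y (p b) g ∧ A.col (p b) g = (z b).2 ∧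
      A.pos (p b) g ((z b).1 + 1) = h b then ep Y (p b) g * X b (srcH Y (p b) g) else 0 := by
  have hq : PT fun w : Σ b, Y.H (p b) => p w.1 := hp.comp pt_sigma_fst
  have h1 : PT fun b => ((z b).1 : ℕ) := D.fin_iff.1 hz.fst
  have h2 : PT fun b => ((z b).2 : ℕ) := D.fin_iff.1 hz.snd
  refine PS.dSum hp (Y.Hf.pf.comap hp) (D.ite (PT.and (pt_app pt_actH hq D.sigma_snd)
    (PT.and (PT.eq (pt_app A.pt_col hq D.sigma_snd) (h2.comp pt_sigma_fst))
      (D.eq (A.d_pos.app hq D.sigma_snd (D.of_pt (PT.add (h1.comp pt_sigma_fst) (PT.const 1))))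
        (hh.comp pt_sigma_fst))))
    (PS.dMul hq (d_ep.app hq D.sigma_snd) (hX.app pt_sigma_fst (d_srcH.app hq D.sigma_snd)))
    (PS.dZero hq))

theorem mqw_lin (hp : PT p) {X : ∀ b, Y.Tab (p b)} (hX : D2 X) : D3 fun b => A.lin (p b) (X b) := by
  have hq : PT fun z : Σ b, (LL Y).T (p b) × Y.H (p b) => z.1 := pt_sigma_fst
  refine mqw_el D.s1 (hX.app (hq.comp pt_sigma_fst) (D.s2.comp pt_sigma_fst))
    (mqw_el D.sigma_snd ?_ (PS.dZero (hp.comp ((hq.comp pt_sigma_fst).comp pt_sigma_fst))))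
  exact mqw_l1 A (hp.comp ((hq.comp pt_sigma_fst).comp pt_sigma_fst))
    (mqw_c2 hX ((hq.comp pt_sigma_fst).comp pt_sigma_fst)) D.sigma_snd
    ((D.s2.comp pt_sigma_fst).comp pt_sigma_fst)

theorem mqw_ld (hp : PT p) {v : ∀ b, (LL Y).T (p b) → Y.Tab (p b)} (hv : D3 v)
    {t : ∀ b, (LL Y).T (p b)} (ht : D t) {h : ∀ b, Y.H (p b)} (hh : D h) :
    D fun b => A.ld (p b) (ro Y (p b)) (v b (t b)) (h b) :=
  (A.K.d_lde B p (fun b => v b (t b)) (fun b => ro Y (p b)) hp ((pt_ro Y).comp hp)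
    (hv.app pt_sigma_fst (ht.comp pt_sigma_fst) D.sigma_snd)).app PT.id hh

theorem mqw_f1 (hp : PT p) {v : ∀ b, (LL Y).T (p b) → Y.Tab (p b)} (hv : D3 v)
    {z : ∀ b, (JK Y).T (p b)} (hz : D z) {a : B → ZMod l} (ha : PT a)
    {h : ∀ b, Y.H (p b)} (hh : D h) : D fun b => A.ld (p b) (ro Y (p b)) (v b (pv Y (p b) (z b)))
      (h b + a b • ee ((z b).1 % ro Y (p b))) :=
  mqw_ld A hp hv (d_pv.app hp hz)
    (d_addH hp hh (d_see hp ha (PT.mod (D.fin_iff.1 hz.fst) ((pt_ro Y).comp hp))))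

theorem mqw_fa (hp : PT p) {v : ∀ b, (LL Y).T (p b) → Y.Tab (p b)} (hv : D3 v)
    {t : ∀ b, (TT Y).T (p b)} (ht : D t) {a : B → ZMod l} (ha : PT a) (β : Bool)
    {h : ∀ b, Y.H (p b)} (hh : D h) : D fun b => A.fa (p b) (t b) (a b) β (v b) (h b) := by
  refine mqw_el ht ?_ ?_
  · cases β
    · exact mqw_f1 A (hp.comp pt_sigma_fst) (mqw_c3 hv pt_sigma_fst) D.sigma_snd
        (ha.comp pt_sigma_fst) (hh.comp pt_sigma_fst)
    · exact PS.dOne (hp.comp pt_sigma_fst)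
  · exact mqw_ld A (hp.comp pt_sigma_fst) (mqw_c3 hv pt_sigma_fst) (D.inl (D.const ()))
      (d_addH (hp.comp pt_sigma_fst) (hh.comp pt_sigma_fst)
        (d_sv (hp.comp pt_sigma_fst) D.sigma_snd.pt (PT.const β)))

theorem mqw_r1 (hp : PT p) {v : ∀ b, (LL Y).T (p b) → Y.Tab (p b)} (hv : D3 v)
    {t : ∀ b, (TT Y).T (p b)} (ht : D t) {a : B → ZMod l} (ha : PT a) {h : ∀ b, Y.H (p b)}
    (hh : D h) : D fun b => A.cf (p b) (t b) (a b) (h b) * A.fa (p b) (t b) (a b) false (v b) (h b) *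
      A.fa (p b) (t b) (a b) true (v b) (h b) := by
  have h1 := A.d_cf.app hp (D.pair ht (D.of_pt ha)) hh
  exact PS.dMul hp (PS.dMul hp h1 (mqw_fa A hp hv ht ha false hh)) (mqw_fa A hp hv ht ha true hh)

theorem mqw_rhs (hp : PT p) {v : ∀ b, (LL Y).T (p b) → Y.Tab (p b)} (hv : D3 v)
    {t : ∀ b, (TT Y).T (p b)} (ht : D t) {h : ∀ b, Y.H (p b)} (hh : D h) :
    D fun b => A.rhs (p b) (v b) (t b) (h b) :=
  PS.dSum hp (PFam.const (ZMod l)) (f := fun b a => A.cf (p b) (t b) a (h b) *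
      A.fa (p b) (t b) a false (v b) (h b) * A.fa (p b) (t b) a true (v b) (h b))
    (mqw_r1 A (hp.comp pt_sigma_fst) (mqw_c3 hv pt_sigma_fst) (ht.comp pt_sigma_fst)
      D.sigma_snd.pt (hh.comp pt_sigma_fst))

theorem mqw_grp (hp : PT p) {X : ∀ b, Y.Tab (p b)} (hX : D2 X)
    {t : ∀ b, (LL Y).T (p b)} (ht : D t) {h : ∀ b, Y.H (p b)} (hh : D h) :
    D fun b => A.grp (p b) (X b) (t b) (h b) :=
  mqw_el ht ((A.K.d_lde B p X (fun b => ro Y (p b)) hp ((pt_ro Y).comp hp) hX).app pt_sigma_fst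
      (hh.comp pt_sigma_fst))
    (mqw_rhs A (hp.comp pt_sigma_fst) (mqw_c3 (mqw_lin A hp hX) pt_sigma_fst) D.sigma_snd
      (hh.comp pt_sigma_fst))

theorem mqw_cell (hp : PT p) {s s' : B → ℕ} (hs : PT s) (hs' : PT s') {x y : B → List Bool}
    (hx : PT x) (hy : PT y) {e : B → Bool} (he : PT e) :
    D2 fun b => if e b = true then tr Y (p b) (s b) (y b) else tr Y (p b) (s' b) (x b) :=
  (D.ite (PT.eq (he.comp pt_sigma_fst) (PT.const true)) (mqw_tr hp hs hy)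
    (mqw_tr hp hs' hx)).congr fun _ => ite_apply _ _ _ _

theorem mqw_st (hp : PT p) {s : B → ℕ} (hs : PT s) {x y : B → List Bool} (hx : PT x) (hy : PT y)
    {i : ∀ b, (II Y).T (p b)} (hi : D i) {h : ∀ b, Y.H (p b)} (hh : D h) :
    D fun b => A.st (p b) false (s b) (x b) (y b) (i b) (h b) :=
  mqw_el hi (mqw_grp A (hp.comp pt_sigma_fst)
      (mqw_cell (hp.comp pt_sigma_fst) (hs.comp pt_sigma_fst)
        (pt_pow_ro.comp (hp.comp pt_sigma_fst)) (hx.comp pt_sigma_fst) (hy.comp pt_sigma_fst)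
        D.sigma_snd.fst.pt) D.sigma_snd.snd (hh.comp pt_sigma_fst))
    (PS.dMul (hp.comp pt_sigma_fst)
      (d_ctl (hp.comp pt_sigma_fst) (PT.const false) (hs.comp pt_sigma_fst) D.sigma_snd)
      (d_d0.app (hp.comp pt_sigma_fst) (hh.comp pt_sigma_fst)))

end Aux

theorem Cx.d_w0 : D3 fun c => A.st c false (l ^ ro Y c - 1) (zz c) (zz c) :=
  mqw_st A pt_sigma_fst (PT.sub (pt_pow_ro.comp pt_sigma_fst) (PT.const 1)) (pt_zz pt_sigma_fst)
    (pt_zz pt_sigma_fst) D.s1 D.s2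

theorem pt_solq (B : Type) [Enc B] (p : B → VI) (v : ∀ b, (II Y).T (p b) → Y.Tab (p b))
    (hp : PT p) (hv : D3 v) : PT fun b => sol Y (p b) (v b) := by
  refine PT.map (f := fun b i => decide (v b (.inl (false, .inl ())) (dig l _ (l * i)) = 1))
    (PT.decide ?_) (PT.range (pt_nn hp) (pb_nn.comp hp))
  have hq : PT fun q : B × ℕ => q.1 := by fun_prop
  exact D.eq (hv.app hq (D.inl (D.pair (D.const false) (D.inl (D.const ()))))
    (d_dig (hp.comp hq) (by fun_prop))) (PS.dOne (hp.comp hq))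

end Vale.Agent.P330Q.Mq
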