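import Vale.Agent.P330Q.MqH
import Vale.Agent.P330Q.MqI
import Vale.Agent.P330Q.MqW
import Vale.Agent.P330Q.MqV

/-! End-of-Line as a reversible machine on tables of quasi-linear size. -/

namespace Vale.Agent.P330Q

open Vale.Agent.Lib.PolyTime Vale.Agent.Lib.PolyTime.Q Vale.Agent.P330 Vale.Agent.P330.Mach Finset
open scoped Classical BigOperators

namespace Mq

variable {l : ℕ} [Fact l.Prime] {Y : PS VI l} (A : Cx Y) {c : VI}

theorem Cx.st_zero (φ : Bool) (x y y' : List Bool) : A.st c φ 0 x y = A.st c φ 0 x y' := by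
  have e : tr Y c 0 y = tr Y c 0 y' := funext fun h => by simp [tr]
  unfold Cx.st
  rw [e]

theorem Cx.sol_st (φ : Bool) (s : ℕ) {x : List Bool} (hx : x.length = nn c) (y : List Bool) :
    sol Y c (A.st c φ s x y) = x := A.sol_of hx rfl

theorem Cx.move (d φ : Bool) {s : ℕ} (hs : s < l ^ ro Y c) {x : List Bool} (hx : x.length = nn c)
    (hb : d = φ → s + 1 = l ^ ro Y c → fn c (!φ) (fn c φ x) = x) :
    ∃ φ' s' x', s' < l ^ ro Y c ∧ x'.length = nn c ∧
      (φ' = !d → s' + 1 = l ^ ro Y c → d = φ ∧ s + 1 = l ^ ro Y c ∧ x' = fn c φ x) ∧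
      (fun i => A.stp c d i (A.st c φ s x (fn c φ x))) = A.st c φ' s' x' (fn c φ' x') ∧
      (fun i => A.stp c (!d) i (A.st c φ' s' x' (fn c φ' x'))) = A.st c φ s x (fn c φ x) := by
  have h1 : 1 < l ^ ro Y c := Nat.one_lt_pow (by have := A.two_le c; omega) l_one
  rw [A.stp_st d φ hs hx]
  by_cases h : d = φ ∧ s + 1 = l ^ ro Y c
  · obtain ⟨rfl, h⟩ := h
    refine ⟨!d, s, fn c d x, hs, fn_len _ _, fun _ _ => ⟨rfl, h, rfl⟩, ?_, ?_⟩
    · rw [if_pos ⟨rfl, h⟩, hb rfl h]
    · rw [A.stp_st _ _ hs (fn_len _ _), if_pos ⟨rfl, h⟩, hb rfl h, Bool.not_not]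
  rw [if_neg h]
  by_cases e : d = φ
  · subst e
    have h2 : s + 1 ≠ l ^ ro Y c := fun e => h ⟨rfl, e⟩
    refine ⟨d, s + 1, x, by omega, hx, fun e => by simp at e, by simp [nfl, nct, h2], ?_⟩
    rw [A.stp_st _ _ (by omega) hx]
    simp [nfl, nct]
  obtain rfl : φ = !d := by cases d <;> cases φ <;> simp_all
  rcases Nat.eq_zero_or_pos s with rfl | h0
  · refine ⟨d, 0, x, hs, hx, fun e => by simp at e, ?_, ?_⟩
    · simpa [nfl, nct] using A.st_zero _ _ _ _
    · rw [A.stp_st _ _ hs hx]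
      simpa [nfl, nct] using A.st_zero _ _ _ _
  · refine ⟨!d, s - 1, x, by omega, hx, fun _ e => by omega, by simp [nfl, nct, h0.ne'], ?_⟩
    rw [A.stp_st _ _ (by omega) hx]
    have h2 : s - 1 + 1 = s := by omega
    simp [nfl, nct, h2, hs.ne]

theorem Cx.ok : A.mach.OK where
  pp_S := A.pp_stp true
  pp_P := A.pp_stp false
  pp_tz := A.pp_tz
  pp_ty := A.pp_ty
  d_φ := A.d_phi
  d_w0 := A.d_w0
  pt_sol := pt_solq
  gap := A.gap
  val0 c := by
    have h := A.val_st (s := l ^ ro Y c - 1) (Nat.sub_lt (Nat.pow_pos l_one.le) one_pos) false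
      (x := zz c) (by simp [zz])
    rwa [show fn c false (zz c) = zz c from c.2.2.2.2.1] at h
  fwd c u hu := by
    obtain ⟨φ, s, x, hs, hx, rfl⟩ := A.of_val hu
    have h1 : 0 < l ^ ro Y c := Nat.pow_pos l_one.le
    by_cases hb : true = φ → s + 1 = l ^ ro Y c → fn c (!φ) (fn c φ x) = x
    · obtain ⟨φ', s', x', a1, a2, a3, a4, a5⟩ := A.move true φ hs hx hb
      refine .inr ⟨?_, fun e => ?_, ?_⟩
      · exact (show (fun i => A.mach.S c i _) = _ from a4) ▸ A.val_st a1 φ' a2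
      · have e1 : A.st c φ' s' x' (fn c φ' x') = A.st c false _ (zz c) (zz c) := a4.symm.trans e
        obtain ⟨b1, b2⟩ := A.st_ctl_inj a1 (Nat.sub_lt h1 one_pos) e1
        have b3 := A.sol_st φ' s' a2 (fn c φ' x')
        rw [e1, A.sol_st _ _ (by simp [zz])] at b3
        obtain ⟨rfl, b4, b5⟩ := a3 b1 (by omega)
        have b6 := hb rfl b4
        rw [← b5, ← b3, show fn c (!true) (zz c) = zz c from c.2.2.2.2.1] at b6
        rw [← b6, ← b3] at b5
        exact c.2.2.2.2.2.1 b5.symm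
      · exact (show (fun i => A.mach.S c i _) = _ from a4) ▸ a5
    · push Not at hb
      obtain ⟨rfl, -, hb⟩ := hb
      rw [show A.mach.sol c _ = x from A.sol_st true s hx _]
      refine .inl ⟨hx, fun e => hb ?_, .inl hb⟩
      rw [e]
      exact c.2.2.2.2.2.2
  bwd c v hv h0 := by
    obtain ⟨φ, s, x, hs, hx, rfl⟩ := A.of_val hv
    by_cases hb : false = φ → s + 1 = l ^ ro Y c → fn c (!φ) (fn c φ x) = x
    · obtain ⟨φ', s', x', a1, a2, -, a4, a5⟩ := A.move false φ hs hx hb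
      refine .inr ⟨?_, ?_⟩
      · exact (show (fun i => A.mach.P c i _) = _ from a4) ▸ A.val_st a1 φ' a2
      · exact (show (fun i => A.mach.P c i _) = _ from a4) ▸ a5
    · push Not at hb
      obtain ⟨rfl, h1, hb⟩ := hb
      rw [show A.mach.sol c _ = x from A.sol_st false s hx _]
      refine .inl ⟨hx, fun e => h0 ?_, .inr hb⟩
      rw [show x = zz c from e, show s = l ^ ro Y c - 1 by omega,
        show fn c false (zz c) = zz c from c.2.2.2.2.1]
      rfl

theorem pt_clog : PT fun c : VI => Nat.clog l (nn c + mm c) := by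
  have hN : PT fun c : VI => nn c + mm c := by fun_prop
  have hB : PB fun c : VI => nn c + mm c := pb_nn.add pb_mm
  have h1 : PT fun z : VI × ℕ => l ^ min z.2 (nn z.1 + mm z.1) :=
    pt_pow (PT.const l) (by fun_prop) ((hB.comp (PT.fst PT.id)).of_le fun _ => min_le_right _ _)
  have h2 : PT fun c : VI => (List.range (nn c + mm c + 1)).find?
      fun k => decide (nn c + mm c ≤ l ^ min k (nn c + mm c)) :=
    PT.find? (by fun_prop) (PT.range (by fun_prop) (hB.add (PB.const 1)))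
  refine (show PT fun c : VI => ((List.range (nn c + mm c + 1)).find?
      fun k => decide (nn c + mm c ≤ l ^ min k (nn c + mm c))).getD 0 by fun_prop).congr fun c => ?_
  have h3 : Nat.clog l (nn c + mm c) ≤ nn c + mm c :=
    Nat.clog_le_of_le_pow (Nat.lt_pow_self l_one).le
  rw [List.find?_range_eq_some.2 ⟨?_, List.mem_range.2 (Nat.lt_succ_of_le h3), fun j hj => ?_⟩,
    Option.getD_some]
  · simpa [h3] using Nat.le_pow_clog l_one _
  · simpa [(hj.le.trans h3)] using (Nat.lt_clog_iff_pow_lt l_one).1 hj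

theorem size_le (c : VI) : nn c + mm c ≤ NI c := by
  refine le_trans ?_ (RCompx.le_len (natsI c.1))
  have h : ∀ L : List (ℕ × ℕ × ℕ), L.length ≤ (L.flatMap fun g => [g.1, g.2.1, g.2.2]).length :=
    fun L => by induction L <;> simp_all; omega
  have h1 := h c.1.2.1.1
  have h2 := h c.1.2.2.1
  have h3 := (okS c).1
  simp only [natsI, natsC, List.length_cons, List.length_append, mm, mS] at *
  omega

theorem pow_clog_le (N : ℕ) : l ^ Nat.clog l N ≤ l * (N + 1) := by
  rcases h : Nat.clog l N with _ | k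
  · exact Nat.mul_pos l_one.le N.succ_pos
  · rw [pow_succ']
    exact Nat.mul_le_mul_left _ (((Nat.lt_clog_iff_pow_lt l_one).1 (by omega)).le.trans N.le_succ)

end Mq

open Mq in
theorem pMach (hK : KitThm) (hR : RouteThm) : PMachThm := by
  intro l _ hl
  refine ⟨fun c => Nat.clog l (nn c + mm c) + 4, PT.add pt_clog (PT.const 4),
    (((Sz.self.succ).cmul l).mul (Sz.const (l ^ 4))).of_le fun c => ?_, fun Y _ hY => ?_⟩
  · rw [pow_add]
    exact Nat.mul_le_mul_right _ ((pow_clog_le _).trans (by have := size_le c; gcongr))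
  beta_reduce at hY
  have h1 : ∀ c, nn c + mm c ≤ ps Y c := fun c => (Nat.le_pow_clog l_one _).trans
    (Nat.pow_le_pow_right l_one.le (by have := hY c; unfold ro; omega))
  have hn : ∀ c, nn c ≤ ps Y c := fun c => by have := h1 c; omega
  have hm : ∀ c, mm c ≤ ps Y c := fun c => by have := h1 c; omega
  obtain ⟨K⟩ := hK VI l Y
  obtain ⟨pos, col, d1, d2, d3⟩ := hR l VI Y.n (ro Y) Y.pt_n (pt_ro Y) Y.pb_H
    (fun _ => Nat.sub_le _ _) (actH Y) (srcH Y) pt_actH d_srcH
    (fun c g h => ⟨h.1, srcH_inH hl (hn c) (hm c) h⟩) fun c g g' => srcH_inj hl (hn c) (hm c)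
  exact ⟨_, Cx.ok ⟨K, pos, col, d1, d2, d3, hl, fun c => by have := hY c; omega, hn, hm⟩⟩

end Vale.Agent.P330Q
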