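import Vale.Agent.P330Q.LPBP

/-! Plain programs are block programs. -/

namespace Vale.Agent.P330Q

open Vale.Agent.Lib.PolyTime Vale.Agent.P330 Finset
open scoped Classical BigOperators

section
variable {l : ℕ} [Fact l.Prime] {F A : Type} [Field F] [Algebra (ZMod l) F] [Fintype A] {n : ℕ}

theorem nodeVal_dep (k : ℕ) (cs : (Fin n → ZMod l) → F) (a : Fin 5 → A → F)
    {v v' : A → (Fin n → ZMod l) → F} (h : ∀ m i, a m i ≠ 0 → v i = v' i) :
    nodeVal k cs a v = nodeVal k cs a v' := by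
  have e : ∀ m i x, a m i * v i x = a m i * v' i x := fun m i x => by
    by_cases h0 : a m i = 0
    · rw [h0, zero_mul, zero_mul]
    · rw [h m i h0]
  funext x
  simp only [nodeVal, e]

theorem nodeVal_map {X : Type} (E : ((Fin n → ZMod l) → F) →ₗ[F] X → F) (k : ℕ)
    (cs : (Fin n → ZMod l) → F) (a : Fin 5 → A → F) (v : A → (Fin n → ZMod l) → F) (x : X) :
    E (nodeVal k cs a v) x = E cs x + ∑ i, a 0 i * E (v i) x +
      ∑ i, a 1 i * E (fun h => v i (h + ee k)) x +
      ∑ i, a 2 i * E (fun h => algebraMap (ZMod l) F (cd k h) * v i h) x +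
      (∑ i, a 3 i * ∑ y, v i y) * ∑ i, a 4 i * E (v i) x := by
  have e : nodeVal k cs a v = cs + ∑ i, a 0 i • v i + ∑ i, a 1 i • (fun h => v i (h + ee k)) +
      ∑ i, a 2 i • (fun h => algebraMap (ZMod l) F (cd k h) * v i h) +
      (∑ i, a 3 i * ∑ y, v i y) • ∑ i, a 4 i • v i := by
    funext h
    simp only [nodeVal, Pi.add_apply, Finset.sum_apply, Pi.smul_apply, smul_eq_mul, mul_sum,
      mul_left_comm (algebraMap (ZMod l) F (cd k h))]
    rw [sum_comm (f := fun x i => a 3 i * v i x)]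
  rw [e]
  simp only [map_add, map_sum, map_smul, Pi.add_apply, Finset.sum_apply, Pi.smul_apply,
    smul_eq_mul]

/-- Evaluation of an acyclic program by iteration. -/
theorem dag_iter {I J : Type} [Fintype I] [Fintype J] (rk k : J → ℕ)
    (cs : J → (Fin n → ZMod l) → F) (a : J → Fin 5 → I ⊕ J → F)
    (hr : ∀ j m j', a j m (.inr j') ≠ 0 → rk j' < rk j) (w : I → (Fin n → ZMod l) → F)
    (val : J → (Fin n → ZMod l) → F)
    (hv : ∀ j, val j = nodeVal (k j) (cs j) (a j) (Sum.elim w val)) :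
    (fun u : I ⊕ J → (Fin n → ZMod l) → F => Sum.elim (fun i => u (.inl i))
      fun j => nodeVal (k j) (cs j) (a j) u)^[Fintype.card J + 1] (Sum.elim w 0) =
      Sum.elim w val := by
  set G := fun u : I ⊕ J → (Fin n → ZMod l) → F => Sum.elim (fun i => u (.inl i))
    fun j => nodeVal (k j) (cs j) (a j) u with hG
  have key : ∀ t, (∀ i, G^[t] (Sum.elim w 0) (.inl i) = w i) ∧
      ∀ j, #{j' | rk j' < rk j} < t → G^[t] (Sum.elim w 0) (.inr j) = val j := fun t => by
    induction t with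
    | zero => exact ⟨fun _ => rfl, fun _ h => absurd h (Nat.not_lt_zero _)⟩
    | succ t ih =>
      rw [Function.iterate_succ_apply']
      refine ⟨ih.1, fun j hj => (nodeVal_dep _ _ _ fun m i hi => ?_).trans (hv j).symm⟩
      cases i with
      | inl i => exact ih.1 i
      | inr j' =>
        have h1 := hr j m j' hi
        refine ih.2 j' (lt_of_lt_of_le (card_lt_card (t := {j' | rk j' < rk j})
          ⟨fun z hz => ?_, fun hs => ?_⟩) (Nat.le_of_lt_succ hj))
        · simp only [mem_filter, mem_univ, true_and] at hz ⊢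
          omega
        · simpa using hs (mem_filter.2 ⟨mem_univ j', h1⟩)
  funext z
  cases z with
  | inl i => exact (key _).1 i
  | inr j => exact (key _).2 j (Nat.lt_succ_of_le (card_le_univ _))

end

namespace World
variable {C : Type} [Enc C] {l : ℕ} [Fact l.Prime] {a : C → ℕ} {S B : Type} [Fintype S] [Enc S]
  [Fintype B] [Enc B] {δ0 lam : ℝ} {W : World C l a S B δ0 lam} {b1 : B}

/-- A linear program with one input acts on every lane. -/
theorem BP.col (hb : ∀ c x, W.π c b1 x = x) {L O : SF W.P.lg} {A : C → Type}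
    {i : ∀ c, A c → L.T c → W.Wd c} {m : ∀ c, W.Wd c → O.T c → W.Wd c}
    (h : W.LP (.const _ Unit) O fun c y => m c (y ())) (hi : ∀ c s k, i c s k ∈ W.T c) :
    W.BP L (L.prod O) A i fun c s z => m c (i c s z.1) z.2 :=
  (lpbp l C S B δ0 lam a W b1 hb L _ O _ h).2.wire
    (fun c s => ⟨fun z => i c s z.1, fun z => hi c s z.1⟩) (ρ := fun _ z => some z.1)
    (σ := fun _ k => k) (D.some D.s1) D.sigma_snd (fun _ _ _ => rfl) fun _ _ _ => rfl

end World

/-- The coordinate number `k`, if it exists. -/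
def kap (n k : ℕ) : Option (Fin n) := if h : k < n then some ⟨k, h⟩ else none

theorem d_kap {C : Type} [Enc C] {n k : C → ℕ} (hn : PT n) (hk : PT k) :
    D fun c => kap (n c) (k c) :=
  D.dite (PT.lt hk hn) (D.some (D.fin_iff.2 (hk.comp pt_val))) D.none

/-- One layer of nodes. -/
theorem Mem.layer {C : Type} [Enc C] {l : ℕ} [Fact l.Prime] {a : C → ℕ} {S B : Type} [Fintype S]
    [Enc S] [Fintype B] [Enc B] {δ0 lam : ℝ} {W : World C l a S B δ0 lam} (M : Mem W)
    {I J : SF W.P.lg} {k : ∀ c, J.T c → ℕ} {cs : ∀ c, J.T c → W.P.Tab c}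
    {co : ∀ c, J.T c → Fin 5 → I.T c → W.P.F c} (hk : PT fun z : Σ c, J.T c => k z.1 z.2)
    (hc : D3 cs) (ha : ∀ m, D3 fun c j i => co c j m i) :
    W.BP I J (fun c => I.T c → W.P.Tab c) (fun c u i => M.E c (u i))
      fun c u j => M.E c (nodeVal (k c j) (cs c j) (co c j) u) := by
  have hb := M.b1_eq
  have hi : ∀ c (u : I.T c → W.P.Tab c) i, M.E c (u i) ∈ W.T c := fun c u i => M.E_mem c _
  have p := (((World.BP.id hi).par hb (World.BP.col hb M.lp_sh hi)).par hb
    (World.BP.col hb (m := fun c y _ => M.nm c y) M.lp_nm hi)).par hb (World.BP.col hb M.lp_dl hi)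
  have dκ : D2 fun c (j : J.T c) => kap (W.P.n c) (k c j) := d_kap (W.P.pt_n.comp pt_sigma_fst) hk
  have dE : D2 fun c (z : W.Ps c × J.T c) => M.E c (cs c z.2) z.1 :=
    (M.d_E (Σ c, J.T c) Sigma.fst (fun z => cs z.1 z.2) pt_sigma_fst
      (hc.app (pt_sigma_fst.comp pt_sigma_fst) (D.sigma_snd.comp pt_sigma_fst) D.sigma_snd)).app
      (pt_sigma_mk pt_sigma_fst D.s2) D.s1
  have de := M.d_e.fp
  have dκ' := dκ.fp
  have drd : ∀ ⦃B' : Type⦄ [Enc B'] ⦃s : B' → S⦄, D s → D fun b => M.rd (s b) :=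
    fun _ _ _ hs => D.cases hs.pt (fun s _ => M.rd s) fun _ => D.const _
  have da : ∀ m, D2 fun c (z : (W.Ps c × J.T c) × I.T c) => co c z.1.2 m z.2 := fun m =>
    (ha m).app pt_sigma_fst D.s1.snd D.s2
  refine p.comp hb (World.BP.step (g := fun c z w => M.E c (cs c z.2) z.1 +
      ∑ i, co c z.2 0 i * w (M.b1, .inl (.inl (.inl i))) +
      ∑ i, co c z.2 1 i * w (M.b1, .inl (.inl
        ((kap (W.P.n c) (k c z.2)).elim (.inl i) fun t => .inr (i, t)))) +
      ∑ i, co c z.2 2 i * (algebraMap (ZMod l) _ (cd (k c z.2) (M.e c z.1.1).1) *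
          w (M.b1, .inl (.inl (.inl i))) -
        ((kap (W.P.n c) (k c z.2)).map fun t =>
          (M.rd z.1.2, Sum.inr (i, t, (M.e c z.1.1).2, z.1.2))).elim 0 w) +
      (∑ i, co c z.2 3 i * w (M.rd z.1.2, .inl (.inr (i, ())))) *
        ∑ i, co c z.2 4 i * w (M.b1, .inl (.inl (.inl i)))) ?_ p.mem
    (fun c u j => M.E_mem c _) fun c u j x => ?_)
  · refine QG.add (AG.qg (AG.add (AG.add (AG.add (AG.const dE)
      (AG.sum I.pf (AG.cmul (da 0) (AG.var ?_)))) (AG.sum I.pf (AG.cmul (da 1) (AG.var ?_))))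
      (AG.sum I.pf (AG.cmul (da 2) (AG.sub (AG.cmul ?_ (AG.var ?_))
        (AG.ovar (y := fun _ v => v) ?_ D.sigma_snd))))))
      (AG.mul (AG.sum I.pf (AG.cmul (da 3) (AG.var ?_)))
        (AG.sum I.pf (AG.cmul (da 4) (AG.var ?_))))
    · show D _; fun_prop
    · show D _; fun_prop
    · exact PS.dCast pt_sigma_fst (PS.pt_cd pt_sigma_fst (pt_app hk pt_sigma_fst D.s1.snd)
        (M.d_e.app pt_sigma_fst D.s1.fst.fst).fst)
    · show D _; fun_prop
    · show D _; fun_prop
    · show D _; fun_prop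
    · show D _; fun_prop
  · obtain ⟨g, s⟩ := x
    rw [nodeVal_map]
    simp only [hb, M.rd_eq, Sum.elim_inl, Sum.elim_inr, M.nm_E, M.E_free]
    congr 3
    · refine sum_congr rfl fun i _ => congrArg _ ?_
      unfold kap
      split_ifs with h
      · exact (congrFun (M.sh_E c (u i) ⟨_, h⟩) _).symm
      · have : (ee (k c j) : W.P.H c) = 0 := funext fun t =>
          if_neg fun e : (t : ℕ) = k c j => h (e ▸ t.2)
        simp [this]
    · funext i
      congr 1
      unfold kap cd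
      split_ifs with h
      · rw [M.dl_E c (u i) ⟨_, h⟩]
        simp [M.rd_eq]
      · simp [← Pi.zero_def]

theorem ppbp (l : ℕ) [Fact l.Prime] : PPBP l := by
  intro C S B _ _ _ _ _ δ0 lam a W M I O f h
  obtain ⟨J, rk, k, cs, co, out, -, h2, h3, h4, h5, h6, h7⟩ := h
  have hb := M.b1_eq
  have p := (((World.BP.id (I := I.sum J) (i := fun c (u : _ → W.P.Tab c) i => M.E c (u i))
    fun c u i => M.E_mem c _).wireOut (O' := I) (D.inl D.sigma_snd)).par hb
    (M.layer (I := I.sum J) h2 h3 h4)).congr (fun _ _ _ => rfl)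
    (o' := fun c u z => M.E c (Sum.elim (fun i => u (.inl i))
      (fun j => nodeVal (k c j) (cs c j) (co c j) u) z)) fun c u z => by cases z <;> rfl
  refine (World.BP.iter hb (F := fun c u => Sum.elim (fun i => u (.inl i))
    fun j => nodeVal (k c j) (cs c j) (co c j) u) J.pf.pt_card J.pl p).wire
    (fun c w => Sum.elim w 0) (ρ := fun _ z => Sum.elim some (fun _ => none) z)
    (D.sum_elim D.sigma_snd (D.some D.sigma_snd) D.none) h5 (fun c w z => ?_) fun c w o => ?_
  · cases z with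
    | inl i => rfl
    | inr j => exact map_zero _
  · obtain ⟨val, h8, h9⟩ := h7 c w
    rw [h9, dag_iter (rk c) (k c) (cs c) (co c) (h6 c) w val h8]

end Vale.Agent.P330Q
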