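import Vale.Agent.P330Q.PrgS

/-! Toolkit for field families. -/

namespace Vale.Agent.P330Q

open Vale.Agent.Lib.PolyTime Vale.Agent.P330 Finset Polynomial
open scoped Classical BigOperators

namespace KFt

variable {U : Type} [Enc U] {l : ℕ} [Fact l.Prime] (Φ : FF U l)

theorem of_co {x : ∀ u, Φ.F u} (h : PT fun z : Σ u, Fin (Φ.m u) => Φ.co z.1 (x z.1) z.2) : D x :=
  (Φ.d_co'.app PT.id (D.fn_mk (f := fun u i => Φ.co u (x u) i) Φ.pt_m Φ.pb_m (D.of_pt h))).congr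
    fun u => ((Φ.co u).symm_apply_apply _).symm

theorem to_co {x : ∀ u, Φ.F u} (h : D x) :
    PT fun z : Σ u, Fin (Φ.m u) => Φ.co z.1 (x z.1) z.2 :=
  (D.fn_app ((Φ.d_co.app PT.id h).comp pt_sigma_fst) D.sigma_snd).pt

theorem zero : D fun u => (0 : Φ.F u) :=
  of_co Φ ((PT.const (0 : ZMod l)).congr fun z => by simp)

theorem co_one (u : U) (i : Fin (Φ.m u)) : Φ.co u 1 i = if (i : ℕ) = 0 then 1 else 0 := by
  have := Φ.co_θ u ⟨0, i.pos⟩
  rw [pow_zero] at this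
  rw [this, Pi.single_apply]
  simp only [Fin.ext_iff]

theorem one : D fun u => (1 : Φ.F u) := by
  have h1 : PT fun z : Σ u, Fin (Φ.m u) => (z.2 : ℕ) := D.fin_iff.1 D.sigma_snd
  have h2 : PT fun z : Σ u, Fin (Φ.m u) => (z.2 : ℕ) = 0 := D.eq (D.of_pt h1) (D.const 0)
  have h3 : PT fun z : Σ u, Fin (Φ.m u) => if (z.2 : ℕ) = 0 then (1 : ZMod l) else 0 :=
    (D.ite h2 (D.const 1) (D.const 0)).pt
  exact of_co Φ (h3.congr fun z => co_one Φ z.1 z.2)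

theorem bound : ∃ b : U → ℕ, PB b ∧ ∀ u (x : Φ.F u), sz x ≤ b u := by
  obtain ⟨Q, hQ⟩ := Φ.d_co'.2
  obtain ⟨k, hk⟩ := dt_sz_fin (ZMod l)
  refine ⟨fun u => Q.eval (2 * sz u + Φ.m u * (2 * k + 2) + 1),
    ((((PB.const 2).mul PB.sz).add (Φ.pb_m.mul (PB.const _))).add (PB.const 1)).eval Q,
    fun u x => ?_⟩
  have h1 := hQ ⟨u, Φ.co u x⟩
  simp only [LinearEquiv.symm_apply_apply] at h1
  refine h1.trans (eval_mono Q ?_)
  have h2 : sz (Φ.co u x) ≤ Φ.m u * (2 * k + 2) :=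
    (sz_le_of_forall (l := List.ofFn _) fun y _ => hk y).trans (by simp)
  rw [sz_sigma]
  exact Nat.add_le_add_right (Nat.add_le_add_left h2 _) _

theorem sum {X : U → Type} [∀ u, Enc (X u)] [∀ u, Fintype (X u)] (hX : PFam X)
    {f : ∀ u, X u → Φ.F u} (hf : D2 f) : D fun u => ∑ x, f u x := by
  have h1 : PT fun w : Σ z : (Σ u, Fin (Φ.m u)), X z.1 => w.1.1 := pt_sigma_fst.comp pt_sigma_fst
  exact of_co Φ (((hX.comap pt_sigma_fst).pt_sumZ
    (f := fun (z : Σ u, Fin (Φ.m u)) x => Φ.co z.1 (f z.1 x) z.2)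
    (D.fn_app (Φ.d_co.app h1 (hf.app h1 D.sigma_snd)) (D.sigma_snd.comp pt_sigma_fst)).pt).congr
    fun z => by simp)

theorem prod {X : U → Type} [∀ u, Enc (X u)] [∀ u, Fintype (X u)] (hX : PFam X)
    {f : ∀ u, X u → Φ.F u} (hf : D2 f) : D fun u => ∏ x, f u x := by
  obtain ⟨L, hL, hL'⟩ := hX
  obtain ⟨b, hb, hb'⟩ := bound Φ
  exact (D.foldl Φ.d_mul (hL.map hf) (one Φ) hb fun c _ => hb' c _).congr fun u => by
    rw [dt_prod (hL' u), List.prod_eq_foldl]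

theorem pow {x : ∀ u, Φ.F u} {n : U → ℕ} (hx : D x) (hn : PT n) (hn' : PB n) :
    D fun u => x u ^ n u := by
  obtain ⟨b, hb, hb'⟩ := bound Φ
  exact (D.iterate (f := fun u y => y * x u)
    (Φ.d_mul.app pt_sigma_fst D.sigma_snd (hx.comp pt_sigma_fst)) (one Φ) hn hn' hb
    fun c _ _ => hb' c _).congr fun u => by
      rw [mul_right_iterate]
      exact (one_mul _).symm

theorem deg (u : U) (p : (ZMod l)[X]) (hp : p ≠ 0) (h : p.natDegree < Φ.m u) :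
    aeval (Φ.θ u) p ≠ 0 := by
  intro h0
  have h1 := congrFun (congrArg (Φ.co u) h0) ⟨_, h⟩
  rw [aeval_eq_sum_range' h, Finset.sum_range, map_sum, map_zero] at h1
  simp only [map_smul, Φ.co_θ, Finset.sum_apply, Pi.smul_apply, Pi.single_apply, smul_eq_mul,
    mul_ite, mul_one, mul_zero, Finset.sum_ite_eq, Finset.mem_univ, if_true, Pi.zero_apply] at h1
  exact hp (leadingCoeff_eq_zero.1 h1)

end KFt

theorem s_ft : S_ft := by
  intro U _ l _ Φ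
  refine ⟨KFt.zero Φ, KFt.one Φ, fun x y hx hy => ⟨?_, ?_, Φ.d_mul.app PT.id hx hy⟩,
    fun x hx => ?_, fun a ha => ?_, KFt.bound Φ,
    fun X _ _ hX f hf => ⟨KFt.sum Φ hX hf, KFt.prod Φ hX hf⟩,
    fun x n hx hn hn' => KFt.pow Φ hx hn hn', KFt.deg Φ, fun u => ?_⟩
  · exact KFt.of_co Φ ((pt_addZ (KFt.to_co Φ hx) (KFt.to_co Φ hy)).congr fun z => by simp)
  · exact KFt.of_co Φ ((pt_subZ (KFt.to_co Φ hx) (KFt.to_co Φ hy)).congr fun z => by simp)
  · exact KFt.of_co Φ ((pt_negZ (KFt.to_co Φ hx)).congr fun z => by simp)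
  · exact KFt.of_co Φ ((pt_mulZ (ha.comp pt_sigma_fst) (KFt.to_co Φ (KFt.one Φ))).congr fun z => by
      rw [Algebra.algebraMap_eq_smul_one, map_smul, Pi.smul_apply, smul_eq_mul])
  · rw [Fintype.card_congr (Φ.co u).toEquiv, Fintype.card_fun, ZMod.card, Fintype.card_fin]

end Vale.Agent.P330Q
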