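import Vale.Agent.P330Q.PrgS

/-! Inverses of matrices and of scalars over field families are computable. -/

namespace Vale.Agent.P330Q

open Vale.Agent.Lib.PolyTime Vale.Agent.P330 Finset Polynomial
open scoped Classical BigOperators

namespace KMinv

/-- A linear system over `F` as a homogeneous system over the prime field. -/
theorem alg {k F I : Type} [Field k] [Field F] [Algebra k F] [Fintype I] {n : ℕ}
    (co : F ≃ₗ[k] (Fin n → k)) (θ : F) (hθ : ∀ i : Fin n, co (θ ^ (i : ℕ)) = Pi.single i 1)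
    (M : I → I → F) (b : I → F) (v : Option (I × Fin n) → k) :
    (∀ y : I × Fin n, ∑ x : Option (I × Fin n),
      co (x.elim (-b y.1) fun w => M y.1 w.1 * θ ^ (w.2 : ℕ)) y.2 * v x = 0) ↔
    ∀ i, ∑ j, M i j * co.symm (fun t => v (some (j, t))) = algebraMap k F (v none) * b i := by
  have h1 : ∀ j, co.symm (fun t => v (some (j, t))) = ∑ t : Fin n, v (some (j, t)) • θ ^ (t : ℕ) :=
    fun j => by
      rw [LinearEquiv.symm_apply_eq, map_sum]
      funext s
      simp [hθ, Pi.single_apply]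
  have h2 : ∀ (i : I) (s : Fin n), ∑ x : Option (I × Fin n),
      co (x.elim (-b i) fun w => M i w.1 * θ ^ (w.2 : ℕ)) s * v x =
      co (∑ j, M i j * co.symm (fun t => v (some (j, t))) - algebraMap k F (v none) * b i) s :=
    fun i s => by
      rw [Fintype.sum_option, Fintype.sum_prod_type, ← Algebra.smul_def]
      simp only [h1, mul_sum, mul_smul_comm, map_sub, map_sum, map_smul, Option.elim_none,
        Option.elim_some, map_neg, Pi.neg_apply, Pi.sub_apply, Finset.sum_apply, Pi.smul_apply,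
        smul_eq_mul, mul_comm (v _)]
      ring
  refine ⟨fun h i => sub_eq_zero.1 (co.map_eq_zero_iff.1 (funext fun s => ?_)), fun h y => ?_⟩
  · rw [← h2]
    exact h (i, s)
  · rw [h2, h, sub_self, map_zero, Pi.zero_apply]

/-- The solution of a uniquely solvable system is computable. -/
theorem solve (hf : S_ft) {U : Type} [Enc U] {l : ℕ} [Fact l.Prime] (Φ : FF U l)
    {I : U → Type} [∀ u, Enc (I u)] [∀ u, Fintype (I u)] (hI : PFam I)
    {M : ∀ u, I u → I u → Φ.F u} {b z : ∀ u, I u → Φ.F u} (hM : DM M) (hb : D2 b)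
    (hinj : ∀ u (w : I u → Φ.F u), (∀ i, ∑ j, M u i j * w j = 0) → w = 0)
    (hz : ∀ u i, ∑ j, M u i j * z u j = b u i) : D2 z := by
  have hY : PFam fun u => I u × Fin (Φ.m u) := hI.prod (PFam.fin Φ.pt_m Φ.pb_m)
  have hmul : ∀ ⦃B : Type⦄ [Enc B] ⦃p : B → U⦄ ⦃x y : ∀ c, Φ.F (p c)⦄, PT p → D x → D y →
      D fun c => x c * y c := fun B _ p x y hp hx hy => Φ.d_mul.app hp hx hy
  obtain ⟨v, hv, h⟩ := PFam.kernel (l := l) hY.option hY
    (M := fun u y x => Φ.co u (x.elim (-b u y.1) fun w => M u y.1 w.1 * Φ.θ u ^ (w.2 : ℕ)) y.2)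
    (by
      let B := Σ u, (I u × Fin (Φ.m u)) × Option (I u × Fin (Φ.m u))
      have p1 : PT fun c : B => c.1 := pt_sigma_fst
      have p2 : PT fun c : Σ c : B, I c.1 × Fin (Φ.m c.1) => c.1.1 := p1.comp pt_sigma_fst
      refine (D.fn_app (Φ.d_co.app p1 (D.option_elim D.sigma_snd.snd ?_ ?_))
        D.sigma_snd.fst.snd).pt
      · exact (hf _ l (Φ.comap _ p1)).2.2.2.1 _ (hb.app p1 D.sigma_snd.fst.fst)
      · refine hmul p2 (hM.app p2 (D.sigma_snd.comp pt_sigma_fst).fst.fst D.sigma_snd.fst) ?_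
        exact (hf _ l (Φ.comap _ p2)).2.2.2.2.2.2.2.1 _ _ (Φ.d_θ.comp p2)
          (D.fin_iff.1 D.sigma_snd.snd) ((Φ.pb_m.comp p2).of_le fun c => c.2.2.2.le))
    fun u => ⟨fun x => x.elim 1 fun w => Φ.co u (z u w.1) w.2,
      fun h0 => one_ne_zero (congrFun h0 none), (alg _ _ (Φ.co_θ u) _ _ _).2 fun i => by
        simpa using hz u i⟩
  have h1 := fun u => (alg _ _ (Φ.co_θ u) _ _ _).1 (h u).2
  have h2 : ∀ u, v u none ≠ 0 := fun u h0 => (h u).1 (funext fun x => by
    have := hinj u _ fun i => by rw [h1, h0, map_zero, zero_mul]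
    rcases x with _ | ⟨j, t⟩
    · exact h0
    · exact congrFun ((Φ.co u).symm.map_eq_zero_iff.1 (congrFun this j)) t)
  have h3 : ∀ u i, z u i = algebraMap (ZMod l) (Φ.F u) (v u none)⁻¹ *
      (Φ.co u).symm fun t => v u (some (i, t)) := fun u i => by
    refine sub_eq_zero.1 (congrFun (hinj u (fun i => z u i - algebraMap (ZMod l) (Φ.F u)
      (v u none)⁻¹ * (Φ.co u).symm fun t => v u (some (i, t))) fun i => ?_) i)
    simp only [mul_sub, sum_sub_distrib, mul_left_comm (M u i _), ← mul_sum, h1, hz]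
    rw [← mul_assoc, ← map_mul, inv_mul_cancel₀ (h2 u), map_one, one_mul, sub_self]
  have p1 : PT fun c : Σ u, I u => c.1 := pt_sigma_fst
  have p2 : PT fun c : Σ c : Σ u, I u, Fin (Φ.m c.1) => c.1.1 := p1.comp pt_sigma_fst
  refine (hmul p1 ((hf _ l (Φ.comap _ p1)).2.2.2.2.1 _ (pt_invZ (dk_app hv p1 D.none)))
    (Φ.d_co'.app p1 (D.fn_mk (Φ.pt_m.comp p1) (Φ.pb_m.comp p1) (D.of_pt ?_)))).congr
    fun c => h3 c.1 c.2
  exact dk_app hv p2 ((D.sigma_snd.comp pt_sigma_fst).pair D.sigma_snd).some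

end KMinv

theorem s_minv (hf : S_ft) : S_minv := by
  intro U _ l _ Φ
  refine ⟨fun I _ _ hI M hM hu => ?_, fun x hx => ?_⟩
  · have p1 : PT fun c : Σ u, I u => c.1 := pt_sigma_fst
    have p2 : PT fun c : Σ c : Σ u, I u, I c.1 => c.1.1 := p1.comp pt_sigma_fst
    have h0 := hf _ l (Φ.comap _ p2)
    have key := KMinv.solve hf (Φ.comap _ p1) (hI.comap p1) (M := fun c => M c.1)
      (b := fun c i => if i = c.2 then 1 else 0) (z := fun c i => (Matrix.of (M c.1))⁻¹ i c.2)
      (hM.app (p1.comp pt_sigma_fst) D.sigma_snd.fst D.sigma_snd.snd)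
      (D.ite (D.sigma_snd.eq (D.sigma_snd.comp pt_sigma_fst)) h0.2.1 h0.1)
      (fun c w hw => Matrix.mulVec_injective_iff_isUnit.2 (hu c.1)
        ((funext hw).trans (Matrix.mulVec_zero _).symm))
      fun c i => by
        have := congrFun (congrFun (Matrix.mul_nonsing_inv _
          ((Matrix.isUnit_iff_isUnit_det _).1 (hu c.1))) i) c.2
        rwa [Matrix.mul_apply, Matrix.one_apply] at this
    exact key.app (p := fun c : Σ u, I u × I u => ⟨c.1, c.2.2⟩)
      (pt_sigma_mk pt_sigma_fst D.sigma_snd.snd) D.sigma_snd.fst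
  · have h0 := hf _ l Φ
    have hp : PT fun u => x u = 0 := hx.eq h0.1
    have key := KMinv.solve hf Φ (I := fun _ => Fin 1) (PFam.const _)
      (M := fun u _ _ => if x u = 0 then 1 else x u) (b := fun u _ => if x u = 0 then 0 else 1)
      (z := fun u _ => (x u)⁻¹) ((D.ite hp h0.2.1 hx).comp pt_sigma_fst)
      ((D.ite hp h0.1 h0.2.1).comp pt_sigma_fst)
      (fun u w hw => funext fun i => by
        have := hw i
        rw [Subsingleton.elim i 0]
        by_cases h : x u = 0 <;> simpa [h] using this)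
      fun u i => by by_cases h : x u = 0 <;> simp [h]
    exact key.app PT.id (D.const 0)

end Vale.Agent.P330Q
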