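import Vale.Agent.P330Q.PPD

/-! Polynomial time arithmetic in the field of a setting of plain programs. -/

namespace Vale.Agent.P330Q

open Vale.Agent.Lib.PolyTime Vale.Agent.P330 Finset
open scoped Classical BigOperators

variable {B C : Type} [Enc B] [Enc C] {l : ℕ} [Fact l.Prime] {Y : PS C l} {p : B → C}

theorem PS.dMul (hp : PT p) {f g : ∀ b, Y.F (p b)} (hf : D f) (hg : D g) :
    D fun b => f b * g b := Y.Φ.d_mul.app hp hf hg

theorem PS.dCo (hp : PT p) {f : ∀ b, Y.F (p b)} (hf : D f) :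
    PT fun z : Σ b, Fin (Y.Φ.m (p b)) => Y.Φ.co (p z.1) (f z.1) z.2 :=
  (D.fn_app (n := fun z : Σ b, Fin (Y.Φ.m (p b)) => Y.Φ.m (p z.1)) (X := fun _ => ZMod l)
    ((Y.Φ.d_co.app hp hf).comp pt_sigma_fst) D.sigma_snd).pt

theorem PS.dOf (hp : PT p) {f : ∀ b, Y.F (p b)}
    (hf : PT fun z : Σ b, Fin (Y.Φ.m (p b)) => Y.Φ.co (p z.1) (f z.1) z.2) : D f :=
  (Y.Φ.d_co'.app hp (D.fn_mk (n := fun b => Y.Φ.m (p b)) (X := fun _ => ZMod l)
    (f := fun b => Y.Φ.co (p b) (f b)) (Y.Φ.pt_m.comp hp) (Y.Φ.pb_m.comp hp) (D.of_pt hf))).congr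
    fun b => by simp

theorem PS.dAdd (hp : PT p) {f g : ∀ b, Y.F (p b)} (hf : D f) (hg : D g) :
    D fun b => f b + g b :=
  PS.dOf hp ((pt_addZ (PS.dCo hp hf) (PS.dCo hp hg)).congr fun z => by simp)

theorem PS.dNeg (hp : PT p) {f : ∀ b, Y.F (p b)} (hf : D f) : D fun b => - f b :=
  PS.dOf hp ((pt_negZ (PS.dCo hp hf)).congr fun z => by simp)

theorem PS.dSub (hp : PT p) {f g : ∀ b, Y.F (p b)} (hf : D f) (hg : D g) :
    D fun b => f b - g b := (PS.dAdd hp hf (PS.dNeg hp hg)).congr fun _ => sub_eq_add_neg _ _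

theorem PS.dZero (hp : PT p) : D fun b => (0 : Y.F (p b)) :=
  PS.dOf hp ((PT.const (0 : ZMod l)).congr fun z => by simp)

theorem PS.dSmul (hp : PT p) {t : B → ZMod l} (ht : PT t) {f : ∀ b, Y.F (p b)} (hf : D f) :
    D fun b => t b • f b :=
  PS.dOf hp ((pt_mulZ (ht.comp pt_sigma_fst) (PS.dCo hp hf)).congr fun z => by simp)

theorem PS.dSum (hp : PT p) {X : B → Type} [∀ b, Enc (X b)] [∀ b, Fintype (X b)] (hX : PFam X)
    {f : ∀ b, X b → Y.F (p b)} (hf : D2 f) : D fun b => ∑ x, f b x := by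
  refine PS.dOf hp ((PFam.pt_sumZ (hX.comap (p := fun z : Σ b, Fin (Y.Φ.m (p b)) => z.1)
    pt_sigma_fst) (f := fun z x => Y.Φ.co (p z.1) (f z.1 x) z.2) ?_).congr fun z => by simp)
  exact (D.fn_app (n := fun z : Σ z : Σ b, Fin (Y.Φ.m (p b)), X z.1 => Y.Φ.m (p z.1.1))
    (X := fun _ => ZMod l)
    (Y.Φ.d_co.app (hp.comp (pt_sigma_fst.comp pt_sigma_fst))
      (hf.app (pt_sigma_fst.comp pt_sigma_fst) D.sigma_snd))
    (D.sigma_snd.comp pt_sigma_fst)).pt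

theorem PS.dOne (hp : PT p) : D fun b => (1 : Y.F (p b)) := by
  refine PS.dOf hp ((PT.ite (p := fun z : Σ b, Fin (Y.Φ.m (p b)) => (z.2 : ℕ) = 0)
    (by exact (D.eq (X := fun _ => ℕ) (D.of_pt (D.fin_iff.1 D.sigma_snd)) (D.const 0)))
    (PT.const (1 : ZMod l)) (PT.const 0)).congr fun z => ?_)
  have h := Y.Φ.co_θ (p z.1) ⟨0, z.2.pos⟩
  rw [Fin.val_mk, pow_zero] at h
  rw [h, Pi.single_apply]
  simp [Fin.ext_iff]

theorem PS.dCast (hp : PT p) {t : B → ZMod l} (ht : PT t) :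
    D fun b => algebraMap (ZMod l) (Y.F (p b)) (t b) :=
  (PS.dSmul hp ht (PS.dOne hp)).congr fun _ => Algebra.algebraMap_eq_smul_one _

theorem PS.dPow (hp : PT p) {f : ∀ b, Y.F (p b)} (hf : D f) (k : ℕ) : D fun b => f b ^ k := by
  induction k with
  | zero => exact (PS.dOne hp).congr fun _ => pow_zero _
  | succ k ih => exact (PS.dMul hp ih hf).congr fun _ => pow_succ _ _

/-- The coordinates of a cell. -/
theorem PS.pt_cd (hp : PT p) {k : B → ℕ} (hk : PT k) {h : ∀ b, Y.H (p b)} (hh : D h) :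
    PT fun b => cd (k b) (h b) := by
  refine (D.dite (X := fun _ => ZMod l) (p := fun b => k b < Y.n (p b))
    (f := fun b hb => h b ⟨k b, hb⟩) (g := fun _ _ => 0) (PT.lt hk (Y.pt_n.comp hp)) ?_
    (D.const 0)).pt
  exact D.fn_app (n := fun z : {b // k b < Y.n (p b)} => Y.n (p z.1)) (X := fun _ => ZMod l)
    (hh.comp pt_val) (D.fin_iff.2 (hk.comp pt_val))

end Vale.Agent.P330Q
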