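import Vale.Agent.P330Q.QIx
import Vale.Agent.P330Q.PPF
import Vale.Agent.P330Q.KFt
import Vale.Agent.P330Q.KMinv

/-! Block programs are implemented on the cells. -/

namespace Vale.Agent.P330Q

open Vale.Agent.Lib.PolyTime Vale.Agent.P330 Finset
open scoped Classical BigOperators

variable {C : Type} [Enc C] {l : ℕ} [Fact l.Prime] {δ : ℝ}

theorem far_le {P X V F : Type} [Fintype P] [Fintype X] [Fintype V] [Fintype F] [CommRing F]
    (gen : X → V → F) (u : P → V → F) {x : P × X → F → ℝ} (hx : IsDist x) (hδ : 0 < δ) :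
    fr P (fun o => ∃ _ : Unit, δ < du (fun ξ => x (o, ξ)) (cw gen (u o))) ≤
      du x (cells gen u) / δ := by
  refine le_trans (fr_mono fun o ⟨_, h⟩ => h.le) ((fr_markov
    (g := fun o => du (fun ξ => x (o, ξ)) (cw gen (u o)))
    (fun o => du_nonneg (hx.comp _) _) hδ).trans (le_of_eq ?_))
  rw [du, expect_prod']
  rfl

/-- The array of the cells of a word. -/
@[reducible] def Arr.self {U : Type} [Enc U] {a lg : C → ℕ} {p : C → U} (hp : PT p) {V : Fam U}
    (Z : Cell l δ V) (O : Fam C) (ne : ∀ c, Nonempty (O.T c))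
    (hz : Sz a lg fun c => Fintype.card (O.T c)) :
    Arr l a lg p Z Unit (.of (O.prod (Z.X.comap p hp))) O :=
  ⟨fun _ o _ ξ => (o, ξ), 1, ne, hz, fun _ => D.pair D.s1 D.s2,
    fun _ _ u => (fr_single u).le.trans (one_mul _).ge⟩

/-- Polynomial maps of single cells. -/
theorem cMap1 (hδ : 0 < δ) (hM : CMapS l δ) {d : ℕ} {a lg : C → ℕ} (hl : PB lg) {V : Fam C}
    (J : SF lg) (N : Ix lg V) (Z : Cell l δ FinU) (O : Fam C) (ne : ∀ c, Nonempty (O.T c))
    (hz : Sz a lg fun c => Fintype.card (O.T c))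
    {f : ∀ c, O.T c × J.T c → (V.T c → ZMod l) → ZMod l} (hJ : ∀ c, Nonempty (J.T c))
    (hf : Pol d V (O.prod J.toFam) f) {η : ℝ} (hη : 0 < η) :
    ImplS (ZMod l) a lg (.of (O.prod (N.X Z))) (.of (O.prod J.toFam)) fun c x y =>
      ∀ w : O.T c → V.T c → ZMod l,
        du y (fun z => f c z (w z.1)) ≤ η + du x (cells (N.gen Z c) w) / δ :=
  (hM d C a lg hl V J N Z Unit _ O (Arr.self N.hp Z O ne hz)
    (fun c o j w => f c (o, j) fun v => w ((), v)) hJ
    (pol_ren (V' := (Fam.const C Unit).prod V) hf (ρ := fun _ _ v => ((), v))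
      (D.pair (D.const ()) D.s2)) η hη).mono fun c _ _ hx _ h w =>
    (h fun o z => w o z.2).trans (add_le_add le_rfl (far_le (N.gen Z c) w hx hδ))

/-- The matrix of the multiplication by `t` on all lanes. -/
noncomputable def FF.mat (Φ : FF C l) (c : C) {K : Type} (t : Φ.F c)
    (v v' : K × Fin (Φ.m c)) : ZMod l :=
  if v.1 = v'.1 then Φ.co c (t * (Φ.co c).symm (Pi.single v'.2 1)) v.2 else 0

theorem FF.cw_mat (Φ : FF C l) (c : C) {K Y : Type} [Fintype K] [Fintype Y]
    (e : K × Fin (Φ.m c) ≃ Y) (t : Φ.F c) (w : Y → ZMod l) (n : Y) :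
    cw (fun n n' => Φ.mat c t (e.symm n) (e.symm n')) w n =
      Φ.co c (t * Φ.un c (fun v => w (e v)) (e.symm n).1) (e.symm n).2 := by
  rw [cw, ← e.sum_comp, Fintype.sum_prod_type, Φ.bas_sum c (Φ.un c _ _), sum_eq_single (e.symm n).1]
  · simp [FF.mat, mul_sum, mul_comm]
  · intro k _ hk
    simp [FF.mat, hk.symm]
  · simp

theorem FF.mat_inv (Φ : FF C l) (c : C) {K Y : Type} [Fintype K] [Fintype Y]
    (e : K × Fin (Φ.m c) ≃ Y) {t t' : Φ.F c} (h : t' * t = 1) (w : Y → ZMod l) :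
    cw (fun n n' => Φ.mat c t' (e.symm n) (e.symm n'))
      (cw (fun n n' => Φ.mat c t (e.symm n) (e.symm n')) w) = w := by
  funext n
  rw [Φ.cw_mat c e]
  simp only [Φ.cw_mat c e, Equiv.symm_apply_apply]
  rw [Φ.un_co c fun k => t * Φ.un c (fun v => w (e v)) k, ← mul_assoc, h, one_mul, FF.co_un]
  simp

theorem FF.pt_mat (Φ : FF C l) {B : Type} [Enc B] {p : B → C} (hp : PT p) {K : B → Type}
    [∀ b, Enc (K b)] {t : ∀ b, Φ.F (p b)} (ht : D t) {v v' : ∀ b, K b × Fin (Φ.m (p b))} (hv : D v)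
    (hv' : D v') : PT fun b => Φ.mat (p b) (t b) (v b) (v' b) :=
  PT.ite (D.eq hv.fst hv'.fst) (FF.ptCo hp (Φ.d_mul.app hp ht (FF.dBas hp hv'.snd)) hv.snd)
    (PT.const _)

theorem FF.m_pos (Φ : FF C l) (c : C) : 0 < Φ.m c := Nat.pos_of_ne_zero fun h => by
  have : IsEmpty (Fin (Φ.m c)) := by rw [h]; infer_instance
  exact zero_ne_one ((Φ.co c).injective (Subsingleton.elim (Φ.co c 0) (Φ.co c 1)))

theorem chainS (hδ : 0 < δ) (hM : CellMapThm l δ) (hB : BigChainThm l δ) : ChainS l δ := by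
  rintro d C S B _ _ _ _ _ δ0 lam a W I O J N Z A i o f
    ⟨V, r, φ, inn, out, r1, r2, dφ, dinn, dout, H⟩ hJ hf η hη
  have hC := cMapS hM
  have d0 : 0 < δ0 := W.good.1
  have hS : Nonempty S := Fintype.card_pos_iff.1 (by
    have := W.good.2.2.2.2
    by_contra h
    rw [Nat.eq_zero_of_not_pos h] at this
    norm_num at this)
  have neP : ∀ c, Nonempty (W.Y.Pos.T c) := fun c => (W.Y.ne c).elim fun g => hS.elim fun s => ⟨g, s⟩
  have szP : Sz a W.P.lg fun c => Fintype.card (W.Y.Pos.T c) := W.szG.card_prod (Sz.cardc S)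
  obtain ⟨M⟩ := ix_exists (lg := W.P.lg) (W.CV V.option)
    (V.option.pl.card_prod (W.plm.congr fun _ => Fintype.card_fin _))
  have h0 : ∀ c, 0 < (M.p c).length := fun c => (M.e c (none, ⟨0, W.P.Φ.m_pos c⟩)).pos
  let p : C → UN × List Unit := fun c => (⟨M.p c, h0 c⟩, List.replicate (r c) ())
  have hp : PT p := PT.mk (D.sub_mk (D.of_pt M.hp) h0).pt
    (PT.replicate r1 (r2.pb W.P.pb_lg) (PT.const ()))
  have q1 : PT fun u : UN × List Unit => u.1.1 := pt_val.comp (PT.fst PT.id)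
  have q2 : PT fun u : UN × List Unit => u.2 := PT.snd PT.id
  let ω : ∀ c, W.P.F c → Bool → S → W.P.F c := fun c t b s => if W.ck b s then 1 else t
  have dω : ∀ t : ∀ c, W.P.F c, D t → ∀ b, PT fun z : Σ c, W.Ps c × Fin (M.p c).length ×
      Fin (M.p c).length => W.P.Φ.mat z.1 (ω z.1 (t z.1) b z.2.1.2) ((M.e z.1).symm z.2.2.1)
        ((M.e z.1).symm z.2.2.2) := fun t ht b =>
    W.P.Φ.pt_mat pt_sigma_fst (D.ite (P325.pt_finite (D.pt D.s1.snd) (W.ck b))
      (PS.dOne pt_sigma_fst) (ht.comp pt_sigma_fst)) (M.d_e'.app pt_sigma_fst D.s2.fst)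
      (M.d_e'.app pt_sigma_fst D.s2.snd)
  let T : Tw l S lam p (FinU.comap _ q1) :=
    ⟨W.Y, fun c b x n n' => W.P.Φ.mat c (ω c (W.P.Φ.θ c) b x.2) ((M.e c).symm n) ((M.e c).symm n'),
      fun c b x n n' => W.P.Φ.mat c (ω c (W.P.Φ.θ c)⁻¹ b x.2) ((M.e c).symm n) ((M.e c).symm n'),
      dω _ W.P.Φ.d_θ, dω _ ((s_minv s_ft C l W.P.Φ).2 _ W.P.Φ.d_θ), fun c b x w =>
        W.P.Φ.mat_inv c (M.e c) (by
          simp only [ω]
          split_ifs
          exacts [one_mul _, inv_mul_cancel₀ (W.θ0 c)]) w⟩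
  let F : ∀ c, ℕ × W.Ps c × Option (V.T c) → (B × Option (V.T c) → W.P.F c) → W.P.F c :=
    fun c z w => z.2.2.elim 0 fun v => qf (φ c z.1 z.2.1 v) fun y => w (y.1, some y.2)
  have hF : FPol W.P.Φ 2 ((Fam.const C B).prod V.toFam.option) F :=
    FPol.elim (A := V.toFam) D.sigma_snd.snd.snd FPol.zero
      (((FPol.qf (V := (Fam.const C B).prod V.toFam)
        (φ := fun c (z : ℕ × W.Ps c × V.T c) => φ c z.1 z.2.1 z.2.2) dφ).comp
        (x := fun c (z : (ℕ × W.Ps c × Option (V.T c)) × V.T c) => (z.1.1, z.1.2.1, z.2))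
        (D.pair D.s1.fst (D.pair D.s1.snd.fst D.s2))).ren
        (V' := (Fam.const C B).prod V.toFam.option) (ρ := fun _ _ y => (y.1, some y.2))
        (D.pair D.s2.fst D.s2.snd.some))
  let Jx : Fam C := W.Y.Pos.prod (((Fam.ofFin (fun u : UN × List Unit => u.2.length) (PT.length q2)
    (PT.pb_length q2)).prod (FinU.comap _ q1)).comap p hp)
  have hch := hB 2 C (UN × List Unit) a W.P.lg p hp (pl_pair M.pl (pl_rep r2)) S B W.C0 δ0 lam
    W.good W.dist (FinU.comap _ q1) (Z.comap _ q1) T W.π (fun u => u.2.length) (PT.length q2)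
    (PT.pb_length q2)
    (fun c t x n w => W.P.Φ.co c (F c (t, x, ((M.e c).symm n).1)
      (W.P.Φ.un c fun y => w (y.1.1, M.e c (y.1.2, y.2)))) ((M.e c).symm n).2)
    (fun u => ⟨⟨0, u.1.2⟩⟩) W.szG W.d_π
    (pol_ren (V' := (Fam.const C B).prod ((FinU.comap _ q1).comap p hp))
      (((hF.comp (K := Jx.T) (x := fun c z => (z.2.1, z.1, ((M.e c).symm z.2.2).1))
        (D.pair (D.of_pt (D.fin_iff.1 D.s2.fst))
          (D.pair D.s1 (M.d_e'.app pt_sigma_fst D.s2.snd).fst))).pol (A := Jx)).comp (K := Jx)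
        (x := fun c z => (z, ((M.e c).symm z.2.2).2))
        (D.pair D.sigma_snd (M.d_e'.app pt_sigma_fst D.s2.snd).snd))
      (ρ := fun c _ y => (y.1.1, M.e c (y.1.2, y.2)))
      (D.pair D.s2.fst.fst (M.d_e.app pt_sigma_fst (D.pair D.s2.fst.snd D.s2.snd))))
    (δ * η / 2) (by positivity)
  have h1 := cMap1 (a := a) hδ hC W.P.pb_lg ⟨M.X Z, Sz.card_comap Z.X M.pl⟩ N Z W.Y.Pos neP szP
    (f := fun c z w => cw (M.gen Z c)
      (fun v => (v.1.bind (inn c)).elim 0 fun k => w (k, v.2)) z.2)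
    (d := 1) (fun c => Z.ne _) ?_ (η := δ * δ0 ^ 2 / 256) (by positivity)
  have h3 := cMap1 (a := a) hδ hC W.P.pb_lg J M Z W.Y.Pos neP szP
    (f := fun c z w => f c z fun v => w (some (out c v.1), v.2)) hJ
    (pol_ren (V' := W.CV V.option) hf (ρ := fun c _ v => (some (out c v.1), v.2))
      (D.pair (dout.app pt_sigma_fst D.s2.fst).some D.s2.snd)) (half_pos hη)
  · refine (h1.trans (ImplS.trans hch h3)).mono ?_
    rintro c x z - - ⟨y, -, k1, y', -, k2, k3⟩ s hs
    obtain ⟨H1, H2⟩ := H c s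
    let Y : ℕ → Option (V.T c) → W.Wd c := fun t v =>
      v.elim 0 (W.brun (φ c) (fun v => (inn c v).elim 0 (i c s)) t)
    let u : ℕ → W.Ps c → Fin (M.p c).length → ZMod l := fun t x n => W.cell (Y t) x ((M.e c).symm n)
    have hu : ∀ t, cells (Z.gen (M.p c)) (u t) = cells (M.gen Z c) (W.cell (Y t)) := fun t =>
      funext fun z => (congrFun (M.cw_eq Z c _) z.2).symm
    have e1 : ∀ t x, W.P.Φ.un c (fun v => u t x (M.e c v)) = fun v => Y t v x := fun t x => by
      simp only [u, Equiv.symm_apply_apply]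
      exact W.P.Φ.un_co c fun v => Y t v x
    have run : ∀ t, prun (W.π c) (fun t x n w => W.P.Φ.co c (F c (t, x, ((M.e c).symm n).1)
        (W.P.Φ.un c fun y => w (y.1.1, M.e c (y.1.2, y.2)))) ((M.e c).symm n).2) (u 0) t = u t := by
      intro t
      induction t with
      | zero => rfl
      | succ t ih =>
        funext x n
        have e2 : W.P.Φ.un c (fun y : (B × Option (V.T c)) × Fin (W.P.Φ.m c) =>
            u t (W.π c y.1.1 x) (M.e c (y.1.2, y.2))) = fun y => Y t y.2 (W.π c y.1 x) :=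
          funext fun y => congrFun (e1 t (W.π c y.1 x)) y.2
        simp only [prun, ih, e2]
        simp only [u, World.cell, F, Y]
        rcases (M.e c).symm n with ⟨_ | v, k⟩ <;> rfl
    have hr : (p c).2.length = r c := List.length_replicate
    have k1' := k1 (W.cell (i c s))
    have e3 : (fun z : W.Ps c × (M.X Z).T c => cw (M.gen Z c) (fun v => (v.1.bind (inn c)).elim 0
        fun k => W.cell (i c s) z.1 (k, v.2)) z.2) = cells (M.gen Z c) (W.cell (Y 0)) := by
      funext z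
      refine congrFun (congrArg _ (funext fun v => ?_)) z.2
      rcases v with ⟨_ | v, k⟩
      · simp [Y, World.cell]
      · simp only [Y, World.cell, World.brun, Option.bind_some, Option.elim_some]
        cases inn c v <;> simp
    have k2' := k2 (u 0) (fun t ht b g n => ?_) (by
      rw [hu, ← e3]
      refine k1'.trans ?_
      have : du x (W.benc N Z (i c s)) / δ ≤ δ * δ0 ^ 2 / 256 := by
        rw [div_le_iff₀ hδ]
        linarith
      unfold World.benc at this
      linarith)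
    · rw [run, hr, hu] at k2'
      refine le_trans (le_of_eq ?_) ((k3 (W.cell (Y (r c)))).trans ?_)
      · refine congrArg _ (funext fun z => congrArg _ (funext fun v => ?_))
        simp only [World.cell, H2, Y, Option.elim_some]
      · have : du y' (cells (M.gen Z c) (W.cell (Y (r c)))) / δ ≤ η / 2 := by
          rw [div_le_iff₀ hδ]
          linarith
        linarith
    · rw [run]
      refine (funext fun s => (W.P.Φ.cw_mat c (M.e c) _ _ n).trans (by rw [e1]) :
        _ = fun s => W.P.Φ.co c (ω c (W.P.Φ.θ c) b (vwp (W.Y.nb c) b g s).2 *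
          Y t ((M.e c).symm n).1 (vwp (W.Y.nb c) b g s)) ((M.e c).symm n).2) ▸ ?_
      have hY : Y t ((M.e c).symm n).1 ∈ W.T c := by
        rcases ((M.e c).symm n).1 with _ | v
        · exact ⟨fun _ => Submodule.zero_mem _, fun _ => Submodule.zero_mem _⟩
        · exact H1 t (hr ▸ ht) v
      cases b
      · exact hY.1 g ((LinearMap.proj ((M.e c).symm n).2).comp (W.P.Φ.co c).toLinearMap)
      · exact hY.2 g ((LinearMap.proj ((M.e c).symm n).2).comp (W.P.Φ.co c).toLinearMap)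
  · let K := W.CV V.option
    let Jm : Fam C := W.Y.Pos.prod (M.X Z)
    have hx : D2 fun c (v : K.T c) => ((v.1.bind (inn c)).map fun k => (k, v.2) :
        Option ((W.CV I).T c)) :=
      D.f_option_map (D.f_option_bind D.s1 (dinn.app (pt_sigma_fst.comp pt_sigma_fst) D.sigma_snd))
        (D.pair D.sigma_snd (D.s2.comp pt_sigma_fst))
    refine Pol.comb (J := Jm) (K := K) (a := fun c z v => M.gen Z c z.2 v)
      (pt_app2 (M.pt_gen Z) pt_sigma_fst D.s1.snd D.s2) ?_
    refine (Pol.ite (J := K) (p := fun c v => (v.1.bind (inn c)).map (fun k => (k, v.2)) = none)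
      (D.eq hx D.none) Pol.zero (Pol.ev hx)).congr fun c v w => ?_
    beta_reduce
    cases v.1.bind (inn c) <;> simp [ev]

end Vale.Agent.P330Q
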