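import Vale.Agent.P330Q.PrgS
import Vale.Agent.P330.TanMix

/-! Small-set soundness with two local codes. -/

namespace Vale.Agent.P330Q

open Vale.Agent.Lib.PolyTime Vale.Agent.P330 Finset
open scoped Classical BigOperators

theorem sss2 : SSS2 := by
  intro F S G K _ _ _ _ CL CR nb δ0 lam β hT hd hd' hg y hL hR hβ hw
  have := tan_ne hT
  obtain ⟨d0, d1, l0, l1, -⟩ := hT
  have l2 : lam ≤ δ0 / 4 := by
    refine (abs_le_of_sq_le_sq' ?_ (by positivity)).2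
    have : δ0 ^ 3 ≤ δ0 ^ 2 := pow_le_pow_of_le_one d0.le d1 (by norm_num)
    nlinarith
  have a1 := tmix_view d0.le hd fun g s => y (g, s)
  have b1 := tmix_view d0.le hd' fun h s => y ((nb s)⁻¹ h, s)
  rw [← expect_product' (f := fun g s => if y (g, s) ≠ 0 then (1 : ℝ) else 0), univ_product_univ,
    tmix_fr' fun o : G × S => y (o.1, o.2) ≠ 0] at a1
  rw [← tmix_sw nb fun o => if y o ≠ 0 then (1 : ℝ) else 0, tmix_fr' fun o => y o ≠ 0] at b1
  have m := tan_mix l0 hg (fun g => ∃ s, y (g, s) ≠ 0) fun h => ∃ s, y ((nb s)⁻¹ h, s) ≠ 0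
  have m1 : fr (G × S) (fun o => y o ≠ 0) ≤ fr (G × S) fun o => (∃ s, y (o.1, s) ≠ 0) ∧
      ∃ s, y ((nb s)⁻¹ (nb o.2 o.1), s) ≠ 0 := by
    rw [tmix_fr, tmix_fr]
    refine expect_le_expect fun o _ => ?_
    by_cases h : y o ≠ 0
    · rw [if_pos h, if_pos ⟨⟨o.2, h⟩, o.2, by simpa using h⟩]
    · rw [if_neg h]; positivity
  have β0 := (tmix_fr0 _).trans hL
  have a0 := tmix_fr0 fun g => ∃ s, y (g, s) ≠ 0
  have b0 := tmix_fr0 fun h => ∃ s, y ((nb s)⁻¹ h, s) ≠ 0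
  have w0 := tmix_fr0 fun o => y o ≠ 0
  replace m := m1.trans m
  generalize fr G (fun g => ∃ s, y (g, s) ≠ 0) = a at *
  generalize fr G (fun h => ∃ s, y ((nb s)⁻¹ h, s) ≠ 0) = b at *
  generalize fr (G × S) (fun o => y o ≠ 0) = w at *
  obtain ⟨M, hM⟩ : ∃ M, δ0 * M = w + δ0 * β := ⟨(w + δ0 * β) / δ0, by field_simp⟩
  have a2 : a ≤ M := le_of_mul_le_mul_left (by nlinarith) d0
  have b2 : b ≤ M := le_of_mul_le_mul_left (by nlinarith) d0
  have M1 : M ≤ δ0 / 4 := le_of_mul_le_mul_left (by nlinarith) d0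
  have ab : a * b ≤ M * M := mul_le_mul a2 b2 b0 (a0.trans a2)
  have sq : √(a * b) ≤ M := by
    rw [← Real.sqrt_mul_self (a0.trans a2)]
    exact Real.sqrt_le_sqrt ab
  have := mul_le_mul l2 sq (Real.sqrt_nonneg _) (by positivity)
  have := mul_le_mul_of_nonneg_left M1 (a0.trans a2)
  nlinarith

end Vale.Agent.P330Q
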