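import Vale.Agent.P330Q.TwCor

/-! Decoding of the cells of a twisted codeword in polynomial time. -/

namespace Vale.Agent.P330Q

open Vale.Agent.Lib.PolyTime Vale.Agent.P330 Finset
open scoped Classical BigOperators

section
variable {F S G V P : Type} [Field F] [Fintype S] [Fintype V]

/-- Linear maps at every position. -/
def lmap (m : P → V → V → F) (w : P × V → F) : P × V → F :=
  fun o => cw (m o.1) (fun k => w (o.1, k)) o.2

/-- Local decoding in every coordinate. -/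
noncomputable def ldec (C0 : Submodule F (S → F)) (δ0 : ℝ) (nb : S → Equiv.Perm G) (b : Bool)
    (w : (G × S) × V → F) : (G × S) × V → F :=
  fun o => dec0 C0 δ0 (fun s => w (vwp nb b (vtx nb b o.1) s, o.2)) o.1.2

/-- Twisted local decoding. -/
noncomputable def twst (C0 : Bool → Submodule F (S → F)) (δ0 : ℝ) (nb : S → Equiv.Perm G)
    (m m' : Bool → G × S → V → V → F) (b : Bool) (w : (G × S) × V → F) : (G × S) × V → F :=
  lmap (m' b) (ldec (C0 b) δ0 nb b (lmap (m b) w))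

variable {C0 : Bool → Submodule F (S → F)} {δ0 lam : ℝ} {nb : S → Equiv.Perm G}
  {m m' : Bool → G × S → V → V → F} {u : G × S → V → F}

theorem twst_eq (h0 : 0 < δ0) (hd : ∀ b, Dist0 (C0 b) δ0)
    (inv : ∀ b x w, cw (m' b x) (cw (m b x) w) = w) (hu : u ∈ twc C0 nb m) {b : Bool}
    {w : (G × S) × V → F} {e : G × S}
    (h : ¬ tbad nb δ0 b (fun e => (fun k => w (e, k)) ≠ u e) (vtx nb b e)) :
    (fun k => twst C0 δ0 nb m m' b w (e, k)) = u e := by
  have h' : (fr S fun s => (fun k => w (vwp nb b (vtx nb b e) s, k)) ≠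
      u (vwp nb b (vtx nb b e) s)) < δ0 / 4 := not_le.1 h
  have h3 : ∀ x v, (fun k => w (x, k)) = u x → lmap (m b) w (x, v) = cw (m b x) (u x) v :=
    fun x v k => by rw [← k]; rfl
  have h4 : (fun k => ldec (C0 b) δ0 nb b (lmap (m b) w) (e, k)) = cw (m b e) (u e) := by
    funext v
    have h5 : (fr S fun s => lmap (m b) w (vwp nb b (vtx nb b e) s, v) ≠
        cw (m b (vwp nb b (vtx nb b e) s)) (u (vwp nb b (vtx nb b e) s)) v) < δ0 / 2 :=
      lt_of_le_of_lt (fr_mono fun s k k' => k (h3 _ v k')) (h'.trans (by linarith))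
    have h2 := congrFun (dec0_eq (hd b) (hu b (vtx nb b e) v) h5) e.2
    rw [vwp_vtx] at h2
    exact h2
  rw [← inv b e (u e), ← h4]
  rfl

theorem twst_mix [Fintype G] [Nonempty G] (hT : TanGood δ0 lam S) (hd : ∀ b, Dist0 (C0 b) δ0)
    (hg : P325.Gap (fun s g => nb s g) lam) (inv : ∀ b x w, cw (m' b x) (cw (m b x) w) = w)
    (hu : u ∈ twc C0 nb m) (b : Bool) {w : (G × S) × V → F}
    (h : fr G (tbad nb δ0 b fun e => (fun k => w (e, k)) ≠ u e) ≤ δ0 / 16) :
    fr G (tbad nb δ0 (!b) fun e => (fun k => twst C0 δ0 nb m m' b w (e, k)) ≠ u e) ≤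
      fr G (tbad nb δ0 b fun e => (fun k => w (e, k)) ≠ u e) / 8 := by
  have := tw_mix hT hg b (N := fun _ => False)
    (W := fun e => (fun k => twst C0 δ0 nb m m' b w (e, k)) ≠ u e)
    (fun e k => Or.inl (not_not.1 fun k' => k (twst_eq hT.1 hd inv hu k'))) h
  rwa [fr_false, mul_zero, add_zero] at this

end

theorem tw_iter {W G : Type} [Fintype G] (st : W → W) (E : W → G → Prop) {a : ℝ}
    (h : ∀ w, fr G (E w) ≤ a → fr G (E (st w)) ≤ fr G (E w) / 8) {w : W} (hw : fr G (E w) ≤ a)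
    (g : G) : ¬ E (st^[Fintype.card G] w) g := by
  have key : ∀ n : ℕ, fr G (E (st^[n] w)) ≤ fr G (E w) / 8 ^ n := by
    intro n
    induction n with
    | zero => simp
    | succ n ih =>
      rw [Function.iterate_succ_apply', pow_succ, ← div_div]
      exact (h _ (ih.trans ((div_le_self (fr_nonneg _) (one_le_pow₀ (by norm_num))).trans hw))).trans
        (div_le_div_of_nonneg_right ih (by norm_num))
  intro hx
  have c0 : (0 : ℝ) < Fintype.card G := by exact_mod_cast Fintype.card_pos_iff.2 ⟨g⟩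
  have c1 : (Fintype.card G : ℝ) < 8 ^ Fintype.card G := by
    exact_mod_cast Nat.lt_pow_self (by norm_num)
  have c2 : 1 / (Fintype.card G : ℝ) ≤ fr G (E (st^[Fintype.card G] w)) := by
    rw [one_div, ← fr_single g]
    exact fr_mono fun x e => e ▸ hx
  have c3 := c2.trans ((key _).trans (div_le_div_of_nonneg_right (fr_le_one _) (by positivity)))
  exact absurd (one_div_lt_one_div_of_lt c0 c1) c3.not_gt

theorem twst_run {F S G V : Type} [Field F] [Fintype S] [Fintype V] [Fintype G] [Nonempty G]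
    {C0 : Bool → Submodule F (S → F)} {δ0 lam : ℝ} {nb : S → Equiv.Perm G}
    {m m' : Bool → G × S → V → V → F} {u : G × S → V → F} (hT : TanGood δ0 lam S)
    (hd : ∀ b, Dist0 (C0 b) δ0) (hg : P325.Gap (fun s g => nb s g) lam)
    (inv : ∀ b x w, cw (m' b x) (cw (m b x) w) = w) (hu : u ∈ twc C0 nb m) {w : (G × S) × V → F}
    (h : fr (G × S) (fun e => (fun k => w (e, k)) ≠ u e) ≤ δ0 ^ 2 / 128) :
    (fun e k => twst C0 δ0 nb m m' false ((fun w => twst C0 δ0 nb m m' true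
      (twst C0 δ0 nb m m' false w))^[Fintype.card G] w) (e, k)) = u := by
  have h0 := hT.1
  funext e
  refine twst_eq h0 hd inv hu (tw_iter (fun w => twst C0 δ0 nb m m' true
    (twst C0 δ0 nb m m' false w)) (fun w => tbad nb δ0 false fun e => (fun k => w (e, k)) ≠ u e)
    (a := δ0 / 16) (fun w hw => ?_) (w := w) ((tbad_le _ h0 false _).trans
      ((mul_le_mul_of_nonneg_left h (by positivity)).trans ?_)) _)
  · have h2 := twst_mix hT hd hg inv hu false hw
    have h3 := twst_mix hT hd hg inv hu true (h2.trans (by linarith))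
    exact h3.trans ((div_le_self (fr_nonneg _) (by norm_num)).trans h2)
  · rw [show 4 / δ0 * (δ0 ^ 2 / 128) = δ0 / 32 by field_simp; ring]
    linarith

theorem fr_cells {F P X V : Type} [CommRing F] [Fintype P] [Fintype X] [Fintype V]
    (gen : X → V → F) (w : P × X → F) (u : P → V → F) {δ : ℝ} (hδ : 0 < δ) :
    fr P (fun e => δ ≤ hd (fun ξ => w (e, ξ)) (cw gen (u e))) ≤ hd w (cells gen u) / δ := by
  rw [hd, fr_prod]
  exact fr_markov (g := fun e => hd (fun ξ => w (e, ξ)) (cw gen (u e))) (fun _ => hd_nonneg _ _) hδ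

section
variable {l : ℕ} [Fact l.Prime] {C B : Type} [Enc C] [Enc B] {q : B → C} (V : Fam C)

theorem pt_lmap {P : C → Type} [∀ c, Enc (P c)] {m : ∀ c, P c → V.T c → V.T c → ZMod l}
    (hm : PT fun z : Σ c, P c × V.T c × V.T c => m z.1 z.2.1 z.2.2.1 z.2.2.2) (hq : PT q)
    {w : ∀ b, P (q b) × V.T (q b) → ZMod l} (hw : PT fun z : Σ b, P (q b) × V.T (q b) => w z.1 z.2) :
    PT fun z : Σ b, P (q b) × V.T (q b) => lmap (m (q z.1)) (w z.1) z.2 := by
  refine (V.pf.comap (hq.comp pt_sigma_fst)).pt_sumZ (P330.pt_mulZ ?_ ?_)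
  · exact pt_app2 (f := fun c e (v : V.T c × V.T c) => m c e v.1 v.2) hm
      (hq.comp (pt_sigma_fst.comp pt_sigma_fst)) (D.sigma_snd.comp pt_sigma_fst).fst
      ((D.sigma_snd.comp pt_sigma_fst).snd.pair D.sigma_snd)
  · exact pt_app hw (pt_sigma_fst.comp pt_sigma_fst)
      ((D.sigma_snd.comp pt_sigma_fst).fst.pair D.sigma_snd)

theorem pt_ldec {S : Type} [Fintype S] [Enc S] {lam : ℝ} (Y : TSys C S lam)
    (C0 : Submodule (ZMod l) (S → ZMod l)) (δ0 : ℝ) (b : Bool) (hq : PT q)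
    {w : ∀ b, (Y.G.T (q b) × S) × V.T (q b) → ZMod l}
    (hw : PT fun z : Σ b, (Y.G.T (q b) × S) × V.T (q b) => w z.1 z.2) :
    PT fun z : Σ b, (Y.G.T (q b) × S) × V.T (q b) => ldec C0 δ0 (Y.nb (q z.1)) b (w z.1) z.2 := by
  refine D.pt (D.cases (X := fun _ => ZMod l)
    (g := fun z : Σ b, (Y.G.T (q b) × S) × V.T (q b) => z.2.1.2) (D.pt D.sigma_snd.fst.snd)
    (fun s' z => dec0 C0 δ0 (fun s => w z.1
      (vwp (Y.nb (q z.1)) b (vtx (Y.nb (q z.1)) b z.2.1) s, z.2.2)) s') fun s' => ?_)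
  refine D.cases_fun (X := fun _ => ZMod l) (A := S)
    (g := fun (z : Σ b, (Y.G.T (q b) × S) × V.T (q b)) s => w z.1
      (vwp (Y.nb (q z.1)) b (vtx (Y.nb (q z.1)) b z.2.1) s, z.2.2)) (fun s => ?_)
    (fun t _ => dec0 C0 δ0 t s') fun t => D.const _
  exact pt_app hw pt_sigma_fst ((d_vwp Y b (hq.comp pt_sigma_fst)
    (d_vtx Y b (hq.comp pt_sigma_fst) D.sigma_snd.fst) s).pair D.sigma_snd.snd)

end

theorem twDecThm {l : ℕ} [Fact l.Prime] {δ : ℝ} (hδ : 0 < δ) : TwDecThm l δ := by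
  intro C U _ _ p hp S _ _ C0 δ0 lam hT hD V Z T B _ q w hq hw
  have h0 := hT.1
  have hb : PT fun z : Σ b, T.Y.G.T (q b) × S => z.1 := pt_sigma_fst
  obtain ⟨v0, pv, hv⟩ := Z.dec (Σ b, T.Y.G.T (q b) × S) (fun z => p (q z.1))
    (fun z ξ => w z.1 (z.2, ξ)) (hp.comp (hq.comp hb))
    (pt_app hw (hb.comp pt_sigma_fst) ((D.sigma_snd.comp pt_sigma_fst).pair D.sigma_snd))
  have st : ∀ (b : Bool) (B' : Type) [Enc B'] (r : B' → C)
      (w : ∀ b, (T.Y.G.T (r b) × S) × V.T (p (r b)) → ZMod l), PT r →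
      (PT fun z : Σ b, (T.Y.G.T (r b) × S) × V.T (p (r b)) => w z.1 z.2) →
      PT fun z : Σ b, (T.Y.G.T (r b) × S) × V.T (p (r b)) =>
        twst C0 δ0 (T.Y.nb (r z.1)) (T.m (r z.1)) (T.m' (r z.1)) b (w z.1) z.2 :=
    fun b B' _ r w hr hw => by
    have h1 := pt_lmap (V.comap p hp) (m := fun c => T.m c b) (T.pm b) hr hw
    have h2 := pt_ldec (V.comap p hp) T.Y (C0 b) δ0 b hr
      (w := fun z => lmap (T.m (r z) b) (w z)) h1
    exact pt_lmap (V.comap p hp) (m := fun c => T.m' c b) (T.pm' b) hr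
      (w := fun z => ldec (C0 b) δ0 (T.Y.nb (r z)) b (lmap (T.m (r z) b) (w z))) h2
  have hG := (T.Y.G.comap q hq).pf
  have h1 := ((T.Y.Pos.prod (V.comap p hp)).comap q hq).pf.iter_word
    (fun b w => twst C0 δ0 (T.Y.nb (q b)) (T.m (q b)) (T.m' (q b)) true
      (twst C0 δ0 (T.Y.nb (q b)) (T.m (q b)) (T.m' (q b)) false w))
    (fun B' _ r v hr hv => st true B' (fun z => q (r z)) (fun z => twst C0 δ0 (T.Y.nb (q (r z)))
      (T.m (q (r z))) (T.m' (q (r z))) false (v z)) (hq.comp hr)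
      (st false B' (fun z => q (r z)) v (hq.comp hr) hv))
    (w := fun b o => v0 ⟨b, o.1⟩ o.2)
    (pt_app pv (pt_sigma_mk (X := fun b => T.Y.G.T (q b) × S) pt_sigma_fst D.sigma_snd.fst)
      D.sigma_snd.snd) hG.pt_card hG.pb_card
  have h2 := st false B q (fun b => (fun w => twst C0 δ0 (T.Y.nb (q b)) (T.m (q b)) (T.m' (q b)) true
    (twst C0 δ0 (T.Y.nb (q b)) (T.m (q b)) (T.m' (q b)) false w))^[Fintype.card (T.Y.G.T (q b))]
      fun o => v0 ⟨b, o.1⟩ o.2) hq h1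
  refine ⟨fun b e k => twst C0 δ0 (T.Y.nb (q b)) (T.m (q b)) (T.m' (q b)) false
    ((fun w => twst C0 δ0 (T.Y.nb (q b)) (T.m (q b)) (T.m' (q b)) true
      (twst C0 δ0 (T.Y.nb (q b)) (T.m (q b)) (T.m' (q b)) false w))^[Fintype.card (T.Y.G.T (q b))]
      fun o => v0 ⟨b, o.1⟩ o.2) (e, k), h2, fun b u hu h => ?_⟩
  have := T.Y.ne (q b)
  have h3 : ∀ e, (fun k => v0 ⟨b, e⟩ k) ≠ u e →
      δ ≤ hd (fun ξ => w b (e, ξ)) (cw (Z.gen (p (q b))) (u e)) :=
    fun e k => le_of_not_ge fun k' => k (hv ⟨b, e⟩ (u e) k')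
  refine twst_run hT hD (T.Y.gap _) (T.inv _) hu (w := fun o => v0 ⟨b, o.1⟩ o.2)
    ((fr_mono h3).trans ((fr_cells _ (w b) u hδ).trans ?_))
  rw [div_le_iff₀ hδ]
  exact h.trans (le_of_eq (by ring))

end Vale.Agent.P330Q
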