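import Vale.Agent.P330Q.QTw
import Vale.Agent.P330Q.TwDec
import Vale.Agent.P330Q.KSss

/-! Distance and decoding of cell encodings. -/

namespace Vale.Agent.P330Q

open Vale.Agent.Lib.PolyTime Vale.Agent.P330 Finset
open scoped Classical BigOperators

variable {l : ℕ} [Fact l.Prime] {δ : ℝ}

theorem decS (hδ : 0 < δ) : DecS l δ := by
  intro C S B _ _ _ δ0 lam a W
  refine ⟨fun c y hy h => ?_, fun K N Z => ⟨fun c y y' hy hy' h => ?_, fun B' _ q u hq hu => ?_⟩⟩
  · have := W.Y.ne c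
    by_contra k
    have e : fr (W.Ps c) (fun x => (fun _ : Unit => y x) ≠ 0) = fr (W.Ps c) fun x => y x ≠ 0 :=
      fr_congr fun x => not_congr ⟨fun h => congrFun h (), fun h => funext fun _ => h⟩
    have h1 := sss2 _ S _ Unit (W.loc c false) (W.loc c true) (W.Y.nb c) δ0 lam 0 W.good
      (W.dist_loc c false) (W.dist_loc c true) (W.Y.gap c) (fun x _ => y x)
      ((fr_mono fun g ⟨_, k⟩ => k (hy.1 g)).trans fr_false.le)
      ((fr_mono fun g ⟨_, k⟩ => k (hy.2 g)).trans fr_false.le) (by linarith [W.good.1])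
      (e.trans_le (not_le.1 k).le)
    exact h (funext fun x => not_not.1 (fr_eq_zero (e.symm.trans_le h1) x))
  · have := W.Y.ne c
    have h1 := twc_dist W.good W.dist (W.Y.gap c) ((W.tw N).inv c) ((W.msg_mem N).2 hy)
      ((W.msg_mem N).2 hy') fun e => h (by rw [← W.unmsg_msg N y, e, W.unmsg_msg])
    have h2 := cells_dist (Z.dist (N.p c)) (W.msg N y) (W.msg N y')
    rw [W.benc_eq, W.benc_eq]
    refine le_trans ?_ h2
    have h3 := mul_le_mul_of_nonneg_left h1.le (by positivity : 0 ≤ 4 * δ)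
    linarith
  · obtain ⟨v, hv, h⟩ := twDecThm hδ C _ N.p N.hp S W.C0 δ0 lam W.good W.dist FinU Z (W.tw N) B' q
      u hq hu
    refine ⟨fun b => W.unmsg N (v b), ?_, fun b y hy k => ?_⟩
    · have h1 : PT fun z : Σ b, K.T (q b) × W.Ps (q b) => q z.1 := hq.comp pt_sigma_fst
      refine W.P.Φ.d_co'.app h1 (D.fn_mk (W.P.Φ.pt_m.comp h1) (W.P.Φ.pb_m.comp h1) (D.of_pt ?_))
      exact pt_app2 hv (pt_sigma_fst.comp pt_sigma_fst) (D.sigma_snd.comp pt_sigma_fst).snd
        (N.d_e.app (h1.comp pt_sigma_fst) ((D.sigma_snd.comp pt_sigma_fst).fst.pair D.sigma_snd))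
    · show W.unmsg N (v b) = y
      rw [h b _ ((W.msg_mem N).2 hy) (W.benc_eq N Z y ▸ k), W.unmsg_msg]

end Vale.Agent.P330Q
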