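import Vale.Agent.P330Q.RouteD

/-! Routing of packets by fixing digits: greedy choice of middle points and colours. -/

namespace Vale.Agent.P330Q

open Vale.Agent.Lib.PolyTime Vale.Agent.P330 Finset
open scoped Classical BigOperators

namespace Route

theorem fold_inv {X Y : Type} (ok : Y → Prop) (cf : X × Y → X × Y → Prop)
    (F : List (X × Y) → X → Y) (hF : ∀ Q x, (Q.map Prod.fst).Nodup → (∀ q ∈ Q, ok q.2) →
      ok (F Q x) ∧ ∀ q ∈ Q, ¬ cf (x, F Q x) q) (l : List X) (hl : l.Nodup) :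
    (l.foldl (fun Q x => (x, F Q x) :: Q) []).map Prod.fst = l.reverse ∧
      (∀ q ∈ l.foldl (fun Q x => (x, F Q x) :: Q) [], ok q.2) ∧
      (l.foldl (fun Q x => (x, F Q x) :: Q) []).Pairwise fun a b => ¬ cf a b := by
  induction l using List.reverseRecOn with
  | nil => simp
  | append_singleton l x ih =>
    obtain ⟨h1, h2, h3⟩ := ih hl.of_append_left
    obtain ⟨h4, h5⟩ := hF _ x (h1 ▸ List.nodup_reverse.2 hl.of_append_left) h2
    rw [List.foldl_append, List.foldl_cons, List.foldl_nil]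
    exact ⟨by simp [h1], List.forall_mem_cons.2 ⟨h4, h2⟩, List.pairwise_cons.2 ⟨h5, h3⟩⟩

/-- Greedy choice without conflicts. -/
theorem greedy {C : Type} [Enc C] {X Y : C → Type} [∀ c, Enc (X c)] [∀ c, Enc (Y c)]
    (hX : PFam X) (hY : PFam Y) (ok : ∀ c, Y c → Prop) (cf : ∀ c, X c × Y c → X c × Y c → Prop)
    (h1 : PT fun z : Σ c, Y c => ok z.1 z.2)
    (h2 : PT fun z : Σ c, (X c × Y c) × (X c × Y c) => cf z.1 z.2.1 z.2.2)
    (hs : ∀ c a b, cf c a b → cf c b a) (ne : ∀ c, Nonempty (Y c))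
    (ex : ∀ c (Q : List (X c × Y c)) x, (Q.map Prod.fst).Nodup → (∀ q ∈ Q, ok c q.2) →
      ∃ y, ok c y ∧ ∀ q ∈ Q, ¬ cf c (x, y) q) :
    ∃ f : ∀ c, X c → Y c, D2 f ∧ ∀ c x, ok c (f c x) ∧
      ∀ x', cf c (x, f c x) (x', f c x') → x = x' := by
  have h3 : PT fun w : Σ z : Σ c, List (X c × Y c) × X c, Y z.1 =>
      ok w.1.1 w.2 ∧ ∀ q, ¬ (q ∈ w.1.2.1 ∧ cf w.1.1 (w.1.2.2, w.2) q) :=
    (pt_app h1 (pt_sigma_fst.comp pt_sigma_fst) D.sigma_snd).and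
      (((hX.prod hY).comap (pt_sigma_fst.comp pt_sigma_fst)).pt_forall
        (p := fun (w : Σ z : Σ c, List (X c × Y c) × X c, Y z.1) q =>
          ¬ (q ∈ w.1.2.1 ∧ cf w.1.1 (w.1.2.2, w.2) q))
        ((D.s1.lift.mem D.sigma_snd).and (pt_app2 h2
          ((pt_sigma_fst.comp pt_sigma_fst).comp pt_sigma_fst)
          (D.s2.lift.pair (D.sigma_snd.comp pt_sigma_fst)) D.sigma_snd)).not)
  have hY' := hY.comap (pt_sigma_fst (X := fun c => List (X c × Y c) × X c))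
  obtain ⟨F, hF, hF'⟩ := hY'.choose (p := fun z y =>
      ¬ (∃ y, ok z.1 y ∧ ∀ q, ¬ (q ∈ z.2.1 ∧ cf z.1 (z.2.2, y) q)) ∨
      (ok z.1 y ∧ ∀ q, ¬ (q ∈ z.2.1 ∧ cf z.1 (z.2.2, y) q)))
    (((hY'.pt_exists (p := fun z y => ok z.1 y ∧ ∀ q, ¬ (q ∈ z.2.1 ∧ cf z.1 (z.2.2, y) q))
      h3).not.comp pt_sigma_fst).or h3) fun z => by
      by_cases h : ∃ y, ok z.1 y ∧ ∀ q, ¬ (q ∈ z.2.1 ∧ cf z.1 (z.2.2, y) q)
      · exact h.imp fun _ => Or.inr
      · exact (ne z.1).elim fun y => ⟨y, Or.inl h⟩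
  obtain ⟨b, hb, hb'⟩ := (hX.prod hY).pb_sz
  obtain ⟨l, hl, hl'⟩ := id hX
  have hQ : D fun c => (l c).foldl (fun Q x => (x, F ⟨c, Q, x⟩) :: Q) [] :=
    D.foldl_add (f := fun c Q x => (x, F ⟨c, Q, x⟩) :: Q) ((D.s2.pair hF).cons D.s1) hl D.nil
      (hb.lin 2 2) fun c Q x _ => by
        have := hb' c (x, F ⟨c, Q, x⟩)
        rw [sz_cons]
        omega
  have k := fun c => fold_inv (ok c) (cf c) (fun Q x => F ⟨c, Q, x⟩) (fun Q x a a' => by
    obtain ⟨y, e1, e2⟩ := ex c Q x a a'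
    have := (hF' ⟨c, Q, x⟩).resolve_left fun h => h ⟨y, e1, fun q h => e2 q h.1 h.2⟩
    exact ⟨this.1, fun q a b => this.2 q ⟨a, b⟩⟩) (l c) (hl' c).1
  obtain ⟨f, hf, hf'⟩ := (hY.comap (pt_sigma_fst (X := X))).choose (p := fun z y =>
      (z.2, y) ∈ (l z.1).foldl (fun Q x => (x, F ⟨z.1, Q, x⟩) :: Q) [])
    (hQ.lift.mem ((D.sigma_snd.comp pt_sigma_fst).pair D.sigma_snd)) fun z => by
      obtain ⟨q, a, e⟩ := List.mem_map.1 ((k z.1).1 ▸ List.mem_reverse.2 ((hl' z.1).2 z.2))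
      exact ⟨q.2, e ▸ a⟩
  refine ⟨fun c x => f ⟨c, x⟩, hf, fun c x => ⟨(k c).2.1 _ (hf' ⟨c, x⟩), fun x' h => ?_⟩⟩
  have : Std.Symm fun a b => ¬ cf c a b := ⟨fun a b h h' => h (hs c b a h')⟩
  by_contra n
  exact (k c).2.2.forall (hf' ⟨c, x⟩) (hf' ⟨c, x'⟩) (fun e => n (congrArg Prod.fst e)) h

section

variable {l n : ℕ}

/-- The digits below `j` come from `a`, the others from `b`. -/
def mix (j : ℕ) (a b : Fin n → ZMod l) : Fin n → ZMod l := fun i => if (i : ℕ) < j then a i else b i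

/-- The path from `s` through `m` to `d`. -/
def path (ρ : ℕ) (s m d : Fin n → ZMod l) (j : ℕ) : Fin n → ZMod l :=
  if j ≤ ρ then mix j m s else mix (j - ρ) d m

theorem inH_mix {ρ : ℕ} (j : ℕ) {a b : Fin n → ZMod l} (ha : InH ρ a) (hb : InH ρ b) :
    InH ρ (mix j a b) := fun i hi => by simp [mix, ha i hi, hb i hi]

/-- The conflict relation. -/
def cf (ρ : ℕ) (act : (Fin n → ZMod l) → Prop) (src : (Fin n → ZMod l) → Fin n → ZMod l)
    (a b : (Fin n → ZMod l) × (Fin n → ZMod l) × Fin (2 * ρ + 2)) : Prop :=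
  act a.1 ∧ act b.1 ∧ a.2.2 = b.2.2 ∧ ∃ j : Fin (2 * ρ + 1),
    path ρ (src a.1) a.2.1 a.1 j = path ρ (src b.1) b.2.1 b.1 j

theorem count [NeZero l] {ρ : ℕ} {act : (Fin n → ZMod l) → Prop}
    {src : (Fin n → ZMod l) → Fin n → ZMod l} (h1 : ∀ g, act g → InH ρ g ∧ InH ρ (src g))
    (h2 : ∀ g g', act g → act g' → src g = src g' → g = g')
    (Q : List ((Fin n → ZMod l) × (Fin n → ZMod l) × Fin (2 * ρ + 2))) (g : Fin n → ZMod l)
    (hQ : (Q.map Prod.fst).Nodup) : ∃ y, InH ρ y.1 ∧ ∀ q ∈ Q, ¬ cf ρ act src (g, y) q := by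
  by_contra! h
  have k : ∀ j : Fin (2 * ρ + 1), #{y : (Fin n → ZMod l) × Fin (2 * ρ + 2) | InH ρ y.1 ∧ ∃ q ∈ Q,
      act q.1 ∧ y.2 = q.2.2 ∧ path ρ (src g) y.1 g j = path ρ (src q.1) q.2.1 q.1 j} ≤
      #{z : Fin n → ZMod l | InH ρ z} := fun j => by
    refine card_le_card_of_forall_subsingleton (fun y z => ∃ q ∈ Q, act q.1 ∧ y.2 = q.2.2 ∧
      path ρ (src g) y.1 g j = path ρ (src q.1) q.2.1 q.1 j ∧
      z = if (j : ℕ) ≤ ρ then mix j (src q.1) y.1 else mix (j - ρ) y.1 q.1) (fun y hy => ?_) ?_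
    · obtain ⟨a, q, a1, a2, a3, a4⟩ := (mem_filter.1 hy).2
      refine ⟨_, mem_filter.2 ⟨mem_univ _, ?_⟩, q, a1, a2, a3, a4, rfl⟩
      split_ifs
      · exact inH_mix _ (h1 _ a2).2 a
      · exact inH_mix _ a (h1 _ a2).1
    · rintro z - y ⟨-, q, a1, a2, a3, a4, rfl⟩ y' ⟨-, q', b1, b2, b3, b4, e⟩
      have t : ∀ i, (src q.1 i = src q'.1 i ∨ ¬ (j : ℕ) ≤ ρ) ∧ (q.1 i = q'.1 i ∨ (j : ℕ) ≤ ρ) ∧
          (q.2.1 i = q'.2.1 i → y.1 i = y'.1 i) := fun i => by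
        have c1 := congrFun a4 i
        have c2 := congrFun b4 i
        have c3 := congrFun e i
        by_cases hj : (j : ℕ) ≤ ρ <;> simp only [path, hj, if_true, if_false, mix] at c1 c2 c3 <;>
          split_ifs at c1 c2 c3 <;> simp_all
      obtain rfl : q = q' := List.inj_on_of_nodup_map hQ a1 b1 <| by
        by_cases hj : (j : ℕ) ≤ ρ
        · exact h2 _ _ a2 b2 (funext fun i => (t i).1.resolve_right (not_not.2 hj))
        · exact funext fun i => (t i).2.1.resolve_right hj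
      exact Prod.ext (funext fun i => (t i).2.2 rfl) (a3.trans b3.symm)
  have k' := (card_le_card (s := ({z : Fin n → ZMod l | InH ρ z} : Finset _) ×ˢ univ)
    fun y hy => ?_).trans (card_biUnion_le_card_mul univ _ _ fun j _ => k j)
  · have : 0 < #{z : Fin n → ZMod l | InH ρ z} :=
      card_pos.2 ⟨0, mem_filter.2 ⟨mem_univ _, fun _ _ => rfl⟩⟩
    rw [card_product, card_fin, card_fin] at k'
    nlinarith
  · have a := (mem_filter.1 (mem_product.1 hy).1).2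
    obtain ⟨q, a1, -, a2, a3, j, a4⟩ := h y a
    exact mem_biUnion.2 ⟨j, mem_univ _, mem_filter.2 ⟨mem_univ _, a, q, a1, a2, a3, a4⟩⟩

theorem path_ok {ρ : ℕ} {s m d : Fin n → ZMod l} (hs : InH ρ s) (hm : InH ρ m) (hd : InH ρ d) :
    path ρ s m d 0 = s ∧ path ρ s m d (2 * ρ) = d ∧ (∀ j, InH ρ (path ρ s m d j)) ∧
      ∀ j < 2 * ρ, ∀ i : Fin n, (i : ℕ) ≠ j % ρ → path ρ s m d (j + 1) i = path ρ s m d j i := by
  refine ⟨funext fun i => by simp [path, mix], funext fun i => ?_, fun j => ?_, fun j hj i hi => ?_⟩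
  · have := hs i
    have := hm i
    have := hd i
    unfold path mix
    split_ifs <;> grind
  · unfold path
    split_ifs
    · exact inH_mix _ hm hs
    · exact inH_mix _ hd hm
  · have := hs i
    have := hm i
    have e : j % ρ = if j < ρ then j else j - ρ := by
      split_ifs with h
      · exact Nat.mod_eq_of_lt h
      · rw [Nat.mod_eq_sub_mod (not_lt.1 h), Nat.mod_eq_of_lt (by omega)]
    unfold path mix
    split_ifs <;> grind

end

section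

variable {l : ℕ} [NeZero l] {B : Type} [Enc B] {n : B → ℕ} (hn : PT n) (hn' : PB n)
include hn hn'

theorem d_mix {j : B → ℕ} {a b : ∀ c, Fin (n c) → ZMod l} (hj : PT j) (ha : D a) (hb : D b) :
    D fun c => mix (j c) (a c) (b c) :=
  D.fn_mk hn hn' (D.ite (PT.lt (D.fin_iff.1 D.sigma_snd) (hj.comp pt_sigma_fst))
    ((ha.comp pt_sigma_fst).fn_app D.sigma_snd) ((hb.comp pt_sigma_fst).fn_app D.sigma_snd))

theorem d_path {ρ j : B → ℕ} {s m d : ∀ c, Fin (n c) → ZMod l} (hρ : PT ρ) (hs : D s) (hm : D m)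
    (hd : D d) (hj : PT j) : D fun c => path (ρ c) (s c) (m c) (d c) (j c) :=
  D.ite (hj.le hρ) (d_mix hn hn' hj hm hs) (d_mix hn hn' (hj.sub hρ) hd hm)

theorem pt_inH {ρ : B → ℕ} {a : ∀ c, Fin (n c) → ZMod l} (hρ : PT ρ) (ha : D a) :
    PT fun c => InH (ρ c) (a c) :=
  ((PFam.fin hn hn').pt_forall (p := fun c i => ¬ ρ c ≤ i ∨ a c i = 0)
    ((PT.le (hρ.comp pt_sigma_fst) (D.fin_iff.1 D.sigma_snd)).not.or
      (((ha.comp pt_sigma_fst).fn_app D.sigma_snd).eq (D.const _)))).congr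
    fun z => by simp only [InH, imp_iff_not_or]

end

end Route

open Route in
theorem routeThm : RouteThm := by
  intro l hl C _ n ρ hn hρ hb hle act src ha hs h1 h2
  have hn' : PB n := hb.of_le fun c => (Nat.lt_pow_self hl.out.one_lt).le
  have hρ' : PB ρ := hn'.of_le hle
  have hX : PFam fun c => Fin (n c) → ZMod l :=
    (PFam.const (ZMod l)).fn hn hn' (hb.of_le fun c => by rw [ZMod.card])
  have hF : ∀ k, PFam fun c => Fin (2 * ρ c + k) := fun k =>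
    PFam.fin (((PT.const 2).mul hρ).add (PT.const k)) (hρ'.lin 2 k)
  have hp : ∀ {B : Type} [Enc B] {p : B → C} {g m : ∀ b, Fin (n (p b)) → ZMod l} {j : B → ℕ},
      PT p → D g → D m → PT j → D fun b => path (ρ (p b)) (src _ (g b)) (m b) (g b) (j b) :=
    fun e1 e2 e3 e4 => d_path (hn.comp e1) (hn'.comp e1) (hρ.comp e1) (hs.app e1 e2) e3 e2 e4
  have p1 : PT fun z : Σ c, (Fin (n c) → ZMod l) × Fin (2 * ρ c + 2) => InH (ρ z.1) z.2.1 :=
    pt_inH (hn.comp pt_sigma_fst) (hn'.comp pt_sigma_fst) (hρ.comp pt_sigma_fst) D.s1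
  have p3 : ∀ {B : Type} [Enc B] {p : B → C} {a a' : ∀ b, (Fin (n (p b)) → ZMod l) ×
      (Fin (n (p b)) → ZMod l) × Fin (2 * ρ (p b) + 2)}, PT p → D a → D a' →
      PT fun b => cf (ρ (p b)) (act _) (src _) (a b) (a' b) := fun e1 e2 e3 =>
    (pt_app ha e1 e2.fst).and ((pt_app ha e1 e3.fst).and ((e2.snd.snd.eq e3.snd.snd).and
      (((hF 1).comap e1).pt_exists ((hp (e1.comp pt_sigma_fst) (e2.fst.comp pt_sigma_fst)
        (e2.snd.fst.comp pt_sigma_fst) (D.fin_iff.1 D.sigma_snd)).eq (hp (e1.comp pt_sigma_fst)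
        (e3.fst.comp pt_sigma_fst) (e3.snd.fst.comp pt_sigma_fst) (D.fin_iff.1 D.sigma_snd))))))
  obtain ⟨f, hf, h⟩ := greedy hX (hX.prod (hF 2)) (fun c y => InH (ρ c) y.1)
    (fun c => cf (ρ c) (act c) (src c)) p1 (p3 pt_sigma_fst D.s1 D.s2)
    (fun c a b h => ⟨h.2.1, h.1, h.2.2.1.symm, h.2.2.2.imp fun _ => Eq.symm⟩)
    (fun c => ⟨0, 0⟩) fun c Q x hQ _ => count (h1 c) (h2 c) Q x hQ
  have := hp (B := Σ c, (Fin (n c) → ZMod l) × ℕ) pt_sigma_fst D.s1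
    (hf.app pt_sigma_fst D.s1).fst D.s2.pt
  refine ⟨fun c g j => path (ρ c) (src c g) (f c g).1 g j, fun c g => (f c g).2, this,
    D.fin_iff.1 hf.snd, fun c g hg => ?_⟩
  obtain ⟨a1, a2, a3, a4⟩ := path_ok (h1 c g hg).2 (h c g).1 (h1 c g hg).1
  exact ⟨(f c g).2.2, a1, a2, a3, a4, fun g' hg' e j hj e' =>
    (h c g).2 g' ⟨hg, hg', Fin.ext e, ⟨j, Nat.lt_succ_of_le hj⟩, e'⟩⟩

end Vale.Agent.P330Q
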