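import Vale.Agent.P330Q.GlD

/-! Block programs, selection of lanes and linear programs on cell encodings. -/

namespace Vale.Agent.P330Q

open Vale.Agent.Lib.PolyTime Vale.Agent.P330 Finset
open scoped Classical BigOperators

variable {C : Type} [Enc C] {l : ℕ} [Fact l.Prime] {a : C → ℕ} {S B : Type} [Fintype S] [Enc S]
  [Fintype B] [Enc B] {δ0 lam : ℝ}
variable {δ : ℝ} (W : World C l a S B δ0 lam) (Z : Cell l δ FinU)

theorem g_chain (H : Hyp l δ) : W.G_chain Z := by
  intro I O N N' A i o h η hη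
  have hx := (H.ix C W.P.lg (W.CV O)).2 N' Z
  exact H.chain 1 C S B δ0 lam a W I O ⟨N'.X Z, hx.1⟩ N Z A i o
    (fun c z w => cw (N'.gen Z c) w z.2) h (fun c => Z.ne _)
    (Pol.lin (J := W.Y.Pos.prod (N'.X Z)) (a := fun c z v => N'.gen Z c z.2 v)
      (pt_app2 hx.2.1 pt_sigma_fst D.s1.snd D.s2)) η hη

omit [Fintype B] [Enc B] in
theorem g_lane (H : Hyp l δ) : W.G_lane Z := by
  intro I K N N' j hj η hη
  have hx := (H.ix C W.P.lg (W.CV I)).2 N Z
  have hS := W.good.neS
  let R : Arr l a W.P.lg N'.p Z Unit (.of (W.Rg Z N')) W.Y.Pos :=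
    { sl := fun c o _ ξ => (o, ξ)
      κ := 1
      ne := fun c => have := W.Y.ne c; inferInstance
      size := W.szG.card_prod (Sz.cardc S)
      d_sl := fun _ => D.pair D.s1 D.s2
      dens := fun c _ u => ((fr_single u).trans (one_mul _).symm).le }
  have h := H.map 1 C a W.P.lg W.P.pb_lg (W.CV K) ⟨N.X Z, hx.1⟩ N' Z Unit (.of (W.Rg Z N')) W.Y.Pos R
    (fun c _ ξ w => ∑ v : (W.CV I).T c, N.gen Z c ξ v * w ((), (j c v.1, v.2))) (fun c => Z.ne _)
    (Pol.comb (J := W.Y.Pos.prod (N.X Z)) (K := W.CV I) (a := fun c z v => N.gen Z c z.2 v)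
      (pt_app2 hx.2.1 pt_sigma_fst D.s1.snd D.s2)
      (Pol.var (V := (Fam.const C Unit).prod (W.CV K)) (J := W.CV I)
        (x := fun c v => ((), (j c v.1, v.2)))
        (D.pair (D.const ()) (D.pair (hj.app pt_sigma_fst D.s1) D.s2)))) η hη
  refine h.mono fun c x y _ _ hy f => (hy fun o z => W.cell f o z.2).trans (add_le_add_right ?_ _)
  exact fr_mono fun o ⟨_, ho⟩ => ho

theorem g_lp (H : Hyp l δ) (b1 : B) (hb : ∀ c x, W.π c b1 x = x) : W.G_lp := by
  intro I O m hm
  obtain ⟨h1, V, r, φ, inn, out, k1, k2, k3, k4, k5, k6⟩ :=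
    H.lp C S B δ0 lam a W b1 hb I (.const _ Unit) O (fun c y => m c (y ())) hm
  refine ⟨fun c y hy => h1 c (fun _ => y) fun _ => hy, V, r, φ,
    fun c v => (inn c v).elim none fun z => some z.1, out, k1, k2, k3,
    D.option_elim k4 D.none (D.some D.sigma_snd.fst), k5, fun c s => ?_⟩
  have e : (fun v => ((inn c v).elim none fun z => some z.1).elim 0 s.1) =
      fun v => (inn c v).elim 0 fun k => s.1 k.1 := by
    funext v
    cases inn c v <;> rfl
  have h := k6 c ⟨fun k => s.1 k.1, fun k => s.2 k.1⟩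
  simp only [e]
  exact h

end Vale.Agent.P330Q
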