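import Vale.Agent.P330Q.GlD

/-! Comparison of nodes, linear forms, equations of the local codes. -/

namespace Vale.Agent.P330Q

open Vale.Agent.Lib.PolyTime Vale.Agent.P330 Finset
open scoped Classical BigOperators

variable {C : Type} [Enc C] {l : ℕ} [Fact l.Prime] {a : C → ℕ} {S B : Type} [Fintype S] [Enc S]
  [Fintype B] [Enc B] {δ0 lam : ℝ}

variable {δ : ℝ} (W : World C l a S B δ0 lam) (Z : Cell l δ FinU)

namespace GlCmp

theorem two {F : Type} [Fintype F] {q : Bool → F → ℝ} (hq : IsDist q) (b : F) :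
    1 - q true b ≤ prob q (fun s => ¬ s true = s false) + (1 - q false b) ∧
      prob q (fun s => ¬ s true = s false) ≤ (1 - q true b) + (1 - q false b) := by
  rw [← prob_slot_ne hq true b, ← prob_slot_ne hq false b]
  refine ⟨(prob_mono hq fun s h => ?_).trans (prob_or_le hq _ _),
    (prob_mono hq fun s h => ?_).trans (prob_or_le hq _ _)⟩
  · by_cases e : s true = s false
    · exact Or.inr (e ▸ h)
    · exact Or.inl e
  · by_cases e : s true = b
    · exact Or.inr fun e' => h (e.trans e'.symm)
    · exact Or.inl e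

theorem ext_iff {k F S : Type} [Field k] [Field F] [Algebra k F] [Fintype S]
    (C0 : Submodule k (S → k)) (v : S → F) : v ∈ extC F C0 ↔
      ∀ h : S → k, (∀ u ∈ C0, ∑ s, h s * u s = 0) → ∑ s, algebraMap k F (h s) * v s = 0 := by
  refine ⟨fun hv h hh => (Module.forall_dual_apply_eq_zero_iff k _).1 fun φ => ?_,
    fun hv φ => ?_⟩
  · rw [← hh _ (hv φ), map_sum]
    exact sum_congr rfl fun s _ => by rw [← Algebra.smul_def, map_smul, smul_eq_mul]
  · refine (Subspace.forall_mem_dualAnnihilator_apply_eq_zero_iff C0 _).1 fun ψ hψ => ?_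
    have e : ∀ u : S → k, ψ u = ∑ s, ψ (fun j => if s = j then 1 else 0) * u s := fun u => by
      rw [LinearMap.pi_apply_eq_sum_univ ψ u]
      exact sum_congr rfl fun s _ => by rw [smul_eq_mul, mul_comm]
    have h1 := congrArg φ (hv (fun s => ψ fun j => if s = j then 1 else 0) fun u hu => by
      rw [← e]; exact (Submodule.mem_dualAnnihilator ψ).1 hψ u hu)
    rw [map_sum, map_zero] at h1
    refine (e _).trans (Eq.trans (sum_congr rfl fun s _ => ?_) h1)
    rw [← Algebra.smul_def, map_smul, smul_eq_mul]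

end GlCmp

theorem g_cmp : G_cmp l := by
  intro C _ a lg I Q p q κ hQ hz hp hq h1 h2 η hη
  refine (ImplRS.rej (F := ZMod l) zero_ne_one (A := Bool) Q hQ
    (fun c t b => cond b (p c t) (q c t)) (fun _ _ s => s true = s false)
    (fun i => by cases i; exacts [hq, hp]) (fun s => PT.const _) κ
    (fun c i => by cases i; exacts [h2 c, h1 c]) hz hη).mono fun c x r hx _ _ h v => ?_
  have k := fun t => GlCmp.two (hx.comp fun b => cond b (p c t) (q c t)) (v t)
  have k1 := expect_le_expect (s := univ) fun t _ => (k t).1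
  have k2 := expect_le_expect (s := univ) fun t _ => (k t).2
  rw [expect_add_distrib] at k1 k2
  have h' := abs_le.1 h
  simp only [du, cond_true, cond_false] at k1 k2 ⊢
  exact ⟨by linarith [h'.1], by linarith [h'.2]⟩

theorem g_qlin : G_qlin l := by
  intro C _ Y V J co hco
  refine ⟨fun c j i i' => i'.elim (i.elim 0 (co c j)) fun _ => 0, ?_, fun c j w => ?_⟩
  · exact D.option_elim (D.snd (D.snd D.sigma_snd))
      (D.option_elim (D.fst (D.snd D.sigma_snd)) (PS.dZero pt_sigma_fst)
        (hco.app (pt_sigma_fst.comp pt_sigma_fst) (D.fst (D.sigma_snd.comp pt_sigma_fst))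
          D.sigma_snd))
      (PS.dZero (pt_sigma_fst.comp pt_sigma_fst))
  · simp [qf, ev, Fintype.sum_option]

theorem g_eqs : W.G_eqs := by
  let e := Fintype.equivFin (S → ZMod l)
  let h0 : Bool → Fin (Fintype.card (S → ZMod l)) → S → ZMod l := fun b j =>
    if ∀ u ∈ W.C0 b, ∑ s, e.symm j s * u s = 0 then e.symm j else 0
  refine ⟨_, fun c b j s => algebraMap (ZMod l) (W.P.F c) (h0 b j s) *
    if W.ck b s then 1 else W.P.Φ.θ c, fun b j s => ?_, fun c b v => ?_⟩
  · refine PS.dMul PT.id (PS.dCast PT.id (PT.const _)) ?_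
    by_cases h : W.ck b s
    · simp only [if_pos h]; exact PS.dOne PT.id
    · simp only [if_neg h]; exact W.P.Φ.d_θ
  · refine (GlCmp.ext_iff (W.C0 b) _).trans ⟨fun h j => ?_, fun h u hu => ?_⟩
    · simp only [mul_assoc]
      refine h _ fun u hu => ?_
      by_cases k : ∀ u ∈ W.C0 b, ∑ s, e.symm j s * u s = 0
      · simp only [h0, if_pos k]; exact k u hu
      · simp only [h0, if_neg k, Pi.zero_apply, zero_mul, sum_const_zero]
    · have k := h (e u)
      simp only [h0, Equiv.symm_apply_apply, if_pos hu, mul_assoc] at k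
      exact k

end Vale.Agent.P330Q
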