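import Vale.Agent.P330Q.GlD

/-! The test for being close to the outer code. -/

namespace Vale.Agent.P330Q

open Vale.Agent.Lib.PolyTime Vale.Agent.P330 Finset
open scoped Classical BigOperators

variable {C : Type} [Enc C] {l : ℕ} [Fact l.Prime] {a : C → ℕ} {S B : Type} [Fintype S] [Enc S]
  [Fintype B] [Enc B] {δ0 lam : ℝ}
variable {δ : ℝ} (W : World C l a S B δ0 lam) (Z : Cell l δ FinU)

namespace GlCode

omit [Fintype B] [Enc B] in
theorem far {K : SF W.P.lg} (N : Ix W.P.lg (W.CV K)) {e : ℝ} (he : 0 < e) {c : C}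
    {x : (W.Rg Z N).T c → ZMod l → ℝ} (hx : IsDist x) (y : K.T c → W.Wd c) :
    fr (W.Ps c) (W.Far Z N e x y) ≤ du x (W.benc N Z y) / e := by
  refine le_trans (fr_mono fun p hp => le_of_lt hp) ((fr_markov
    (g := fun p => du (fun ξ => x (p, ξ)) (cw (N.gen Z c) (W.cell y p)))
    (fun p => du_nonneg (hx.comp _) _) he).trans (le_of_eq ?_))
  exact congrArg (· / e) (expect_prod' fun z => 1 - x z (W.benc N Z y z)).symm

omit [Fintype B] [Enc B] in
theorem hd_le {K : SF W.P.lg} (N : Ix W.P.lg (W.CV K)) {c : C} (y y' : K.T c → W.Wd c) :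
    hd (W.benc N Z y) (W.benc N Z y') ≤ fr (W.Ps c) fun p => ∃ k, y k p ≠ y' k p := by
  have := Z.ne (N.p c)
  refine le_trans (fr_mono fun z hz => ?_)
    (fr_fst (Y := (N.X Z).T c) fun p => ∃ k, y k p ≠ y' k p).le
  by_contra h
  push Not at h
  exact hz (congrArg (fun w => cw (N.gen Z c) w z.2) (funext fun v => congrArg
    (fun t => W.P.Φ.co c t v.2) (h v.1)))

include W in
omit [Fintype B] [Enc B] in
theorem ne_S : Nonempty S := by
  refine Fintype.card_pos_iff.1 (Nat.pos_of_ne_zero fun h => ?_)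
  have := W.good.2.2.2.2
  rw [h] at this
  norm_num at this

end GlCode

open GlCode in
theorem g_code {A R : Type} [Fintype A] [Enc A] (H : Hyp l δ) (L : Lr W A R) (hC : W.G_chain Z)
    (hL : W.G_lp) (hr : W.G_lr Z L) (ha : W.G_lane Z) (hc : G_cmp l) : W.G_code Z := by
  intro I N θ hθ
  have d0 := W.good.1
  have d1 := H.pos
  obtain ⟨N'⟩ := (H.ix C W.P.lg (W.CV (I.prod (.const _ A)))).1 W.P.pb_lg
    (Sz.card_prod (I.prod (.const _ A)).pl (W.plm.congr fun _ => Fintype.card_fin _))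
  obtain ⟨v, v0, h1⟩ := hr I N' (θ / 8) (by positivity)
  obtain ⟨v1, p1, p2, p3⟩ : ∃ v1 : ℝ, 0 < v1 ∧ v1 ≤ v / 4 ∧ v1 ≤ θ / 32 :=
    ⟨min _ _, lt_min (by positivity) (by positivity), min_le_left _ _, min_le_right _ _⟩
  refine ⟨v1, p1, fun w hw => ?_⟩
  obtain ⟨η, e0, h2⟩ := h1 (w / 4) (by positivity)
  obtain ⟨t, t1, t2, t3⟩ : ∃ t : ℝ, 0 < t ∧ t ≤ v1 ∧ t ≤ w / 4 :=
    ⟨min _ _, lt_min p1 (by positivity), min_le_left _ _, min_le_right _ _⟩
  have g1 := hC I (I.prod (.const _ A)) N N' _ _ _ (hL I (.const _ A) L.κ L.lp_κ).2 _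
    (lt_min e0 (mul_pos t1 d1))
  have g2 := ha I _ N N' (fun _ i => (i, L.a0)) (D.pair D.sigma_snd (D.const _)) t t1
  have g3 := hc C a W.P.lg
    (((Reg.of (W.Rg Z N)).sum (.of (W.Rg Z N'))).sum (.of (W.Rg Z N))) (W.Rg Z N)
    (fun _ u => .inl (.inl u)) (fun _ u => .inr u) 1
    (fun c => by
      have := W.Y.ne c
      have := ne_S W
      have := Z.ne (N.p c)
      exact inferInstanceAs (Nonempty ((W.Y.G.T c × S) × Z.X.T (N.p c))))
    ((W.szG.card_prod (Sz.cardc S)).card_prod ((H.ix C W.P.lg _).2 N Z).1)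
    D.sigma_snd.inl.inl D.sigma_snd.inr
    (fun c u => by
      rcases u with (u | u) | u
      · exact ((fr_congr (by simp)).trans (fr_single u)).le.trans (one_mul _).ge
      · exact ((fr_congr (by simp)).trans fr_false).le.trans
          (mul_nonneg zero_le_one (inv_nonneg.2 (Nat.cast_nonneg _)))
      · exact ((fr_congr (by simp)).trans fr_false).le.trans
          (mul_nonneg zero_le_one (inv_nonneg.2 (Nat.cast_nonneg _))))
    (fun c u => by
      rcases u with (u | u) | u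
      · exact ((fr_congr (by simp)).trans fr_false).le.trans
          (mul_nonneg zero_le_one (inv_nonneg.2 (Nat.cast_nonneg _)))
      · exact ((fr_congr (by simp)).trans fr_false).le.trans
          (mul_nonneg zero_le_one (inv_nonneg.2 (Nat.cast_nonneg _)))
      · exact ((fr_congr (by simp)).trans (fr_single u)).le.trans (one_mul _).ge) t t1
  have g4 : ImplRS (ZMod l) a W.P.lg ((Reg.of (W.Rg Z N)).sum (.of (W.Rg Z N'))) fun c x r =>
      ∃ z : (W.Rg Z N).T c → ZMod l → ℝ, IsDist z ∧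
        (∀ f : I.T c × A → W.Wd c, du z (W.benc N Z fun i => f (i, L.a0)) ≤
          t + fr (W.Ps c) (W.Far Z N' δ (fun i => x (.inr i)) f)) ∧
        ∀ u : (W.Rg Z N).T c → ZMod l, du (fun i => x (.inl i)) u ≤ r + t + du z u ∧
          r ≤ t + du (fun i => x (.inl i)) u + du z u :=
    (ImplS.inr (I := Reg.of (W.Rg Z N)) g2).seq' g3
  have g5 : ImplRS (ZMod l) a W.P.lg ((Reg.of (W.Rg Z N)).sum (.of (W.Rg Z N'))) fun c x T =>
      (T < v → ∃ (f : I.T c × A → W.Wd c) (y : I.T c → W.Wd c), (∀ k, y k ∈ W.T c) ∧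
        fr (W.Ps c) (fun p => ∃ k, f (k, L.a0) p ≠ y k p) ≤ θ / 8 ∧
        fr (W.Ps c) (W.Far Z N' δ (fun i => x (.inr i)) f) ≤ θ / 8) ∧
      ∀ y : I.T c → W.Wd c, (∀ k, y k ∈ W.T c) → du (fun i => x (.inr i))
        (W.benc N' Z fun z : I.T c × A => L.κ c (y z.1) z.2) ≤ η → T ≤ w / 4 :=
    ImplS.inr (I := Reg.of (W.Rg Z N)) h2
  refine ⟨min (δ ^ 2 * δ0 ^ 2 / 256) t, lt_min (by positivity) t1,
    (g1.seq' (ImplRS.avg zero_ne_one g5 g4 t1)).mono ?_⟩
  rintro c x T hx - ⟨m, hm, k1, s, s', s0, s0', ⟨k2, k3⟩, ⟨z, hz, k4, k5⟩, k6⟩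
  obtain ⟨k7, k8⟩ := abs_le.1 k6
  refine ⟨fun hT => ?_, fun y hy hd => ?_⟩
  · obtain ⟨f, y, a1, a2, a3⟩ := k2 (by linarith)
    have a4 : du x (W.benc N Z y) ≤ s' + t + du z (W.benc N Z y) := (k5 _).1
    have a5 := du_le_hd hz (W.benc N Z y) (W.benc N Z fun i => f (i, L.a0))
    have a6 := hd_le W Z N (fun i => f (i, L.a0)) y
    exact ⟨y, a1, by linarith [k4 f]⟩
  · have a1 := k1 ⟨y, hy⟩ (hd.trans (min_le_left _ _))
    have a2 := k3 y hy (a1.trans (min_le_left _ _))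
    have a3 := (far W Z N' d1 hm fun z : I.T c × A => L.κ c (y z.1) z.2).trans
      ((div_le_iff₀ d1).2 (a1.trans (min_le_right _ _)))
    have a4 := (k4 fun z : I.T c × A => L.κ c (y z.1) z.2).trans (add_le_add le_rfl a3)
    simp only [L.κ0] at a4
    have a5 : s' ≤ t + du x (W.benc N Z y) + du z (W.benc N Z y) := (k5 _).2
    linarith [hd.trans (min_le_right _ _)]

end Vale.Agent.P330Q
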