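import Vale.Agent.P330Q.GlD

/-! Encoding and decoding of tables in polynomial time, distance and size. -/

namespace Vale.Agent.P330Q

open Vale.Agent.Lib.PolyTime Vale.Agent.P330 Finset
open scoped Classical BigOperators

variable {C : Type} [Enc C] {l : ℕ} [Fact l.Prime] {a : C → ℕ} {S B : Type} [Fintype S] [Enc S]
  [Fintype B] [Enc B] {δ0 lam : ℝ}

variable {δ : ℝ} (W : World C l a S B δ0 lam) (Z : Cell l δ FinU)

namespace GlDec

theorem free {W : World C l a S B δ0 lam} (M : Mem W) (c : C)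
    (u : W.P.Tab c) (h : W.P.H c) (k : M.Ty.T c) : M.E c u ((M.e c).symm (h, k), M.s0) = u h := by
  rw [M.E_free, Equiv.apply_symm_apply]

theorem ty (M : Mem W) : ∃ k : ∀ c, M.Ty.T c, D k :=
  (M.Ty.pf.choose (p := fun _ _ => True) (PT.const True) fun c =>
    (W.Y.ne c).elim fun g => ⟨(M.e c g).2, trivial⟩).imp fun _ h => h.1

theorem enc (H : Hyp l δ) (M : Mem W) (I : SF W.P.lg) (N : Ix W.P.lg (W.CV I))
    (w : ∀ c, I.T c → W.P.Tab c) (hw : D3 w) :
    PT fun z : Σ c, (W.Rg Z N).T c => W.benc N Z (fun k => M.E z.1 (w z.1 k)) z.2 := by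
  have hE : D2 fun b : Σ c, I.T c => M.E b.1 (w b.1 b.2) :=
    M.d_E _ Sigma.fst (fun b => w b.1 b.2) pt_sigma_fst
      (hw.app (pt_sigma_fst.comp pt_sigma_fst) (D.sigma_snd.comp pt_sigma_fst) D.sigma_snd)
  have hp : PT fun y : Σ z : Σ c, (W.Rg Z N).T c, (W.CV I).T z.1 => y.1.1 :=
    pt_sigma_fst.comp pt_sigma_fst
  refine PFam.pt_sumZ ((W.CV I).pf.comap (p := fun z : Σ c, (W.Rg Z N).T c => z.1) pt_sigma_fst)
    (f := fun z v => N.gen Z z.1 z.2.2 v * W.P.Φ.co z.1 (M.E z.1 (w z.1 v.1) z.2.1) v.2)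
    (pt_mulZ ?_ ?_)
  · exact ((H.ix C W.P.lg (W.CV I)).2 N Z).2.1.comp
      (pt_sigma_mk (X := fun c => (N.X Z).T c × (W.CV I).T c) hp
        (D.pair (D.sigma_snd.comp pt_sigma_fst).snd D.sigma_snd))
  · exact (D.fn_app (n := fun y : Σ z : Σ c, (W.Rg Z N).T c, (W.CV I).T z.1 => W.P.Φ.m y.1.1)
      (X := fun _ => ZMod l) (W.P.Φ.d_co.app hp
        (hE.app (pt_sigma_mk (X := I.T) hp D.sigma_snd.fst) (D.sigma_snd.comp pt_sigma_fst).fst))
      D.sigma_snd.snd).pt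

end GlDec

theorem g_dec (H : Hyp l δ) (M : Mem W) : W.G_dec Z M := by
  intro I N
  obtain ⟨k0, hk0⟩ := GlDec.ty W M
  have hD := (H.dec C S B δ0 lam a W).2 I N Z
  refine ⟨fun c => (W.Y.ne c).elim fun g => (Z.ne (N.p c)).elim fun x => ⟨((g, M.s0), x)⟩,
    Sz.card_prod (Sz.card_prod W.szG (Sz.cardc S)) ((H.ix C W.P.lg (W.CV I)).2 N Z).1,
    fun c w w' h => hD.1 c _ _ (fun _ => M.E_mem _ _) (fun _ => M.E_mem _ _) fun e => h ?_,
    GlDec.enc W Z H M I N, fun B' _ p u hp hu => ?_⟩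
  · funext k x
    rw [← GlDec.free M c (w k) x (k0 c), ← GlDec.free M c (w' k) x (k0 c), congrFun e k]
  · obtain ⟨v, hv, h⟩ := hD.2 B' p u hp hu
    refine ⟨fun b k x => v b k ((M.e (p b)).symm (x, k0 (p b)), M.s0), ?_, fun b w e => ?_⟩
    · have hq : PT fun y : Σ b, I.T (p b) × W.P.H (p b) => p y.1 := hp.comp pt_sigma_fst
      exact hv.app pt_sigma_fst D.sigma_snd.fst
        (D.pair (M.d_e'.app hq (D.pair D.sigma_snd.snd (hk0.comp hq))) (D.const M.s0))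
    · funext k x
      beta_reduce
      rw [h b _ (fun _ => M.E_mem _ _) e]
      exact GlDec.free M _ _ _ _

end Vale.Agent.P330Q
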