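import Vale.Agent.P330Q.GlD

/-! The test for the left-right code. -/

namespace Vale.Agent.P330Q

open Vale.Agent.Lib.PolyTime Vale.Agent.P330 Finset
open scoped Classical BigOperators

variable {C : Type} [Enc C] {l : ℕ} [Fact l.Prime] {a : C → ℕ} {S B : Type} [Fintype S] [Enc S]
  [Fintype B] [Enc B] {δ0 lam : ℝ}

variable {δ : ℝ} (W : World C l a S B δ0 lam) (Z : Cell l δ FinU)

namespace GlLr

/-- Linear forms with a fixed finite set of terms. -/
theorem lin (hQ : G_qlin l) (Y : PS C l) (V J : Fam C) (T : Type) [Fintype T]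
    (cf : ∀ c, J.T c → T → Y.F c) (pt : ∀ c, J.T c → T → V.T c)
    (hcf : ∀ t, D2 fun c j => cf c j t) (hpt : ∀ t, D2 fun c j => pt c j t) :
    QF Y.Φ V J fun c j w => ∑ t, cf c j t * w (pt c j t) := by
  have key : ∀ s : Finset T, D3 fun c j v => ∑ t ∈ s, if v = pt c j t then cf c j t else 0 :=
    fun s => by
      induction s using Finset.induction_on with
      | empty => exact (PS.dZero pt_sigma_fst).congr fun _ => sum_empty
      | insert t s ht ih =>
        exact (PS.dAdd pt_sigma_fst (D.ite (D.eq D.sigma_snd.snd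
          ((hpt t).app pt_sigma_fst D.sigma_snd.fst)) ((hcf t).app pt_sigma_fst D.sigma_snd.fst)
          (PS.dZero pt_sigma_fst)) ih).congr fun _ => sum_insert ht
  obtain ⟨φ, h1, h2⟩ := hQ C Y V J _ (key univ)
  refine ⟨φ, h1, fun c j w => Eq.trans ?_ (h2 c j w)⟩
  simp only [sum_mul, ite_mul, zero_mul]
  rw [sum_comm]
  simp only [sum_ite_eq', mem_univ, if_true]

variable {W} {A R : Type} [Fintype A] [Enc A] (L : Lr W A R)

/-- The move of a slot. -/
def mv (c : C) : Bool → S ⊕ A → Equiv.Perm (W.Y.G.T c)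
  | false, _ => 1
  | true, .inl s => (W.Y.nb c s)⁻¹
  | true, .inr i => L.lf c i

/-- The position of a slot. -/
def pos (c : C) (o : W.Ps c) (i : Bool × (S ⊕ A)) : W.Ps c :=
  (mv L c i.1 i.2 o.1, i.2.elim id fun _ => o.2)

omit [Enc S] in
theorem fr_perm {G : Type} [Fintype G] [Nonempty S] (e : Equiv.Perm G) (u : G × S → S)
    (p : G × S) : fr (G × S) (fun o => (e o.1, u o) = p) ≤
      (Fintype.card S : ℝ) / Fintype.card (G × S) := by
  have h1 : (Fintype.card S : ℝ) ≠ 0 := by exact_mod_cast Fintype.card_ne_zero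
  refine (fr_mono (E' := fun o => e o.1 = p.1) fun o h => congrArg Prod.fst h).trans ?_
  rw [fr_fst (fun g => e g = p.1), fr_equiv e (· = p.1), fr_single, Fintype.card_prod,
    Nat.cast_mul, mul_comm, ← div_div, div_self h1, one_div]

theorem d_pos (i : Bool × (S ⊕ A)) : D2 fun c (o : W.Ps c) => pos L c o i := by
  obtain ⟨b, t⟩ := i
  refine D.pair ?_ ?_
  · cases b
    · exact D.sigma_snd.fst
    · rcases t with s | i
      · exact (W.Y.G.pf.d_symm (W.Y.d_nb s)).app pt_sigma_fst D.sigma_snd.fst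
      · exact (L.d_lf i).app pt_sigma_fst D.sigma_snd.fst
  · rcases t with s | i
    · exact D.const s
    · exact D.sigma_snd.snd

variable {n : ℕ} (hh : ∀ c, Bool → Fin n → S → W.P.F c)

/-- The coefficients. -/
noncomputable def cf (c : C) (b : Bool) : (Fin n × A) ⊕ R → S ⊕ A → W.P.F c
  | .inl j, .inl s => hh c b j.1 s
  | .inr r, .inr i => L.chk c b r i
  | .inl _, .inr _ => 0
  | .inr _, .inl _ => 0

/-- The lane of a term. -/
def ln : (Fin n × A) ⊕ R → S ⊕ A → A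
  | .inl j, _ => j.2
  | .inr _, .inr i => i
  | .inr _, .inl _ => L.a0

theorem d_cf (hd : ∀ b j s, D fun c => hh c b j s) (b : Bool) (e : (Fin n × A) ⊕ R) (t : S ⊕ A) :
    D fun c => cf L hh c b e t := by
  rcases e with j | r <;> rcases t with s | i
  exacts [hd _ _ _, PS.dZero PT.id, PS.dZero PT.id, L.d_chk _ _ _]

/-- The equations. -/
noncomputable def eqn {K : Type} (c : C) (z : K × Bool × ((Fin n × A) ⊕ R))
    (w : (Bool × (S ⊕ A)) × K × A → W.P.F c) : W.P.F c :=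
  ∑ t, cf L hh c z.2.1 z.2.2 t * w ((z.2.1, t), z.1, ln L z.2.2 t)

theorem qf_eqn [Fintype R] [Enc R] (hQ : G_qlin l) (hd : ∀ b j s, D fun c => hh c b j s)
    (I O : Fam C) : QF W.P.Φ ((Fam.const C (Bool × (S ⊕ A))).prod (I.prod (.const C A)))
      (O.prod (I.prod (.const C (Bool × ((Fin n × A) ⊕ R))))) fun c z w => eqn L hh c z.2 w := by
  refine lin hQ W.P ((Fam.const C (Bool × (S ⊕ A))).prod (I.prod (.const C A)))
    (O.prod (I.prod (.const C (Bool × ((Fin n × A) ⊕ R))))) (S ⊕ A)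
    (fun c z t => cf L hh c z.2.2.1 z.2.2.2 t)
    (fun c z t => ((z.2.2.1, t), z.2.1, ln L z.2.2.2 t)) (fun t => ?_) fun t => ?_
  · exact D.cases (β := Bool × ((Fin n × A) ⊕ R)) D.sigma_snd.snd.snd.pt
      (fun e (z : Σ c, O.T c × I.T c × Bool × ((Fin n × A) ⊕ R)) => cf L hh z.1 e.1 e.2 t)
      fun e => (d_cf L hh hd e.1 e.2 t).comp pt_sigma_fst
  · exact (D.sigma_snd.snd.snd.fst.pair (D.const t)).pair (D.sigma_snd.snd.fst.pair
      (D.cases (β := (Fin n × A) ⊕ R) D.sigma_snd.snd.snd.snd.pt (fun e _ => ln L e t)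
        fun e => D.const _))

theorem row {K : Type} (c : C) (k : K) (b : Bool) (j : Fin n) (i : A) (o : W.Ps c)
    (y : K × A → W.Wd c) : eqn L hh c (k, b, .inl (j, i)) (fun z => y z.2 (pos L c o z.1)) =
      ∑ s, hh c b j s * y (k, i) (mv L c b (.inl s) o.1, s) := by
  simp [eqn, cf, ln, pos]

theorem col {K : Type} (c : C) (k : K) (b : Bool) (r : R) (o : W.Ps c) (y : K × A → W.Wd c) :
    eqn L hh c (k, b, .inr r) (fun z => y z.2 (pos L c o z.1)) =
      ∑ i, L.chk c b r i * y (k, i) (mv L c b (.inr i) o.1, o.2) := by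
  simp [eqn, cf, ln, pos]

end GlLr

open GlLr in
theorem g_lr {A R : Type} [Fintype A] [Enc A] [Fintype R] [Enc R] (L : Lr W A R) (hT : W.G_test Z)
    (hE : W.G_eqs) (hQ : G_qlin l) (hκ : ∀ c, ∀ y ∈ W.T c, ∀ i, L.κ c y i ∈ W.T c) :
    W.G_lr Z L := by
  intro I N' β hβ
  obtain ⟨n, hh, hd, he⟩ := hE
  have : Nonempty S := Fintype.card_pos_iff.1 (Nat.pos_of_ne_zero fun h => by
    have h1 := W.good.2.2.2.2
    rw [h] at h1
    norm_num at h1)
  have : Nonempty A := ⟨L.a0⟩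
  have hK := L.K0_pos
  obtain ⟨v1, θ, h1, -, h2⟩ := hT (I.prod (.const _ A)) N' (Bool × (S ⊕ A)) W.Y.Pos
    (I.prod (.const _ (Bool × ((Fin n × A) ⊕ R)))) (pos L) (Fintype.card S)
    (fun c z w => eqn L hh c z.2 w) (fun c => have := W.Y.ne c; inferInstance)
    (W.szG.card_prod (Sz.const (Fintype.card S))) (d_pos L) (fun c i p => fr_perm _ _ p)
    (qf_eqn L hh hQ hd I.toFam W.Y.Pos)
    (min β (β / L.K0)) (by positivity)
  refine ⟨v1, h1, fun v0 h0 => ?_⟩
  obtain ⟨η, hη, h3⟩ := h2 v0 h0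
  refine ⟨η, hη, h3.mono fun c x T _ _ _ h4 => ⟨fun hv => ?_, fun y hy => h4.2 _ ?_⟩⟩
  · obtain ⟨f, hf⟩ := (h4.1 hv).1
    have hr : ∀ b, fr (W.Y.G.T c) (fun g => ∃ k i,
        (fun s => f (k, i) (mv L c b (.inl s) g, s)) ∉ W.loc c b) ≤ min β (β / L.K0) := fun b => by
      rw [← fr_fst (Y := S)]
      refine (fr_mono fun o ⟨k, i, h5⟩ => Or.inl ?_).trans hf
      obtain ⟨j, hj⟩ := not_forall.1 (mt (he c b _).2 h5)
      exact ⟨(k, b, .inl (j, i)), (row L hh c k b j i o f).trans_ne hj⟩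
    have hc : ∀ b, fr (W.Ps c) (fun o => ∃ k r,
        ∑ i, L.chk c b r i * f (k, i) (mv L c b (.inr i) o.1, o.2) ≠ 0) ≤ min β (β / L.K0) :=
      fun b => (fr_mono fun o ⟨k, r, h5⟩ =>
        Or.inl ⟨(k, b, .inr r), (col L hh c k b r o f).trans_ne h5⟩).trans hf
    obtain ⟨y, hy, h5⟩ := L.sound c (I.T c) (fun k i => f (k, i)) _ (hr false) (hr true)
      (hc false) (hc true)
    refine ⟨f, y, hy, h5.trans ?_, ((fr_mono fun o h6 => Or.inr ⟨(false, .inr L.a0), h6⟩).trans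
      hf).trans (min_le_left _ _)⟩
    rw [← le_div_iff₀' hK]
    exact min_le_right _ _
  · rintro o ⟨k, b, ⟨j, i⟩ | r⟩
    · refine (row L hh c k b j i o fun z => L.κ c (y z.1) z.2).trans ((he c b _).1 ?_ j)
      cases b
      · exact (hκ c _ (hy k) i).1 o.1
      · exact (hκ c _ (hy k) i).2 o.1
    · refine (col L hh c k b r o fun z => L.κ c (y z.1) z.2).trans ?_
      cases b
      · exact L.col0 c (y k) r o
      · exact L.col1 c (y k) r o.1 o.2

end Vale.Agent.P330Q
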