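import Vale.Agent.P330Q.GlD

/-! The memory from its pieces. -/

namespace Vale.Agent.P330Q

open Vale.Agent.Lib.PolyTime Vale.Agent.P330 Finset
open scoped Classical BigOperators

variable {C : Type} [Enc C] {l : ℕ} [Fact l.Prime] {a : C → ℕ} {S B : Type} [Fintype S] [Enc S]
  [Fintype B] [Enc B] {δ0 lam δ : ℝ} (W : World C l a S B δ0 lam) (Z : Cell l δ FinU)

theorem memOK_of (H : Hyp l δ) (M : Mem W) (hC : W.G_chain Z) (hc : W.G_code Z)
    (hr : W.G_rank Z M) (hz : W.G_zero Z M) (hp : W.G_point Z M) (hd : W.G_dec Z M)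
    (I : SF W.P.lg) : ∃ X enc, MemOK W.P a I
      (min (δ ^ 2 * δ0 ^ 2 / 256) (δ * δ0 ^ 2 / 128)) (δ * δ0 ^ 2 / 2) X enc := by
  obtain ⟨N⟩ := (H.ix C W.P.lg (W.CV I)).1 W.P.pb_lg
    (I.pl.card_prod (W.plm.congr fun _ => Fintype.card_fin _))
  obtain ⟨d1, d2, d3, d4, d5⟩ := hd I N
  have h01 : (0 : ZMod l) ≠ 1 := zero_ne_one
  refine ⟨W.Rg Z N, fun c w => W.benc N Z fun k => M.E c (w k), d1, d2, d3, d4, ?_, ?_, ?_, ?_, ?_⟩
  · intro f hf η hη
    exact (hC I I N N _ _ _ (H.pp C S B δ0 lam a W M I I f hf) η hη).mono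
      fun c x y _ _ h w hw => h w (hw.trans (min_le_left _ _))
  · intro O tz htz
    obtain ⟨v1, h1, h⟩ := hz I N O tz htz
    exact ⟨v1, h1, fun v0 h0 => (h v0 h0).mono fun c x T _ _ _ h w hw =>
      h w (hw.trans (min_le_left _ _))⟩
  · intro O E ty φ hty hφ
    obtain ⟨v1, h1, h⟩ := hp I N O E ty φ hty hφ
    exact ⟨v1, h1, fun v0 h0 => (h v0 h0).mono fun c x T _ _ _ h w hw =>
      h w (hw.trans (min_le_left _ _))⟩
  · intro δ' hδ'
    obtain ⟨v2, θ, p2, pθ, h2⟩ := hr I N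
    obtain ⟨v1, p1, h1⟩ := hc I N (min θ δ') (lt_min pθ hδ')
    refine ⟨min v1 v2 / 4, by positivity, fun v0 p0 => ?_⟩
    have q0 : 0 < min (v0 / 2) (min v1 v2 / 4) := by positivity
    obtain ⟨η1, e1, g1⟩ := h1 _ q0
    obtain ⟨η2, e2, g2⟩ := h2 _ q0
    refine ⟨min η1 η2, lt_min e1 e2, (ImplRS.avg h01 g1 g2 q0).mono fun c x T _ _ _ h => ?_⟩
    obtain ⟨s, s', s0, s0', ⟨a1, b1⟩, ⟨a2, b2⟩, e⟩ := h
    rw [abs_le] at e
    have m1 := min_le_left (v0 / 2) (min v1 v2 / 4)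
    have m2 := min_le_right (v0 / 2) (min v1 v2 / 4)
    have m3 := min_le_left v1 v2
    have m4 := min_le_right v1 v2
    refine ⟨fun hT => ?_, fun w hw => ?_⟩
    · obtain ⟨y, hy, hx⟩ := a1 (by linarith)
      obtain ⟨w, rfl⟩ := a2 y hy (hx.trans (min_le_left _ _)) (by linarith)
      exact ⟨w, hx.trans (min_le_right _ _)⟩
    · have c1 := b1 _ (fun k => M.E_mem c (w k)) (hw.trans (min_le_left _ _))
      have c2 := b2 w (hw.trans (min_le_right _ _))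
      linarith
  · intro B' _ p u hp' hu
    obtain ⟨v, dv, hv⟩ := d5 B' p u hp' hu
    exact ⟨v, dv, fun b w h => hv b w (h.trans (min_le_right _ _))⟩

end Vale.Agent.P330Q
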