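import Vale.Agent.P330Q.GlD

/-! The rank one test. -/

namespace Vale.Agent.P330Q

open Vale.Agent.Lib.PolyTime Vale.Agent.P330 Finset
open scoped Classical BigOperators

variable {C : Type} [Enc C] {l : ℕ} [Fact l.Prime] {a : C → ℕ} {S B : Type} [Fintype S] [Enc S]
  [Fintype B] [Enc B] {δ0 lam : ℝ}

variable {δ : ℝ} (W : World C l a S B δ0 lam) (Z : Cell l δ FinU)

namespace GlRank

/-- exchange of the two types -/
def sw {G H T S : Type} (e : G ≃ H × T) : G × T × S ≃ T × (G × S) where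
  toFun z := ((e z.1).2, (e.symm ((e z.1).1, z.2.1), z.2.2))
  invFun w := (e.symm ((e w.2.1).1, w.1), (e w.2.1).2, w.2.2)
  left_inv z := by simp
  right_inv w := by simp

theorem dens1 {G H T S X : Type} [Fintype G] [Fintype T] [Fintype S] [Fintype X] [Nonempty T]
    (e : G ≃ H × T) (u : (G × S) × X) :
    fr (G × ((T × S) × X)) (fun t => ((e.symm ((e t.1).1, t.2.1.1), t.2.1.2), t.2.2) = u) ≤
      1 * (Fintype.card ((G × S) × X) : ℝ)⁻¹ := by
  rw [one_mul, ← fr_single u, ← fr_snd (X := T) fun x => x = u,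
    ← fr_equiv ((Equiv.prodAssoc G (T × S) X).symm.trans
      (((sw e).prodCongr (Equiv.refl X)).trans (Equiv.prodAssoc _ _ _)))]
  exact le_rfl

theorem dens2 {G S J : Type} [Fintype G] [Fintype S] [Fintype J] (s0 : S) (u : (G × S) × J) :
    fr (G × J) (fun t => ((t.1, s0), t.2) = u) ≤
      Fintype.card S * (Fintype.card ((G × S) × J) : ℝ)⁻¹ := by
  have : Nonempty S := ⟨s0⟩
  refine (fr_mono (E' := fun t => t = (u.1.1, u.2)) fun t h => by rw [← h]).trans ?_
  rw [fr_single]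
  simp only [Fintype.card_prod, Nat.cast_mul, mul_inv]
  have h : (Fintype.card S : ℝ) ≠ 0 := Nat.cast_ne_zero.2 Fintype.card_ne_zero
  refine le_of_eq ?_
  field_simp

theorem du_dens {X Y F : Type} [Fintype X] [Fintype Y] [Fintype F] {f : X → Y} {κ : ℝ}
    (h : ∀ u, fr X (fun t => f t = u) ≤ κ * (Fintype.card Y : ℝ)⁻¹) {x : Y → F → ℝ}
    (hx : IsDist x) (v : Y → F) : du (fun t => x (f t)) (fun t => v (f t)) ≤ κ * du x v := by
  rw [← dw_unif x]
  exact expect_le_dens h (g := fun u => 1 - x u (v u)) fun u => sub_nonneg.2 (hx.le_one u _)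

theorem hd_ge {G T X F : Type} [Fintype G] [Fintype T] [Fintype X] {U V : G × (T × X) → F}
    {E : G × T → Prop} {t : ℝ} (ht : 0 < t)
    (h : ∀ z, E z → t ≤ hd (fun ξ => U (z.1, z.2, ξ)) fun ξ => V (z.1, z.2, ξ)) :
    fr (G × T) E * t ≤ hd U V := by
  rw [← le_div_iff₀ ht, hd, ← fr_equiv (Equiv.prodAssoc G T X), fr_prod (X := G × T)]
  exact (fr_mono h).trans (fr_markov (fun _ => hd_nonneg _ _) ht)

theorem ne_ty (M : Mem W) (c : C) : Nonempty (M.Ty.T c) :=
  (W.Y.ne c).map fun g => (M.e c g).2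

end GlRank

open GlRank

theorem g_rk0 (H : Hyp l δ) (M : Mem W) : W.G_rk0 M := by
  intro c
  have e : ∀ y (z : W.Y.G.T c × M.Ty.T c × S), M.cq c y z.2 (z.1, M.s0) =
      M.E c (fun h' => y ((M.e c).symm (h', (sw (M.e c) z).1), M.s0)) (sw (M.e c) z).2 :=
    fun y z => by
      have k := M.cq_eq c y (M.e c z.1).1 z.2.1 z.2.2 (M.e c z.1).2
      rw [Prod.mk.eta, Prod.mk.eta, Equiv.symm_apply_apply] at k
      exact k
  refine ⟨fun y hy h => ?_, fun u z => ?_⟩
  · have := ne_ty W M c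
    simp only [e] at h
    have h2 := (fr_equiv (sw (S := S) (M.e c)) fun w =>
      y w.2 ≠ M.E c (fun h' => y ((M.e c).symm (h', w.1), M.s0)) w.2).symm.trans_lt h
    rw [fr_prod] at h2
    obtain ⟨k, hk⟩ := exists_le_expect fun k : M.Ty.T c => fr (W.Y.G.T c × S) fun p =>
      y p ≠ M.E c (fun h' => y ((M.e c).symm (h', k), M.s0)) p
    refine ⟨fun h' => y ((M.e c).symm (h', k), M.s0),
      sub_eq_zero.1 (not_not.1 fun h3 => (hk.trans_lt h2).not_ge ?_)⟩
    have h4 := M.E_mem c fun h' => y ((M.e c).symm (h', k), M.s0)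
    exact ((H.dec C S B δ0 lam a W).1 c _ ⟨fun g => sub_mem (hy.1 g) (h4.1 g),
      fun g => sub_mem (hy.2 g) (h4.2 g)⟩ h3).trans (fr_mono fun p => sub_ne_zero.1)
  · rw [e]
    simp only [M.E_free, Equiv.apply_symm_apply]
    rfl

theorem g_rank (H : Hyp l δ) (M : Mem W) (hL : W.G_lp) (hc : G_cmp l) (h0 : W.G_rk0 M) :
    W.G_rank Z M := by
  intro I N
  have hδ := H.pos
  have hδ0 := W.good.1
  have hS : (1 : ℝ) ≤ Fintype.card S := Nat.one_le_cast.2 (Fintype.card_pos_iff.2 ⟨M.s0⟩)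
  obtain ⟨i1, i2, i3⟩ := (H.ix C W.P.lg (W.CV I)).2 N Z
  refine ⟨δ * δ0 ^ 2 / 8, min (δ ^ 2 * δ0 ^ 2 / 256) (δ * δ0 ^ 2 / 8), by positivity,
    by positivity, fun v0 hv => ⟨min (δ ^ 2 * δ0 ^ 2 / 256) (v0 / 2), by positivity, ?_⟩⟩
  obtain ⟨η, hη, e1, e2⟩ : ∃ η : ℝ, 0 < η ∧ η + Fintype.card S * η ≤ δ * δ0 ^ 2 / 8 ∧
      η + Fintype.card S * η ≤ v0 / 2 := by
    have k : ∀ t : ℝ, t / (Fintype.card S + 1) + Fintype.card S * (t / (Fintype.card S + 1)) = t :=
      fun t => by field_simp; ring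
    exact ⟨min (δ * δ0 ^ 2 / 8) (v0 / 2) / (Fintype.card S + 1), by positivity,
      (k _).trans_le (min_le_left _ _), (k _).trans_le (min_le_right _ _)⟩
  let TS : SF W.P.lg := M.Ty.prod (.const _ S)
  let J : SF W.P.lg := TS.prod ⟨N.X Z, i1⟩
  have hJ : ∀ c, Nonempty (J.T c) := fun c =>
    (ne_ty W M c).elim fun k => (Z.ne (N.p c)).elim fun ξ => ⟨((k, M.s0), ξ)⟩
  have c1 := H.chain 1 C S B δ0 lam a W I (I.prod TS) J N Z _ _ _
    (fun c z w => ∑ v : (W.CV I).T c, N.gen Z c z.2.2 v * w ((v.1, z.2.1), v.2))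
    (hL I TS M.cq M.lp_cq).2 hJ
    (Pol.sum (K := W.CV I) (J := W.Y.Pos.prod J.toFam) (V := W.CV (I.prod TS))
      (f := fun c z v w => N.gen Z c z.2.2 v * w ((v.1, z.2.1), v.2))
      (Pol.cmul (pt_app2 i2 pt_sigma_fst D.sigma_snd.fst.snd.snd D.sigma_snd.snd)
        (Pol.var (D.pair (D.pair D.sigma_snd.snd.fst D.sigma_snd.fst.snd.fst)
          D.sigma_snd.snd.snd)))) η hη
  have c2 := hc C a W.P.lg ((Reg.of (W.Rg Z N)).sum (.of (W.Y.Pos.prod J.toFam)))
    (W.Y.G.prod J.toFam)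
    (fun c t => .inl (((M.e c).symm ((M.e c t.1).1, t.2.1.1), t.2.1.2), t.2.2))
    (fun c t => .inr ((t.1, M.s0), t.2)) (Fintype.card S)
    (fun c => (W.Y.ne c).elim fun g => (hJ c).elim fun j => ⟨(g, j)⟩) (W.szG.card_prod J.pl)
    (D.inl (D.pair (D.pair (M.d_e'.app pt_sigma_fst (D.pair
      (M.d_e.app pt_sigma_fst D.sigma_snd.fst).fst D.sigma_snd.snd.fst.fst))
        D.sigma_snd.snd.fst.snd) D.sigma_snd.snd.snd))
    (D.inr (D.pair (D.pair D.sigma_snd.fst (D.const M.s0)) D.sigma_snd.snd))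
    (fun c u => by
      have := ne_ty W M c
      rcases u with u | u
      · exact ((fr_mono fun t => Sum.inl.inj).trans (dens1 (M.e c) u)).trans
          (mul_le_mul_of_nonneg_right hS (inv_nonneg.2 (Nat.cast_nonneg _)))
      · exact ((fr_mono fun t h => Sum.inl_ne_inr h).trans fr_false.le).trans
          (mul_nonneg (Nat.cast_nonneg _) (inv_nonneg.2 (Nat.cast_nonneg _))))
    (fun c u => by
      rcases u with u | u
      · exact ((fr_mono fun t h => Sum.inr_ne_inl h).trans fr_false.le).trans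
          (mul_nonneg (Nat.cast_nonneg _) (inv_nonneg.2 (Nat.cast_nonneg _)))
      · exact (fr_mono fun t => Sum.inr.inj).trans (dens2 M.s0 u)) η hη
  refine (c1.seq' c2).mono ?_
  rintro c x r hx - ⟨z, hz, k1, k2⟩
  have := ne_ty W M c
  have key : ∀ y : I.T c → W.Wd c, (∀ k, y k ∈ W.T c) →
      du x (W.benc N Z y) ≤ δ ^ 2 * δ0 ^ 2 / 256 → ∃ U V : W.Y.G.T c × J.T c → ZMod l,
      (∀ t, U t = cw (N.gen Z c) (W.cell y ((M.e c).symm ((M.e c t.1).1, t.2.1.1), t.2.1.2))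
        t.2.2) ∧ (∀ t, V t = cw (N.gen Z c)
          (W.cell (fun k => M.cq c (y k) t.2.1) (t.1, M.s0)) t.2.2) ∧
      hd U V ≤ du x (W.benc N Z y) + r () 1 + (η + Fintype.card S * η) ∧
      (U = V → r () 1 ≤ du x (W.benc N Z y) + (η + Fintype.card S * η)) := fun y hy hd' => by
    have a1 := du_dens (dens1 (M.e c)) hx (W.benc N Z y)
    have a2 := (du_dens (dens2 M.s0) hz _).trans
      (mul_le_mul_of_nonneg_left (k1 ⟨y, hy⟩ hd') (Nat.cast_nonneg _))
    refine ⟨_, _, fun _ => rfl, fun _ => rfl, ?_, fun e => ?_⟩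
    · have a3 := hd_le_du (hx.comp fun t : W.Y.G.T c × J.T c =>
        (((M.e c).symm ((M.e c t.1).1, t.2.1.1), t.2.1.2), t.2.2))
      refine (a3 _ _).trans ?_
      refine (add_le_add a1 ((k2 _).1.trans (add_le_add le_rfl a2))).trans (le_of_eq ?_)
      ring
    · refine (k2 _).2.trans ((add_le_add (add_le_add le_rfl (le_of_eq_of_le ?_ a1)) a2).trans
        (le_of_eq (by ring)))
      exact congrArg _ e.symm
  refine ⟨fun y hy h1 h2 => ?_, fun w h1 => ?_⟩
  · obtain ⟨U, V, hU, hV, h3, -⟩ := key y hy (h1.trans (min_le_left _ _))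
    have h4 : ∀ k, ∃ u, y k = M.E c u := fun k => (h0 c).1 _ (hy k) (not_le.1 fun h5 => by
      have h6 := (mul_le_mul_of_nonneg_right h5 (by positivity)).trans
        (hd_ge (U := U) (V := V) (t := 4 * δ) (by positivity) fun z hz => by
          simp only [hU, hV]
          exact i3 c _ _ fun e => hz ((W.P.Φ.co c).injective
            (funext fun i => congrFun e (k, i))))
      have h7 := h1.trans (min_le_right _ _)
      have h8 : 0 < δ * δ0 ^ 2 := by positivity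
      linarith)
    choose w hw using h4
    exact ⟨w, funext hw⟩
  · obtain ⟨U, V, hU, hV, -, h3⟩ := key _ (fun k => M.E_mem c (w k)) (h1.trans (min_le_left _ _))
    have h4 := h3 (funext fun t => by
      rw [hU, hV]
      congr 1
      funext v
      exact congrArg (fun b => W.P.Φ.co c b v.2) ((h0 c).2 (w v.1) (t.1, t.2.1)))
    have h5 := h1.trans (min_le_right _ _)
    linarith

end Vale.Agent.P330Q
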