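import Vale.Agent.P330Q.GlD
import Vale.Agent.P330Q.FPol

/-! Tests of quadratic relations over the big field between cells. -/

namespace Vale.Agent.P330Q

open Vale.Agent.Lib.PolyTime Vale.Agent.P330 Finset
open scoped Classical BigOperators

variable {C : Type} [Enc C] {l : ℕ} [Fact l.Prime] {a : C → ℕ} {S B : Type} [Fintype S] [Enc S]
  [Fintype B] [Enc B] {δ0 lam : ℝ}

namespace GlTest
variable {O P X A F : Type} [Fintype O] [Fintype P] [Fintype X] [Fintype A] [Fintype F] {κ : ℝ}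

theorem dens {f : O → P} (h : ∀ p, fr O (fun o => f o = p) ≤ κ / Fintype.card P) (u : P × X) :
    fr (O × X) (fun z => (f z.1, z.2) = u) ≤ |κ| * (Fintype.card (P × X) : ℝ)⁻¹ := by
  have e : ∀ ξ : X, fr O (fun o => (f o, ξ) = u) =
      (if ξ = u.2 then (1 : ℝ) else 0) * fr O fun o => f o = u.1 := fun ξ => by
    split_ifs with hξ
    · rw [one_mul]
      exact fr_congr fun o => by simp [Prod.ext_iff, hξ]
    · rw [zero_mul, ← fr_false (X := O)]
      exact fr_congr fun o => by simp [Prod.ext_iff, hξ]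
  rw [fr_prod']
  simp only [e]
  rw [← expect_mul, ← fr_eq_expect, fr_single, Fintype.card_prod, Nat.cast_mul, mul_inv,
    ← mul_assoc, mul_comm]
  refine mul_le_mul_of_nonneg_right ((h _).trans ?_) (by positivity)
  rw [div_eq_mul_inv]
  exact mul_le_mul_of_nonneg_right (le_abs_self _) (by positivity)

theorem far {x : P × X → F → ℝ} (hx : IsDist x) (u : P → X → F) {pos : O → A → P}
    (h : ∀ i p, fr O (fun o => pos o i = p) ≤ κ / Fintype.card P) {e b : ℝ} (he : 0 < e)
    (hb : 0 < b) (ht : du x (fun z => u z.1 z.2) ≤ b * e / (Fintype.card A * |κ| + 1)) :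
    fr O (fun o => ∃ i, e < du (fun ξ => x (pos o i, ξ)) (u (pos o i))) ≤ b := by
  have g0 : ∀ p, 0 ≤ du (fun ξ => x (p, ξ)) (u p) := fun p =>
    du_nonneg (hx.comp fun ξ => (p, ξ)) _
  have e1 : ∑ p, (Fintype.card P : ℝ)⁻¹ * du (fun ξ => x (p, ξ)) (u p) =
      du x fun z => u z.1 z.2 := by
    rw [← mul_sum, ← div_eq_inv_mul, ← Fintype.expect_eq_sum_div_card, du, expect_prod']
    rfl
  have k : ∀ i, fr O (fun o => e < du (fun ξ => x (pos o i, ξ)) (u (pos o i))) ≤
      |κ| * (b / (Fintype.card A * |κ| + 1)) := fun i => by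
    refine (fr_mono fun o ho => le_of_lt ho).trans ((fr_markov (fun o => g0 (pos o i)) he).trans ?_)
    have h1 := expect_le_dens (f := fun o => pos o i) (w := fun _ => (Fintype.card P : ℝ)⁻¹)
      (κ := |κ|) (fun p => (h i p).trans (by
        rw [div_eq_mul_inv]
        exact mul_le_mul_of_nonneg_right (le_abs_self _) (by positivity))) g0
    rw [e1] at h1
    rw [div_le_iff₀ he]
    refine h1.trans ((mul_le_mul_of_nonneg_left ht (abs_nonneg _)).trans (le_of_eq ?_))
    ring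
  refine (fr_exists_le _).trans ((sum_le_sum fun i _ => k i).trans ?_)
  rw [sum_const, card_univ, nsmul_eq_mul, ← mul_assoc, ← mul_div_assoc,
    div_le_iff₀ (by positivity)]
  nlinarith

end GlTest

variable {δ : ℝ} (W : World C l a S B δ0 lam) (Z : Cell l δ FinU)

theorem g_test (H : Hyp l δ) : W.G_test Z := by
  intro K N A _ _ _ O E pos κ g hO hz hp hd hq β hβ
  have hδ := H.pos
  let E' : SF W.P.lg := E.prod ⟨W.P.Φ.Co, W.plm.congr fun _ => Fintype.card_fin _⟩
  let R : Arr l a W.P.lg N.p Z A (.of (W.Rg Z N)) O :=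
    ⟨fun c o i ξ => (pos c o i, ξ), |κ|, hO, hz,
      fun i => D.pair ((hp i).app pt_sigma_fst D.s1) D.s2, fun c i u => GlTest.dens (hd c i) u⟩
  have hQ := H.qf C W.P.Φ ((Fam.const C A).prod K.toFam) (O.prod E.toFam) g hq
  have hP := (pol_ren hQ (V' := (Fam.const C A).prod (W.CV K))
    (ρ := fun c _ (v : (A × K.T c) × Fin (W.P.Φ.m c)) => (v.1.1, (v.1.2, v.2)))
    (D.pair D.s2.fst.fst (D.pair D.s2.fst.snd D.s2.snd))).comp (K := O.prod E'.toFam)
    (x := fun c (z : O.T c × E.T c × Fin (W.P.Φ.m c)) => ((z.1, z.2.1), z.2.2))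
    (D.pair (D.pair D.s1 D.s2.fst) D.s2.snd)
  obtain ⟨v1, h1, h⟩ := H.test 2 C a W.P.lg W.P.pb_lg (W.CV K) E' N Z A (.of (W.Rg Z N)) O R
    (fun c o e w => W.P.Φ.co c (g c (o, e.1) fun v =>
      (W.P.Φ.co c).symm fun t => w (v.1, (v.2, t))) e.2) hP δ β hδ hβ
  refine ⟨v1, β * δ / (Fintype.card A * |κ| + 1), h1, by positivity, fun v0 h0 => ?_⟩
  obtain ⟨η, hη, h⟩ := h v0 h0
  refine ⟨η * η / (Fintype.card A * |κ| + 1), by positivity,
    h.mono fun c x T hx _ _ ⟨k1, k2⟩ => ?_⟩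
  have key : ∀ (y : K.T c → W.Wd c) (o : O.T c) (w : A × (W.CV K).T c → ZMod l),
      (∀ e : E.T c × Fin (W.P.Φ.m c), W.P.Φ.co c (g c (o, e.1) fun v =>
        (W.P.Φ.co c).symm fun t => w (v.1, (v.2, t))) e.2 = 0) →
      (∀ i, du (fun ξ => x (pos c o i, ξ)) (cw (N.gen Z c) fun v => w (i, v)) ≤ δ) →
      (∀ i, ¬ W.Far Z N δ x y (pos c o i)) →
      ∀ e, g c (o, e) (fun z => y z.2 (pos c o z.1)) = 0 := fun y o w a1 a2 a3 e => by
    have b1 : ∀ i, (fun v => w (i, v)) = W.cell y (pos c o i) := fun i => by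
      by_contra hn
      have c1 := ((H.ix C W.P.lg (W.CV K)).2 N Z).2.2 c _ _ hn
      have c2 := hd_le_du (hx.comp fun ξ => (pos c o i, ξ)) (cw (N.gen Z c) fun v => w (i, v))
        (cw (N.gen Z c) (W.cell y (pos c o i)))
      have c3 := not_lt.1 (a3 i)
      linarith [a2 i]
    have b2 : (fun v : A × K.T c => (W.P.Φ.co c).symm fun t => w (v.1, (v.2, t))) =
        fun z => y z.2 (pos c o z.1) := funext fun v => by
      rw [LinearEquiv.symm_apply_eq]
      exact funext fun t => congrFun (b1 v.1) (v.2, t)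
    refine (W.P.Φ.co c).injective (funext fun t => ?_)
    have := a1 (e, t)
    rw [b2] at this
    rw [this, map_zero]
    rfl
  refine ⟨fun hT => ⟨?_, fun y hy => ?_⟩, fun y hy hx' => ?_⟩
  · have ex : ∀ p : W.Ps c, ∃ m, (∃ m', du (fun ξ => x (p, ξ)) (cw (N.gen Z c) m') ≤ δ) →
        du (fun ξ => x (p, ξ)) (cw (N.gen Z c) m) ≤ δ := fun p => by
      by_cases h : ∃ m', du (fun ξ => x (p, ξ)) (cw (N.gen Z c) m') ≤ δ
      exacts [⟨h.choose, fun _ => h.choose_spec⟩, ⟨0, fun h' => absurd h' h⟩]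
    choose msg hm using ex
    refine ⟨fun k p => (W.P.Φ.co c).symm fun t => msg p (k, t),
      (fr_mono fun o ho w a1 => ?_).trans (k1 hT)⟩
    by_contra hn
    have a2 := fun i => not_lt.1 (not_exists.1 hn i)
    have a3 : ∀ i, ¬ W.Far Z N δ x (fun k p => (W.P.Φ.co c).symm fun t => msg p (k, t))
        (pos c o i) := fun i => by
      have e : W.cell (fun k p => (W.P.Φ.co c).symm fun t => msg p (k, t)) (pos c o i) =
          msg (pos c o i) := funext fun v => by simp [World.cell]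
      rw [World.Far, e]
      exact not_lt.2 (hm _ ⟨_, a2 i⟩)
    rcases ho with ⟨e, he⟩ | ⟨i, hi⟩
    exacts [he (key _ o w a1 a2 a3 e), a3 i hi]
  · have a4 := GlTest.far hx (fun p => cw (N.gen Z c) (W.cell y p)) (hd c) hδ hβ hy
    refine le_trans ((fr_mono fun o ⟨e, he⟩ => ?_).trans (fr_or_le _ _))
      ((add_le_add (k1 hT) a4).trans (two_mul β).ge)
    by_contra hn
    rw [not_or] at hn
    refine hn.1 fun w a1 => ?_
    by_contra hn'
    exact he (key y o w a1 (fun i => not_lt.1 (not_exists.1 hn' i)) (not_exists.1 hn.2) e)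
  · refine k2 (fun o z => W.cell y (pos c o z.1) z.2) (fun o e => ?_)
      (GlTest.far hx (fun p => cw (N.gen Z c) (W.cell y p)) (hd c) hη hη hx')
    have b2 : (fun v : A × K.T c =>
        (W.P.Φ.co c).symm fun t => W.cell y (pos c o v.1) (v.2, t)) =
        fun z => y z.2 (pos c o z.1) :=
      funext fun v => (W.P.Φ.co c).symm_apply_apply (y v.2 (pos c o v.1))
    show W.P.Φ.co c (g c (o, e.1) fun v =>
      (W.P.Φ.co c).symm fun t => W.cell y (pos c o v.1) (v.2, t)) e.2 = 0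
    rw [b2, hy, map_zero]
    rfl

end Vale.Agent.P330Q
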