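import Vale.Agent.P330Q.GlD

/-! Zero tests and pointwise tests. -/

namespace Vale.Agent.P330Q

open Vale.Agent.Lib.PolyTime Vale.Agent.P330 Finset
open scoped Classical BigOperators

variable {C : Type} [Enc C] {l : ℕ} [Fact l.Prime] {a : C → ℕ} {S B : Type} [Fintype S] [Enc S]
  [Fintype B] [Enc B] {δ0 lam : ℝ}
variable {δ : ℝ} (W : World C l a S B δ0 lam) (Z : Cell l δ FinU)

namespace GlZero

theorem core (H : Hyp l δ) (M : Mem W) (hC : W.G_chain Z) (hT : W.G_test Z) (I : SF W.P.lg)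
    (N : Ix W.P.lg (W.CV I)) (O : SF W.P.lg)
    (tz : ∀ c, O.T c → (I.T c → W.P.Tab c) → W.P.Tab c) (hP : PP W.P I O tz) (Q : Fam C)
    (E : SF W.P.lg) (pos : ∀ c, Q.T c → W.Ps c) (κ : ℝ)
    (g : ∀ c, Q.T c × E.T c → (Unit × O.T c → W.P.F c) → W.P.F c) (h1 : ∀ c, Nonempty (Q.T c))
    (h2 : Sz a W.P.lg fun c => Fintype.card (Q.T c)) (h3 : D2 pos)
    (h4 : ∀ c p, fr (Q.T c) (fun o => pos c o = p) ≤ κ / Fintype.card (W.Ps c))
    (h5 : QF W.P.Φ ((Fam.const C Unit).prod O.toFam) (Q.prod E.toFam) g) (β : ℝ) (hβ : 0 < β) :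
    ∃ v1 : ℝ, 0 < v1 ∧ ∀ v0 : ℝ, 0 < v0 →
      ImplRS (ZMod l) a W.P.lg (.of (W.Rg Z N)) fun c x T => ∀ w : I.T c → W.P.Tab c,
        du x (W.benc N Z fun k => M.E c (w k)) ≤ δ ^ 2 * δ0 ^ 2 / 256 →
        (T < v1 → fr (Q.T c) (fun o =>
          ∃ e, g c (o, e) (fun z => M.E c (tz c z.2 w) (pos c o)) ≠ 0) ≤ 2 * β) ∧
        ((∀ o e, g c (o, e) (fun z => M.E c (tz c z.2 w) (pos c o)) = 0) → T ≤ v0) := by
  obtain ⟨N'⟩ := (H.ix C W.P.lg (W.CV O)).1 W.P.pb_lg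
    (Sz.card_prod O.pl (W.plm.congr fun _ => Fintype.card_fin _))
  obtain ⟨v1, θ, hv1, hθ, ht⟩ := hT O N' Unit Q E (fun c o _ => pos c o) κ g h1 h2 (fun _ => h3)
    (fun c _ => h4 c) h5 β hβ
  refine ⟨v1, hv1, fun v0 hv0 => ?_⟩
  obtain ⟨η, hη, ht⟩ := ht v0 hv0
  have g1 := hC I O N N' _ _ _ (H.pp C S B δ0 lam a W M I O tz hP) (min θ η) (lt_min hθ hη)
  unfold ImplRS at ht ⊢
  refine ImplS.mono (g1.trans ht) ?_
  rintro c x z - - ⟨y, -, hy, hz⟩ w hw
  have hw' : du y (W.benc N' Z fun o => M.E c (tz c o w)) ≤ min θ η := hy w hw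
  exact ⟨fun h => (hz.1 h).2 (fun o => M.E c (tz c o w)) (hw'.trans (min_le_left _ _)),
    fun h => hz.2 (fun o => M.E c (tz c o w)) h (hw'.trans (min_le_right _ _))⟩

theorem qf_snd {F A : Type} [Field F] [Fintype A] (φ : Option A → Option A → F)
    (w : Unit × A → F) :
    qf φ (fun o => w ((), o)) = qf (fun i i' => φ (i.map Prod.snd) (i'.map Prod.snd)) w := by
  have e : ∀ i : Option (Unit × A), ev w i = ev (fun o => w ((), o)) (i.map Prod.snd) := by
    rintro (_ | ⟨⟨⟩, o⟩) <;> rfl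
  unfold qf
  symm
  refine Fintype.sum_equiv (Equiv.optionCongr (Equiv.punitProd A)) _ _ fun i => ?_
  refine Fintype.sum_equiv (Equiv.optionCongr (Equiv.punitProd A)) _ _ fun i' => ?_
  rw [e, e]
  rfl

theorem d_map {B' : Type} [Enc B'] {X : B' → Type} [∀ b, Enc (X b)]
    {u : ∀ b, Option (Unit × X b)} (hu : D u) : D fun b => (u b).map Prod.snd :=
  (D.option_elim (f := fun b (z : Unit × X b) => some z.2) hu D.none
    (D.some D.sigma_snd.snd)).congr fun b => by cases u b <;> rfl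

end GlZero

theorem g_zero (H : Hyp l δ) (M : Mem W) (hC : W.G_chain Z) (hT : W.G_test Z) (hQ : G_qlin l) :
    W.G_zero Z M := by
  intro I N O tz hP
  have h0 := W.good.1
  have hs := D.sigma_snd (X := fun c => (W.Ps c × O.T c) × (Unit × O.T c))
  obtain ⟨v1, hv1, h⟩ := GlZero.core W Z H M hC hT I N O tz hP W.Y.Pos O (fun _ p => p) 1
    (fun c j w => ∑ v, (if v.2 = j.2 then 1 else 0) * w v)
    (fun c => ⟨((W.Y.ne c).some, M.s0)⟩) (W.szG.card_prod (Sz.const (Fintype.card S))) D.sigma_snd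
    (fun c p => by rw [fr_single, one_div])
    (hQ C W.P ((Fam.const C Unit).prod O.toFam) (W.Y.Pos.prod O.toFam)
      (fun c j v => if v.2 = j.2 then 1 else 0)
      (D.ite (D.eq hs.snd.snd hs.fst.snd) (PS.dOne pt_sigma_fst) (PS.dZero pt_sigma_fst)))
    (δ0 ^ 2 / 32) (by positivity)
  refine ⟨v1, hv1, fun v0 hv0 => (h v0 hv0).mono fun c x T _ _ _ hx w hw => ⟨fun hT z => ?_,
    fun hz => (hx w hw).2 fun o e => ?_⟩⟩
  · have h1 := (hx w hw).1 hT
    have h2 : M.E c (tz c z w) = 0 := by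
      by_contra hne
      have h3 := (H.dec C S B δ0 lam a W).1 c _ (M.E_mem c _) hne
      have h4 := h3.trans ((fr_mono fun p hp => ⟨z, by
        simpa [Fintype.sum_prod_type] using hp⟩).trans h1)
      nlinarith [pow_pos h0 2]
    funext u
    have h3 := M.E_free c (tz c z w) ((M.e c).symm (u, (M.e c (W.Y.ne c).some).2))
    rw [h2, Equiv.apply_symm_apply] at h3
    exact h3.symm
  · simp [hz]

theorem g_point (H : Hyp l δ) (M : Mem W) (hC : W.G_chain Z) (hT : W.G_test Z) :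
    W.G_point Z M := by
  intro I N O E ty φ hP hφ
  have hs := D.sigma_snd (X := fun c => (W.Y.G.T c × E.T c) ×
    (Option (Unit × O.T c) × Option (Unit × O.T c)))
  obtain ⟨v1, hv1, h⟩ := GlZero.core W Z H M hC hT I N O ty hP W.Y.G E (fun _ g => (g, M.s0))
    (Fintype.card S) (fun c j w => qf (φ c j.2 (M.e c j.1).1) fun o => w ((), o))
    W.Y.ne W.szG (D.pair D.sigma_snd (D.const _))
    (fun c p => by
      refine (fr_mono (E' := fun o => o = p.1) fun o ho => congrArg Prod.fst ho).trans ?_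
      have : (Fintype.card S : ℝ) ≠ 0 := Nat.cast_ne_zero.2 (Fintype.card_pos_iff.2 ⟨M.s0⟩).ne'
      rw [fr_single, Fintype.card_prod, Nat.cast_mul, mul_comm, ← div_div, div_self this, one_div])
    ⟨fun c j i i' => φ c j.2 (M.e c j.1).1 (i.map Prod.snd) (i'.map Prod.snd),
      hφ.app pt_sigma_fst (D.pair hs.fst.snd (M.d_e.app pt_sigma_fst hs.fst.fst).fst)
        (D.pair (GlZero.d_map hs.snd.fst) (GlZero.d_map hs.snd.snd)),
      fun c j w => GlZero.qf_snd _ w⟩ (1 / 8) (by norm_num)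
  refine ⟨v1, hv1, fun v0 hv0 => (h v0 hv0).mono fun c x T _ _ _ hx w hw => ⟨fun hT => ?_,
    fun hz => (hx w hw).2 fun o e => ?_⟩⟩
  · have h1 := (hx w hw).1 hT
    have : Nonempty (M.Ty.T c) := ⟨(M.e c (W.Y.ne c).some).2⟩
    simp only [M.E_free] at h1
    rw [fr_equiv (M.e c) fun z => ∃ e, qf (φ c e z.1) (fun o => ty c o w z.1) ≠ 0,
      fr_fst fun u => ∃ e, qf (φ c e u) (fun o => ty c o w u) ≠ 0] at h1
    linarith
  · simp only [M.E_free]
    exact hz _ _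

end Vale.Agent.P330Q
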