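import Vale.Agent.P330Q.TopQ
import Vale.Agent.P330Q.GlMem
import Vale.Agent.P330Q.GlChain
import Vale.Agent.P330Q.GlTest
import Vale.Agent.P330Q.GlCmp
import Vale.Agent.P330Q.GlLr
import Vale.Agent.P330Q.GlCode
import Vale.Agent.P330Q.GlRank
import Vale.Agent.P330Q.GlZero
import Vale.Agent.P330Q.GlDec

/-! The coded memory exists. -/

namespace Vale.Agent.P330Q

open Vale.Agent.Lib.PolyTime Vale.Agent.P330 Finset
open scoped Classical BigOperators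

theorem store_of (hW : WorldThm) {δ : ℝ} {L : ℕ} (hL : 3 ≤ L)
    (hH : ∀ (l : ℕ) [Fact l.Prime], L ≤ l → CellAt l δ ∧ Hyp l δ) : StoreThm := by
  obtain ⟨l, _, hl, S, B, A, R, _, _, _, _, _, _, _, _, δ0, lam, hW⟩ := hW L
  obtain ⟨hc, H⟩ := hH l hl
  obtain ⟨Z⟩ := hc.2 _ FinU
  refine ⟨l, inferInstance, hL.trans hl, fun C _ a lg n0 h1 h2 h3 h4 h5 => ?_⟩
  obtain ⟨W, e, hn, ⟨M⟩, ⟨Λ⟩⟩ := hW C a lg n0 h1 (h4.pb' h2 h3) h3 h4 h5
  have p0 := W.good.1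
  have p1 := H.pos
  have gC := g_chain W Z H
  have gL := g_lp W H M.b1 M.b1_eq
  have gT := g_test W Z H
  refine ⟨W.P, e, hn, _, _, by positivity, by positivity, memOK_of W Z H M gC
    (g_code W Z H Λ gC gL (g_lr W Z Λ gT (g_eqs W) g_qlin
      (gL (.const _ Unit) (.const _ A) Λ.κ Λ.lp_κ).1) (g_lane W Z H) g_cmp)
    (g_rank W Z H M gL g_cmp (g_rk0 W H M)) (g_zero W Z H M gC gT g_qlin)
    (g_point W Z H M gC gT) (g_dec W Z H M)⟩

end Vale.Agent.P330Q
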