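import Vale.Agent.P330Q.GrpS

/-! Congruence subgroups. -/

namespace Vale.Agent.P330Q

open Vale.Agent.Lib.PolyTime Vale.Agent.P330 Vale.Agent.P330.Exp Finset Module
open scoped Classical BigOperators

namespace GCong

variable {r j : ℕ}

/-- Elements whose first `j` coefficients vanish. -/
def II (r j : ℕ) : Ideal (RR r) where
  carrier := {a | ∀ i < j, co a i = 0}
  add_mem' ha hb i hi := by rw [co_add, ha i hi, hb i hi, add_zero]
  zero_mem' i _ := co_zero i
  smul_mem' c a ha i hi := by
    rcases lt_or_ge i r with h | h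
    · rw [smul_eq_mul, co_mul _ _ h]
      exact sum_eq_zero fun k _ => by rw [ha _ (by omega), mul_zero]
    · exact co_ge _ h

theorem mul_mem {a b : RR r} (ha : a ∈ II r (j + 1)) (hb : b ∈ II r (j + 1)) :
    a * b ∈ II r (j + 2) := fun i hi => by
  rcases lt_or_ge i r with h | h
  · rw [co_mul _ _ h]
    refine sum_eq_zero fun k hk => ?_
    have := mem_range.1 hk
    rcases lt_or_ge k (j + 1) with h' | h'
    · rw [ha k h', zero_mul]
    · rw [hb _ (by omega), mul_zero]
  · exact co_ge _ h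

theorem sub_mem {a b : RR r} : a - b ∈ II r j ↔ ∀ i < j, co a i = co b i :=
  forall₂_congr fun i _ => by
    rw [show co (a - b) i = co a i - co b i from map_sub (coH r i) a b, sub_eq_zero]

/-- Reduction of matrices. -/
noncomputable def red (r j : ℕ) : SL3 (RR r) →* SL3 (RR r ⧸ II r j) :=
  Matrix.SpecialLinearGroup.map (Ideal.Quotient.mk (II r j))

theorem red_eq {g g' : SL3 (RR r)} : red r j g = red r j g' ↔ ∀ a b, g a b - g' a b ∈ II r j := by
  rw [Matrix.SpecialLinearGroup.ext_iff]
  exact forall₂_congr fun a b => Ideal.Quotient.eq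

theorem mem_ker {g : SL3 (RR r)} :
    g ∈ (red r j).ker ↔ ∀ a b, g a b - (1 : SL3 (RR r)) a b ∈ II r j := by
  rw [MonoidHom.mem_ker, ← map_one (red r j), red_eq]

theorem anti : (red r (j + 1)).ker ≤ (red r j).ker := fun _ h =>
  mem_ker.2 fun a b i hi => mem_ker.1 h a b i (by omega)

theorem idx : (red r (j + 1)).ker.index ≤ 512 * (red r j).ker.index := by
  rw [← Subgroup.relIndex_mul_index anti]
  refine Nat.mul_le_mul_right _ ?_
  have h := Nat.card_le_card_of_injective
    (fun (q : (red r j).ker ⧸ (red r (j + 1)).ker.subgroupOf (red r j).ker) (a b : Fin 3) =>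
      co ((q.out : SL3 (RR r)) a b) j) fun q q' e => by
      rw [← q.out_eq', ← q'.out_eq', QuotientGroup.eq, Subgroup.mem_subgroupOf, Subgroup.coe_mul,
        Subgroup.coe_inv, ← MonoidHom.eq_iff, red_eq]
      intro a b
      refine sub_mem.2 fun i hi => ?_
      rcases (Nat.lt_succ_iff.1 hi).eq_or_lt with rfl | h
      · exact (congrFun (congrFun e a) b).symm
      · rw [sub_mem.1 (mem_ker.1 q'.out.2 a b) i h, sub_mem.1 (mem_ker.1 q.out.2 a b) i h]
  exact h.trans (by simp)

theorem top : (red r 0).ker = ⊤ :=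
  eq_top_iff.2 fun _ _ => mem_ker.2 fun _ _ i hi => absurd hi (Nat.not_lt_zero i)

theorem bot : (red r (r + 1)).ker = ⊥ :=
  eq_bot_iff.2 fun g h => Subgroup.mem_bot.2 (Matrix.SpecialLinearGroup.ext _ _ fun a b =>
    co_ext fun i hi => sub_mem.1 (mem_ker.1 h a b) i (by omega))

theorem sq_mem {g : SL3 (RR r)} (h : g ∈ (red r (j + 1)).ker) : g * g ∈ (red r (j + 2)).ker := by
  refine mem_ker.2 fun a b => ?_
  have e : g.1 * g.1 - 1 = (g.1 - 1) * (g.1 - 1) + ((g.1 - 1) + (g.1 - 1)) := by noncomm_ring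
  have e' : (g * g) a b - (1 : SL3 (RR r)) a b = ∑ c, (g.1 - 1) a c * (g.1 - 1) c b := by
    refine (congrFun (congrFun e a) b).trans ?_
    rw [Matrix.add_apply, Matrix.add_apply, add_self, add_zero, Matrix.mul_apply]
  rw [e']
  exact Ideal.sum_mem _ fun c _ => mul_mem (mem_ker.1 h a c) (mem_ker.1 h c b)

theorem pow_mem {g : SL3 (RR r)} (h : g ∈ (red r 1).ker) (t : ℕ) :
    g ^ 2 ^ t ∈ (red r (t + 1)).ker := by
  induction t with
  | zero => simpa using h
  | succ t ih =>
    rw [pow_succ, pow_mul, pow_two]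
    exact sq_mem ih

theorem le_one (j : ℕ) : (red r (j + 1)).ker ≤ (red r 1).ker := fun _ h =>
  mem_ker.2 fun a b i hi => mem_ker.1 h a b i (by omega)

theorem two (r j : ℕ) : ∃ e, Nat.card (red r (j + 1)).ker = 2 ^ e :=
  IsPGroup.iff_card.1 fun g => ⟨r, Subtype.ext (by
    have := pow_mem (le_one j g.2) r
    rwa [bot, Subgroup.mem_bot] at this)⟩

end GCong

theorem s_cong : S_cong := by
  refine ⟨fun r j => (GCong.red r (j + 1)).ker, fun r j => ⟨fun g => ?_, inferInstance, GCong.anti,
    GCong.idx, ?_, GCong.bot, GCong.two r j, ?_⟩⟩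
  · rw [GCong.mem_ker]
    exact forall₂_congr fun a b => GCong.sub_mem.trans (by simp only [Nat.lt_succ_iff])
  · have := GCong.idx (r := r) (j := 0)
    rwa [GCong.top, Subgroup.index_top, mul_one] at this
  · rw [← card_RR]
    refine Fintype.card_le_of_injective (fun a => el n01 a) fun a b e => ?_
    have h : (el n01 a * 1 : SL3 (RR r)) 0 1 = (el n01 b * 1 : SL3 (RR r)) 0 1 :=
      congrArg (fun g : SL3 (RR r) => (g * 1) 0 1) e
    rw [el_same, el_same] at h
    simpa using h

end Vale.Agent.P330Q
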