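import Vale.Agent.P330Q.GrpS

/-! Greedy digits. -/

namespace Vale.Agent.P330Q

open Vale.Agent.Lib.PolyTime Vale.Agent.P330 Vale.Agent.P330.Exp Finset Module
open scoped Classical BigOperators

theorem GDig.least (t B x M : ℕ) (h : t ≤ B + M * x) :
    ∃ a ≤ M, t ≤ B + a * x ∧ (a = 0 ∨ B + a * x < t + x) := by
  induction M with
  | zero => exact ⟨0, le_rfl, h, Or.inl rfl⟩
  | succ M ih =>
    rcases le_or_gt t (B + M * x) with h' | h'
    · obtain ⟨a, a1, a2⟩ := ih h'
      exact ⟨a, a1.trans M.le_succ, a2⟩
    · exact ⟨M + 1, le_rfl, h, Or.inr (by rw [add_mul, one_mul]; omega)⟩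

theorem s_dig : S_dig := by
  intro d M r t hd
  induction r generalizing t with
  | zero =>
    intro h
    obtain ⟨a, a1, a2, a3⟩ := GDig.least t 0 (d 0) M (by simpa using h)
    refine ⟨fun _ => a, fun _ => a1, by simpa using a2, ?_⟩
    rcases a3 with rfl | a3
    · simp
    · simpa using a3.le
  | succ r ih =>
    intro h
    rw [sum_range_succ, mul_add] at h
    obtain ⟨a, a1, a2, a3⟩ := GDig.least _ _ _ _ h
    have h1 := hd r
    have h2 : a * d (r + 1) ≤ t := by
      rcases a3 with rfl | a3
      · simp
      · omega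
    obtain ⟨m, m1, m2, m3⟩ := ih (t - a * d (r + 1)) (by omega)
    have e : ∑ j ∈ range (r + 1 + 1), Function.update m (r + 1) a j * d j =
        ∑ j ∈ range (r + 1), m j * d j + a * d (r + 1) := by
      rw [sum_range_succ, Function.update_self]
      exact congrArg (· + _) (sum_congr rfl fun j hj => by
        rw [Function.update_of_ne (mem_range.1 hj).ne])
    refine ⟨Function.update m (r + 1) a, fun j => ?_, by omega, by omega⟩
    rcases eq_or_ne j (r + 1) with rfl | hj
    · rwa [Function.update_self]
    · rw [Function.update_of_ne hj]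
      exact m1 j

end Vale.Agent.P330Q
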