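import Vale.Agent.P330Q.GrpS

/-! Dimensions of the invariant parts of the Tanner code. -/

namespace Vale.Agent.P330Q

open Vale.Agent.Lib.PolyTime Vale.Agent.P330 Vale.Agent.P330.Exp Finset Module
open scoped Classical BigOperators

theorem s_dim : S_dim := by
  intro F K S _ _ _ _ C0 a N hk
  obtain ⟨T, hT, hT1⟩ := N.exists_isComplement_right 1
  have hcard : Fintype.card T = N.index := by
    rw [← Nat.card_eq_fintype_card]
    exact hT.card_right
  let ex : (T → S → F) →ₗ[F] (K × S → F) :=
    { toFun := fun f x => f (hT.equiv x.1).2 x.2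
      map_add' := fun f f' => rfl
      map_smul' := fun c f => rfl }
  have heq : ∀ f, ∀ u ∈ N, ∀ g s, ex f (u * g, s) = ex f (g, s) := by
    intro f u hu g s
    change f (hT.equiv (u * g)).2 s = f _ s
    rw [hT.equiv_mul_left_of_mem hu]
  have ht : ∀ f (t : T) s, ex f (t, s) = f t s := by
    intro f t s
    change f (hT.equiv t).2 s = _
    have e2 : (hT.equiv t).2 = t := hT.equiv_snd_eq_self_of_mem_of_one_mem (one_mem _) t.2
    rw [e2]
  have hdim : finrank F (T → S → F) = N.index * Fintype.card S := by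
    rw [finrank_pi_fintype, finrank_fintype_fun_eq_card, sum_const, smul_eq_mul, card_univ, hcard]
  constructor
  · let L : (T → S → F) →ₗ[F] (T → ((S → F) ⧸ C0) × ((S → F) ⧸ C0)) :=
      LinearMap.pi fun t => LinearMap.prod
        (C0.mkQ ∘ₗ LinearMap.funLeft F F (fun s => ((t : K), s)) ∘ₗ ex)
        (C0.mkQ ∘ₗ LinearMap.funLeft F F (fun s => ((t : K) * (a s)⁻¹, s)) ∘ₗ ex)
    have h2 := C0.finrank_quotient_add_finrank
    rw [finrank_fintype_fun_eq_card] at h2
    have hd : finrank F (T → ((S → F) ⧸ C0) × ((S → F) ⧸ C0)) =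
        N.index * (finrank F ((S → F) ⧸ C0) + finrank F ((S → F) ⧸ C0)) := by
      rw [finrank_pi_fintype, finrank_prod, sum_const, smul_eq_mul, card_univ, hcard]
    have h3 := L.finrank_range_add_finrank_ker
    have h4 := Submodule.finrank_le (LinearMap.range L)
    have hmem : ∀ f : LinearMap.ker L, ex f.1 ∈ tsubK C0 a ⊓ invS F S N := by
      rintro ⟨f, hf⟩
      have k1 : ∀ t : T, (fun s => ex f (t, s)) ∈ C0 := fun t =>
        (Submodule.Quotient.mk_eq_zero C0).1 (congrArg Prod.fst (congrFun hf t))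
      have k2 : ∀ t : T, (fun s => ex f (t * (a s)⁻¹, s)) ∈ C0 := fun t =>
        (Submodule.Quotient.mk_eq_zero C0).1 (congrArg Prod.snd (congrFun hf t))
      refine ⟨⟨fun g => ?_, fun g => ?_⟩, fun g hg x => heq f g hg x.1 x.2⟩
      · refine (congrArg (· ∈ C0) (funext fun s => ?_)).mp (k1 (hT.equiv g).2)
        rw [← heq f _ (hT.equiv g).1.2, hT.equiv_fst_mul_equiv_snd]
      · refine (congrArg (· ∈ C0) (funext fun s => ?_)).mp (k2 (hT.equiv g).2)
        rw [← heq f _ (hT.equiv g).1.2, ← mul_assoc, hT.equiv_fst_mul_equiv_snd]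
    let M : LinearMap.ker L →ₗ[F] ↥(tsubK C0 a ⊓ invS F S N) :=
      LinearMap.codRestrict _ (ex ∘ₗ (LinearMap.ker L).subtype) hmem
    have hM : Function.Injective M := by
      refine (injective_iff_map_eq_zero _).2 fun f hf => Subtype.ext ?_
      funext t s
      have h0 : ex f.1 = 0 := congrArg Subtype.val hf
      rw [← ht f.1 t s, h0]
      rfl
    have h5 := LinearMap.finrank_le_finrank_of_injective hM
    have h6 : finrank F ((S → F) ⧸ C0) + finrank F ((S → F) ⧸ C0) + 1 ≤ Fintype.card S := by
      omega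
    have h7 := Nat.mul_le_mul_left N.index h6
    rw [Nat.mul_add, Nat.mul_one] at h7
    omega
  · let M : ↥(tsubK C0 a ⊓ invS F S N) →ₗ[F] (T → S → F) :=
      { toFun := fun w t s => w.1 (t, s)
        map_add' := fun f f' => rfl
        map_smul' := fun c f => rfl }
    have hM : Function.Injective M := by
      refine (injective_iff_map_eq_zero _).2 fun w hw => Subtype.ext ?_
      funext x
      have h0 : w.1 ((hT.equiv x.1).2, x.2) = 0 := congrFun (congrFun hw (hT.equiv x.1).2) x.2
      have h1 := w.2.2 _ (hT.equiv x.1).1.2 ((hT.equiv x.1).2, x.2)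
      rw [h0] at h1
      simp only [hT.equiv_fst_mul_equiv_snd] at h1
      exact h1
    have h5 := LinearMap.finrank_le_finrank_of_injective hM
    rwa [hdim] at h5

end Vale.Agent.P330Q
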