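import Vale.Agent.P330Q.GrpS

/-! Echelon bases of kernels in polynomial time. -/

namespace Vale.Agent.P330Q

open Vale.Agent.Lib.PolyTime Vale.Agent.P330 Vale.Agent.P330.Exp Finset Module
open scoped Classical BigOperators

namespace GEch

section Alg

variable {F X Y : Type} [Field F] [Fintype X]

/-- the solutions of a system -/
def ker (A : Y → X → F) : Submodule F (X → F) where
  carrier := {v | ∀ y, ∑ x, A y x * v x = 0}
  add_mem' {a b} ha hb y := by simp only [Pi.add_apply, mul_add, sum_add_distrib, ha y, hb y, add_zero]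
  zero_mem' y := by simp
  smul_mem' t v hv y := by
    simp only [Pi.smul_apply, smul_eq_mul, mul_left_comm _ t, ← mul_sum, hv y, mul_zero]

/-- leading positions -/
def Piv {N : ℕ} (W : Submodule F (X → F)) (e : X → Fin N) (x : X) : Prop :=
  ∃ v ∈ W, (∀ x', e x' < e x → v x' = 0) ∧ v x ≠ 0

variable {N : ℕ} {W : Submodule F (X → F)} {e : X → Fin N}

theorem inj {v : X → F} (hv : v ∈ W) (h : ∀ x, Piv W e x → v x = 0) (x : X) : v x = 0 := by
  by_contra hx
  obtain ⟨y, hy, hm⟩ := (univ.filter fun y => v y ≠ 0).exists_min_image e ⟨x, by simpa using hx⟩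
  refine (mem_filter.1 hy).2 (h y ⟨v, hv, fun x' h1 => by_contra fun h2 => ?_, (mem_filter.1 hy).2⟩)
  exact absurd (hm x' (by simpa using h2)) (not_le.2 h1)

theorem surj (he : Function.Injective e) (x : X) :
    Piv W e x → ∃ u ∈ W, (∀ x', Piv W e x' ∧ x' ≠ x → u x' = 0) ∧ u x ≠ 0 := by
  induction x using (InvImage.wf e (wellFounded_gt (α := Fin N))).induction with
  | _ x ih =>
  rintro ⟨v, hv, h1, h2⟩
  choose! u hu h3 h4 using ih
  have key : ∀ z, Piv W e z → ∑ y ∈ univ.filter fun y => e x < e y ∧ Piv W e y,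
      v y / u y y * u y z = if e x < e z then v z else 0 := fun z hz => by
    have h5 : ∀ y ∈ univ.filter fun y => e x < e y ∧ Piv W e y, y ≠ z → v y / u y y * u y z = 0 :=
      fun y hy hne => by
        rw [h3 y (mem_filter.1 hy).2.1 (mem_filter.1 hy).2.2 z ⟨hz, hne.symm⟩, mul_zero]
    split_ifs with h
    · rw [sum_eq_single_of_mem z (mem_filter.2 ⟨mem_univ _, h, hz⟩) h5,
        div_mul_cancel₀ _ (h4 z h hz)]
    · exact sum_eq_zero fun y hy => h5 y hy fun a => h (a ▸ (mem_filter.1 hy).2.1)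
  refine ⟨v - ∑ y ∈ univ.filter fun y => e x < e y ∧ Piv W e y, (v y / u y y) • u y,
    W.sub_mem hv (W.sum_mem fun y hy => W.smul_mem _
      (hu y (mem_filter.1 hy).2.1 (mem_filter.1 hy).2.2)), fun z hz => ?_, ?_⟩
  · simp only [Pi.sub_apply, Finset.sum_apply, Pi.smul_apply, smul_eq_mul, key z hz.1]
    split_ifs with h
    · exact sub_self _
    · rw [h1 z (lt_of_le_of_ne (not_lt.1 h) fun a => hz.2 (he a)), sub_self]
  · simp only [Pi.sub_apply, Finset.sum_apply, Pi.smul_apply, smul_eq_mul, key x ⟨v, hv, h1, h2⟩]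
    simpa using h2

omit [Fintype X] in
theorem rank {n : ℕ} {w : X → Fin n → F} {p : Fin n → X} (h1 : ∀ i, w (p i) = Pi.single i 1)
    (h2 : ∀ i, (fun x => w x i) ∈ W) (h3 : ∀ v ∈ W, ∀ x, v x = ∑ i, v (p i) * w x i) :
    n = finrank F W := by
  let R : W →ₗ[F] Fin n → F := LinearMap.funLeft F F p ∘ₗ W.subtype
  have hR : Function.Bijective R := by
    refine ⟨(injective_iff_map_eq_zero R).2 fun v hv => Subtype.ext (funext fun x => ?_),
      fun c => ⟨⟨∑ i, c i • fun x => w x i, W.sum_mem fun i _ => W.smul_mem _ (h2 i)⟩,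
        funext fun j => ?_⟩⟩
    · rw [h3 v v.2 x]
      exact sum_eq_zero fun i _ => mul_eq_zero_of_left (congrFun hv i) _
    · show (∑ i, c i • fun x => w x i) (p j) = c j
      simp [h1, Pi.single_apply]
  rw [(LinearEquiv.ofBijective R hR).finrank_eq, finrank_fin_fun]

end Alg

variable {l : ℕ} [Fact l.Prime] {C : Type} [Enc C] {X Y : C → Type} [∀ c, Enc (X c)]
  [∀ c, Enc (Y c)] [∀ c, Fintype (X c)] [∀ c, Fintype (Y c)]

theorem span (hX : PFam X) (hY : PFam Y) {M : ∀ c, Y c → X c → ZMod l}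
    (hM : PT fun z : Σ c, Y c × X c => M z.1 z.2.1 z.2.2) :
    ∃ w : ∀ c, X c × X c → ZMod l, (PT fun z : Σ c, X c × X c => w z.1 z.2) ∧ ∀ c,
      (∀ b, (fun x => w c (b, x)) ∈ ker (M c)) ∧
      ∀ v ∈ ker (M c), ∃ a : X c → ZMod l, ∀ x, v x = ∑ b, a b * w c (b, x) := by
  obtain ⟨e, he, -⟩ := (hY.prod hX).equiv
  have he' : PT fun z : Σ c, Y c × X c => (e z.1 z.2 : ℕ) := D.fin_iff.1 he
  have hw := (hX.prod hX).iter_word (fun c => dk_st (M c) fun j => (e c j : ℕ))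
    (fun B' _ p w hp hw => dk_pt_st (hX.comap hp) (hY.comap hp) (M := fun b => M (p b))
      (dk_app (f := fun c (j : Y c × X c) => M c j.1 j.2) hM (hp.comp pt_sigma_fst) D.sigma_snd)
      (e := fun b j => (e (p b) j : ℕ))
      (dk_app (f := fun c j => (e c j : ℕ)) he' (hp.comp pt_sigma_fst) D.sigma_snd) hw)
    (w := fun c z => if z.1 = z.2 then 1 else 0)
    (PT.ite (D.sigma_snd.fst.eq D.sigma_snd.snd) (PT.const 1) (PT.const 0)) hX.pt_card hX.pb_card
  have hk := fun c (v : X c → ZMod l) (hv : v ∈ ker (M c)) => dk_iter (M c)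
    (e := fun j => (e c j : ℕ)) (Fin.val_injective.comp (e c).injective) hv (Fintype.card (X c))
  refine ⟨_, hw, fun c => ⟨fun b y => ?_, fun v hv => (hk c v hv).1⟩⟩
  rcases (hk c 0 (zero_mem _)).2 with h | h
  · exact h (y, b)
  · have h1 := card_eq_zero.1 (Nat.le_zero.1 (Nat.le_of_add_le_add_right
      (h.trans_eq (zero_add _).symm)))
    exact sum_eq_zero fun x _ => mul_eq_zero_of_right _ (by_contra fun a =>
      notMem_empty b (h1 ▸ (@mem_filter _ _ (_) _ _).2 ⟨mem_univ _, x, a⟩))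

theorem van (hX : PFam X) (hY : PFam Y) {M : ∀ c, Y c → X c → ZMod l}
    (hM : PT fun z : Σ c, Y c × X c => M z.1 z.2.1 z.2.2) {Z : ∀ c, X c → Prop}
    (hZ : PT fun z : Σ c, X c => Z z.1 z.2) {x0 : ∀ c, X c} (h0 : D x0) :
    ∃ v : ∀ c, X c → ZMod l, (PT fun z : Σ c, X c => v z.1 z.2) ∧ ∀ c, v c ∈ ker (M c) ∧
      (∀ x, Z c x → v c x = 0) ∧
      ((∃ u ∈ ker (M c), (∀ x, Z c x → u x = 0) ∧ u (x0 c) ≠ 0) → v c (x0 c) = 1) := by
  have q : PT fun z : Σ z : Σ c, (Y c ⊕ X c) × X c, Y z.1 => M z.1.1 z.2 z.1.2.2 :=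
    dk_app (f := fun c (j : Y c × X c) => M c j.1 j.2)
      (x := fun z : Σ z : Σ c, (Y c ⊕ X c) × X c, Y z.1 => (z.2, z.1.2.2)) hM
      (pt_sigma_fst.comp pt_sigma_fst) (D.sigma_snd.pair (D.sigma_snd.comp pt_sigma_fst).snd)
  have q' : PT fun z : Σ z : Σ c, (Y c ⊕ X c) × X c, X z.1 =>
      if z.2 = z.1.2.2 ∧ Z z.1.1 z.2 then (1 : ZMod l) else 0 :=
    PT.ite ((D.sigma_snd.eq (D.sigma_snd.comp pt_sigma_fst).snd).and
      (dk_app hZ (pt_sigma_fst.comp pt_sigma_fst) D.sigma_snd)) (PT.const 1) (PT.const 0)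
  obtain ⟨w, hw, h⟩ := span hX (hY.sum hX) (M := fun c j x =>
      Sum.elim (fun y => M c y x) (fun x' => if x' = x ∧ Z c x' then 1 else 0) j)
    (D.sum_elim (Z := fun _ => ZMod l) (f := fun (z : Σ c, (Y c ⊕ X c) × X c) y => M z.1 y z.2.2)
      (g := fun z x' => if x' = z.2.2 ∧ Z z.1 x' then 1 else 0) D.sigma_snd.fst (D.of_pt q)
      (D.of_pt q')).pt
  have hk : ∀ c (v : X c → ZMod l), v ∈ ker (fun (j : Y c ⊕ X c) x =>
      Sum.elim (fun y => M c y x) (fun x' => if x' = x ∧ Z c x' then 1 else 0) j) ↔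
      v ∈ ker (M c) ∧ ∀ x, Z c x → v x = 0 := fun c v =>
    Sum.forall.trans (and_congr Iff.rfl (forall_congr' fun x => by
      by_cases a : Z c x <;> simp [a]))
  have h1 : PT fun z : Σ c, X c => w z.1 (z.2, x0 z.1) = 0 :=
    (dk_app (f := w) hw pt_sigma_fst (D.sigma_snd.pair (h0.comp pt_sigma_fst))).eq (PT.const 0)
  obtain ⟨b, hb, h2⟩ := hX.choose (p := fun c b => ¬ w c (b, x0 c) = 0 ∨ ∀ b', w c (b', x0 c) = 0)
    (h1.not.or ((hX.pt_forall (p := fun c b => w c (b, x0 c) = 0) h1).comp pt_sigma_fst))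
    fun c => by
      by_cases a : ∀ b', w c (b', x0 c) = 0
      · exact ⟨x0 c, Or.inr a⟩
      · exact (not_forall.1 a).imp fun _ => Or.inl
  refine ⟨fun c x => (w c (b c, x0 c))⁻¹ * w c (b c, x), pt_mulZ (pt_invZ
    ((dk_app (f := w) hw PT.id (hb.pair h0)).comp pt_sigma_fst)) (dk_app (f := w) hw pt_sigma_fst
      ((hb.comp pt_sigma_fst).pair D.sigma_snd)), fun c => ?_⟩
  have h3 := (hk c _).1 ((h c).1 (b c))
  refine ⟨(ker (M c)).smul_mem _ h3.1, fun x hx => mul_eq_zero_of_right _ (h3.2 x hx),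
    fun ⟨u, h4, h5, h6⟩ => inv_mul_cancel₀ ((h2 c).resolve_right fun a => h6 ?_)⟩
  obtain ⟨a', ha⟩ := (h c).2 u ((hk c u).2 ⟨h4, h5⟩)
  simp [ha, a]

end GEch

open GEch

theorem s_ech : S_ech := by
  intro l _ U _ X Y _ _ _ _ hX hY A hA
  obtain ⟨e, he, -⟩ := hX.equiv
  have hA' : ∀ {B : Type} [Enc B] {q : B → U}, PT q →
      PT fun z : Σ b, Y (q b) × X (q b) => A (q z.1) z.2.1 z.2.2 := fun hq =>
    dk_app (f := fun c (j : Y c × X c) => A c j.1 j.2) hA (hq.comp pt_sigma_fst) D.sigma_snd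
  have q1 : PT fun z : Σ u, X u => z.1 := pt_sigma_fst
  obtain ⟨v, hv, h1⟩ := van (hX.comap q1) (hY.comap q1) (M := fun z => A z.1) (hA' q1)
    (Z := fun z x => e z.1 x < e z.1 z.2) (PT.lt
      (D.fin_iff.1 (he.app (q1.comp pt_sigma_fst) D.sigma_snd))
      ((D.fin_iff.1 he).comp pt_sigma_fst)) (x0 := fun z => z.2) D.sigma_snd
  have hP : PT fun z : Σ u, X u => Piv (ker (A z.1)) (e z.1) z.2 :=
    ((dk_app (f := v) hv PT.id D.sigma_snd).eq (PT.const 1)).congr fun z =>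
      propext ⟨(h1 z).2.2, fun a => ⟨v z, (h1 z).1, (h1 z).2.1, by rw [a]; exact one_ne_zero⟩⟩
  have hS := hX.sub (p := fun u x => Piv (ker (A u)) (e u) x) hP
  obtain ⟨f, -, hf⟩ := hS.equiv
  have hp : D2 fun u i => ((f u).symm i).1 := D.val hf
  have q2 : PT fun z : Σ u, Fin (Fintype.card {x // Piv (ker (A u)) (e u) x}) => z.1 :=
    pt_sigma_fst
  obtain ⟨w, hw, h2⟩ := van (hX.comap q2) (hY.comap q2) (M := fun z => A z.1) (hA' q2)
    (Z := fun z x => Piv (ker (A z.1)) (e z.1) x ∧ x ≠ ((f z.1).symm z.2).1)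
    ((dk_app (f := fun u x => Piv (ker (A u)) (e u) x) hP (q2.comp pt_sigma_fst) D.sigma_snd).and
      (D.sigma_snd.eq (D.comp hp pt_sigma_fst)).not) (x0 := fun z => ((f z.1).symm z.2).1) hp
  refine ⟨_, fun u x i => w ⟨u, i⟩ x, fun u i => ((f u).symm i).1, hS.pt_card, hS.pb_card,
    dk_app (f := w) hw (pt_sigma_mk pt_sigma_fst D.sigma_snd.snd) D.sigma_snd.fst, hp, fun u => ?_⟩
  have h3 : ∀ i, (fun j => w ⟨u, j⟩ ((f u).symm i).1) = Pi.single i 1 := fun i => funext fun j => by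
    rw [Pi.single_apply]
    split_ifs with a
    · subst a
      exact (h2 ⟨u, j⟩).2.2 (surj (e u).injective _ ((f u).symm j).2)
    · exact (h2 ⟨u, j⟩).2.1 _ ⟨((f u).symm i).2, fun b =>
        a ((f u).symm.injective (Subtype.ext b)).symm⟩
  have h4 : ∀ s ∈ ker (A u), ∀ x, s x = ∑ i, s ((f u).symm i).1 * w ⟨u, i⟩ x := fun s hs x => by
    have h5 := inj (e := e u) ((ker (A u)).sub_mem hs ((ker (A u)).sum_mem (t := univ)
      fun i _ => (ker (A u)).smul_mem (s ((f u).symm i).1) (h2 ⟨u, i⟩).1)) (fun y hy => ?_) x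
    · simpa [sub_eq_zero] using h5
    · have h6 := fun j => congrFun (h3 (f u ⟨y, hy⟩)) j
      simp only [Equiv.symm_apply_apply] at h6
      simp [h6, Pi.single_apply]
  refine ⟨h3, fun i => (h2 ⟨u, i⟩).1, h4, fun W hW => ?_⟩
  obtain rfl : W = ker (A u) := Submodule.ext hW
  exact rank h3 (fun i => (h2 ⟨u, i⟩).1) h4

end Vale.Agent.P330Q
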