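import Vale.Agent.P330Q.GrpS

/-! Fourier analysis on the elementary abelian group. -/

namespace Vale.Agent.P330Q

open Vale.Agent.Lib.PolyTime Vale.Agent.P330 Vale.Agent.P330.Exp Finset Module
open scoped Classical BigOperators

namespace GFour

section A
variable {H V : Type} [AddCommGroup H] [Fintype H] [NormedAddCommGroup V] [InnerProductSpace ℝ V]

omit [Fintype H] in
theorem inn (U : H → V →ₗᵢ[ℝ] V) (hm : ∀ a b v, U (a + b) v = U a (U b v))
    (v : V) (a b : H) : inner ℝ (U a v) (U b v) = inner ℝ (U (a - b) v) v := by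
  have e1 : U a v = U b (U (a - b) v) := by rw [← hm, add_sub_cancel]
  rw [e1, LinearIsometry.inner_map_map]

theorem re_sub (ψ : AddChar H ℂ) (a b : H) :
    (ψ (a - b)).re = (ψ a).re * (ψ b).re + (ψ a).im * (ψ b).im := by
  rw [sub_eq_add_neg, AddChar.map_add_eq_mul, AddChar.map_neg_eq_conj]
  simp

omit [Fintype H] in
theorem re_add (ψ : AddChar H ℂ) (a b : H) :
    (ψ (a + b)).re = (ψ a).re * (ψ b).re - (ψ a).im * (ψ b).im := by
  rw [AddChar.map_add_eq_mul]
  simp

theorem pos (U : H → V →ₗᵢ[ℝ] V) (hm : ∀ a b v, U (a + b) v = U a (U b v))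
    (v : V) (ψ : AddChar H ℂ) : 0 ≤ ∑ h, (ψ h).re * inner ℝ (U h v) v := by
  have a : ∀ r : H → ℝ, 0 ≤ ∑ a, ∑ b, r a * r b * inner ℝ (U (a - b) v) v := by
    intro r
    have := real_inner_self_nonneg (x := ∑ a, r a • U a v)
    rw [sum_inner] at this
    refine this.trans_eq (Finset.sum_congr rfl fun a _ => ?_)
    rw [inner_sum]
    refine Finset.sum_congr rfl fun b _ => ?_
    rw [real_inner_smul_left, real_inner_smul_right, inn U hm]
    ring
  have b := add_nonneg (a fun h => (ψ h).re) (a fun h => (ψ h).im)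
  rw [← Finset.sum_add_distrib] at b
  have c : ∀ x : H, (∑ y, (ψ x).re * (ψ y).re * inner ℝ (U (x - y) v) v) +
      ∑ y, (ψ x).im * (ψ y).im * inner ℝ (U (x - y) v) v =
      ∑ h, (ψ h).re * inner ℝ (U h v) v := by
    intro x
    rw [← Finset.sum_add_distrib]
    refine Fintype.sum_equiv (Equiv.subLeft x) _ _ fun y => ?_
    rw [Equiv.subLeft_apply, re_sub]
    ring
  simp only [c, Finset.sum_const, Finset.card_univ, nsmul_eq_mul] at b
  have hc : (0 : ℝ) < Fintype.card H := by exact_mod_cast Fintype.card_pos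
  exact le_of_mul_le_mul_left (by rwa [mul_zero]) hc

theorem sum_re (a : H) :
    ∑ ψ : AddChar H ℂ, (ψ a).re = if a = 0 then (Fintype.card H : ℝ) else 0 := by
  rw [← Complex.re_sum, AddChar.sum_apply_eq_ite]
  split_ifs <;> simp

theorem inv (φ : H → ℝ) (hφ : ∀ h, φ (-h) = φ h) (g : H) :
    ∑ ψ : AddChar H ℂ, (∑ h, (ψ h).re * φ h) * (ψ g).re = Fintype.card H * φ g := by
  have e : ∀ ψ : AddChar H ℂ, (∑ h, (ψ h).re * φ h) * (ψ g).re =
      ∑ h, (φ h / 2 * (ψ (h + g)).re + φ h / 2 * (ψ (h - g)).re) := by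
    intro ψ
    rw [Finset.sum_mul]
    refine Finset.sum_congr rfl fun h _ => ?_
    rw [re_add, re_sub]
    ring
  simp only [e]
  rw [Finset.sum_comm]
  simp only [Finset.sum_add_distrib, ← Finset.mul_sum, sum_re, add_eq_zero_iff_eq_neg, sub_eq_zero,
    mul_ite, mul_zero, Finset.sum_ite_eq', Finset.mem_univ, if_true, hφ]
  ring

theorem main (U : H → V →ₗᵢ[ℝ] V) (hm : ∀ a b v, U (a + b) v = U a (U b v)) (h0 : ∀ v, U 0 v = v)
    (v : V) {X : Type} [Fintype X] [Nonempty X] (b : X → H) (κ e : ℝ)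
    (hκ : ∀ (ψ : AddChar H ℂ) g, κ * Fintype.card X * (1 - (ψ g).re) ≤
      2 * ∑ x, (1 - (ψ (b x)).re))
    (he : ∀ x, ‖U (b x) v - v‖ ≤ e) (g : H) : κ * ‖U g v - v‖ ^ 2 ≤ 2 * e ^ 2 := by
  have hφ : ∀ h, inner ℝ (U (-h) v) v = inner ℝ (U h v) v := by
    intro h
    have := inn U hm v 0 h
    rw [zero_sub, h0] at this
    rw [← this, real_inner_comm]
  have key : ∀ g, Fintype.card H * ‖U g v - v‖ ^ 2 =
      2 * ∑ ψ : AddChar H ℂ, (∑ h, (ψ h).re * inner ℝ (U h v) v) * (1 - (ψ g).re) := by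
    intro g
    have a1 := inv (fun h => inner ℝ (U h v) v) hφ g
    have a2 := inv (fun h => inner ℝ (U h v) v) hφ 0
    simp only [AddChar.map_zero_eq_one, Complex.one_re, h0, real_inner_self_eq_norm_sq] at a2
    simp only [mul_sub, Finset.sum_sub_distrib]
    rw [a1, a2, norm_sub_sq_real, LinearIsometry.norm_map]
    ring
  have hH : (0 : ℝ) < Fintype.card H := by exact_mod_cast Fintype.card_pos
  have hX : (0 : ℝ) < Fintype.card X := by exact_mod_cast Fintype.card_pos
  have s1 : ∑ x, Fintype.card H * ‖U (b x) v - v‖ ^ 2 ≤ Fintype.card X * (Fintype.card H * e ^ 2) := by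
    have := Finset.sum_le_sum (s := Finset.univ) fun x _ =>
      mul_le_mul_of_nonneg_left (pow_le_pow_left₀ (norm_nonneg _) (he x) 2) hH.le
    simpa using this
  simp only [key] at s1
  rw [← Finset.mul_sum, Finset.sum_comm] at s1
  have s2 := Finset.sum_le_sum (s := Finset.univ) fun (ψ : AddChar H ℂ) _ =>
    mul_le_mul_of_nonneg_left (hκ ψ g) (pos U hm v ψ)
  have s3 : ∑ ψ : AddChar H ℂ, (∑ h, (ψ h).re * inner ℝ (U h v) v) *
      (κ * Fintype.card X * (1 - (ψ g).re)) = κ * Fintype.card X *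
      ∑ ψ : AddChar H ℂ, (∑ h, (ψ h).re * inner ℝ (U h v) v) * (1 - (ψ g).re) := by
    rw [Finset.mul_sum]
    exact Finset.sum_congr rfl fun ψ _ => by ring
  have s4 : ∑ ψ : AddChar H ℂ, (∑ h, (ψ h).re * inner ℝ (U h v) v) *
      (2 * ∑ x, (1 - (ψ (b x)).re)) = 2 * ∑ ψ : AddChar H ℂ,
      ∑ x, (∑ h, (ψ h).re * inner ℝ (U h v) v) * (1 - (ψ (b x)).re) := by
    rw [Finset.mul_sum]
    exact Finset.sum_congr rfl fun ψ _ => by rw [← Finset.mul_sum]; ring
  rw [s3, s4] at s2
  have s5 := key g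
  refine le_of_mul_le_mul_left ?_ (mul_pos hX hH)
  have s6 : Fintype.card X * Fintype.card H * (κ * ‖U g v - v‖ ^ 2) =
      κ * Fintype.card X * (Fintype.card H * ‖U g v - v‖ ^ 2) := by ring
  rw [s6, s5]
  linarith

end A

theorem eta (l : ℕ) (hl : 0 < l) (z : ℂ) (hn : ‖z‖ = 1) (hz : z ^ l = 1) (h1 : z ≠ 1) :
    1 / (2 * (l : ℝ) ^ 2) ≤ 1 - z.re := by
  have a : ∀ i : ℕ, ‖1 - z ^ i‖ ≤ i * ‖1 - z‖ := by
    intro i
    induction i with
    | zero => simp
    | succ i ih =>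
      have : 1 - z ^ (i + 1) = (1 - z ^ i) + z ^ i * (1 - z) := by ring
      rw [this]
      refine (norm_add_le _ _).trans ?_
      rw [norm_mul, norm_pow, hn]
      push_cast
      linarith [one_pow (M := ℝ) i, show (1 : ℝ) ^ i * ‖1 - z‖ = ‖1 - z‖ by simp]
  have b : ∑ i ∈ Finset.range l, z ^ i = 0 := by
    have := mul_neg_geom_sum z l
    rw [hz, sub_self] at this
    exact (mul_eq_zero.1 this).resolve_left (sub_ne_zero.2 h1.symm)
  have c : ∑ i ∈ Finset.range l, (1 - z ^ i) = l := by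
    rw [Finset.sum_sub_distrib, b]; simp
  have hl' : (0 : ℝ) < l := by exact_mod_cast hl
  have d := norm_sum_le_of_le (Finset.range l) (f := fun i => 1 - z ^ i)
    (n := fun _ => (l : ℝ) * ‖1 - z‖) fun i hi => (a i).trans
      (mul_le_mul_of_nonneg_right (by exact_mod_cast (Finset.mem_range.1 hi).le) (norm_nonneg _))
  rw [c] at d
  simp only [Complex.norm_natCast, Finset.sum_const, Finset.card_range, nsmul_eq_mul] at d
  have d2 : 1 ≤ l * ‖1 - z‖ := le_of_mul_le_mul_left (by linarith) hl'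
  have d3 := Complex.norm_sub_one_sq_eq_of_norm_eq_one hn
  rw [norm_sub_rev] at d3
  rw [div_le_iff₀ (by positivity)]
  have d4 : 1 ≤ (l * ‖1 - z‖) ^ 2 := one_le_pow₀ d2
  rw [mul_pow, d3] at d4
  linarith

theorem code (l : ℕ) [Fact l.Prime] (n : ℕ) (ψ : AddChar (Fin n → ZMod l) ℂ) (hψ : ψ ≠ 0) :
    ∃ t : Fin n → ZMod l, t ≠ 0 ∧ ∀ h, ∑ i, t i * h i ≠ 0 → ψ h ≠ 1 := by
  let p : Submodule (ZMod l) (Fin n → ZMod l) :=
    { carrier := {h | ψ h = 1}
      add_mem' := fun {a b} ha hb => by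
        have ha' : ψ a = 1 := ha
        have hb' : ψ b = 1 := hb
        show ψ (a + b) = 1
        rw [AddChar.map_add_eq_mul, ha', hb', one_mul]
      zero_mem' := ψ.map_zero_eq_one
      smul_mem' := fun c a ha => by
        have ha' : ψ a = 1 := ha
        show ψ (c • a) = 1
        rw [← ZMod.natCast_zmod_val c, Nat.cast_smul_eq_nsmul, AddChar.map_nsmul_eq_pow, ha',
          one_pow] }
  obtain ⟨x, hx⟩ := AddChar.ne_zero_iff.1 hψ
  have hp : p < ⊤ := lt_top_iff_ne_top.2 fun h => hx (by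
    have : x ∈ p := h ▸ Submodule.mem_top
    exact this)
  obtain ⟨f, hf, hle⟩ := Submodule.exists_le_ker_of_lt_top p hp
  have e : ∀ h, f h = ∑ i, (f fun j => if i = j then 1 else 0) * h i := fun h => by
    rw [LinearMap.pi_apply_eq_sum_univ]
    exact Finset.sum_congr rfl fun i _ => by rw [smul_eq_mul, mul_comm]
  refine ⟨fun i => f fun j => if i = j then 1 else 0, fun h => hf (LinearMap.ext fun y => ?_),
    fun h hh h1 => hh ?_⟩
  · rw [e]
    exact Finset.sum_eq_zero fun i _ => by rw [show (f fun j => if i = j then 1 else 0) = 0 from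
      congrFun h i, zero_mul]
  · rw [← e]
    exact hle (show h ∈ p from h1)

end GFour

open GFour in
theorem s_four : S_four := by
  intro l hl δ hδ
  have hl0 : 0 < l := hl.out.pos
  have hl' : (0 : ℝ) < l := by exact_mod_cast hl0
  have hη : 0 < 1 / (2 * (l : ℝ) ^ 2) := by positivity
  have hκ : 0 < 1 / (2 * (l : ℝ) ^ 2) * δ := by positivity
  obtain ⟨η, hηe⟩ : ∃ η, η = 1 / (2 * (l : ℝ) ^ 2) := ⟨_, rfl⟩
  rw [← hηe] at hη hκ
  have hc : 0 < 2 / (η * δ) := by positivity
  refine ⟨1 + 2 / (η * δ), by linarith, fun n X _ _ b hb V _ _ ρ hρ v e he g => ?_⟩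
  have hX : (0 : ℝ) < Fintype.card X := by exact_mod_cast Fintype.card_pos
  have he0 : 0 ≤ e := (norm_nonneg _).trans (he (Classical.arbitrary X))
  have re1 : ∀ (ψ : AddChar (Fin n → ZMod l) ℂ) h, |(ψ h).re| ≤ 1 := fun ψ h =>
    (Complex.abs_re_le_norm _).trans_eq (ψ.norm_apply h)
  have key := main (fun h : Fin n → ZMod l => ρ (Multiplicative.ofAdd h))
    (fun a b v => by rw [ofAdd_add, hρ.mul]) (fun v => by rw [ofAdd_zero, hρ.one]) v b (η * δ) e
    (fun ψ g => by
      by_cases hψ : ψ = 0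
      · simp [hψ]
      obtain ⟨t, ht, htψ⟩ := code l n ψ hψ
      have a1 := hb t ht
      unfold fr at a1
      rw [le_div_iff₀ hX, Finset.natCast_card_filter] at a1
      have a2 := Finset.sum_le_sum (s := Finset.univ)
        (f := fun x => η * @ite ℝ (∑ i, t i * b x i ≠ 0) (Classical.propDecidable _) 1 0)
        (g := fun x => 1 - (ψ (b x)).re) fun x _ => by
          split_ifs with hx
          · rw [mul_one, hηe]
            refine eta l hl0 _ (ψ.norm_apply _) ?_ (htψ _ hx)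
            rw [← AddChar.map_nsmul_eq_pow, ← Nat.cast_smul_eq_nsmul (ZMod l), ZMod.natCast_self,
              zero_smul, AddChar.map_zero_eq_one]
          · linarith [(abs_le.1 (re1 ψ (b x))).2]
      rw [← Finset.mul_sum] at a2
      have a3 := mul_le_mul_of_nonneg_left a1 hη.le
      have a4 : η * δ * Fintype.card X * (1 - (ψ g).re) ≤ η * δ * Fintype.card X * 2 :=
        mul_le_mul_of_nonneg_left (by linarith [(abs_le.1 (re1 ψ g)).1]) (by positivity)
      have a5 := a3.trans a2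
      linarith) he (Multiplicative.toAdd g)
  simp only [ofAdd_toAdd] at key
  refine (pow_le_pow_iff_left₀ (norm_nonneg _) (by positivity) two_ne_zero).1 ?_
  have k2 : ‖ρ g v - v‖ ^ 2 ≤ 2 / (η * δ) * e ^ 2 := by
    rw [div_mul_eq_mul_div, le_div_iff₀ hκ]
    linarith
  rw [mul_pow]
  exact k2.trans (mul_le_mul_of_nonneg_right (by nlinarith) (sq_nonneg _))

end Vale.Agent.P330Q
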