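import Vale.Agent.P330Q.GrpS
import Vale.Agent.P330.Exp.Gap

/-! From the Kazhdan inequality to the spectral gap. -/

namespace Vale.Agent.P330Q

open Vale.Agent.Lib.PolyTime Vale.Agent.P330 Vale.Agent.P330.Exp Finset Module
open scoped Classical BigOperators

namespace GGap

variable {G J : Type} [Group G] [Fintype G] [Fintype J] {s : J → G} {c : ℝ}

theorem sum_le {V : Type} [NormedAddCommGroup V] [InnerProductSpace ℝ V] {ρ : G → V →ₗᵢ[ℝ] V}
    (hρ : Rep ρ) (j₀ : J) (hc : 1 ≤ c) (h1 : s j₀ = 1) (hK : Kaz s c)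
    (v : V) (h0 : ∑ g, ρ g v = 0) :
    ‖∑ p, ρ (s p) v‖ ≤ (Fintype.card J - 1 / (4 * c ^ 2)) * ‖v‖ := by
  have : Nonempty J := ⟨j₀⟩
  obtain ⟨m, -, hm⟩ := exists_max_image univ (fun p => ‖ρ (s p) v - v‖) univ_nonempty
  have k1 : ‖v‖ ≤ c * ‖ρ (s m) v - v‖ :=
    norm_le_of_disp h0 (hK V ρ hρ v _ fun j => hm j (mem_univ _))
  by_cases hj : m = j₀
  · rw [hj, h1, hρ.one, sub_self, norm_zero, mul_zero] at k1
    have : v = 0 := norm_le_zero_iff.1 k1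
    simp [this]
  have c2 : 1 ≤ c ^ 2 := one_le_pow₀ hc
  obtain ⟨t, ht⟩ : ∃ t, t = 1 / (4 * c ^ 2) := ⟨_, rfl⟩
  have t0 : 0 < t := by rw [ht]; positivity
  have t1 : t * (4 * c ^ 2) = 1 := by rw [ht]; field_simp
  rw [← ht]
  have k2 : ‖ρ (s m) v + v‖ ≤ (2 - t) * ‖v‖ := by
    have p := parallelogram_law_with_norm ℝ (ρ (s m) v) v
    rw [(ρ (s m)).norm_map] at p
    have := norm_nonneg v
    refine (abs_le_of_sq_le_sq' ?_ (mul_nonneg (by nlinarith) this)).2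
    have k3 : ‖v‖ ^ 2 ≤ (c * ‖ρ (s m) v - v‖) ^ 2 := pow_le_pow_left₀ this k1 2
    have k4 : 4 * t * ‖v‖ ^ 2 ≤ ‖ρ (s m) v - v‖ ^ 2 :=
      calc _ ≤ 4 * t * (c * ‖ρ (s m) v - v‖) ^ 2 := mul_le_mul_of_nonneg_left k3 (by positivity)
        _ = t * (4 * c ^ 2) * ‖ρ (s m) v - v‖ ^ 2 := by ring
        _ = _ := by rw [t1, one_mul]
    nlinarith [sq_nonneg (t * ‖v‖)]
  have hm' : m ∈ univ.erase j₀ := mem_erase.2 ⟨hj, mem_univ _⟩
  rw [← add_sum_erase _ _ (mem_univ j₀), ← add_sum_erase _ _ hm', h1, hρ.one, ← add_assoc,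
    add_comm v]
  have k4 : ‖∑ p ∈ (univ.erase j₀).erase m, ρ (s p) v‖ ≤ (Fintype.card J - 2) * ‖v‖ := by
    refine (norm_sum_le _ _).trans (le_of_eq ?_)
    have c1 := card_erase_add_one hm'
    have c2 := card_erase_add_one (mem_univ j₀)
    have c3 : (#((univ.erase j₀).erase m) : ℝ) = Fintype.card J - 2 := by
      rw [← card_univ, ← c2, ← c1]
      push_cast
      ring
    simp only [LinearIsometry.norm_map, sum_const, nsmul_eq_mul, c3]
  refine (norm_add_le _ _).trans ?_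
  linarith

theorem gapR (j₀ : J) (hc : 1 ≤ c) (h1 : s j₀ = 1) (hK : Kaz s c) :
    Exp.Gap (fun p x => x * s p) (1 - 1 / (4 * c ^ 2) / Fintype.card J) :=
  have : Nonempty J := ⟨j₀⟩
  gap_of_norm (fun p => Equiv.mulRight (s p)) fun v hv =>
    sum_le rep_right j₀ hc h1 hK v (sum_right hv)

omit [Fintype G] [Fintype J] in
theorem kaz_inv (hK : Kaz s c) : Kaz (fun j => (s j)⁻¹) c := fun V _ _ ρ hρ v e h =>
  hK V ρ hρ v e fun j => by
    refine le_trans (le_of_eq ?_) (h j)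
    rw [← (ρ (s j)).norm_map (ρ (s j)⁻¹ v - v), map_sub, ← hρ.mul, mul_inv_cancel, hρ.one,
      norm_sub_rev]

end GGap

theorem s_gap : S_gap := by
  intro G J _ _ _ s j0 c hc h1 hK
  refine ⟨GGap.gapR j0 hc h1 hK, ?_⟩
  have h := (GGap.gapR j0 hc (by rw [h1, inv_one]) (GGap.kaz_inv hK)).left
  simp only [inv_inv] at h
  exact h

end Vale.Agent.P330Q
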