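import Vale.Agent.P330Q.GrpS

/-! The decomposition of an invariant space into levels. -/

namespace Vale.Agent.P330Q

open Vale.Agent.Lib.PolyTime Vale.Agent.P330 Vale.Agent.P330.Exp Finset Module
open scoped Classical BigOperators

namespace GLev

theorem rank {F W : Type} [Field F] [AddCommGroup W] [Module F W] [FiniteDimensional F W]
    (P : W →ₗ[F] W) {X Y U : Submodule F W} (h1 : ∀ w ∈ Y, P w ∈ U)
    (h2 : ∀ u ∈ U, u ∈ Y ∧ P u = u) (h3 : ∀ w, w ∈ X ↔ w ∈ Y ∧ P w = 0) :
    finrank F Y = finrank F U + finrank F X := by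
  have e1 : U ⊔ X = Y := le_antisymm (sup_le (fun u hu => (h2 u hu).1) fun w hw => ((h3 w).1 hw).1)
    fun w hw => Submodule.mem_sup.2 ⟨P w, h1 w hw, w - P w, (h3 _).2
      ⟨Y.sub_mem hw (h2 _ (h1 w hw)).1, by rw [map_sub, (h2 _ (h1 w hw)).2, sub_self]⟩,
      add_sub_cancel _ _⟩
  have e2 : U ⊓ X = ⊥ := (Submodule.eq_bot_iff _).2 fun w hw =>
    (h2 w hw.1).2.symm.trans ((h3 w).1 hw.2).2
  rw [← Submodule.finrank_sup_add_finrank_inf_eq, e1, e2, finrank_bot, add_zero]

variable {F K S : Type} [Field F] [Group K] [Fintype K] {N N' : Subgroup K} {w : K × S → F}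

/-- Left translation. -/
def tr (g : K) : (K × S → F) →ₗ[F] (K × S → F) := LinearMap.funLeft F F fun x => (g * x.1, x.2)

theorem avg_apply (x : K × S) :
    avgN N w x = ∑ g, (if g ∈ N then (Nat.card N : F)⁻¹ else 0) * w (g * x.1, x.2) := rfl

theorem avg_eq : avgN N w = ∑ g, (if g ∈ N then (Nat.card N : F)⁻¹ else 0) • tr g w :=
  funext fun x => by rw [avg_apply, Finset.sum_apply]; rfl

theorem sum_c (h : (Nat.card N : F) ≠ 0) :
    ∑ g, (if g ∈ N then (Nat.card N : F)⁻¹ else 0) = 1 := by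
  rw [← sum_filter, sum_const, ← Fintype.card_subtype, ← Nat.card_eq_fintype_card, nsmul_eq_mul,
    mul_inv_cancel₀ h]

theorem avg_inv : avgN N w ∈ invS F S N := fun n hn x =>
  Fintype.sum_equiv (Equiv.mulRight n) _ _ fun g => by
    simp only [Equiv.coe_mulRight, N.mul_mem_cancel_right hn, mul_assoc]

theorem avg_tr {n : K} (hn : n ∈ N) : avgN N (tr n w) = avgN N w := funext fun x =>
  Fintype.sum_equiv (Equiv.mulLeft n) _ _ fun g => by
    simp only [Equiv.coe_mulLeft, N.mul_mem_cancel_left hn, mul_assoc, tr, LinearMap.funLeft_apply]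

theorem avg_fix (h : (Nat.card N : F) ≠ 0) : w ∈ invS F S N ↔ avgN N w = w := by
  refine ⟨fun hw => funext fun x => ?_, fun e => e ▸ avg_inv⟩
  rw [avg_apply, ← one_mul (w x), ← sum_c h, sum_mul]
  refine sum_congr rfl fun g _ => ?_
  split_ifs with hg
  · rw [hw g hg x]
  · rw [zero_mul, zero_mul]

theorem avg_comm (h : N.Normal) (g : K) : avgN N (tr g w) = tr g (avgN N w) := funext fun x =>
  Fintype.sum_equiv (MulAut.conj g).toEquiv _ _ fun k => by
    have e : g * k * g⁻¹ ∈ N ↔ k ∈ N := by rw [h.mem_comm_iff, inv_mul_cancel_left]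
    simp only [MulEquiv.toEquiv_eq_coe, EquivLike.coe_coe, MulAut.conj_apply, e]
    simp only [mul_assoc, tr, LinearMap.funLeft_apply, inv_mul_cancel_left]

theorem avg_avg (hN : N' ≤ N) (h : (Nat.card N' : F) ≠ 0) : avgN N (avgN N' w) = avgN N w := by
  rw [avg_eq (N := N'), map_sum, ← one_smul F (avgN N w), ← sum_c h, sum_smul]
  refine sum_congr rfl fun g _ => ?_
  rw [map_smul]
  split_ifs with hg
  · rw [avg_tr (hN hg)]
  · rw [zero_smul, zero_smul]

/-- The shifted averages. -/
noncomputable def B (N : ℕ → Subgroup K) : ℕ → (K × S → F) →ₗ[F] (K × S → F)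
  | 0 => 0
  | j + 1 => avgN (N j)

variable {N : ℕ → Subgroup K}

theorem lev_eq (j : ℕ) : lev N j w = B N (j + 1) w - B N j w := by
  cases j with
  | zero => exact (sub_zero _).symm
  | succ j => rfl

theorem B_B (ha : Antitone N) (h : ∀ j, (Nat.card (N j) : F) ≠ 0) (i j : ℕ) :
    B N i (B N j w) = B N (min i j) w := by
  rcases i with _ | i
  · rw [Nat.zero_min]; rfl
  rcases j with _ | j
  · rw [Nat.min_zero]; exact map_zero _
  rw [Nat.succ_min_succ]
  rcases le_total i j with e | e
  · rw [min_eq_left e]; exact avg_avg (ha e) (h j)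
  · rw [min_eq_right e]; exact (avg_fix (h i)).1 fun g hg => avg_inv g (ha e hg)

theorem lev_lev (ha : Antitone N) (h : ∀ j, (Nat.card (N j) : F) ≠ 0) (i j : ℕ) :
    lev N i (lev N j w) = if i = j then lev N j w else 0 := by
  rw [lev_eq i, lev_eq j, map_sub, map_sub, B_B ha h, B_B ha h, B_B ha h, B_B ha h]
  rcases lt_trichotomy i j with e | rfl | e
  · rw [if_neg e.ne, min_eq_left (by omega), min_eq_left (by omega), min_eq_left (by omega),
      min_eq_left e.le, sub_self, sub_self, sub_self]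
  · rw [if_pos rfl, min_self, min_self, min_eq_right (Nat.le_succ i), min_eq_left (Nat.le_succ i),
      sub_self, sub_zero]
  · rw [if_neg e.ne', min_eq_right (by omega), min_eq_right (by omega), min_eq_right (by omega),
      min_eq_right e.le, sub_self]

theorem sum_lev (k : ℕ) : ∑ j ∈ range k, lev N j w = B N k w := by
  simp only [lev_eq]
  rw [sum_range_sub fun j => B N j w]
  exact sub_zero _

theorem lev_comm (h : ∀ j, (N j).Normal) (j : ℕ) (g : K) : lev N j (tr g w) = tr g (lev N j w) := by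
  cases j with
  | zero => exact avg_comm (h 0) g
  | succ j =>
    rw [lev, LinearMap.sub_apply, LinearMap.sub_apply, map_sub, avg_comm (h _), avg_comm (h _)]

theorem lev_mem {V : Submodule F (K × S → F)} (hV : ∀ g : K, ∀ w ∈ V, tr g w ∈ V) (hw : w ∈ V)
    (j : ℕ) : lev N j w ∈ V := by
  have h : ∀ M : Subgroup K, avgN M w ∈ V := fun M => by
    rw [avg_eq]
    exact V.sum_mem fun g _ => V.smul_mem _ (hV g w hw)
  cases j with
  | zero => exact h _
  | succ j => exact V.sub_mem (h _) (h _)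

end GLev

open GLev in
theorem s_lev : S_lev := by
  intro F K S _ _ _ _ V hV N r hn hle hr hc
  have ha : Antitone N := antitone_nat_of_succ_le hle
  have h1 : ∀ j, ∀ w ∈ V, lev N j w ∈ V ⊓ LinearMap.eqLocus (lev N j) LinearMap.id :=
    fun j w hw => ⟨lev_mem hV hw j, (lev_lev ha hc j j).trans (if_pos rfl)⟩
  refine ⟨fun j => finrank F ↥(V ⊓ LinearMap.eqLocus (lev N j) LinearMap.id), fun j => ?_,
    fun J hJ => ⟨?_, fun g w hw => ⟨hV g w hw.1, fun j hj hj' => ?_⟩⟩⟩
  · induction j with
    | zero =>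
      have e : V ⊓ invS F S (N 0) = V ⊓ LinearMap.eqLocus (lev N 0) LinearMap.id :=
        Submodule.ext fun w => and_congr_right' (avg_fix (hc 0))
      rw [sum_range_one, e]
    | succ j ih =>
      rw [sum_range_succ, ih, add_comm]
      symm
      refine rank (lev N (j + 1)) (fun w hw => h1 _ w hw.1)
        (fun u hu => ⟨⟨hu.1, (avg_fix (hc _)).2 ?_⟩, LinearMap.mem_eqLocus.1 hu.2⟩)
        fun w => ⟨fun hw => ?_, fun hw => ?_⟩
      · have e : lev N (j + 1) u = u := hu.2
        have e2 : B N (j + 2) (lev N (j + 1) u) = lev N (j + 1) u := by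
          rw [lev_eq, map_sub, B_B ha hc, B_B ha hc, min_self, min_eq_right (Nat.le_succ _)]
        rwa [e] at e2
      · have e : w ∈ invS F S (N (j + 1)) := fun g hg => hw.2 g (hle j hg)
        exact ⟨⟨hw.1, e⟩, sub_eq_zero.2 (((avg_fix (hc _)).1 e).trans ((avg_fix (hc _)).1 hw.2).symm)⟩
      · exact ⟨hw.1.1, (avg_fix (hc _)).2
          ((sub_eq_zero.1 hw.2).symm.trans ((avg_fix (hc _)).1 hw.1.2))⟩
  · induction J using Finset.induction_on with
    | empty =>
      have e : subJ V N r ∅ = ⊥ := (Submodule.eq_bot_iff _).2 fun w hw => by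
        have e1 : avgN (N r) w = w := (avg_fix (hc r)).1 fun g hg x => by
          rw [hr, Subgroup.mem_bot] at hg
          rw [hg, one_mul]
        rw [← e1]
        exact (sum_lev (r + 1)).symm.trans (sum_eq_zero fun j hj =>
          hw.2 j (Nat.lt_succ_iff.1 (mem_range.1 hj)) (notMem_empty j))
      rw [e, finrank_bot, sum_empty]
    | insert j J hj ih =>
      rw [sum_insert hj, ← ih ((subset_insert j J).trans hJ)]
      refine rank (lev N j) (fun w hw => h1 _ w hw.1)
        (fun u hu => ⟨⟨hu.1, fun i _ hi => ?_⟩, LinearMap.mem_eqLocus.1 hu.2⟩) fun w => ⟨fun hw => ⟨⟨hw.1, fun i h h' =>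
          hw.2 i h fun e => h' (mem_insert_of_mem e)⟩, hw.2 j
            (Nat.lt_succ_iff.1 (mem_range.1 (hJ (mem_insert_self j J)))) hj⟩,
          fun hw => ⟨hw.1.1, fun i h h' => ?_⟩⟩
      · have e : lev N j u = u := hu.2
        rw [← e, lev_lev ha hc, if_neg fun e' => hi (mem_insert.2 (Or.inl e'))]
      · by_cases e : i = j
        · rw [e]; exact hw.2
        · exact hw.1.2 i h fun e' => (mem_insert.1 e').elim e h'
  · exact (lev_comm hn j g).trans (by rw [hw.2 j hj hj', map_zero])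

end Vale.Agent.P330Q
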