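import Vale.Agent.P330Q.PrgD

/-! Statements of the pieces of the memory block. -/

namespace Vale.Agent.P330Q

open Vale.Agent.Lib.PolyTime Vale.Agent.P330 Finset Polynomial
open scoped Classical BigOperators

/-- An element of large degree is not the inverse of an eigenvalue. -/
def S_eig : Prop := ∀ (k F I : Type) [Field k] [Field F] [Algebra k F] [Fintype I] (θ : F)
  (M : I → I → k), (∀ p : k[X], p ≠ 0 → p.natDegree ≤ Fintype.card I → aeval θ p ≠ 0) →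
  IsUnit (Matrix.of fun i j => (if i = j then 1 else 0) - θ * algebraMap k F (M i j)) ∧
  ∀ (v : I → k) (x : I → F), (∀ i, x i = algebraMap k F (v i) +
    θ * ∑ j, algebraMap k F (M i j) * x j) → ∀ i, v i ≠ 0 → x i ≠ 0

/-- The code `C0` is systematic: the ports in `ck` are checks given by the matrix `E`. -/
def Sys {k S : Type} [Field k] [Fintype S] (C0 : Submodule k (S → k)) (ck : S → Prop)
    (E : S → S → k) : Prop :=
  ∀ v : S → k, v ∈ C0 ↔ ∀ s, ck s → v s = ∑ t, if ck t then 0 else E s t * v t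

/-- The code over `F` with the free ports scaled by `θ`. -/
noncomputable def thC {k F S : Type} [Field k] [Field F] [Algebra k F]
    (C0 : Submodule k (S → k)) (ck : S → Prop) (θ : F) : Submodule F (S → F) :=
  twC (extC F C0) fun s => if ck s then 1 else θ

/-- Extension of scalars and scaling. -/
def S_ext : Prop := ∀ (k F S : Type) [Field k] [Field F] [Algebra k F] [Fintype S]
  (C0 : Submodule k (S → k)),
  (∀ δ0 : ℝ, Dist0 C0 δ0 → ∀ ω : S → F, (∀ s, ω s ≠ 0) → Dist0 (twC (extC F C0) ω) δ0) ∧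
  (∀ (n : ℕ) (co : F ≃ₗ[k] (Fin n → k)) (v : S → F),
    v ∈ extC F C0 ↔ ∀ i, (fun s => co (v s) i) ∈ C0) ∧
  ∀ (ck : S → Prop) (E : S → S → k), Sys C0 ck E → ∀ (θ : F) (v : S → F), v ∈ thC C0 ck θ ↔
    ∀ s, ck s → v s = ∑ t, if ck t then 0 else θ * algebraMap k F (E s t) * v t

/-- Small-set soundness with two local codes. -/
def SSS2 : Prop :=
  ∀ (F S G K : Type) [Field F] [Fintype S] [Fintype G] [Nonempty G] (CL CR : Submodule F (S → F))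
    (nb : S → Equiv.Perm G) (δ0 lam β : ℝ), TanGood δ0 lam S → Dist0 CL δ0 → Dist0 CR δ0 →
    P325.Gap (fun s g => nb s g) lam → ∀ y : G × S → K → F,
      fr G (fun g => ∃ k, (fun s => y (g, s) k) ∉ CL) ≤ β →
      fr G (fun h => ∃ k, (fun s => y ((nb s)⁻¹ h, s) k) ∉ CR) ≤ β → β ≤ δ0 / 8 →
      fr (G × S) (fun x => y x ≠ 0) ≤ δ0 ^ 2 / 8 → fr (G × S) (fun x => y x ≠ 0) ≤ β

/-- Nilpotency of the relative augmentation ideal. -/
def S_nil : Prop := ∀ (l r : ℕ) [Fact l.Prime] (F I : Type) [Field F] [Algebra (ZMod l) F]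
  [Fintype I], (∀ (G K : Type) [Group G] [Group K] (π : G →* K) (ι : HA l r →* G),
    (∀ g, π g = 1 ↔ g ∈ ι.range) → ∀ N : Matrix I I (MonoidAlgebra F G),
      (∀ i j, MonoidAlgebra.mapDomain π (N i j) = 0) → N ^ (r * l + 1) = 0) ∧
  ∀ N : Matrix I I (MonoidAlgebra F (HA l r)), (∀ i j, aug (N i j) = 0) → N ^ (r * l + 1) = 0

/-- Existence of field families. -/
def S_fld : Prop := ∀ (l : ℕ) [Fact l.Prime], l % 3 = 1 → ∀ (U : Type) [Enc U] (n : U → ℕ),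
  PT n → PB n → ∃ Φ : FF U l, ∀ u, n u < Φ.m u

/-- Toolkit for field families. -/
def S_ft : Prop := ∀ (U : Type) [Enc U] (l : ℕ) [Fact l.Prime] (Φ : FF U l),
  D (fun u => (0 : Φ.F u)) ∧ D (fun u => (1 : Φ.F u)) ∧
  (∀ x y : ∀ u, Φ.F u, D x → D y → D (fun u => x u + y u) ∧ D (fun u => x u - y u) ∧
    D fun u => x u * y u) ∧
  (∀ x : ∀ u, Φ.F u, D x → D fun u => - x u) ∧
  (∀ a : U → ZMod l, PT a → D fun u => algebraMap (ZMod l) (Φ.F u) (a u)) ∧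
  (∃ b : U → ℕ, PB b ∧ ∀ u (x : Φ.F u), sz x ≤ b u) ∧
  (∀ (X : U → Type) [∀ u, Enc (X u)] [∀ u, Fintype (X u)], PFam X → ∀ f : ∀ u, X u → Φ.F u,
    D2 f → D (fun u => ∑ x, f u x) ∧ D fun u => ∏ x, f u x) ∧
  (∀ (x : ∀ u, Φ.F u) (n : U → ℕ), D x → PT n → PB n → D fun u => x u ^ n u) ∧
  (∀ u (p : (ZMod l)[X]), p ≠ 0 → p.natDegree < Φ.m u → aeval (Φ.θ u) p ≠ 0) ∧
  ∀ u, Fintype.card (Φ.F u) = l ^ Φ.m u

/-- Inverses of matrices and of scalars. -/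
def S_minv : Prop := ∀ (U : Type) [Enc U] (l : ℕ) [Fact l.Prime] (Φ : FF U l),
  (∀ (I : U → Type) [∀ u, Enc (I u)] [∀ u, Fintype (I u)], PFam I →
    ∀ M : ∀ u, I u → I u → Φ.F u, DM M → (∀ u, IsUnit (Matrix.of (M u))) →
      DM fun u (i j : I u) => (Matrix.of (M u))⁻¹ i j) ∧
  ∀ x : ∀ u, Φ.F u, D x → D fun u => (x u)⁻¹

/-- Rules for the action on words. -/
def S_act : Prop := ∀ (F G X : Type) [Field F] [Group G] [MulAction G X],
  (∀ (g : G) (t : F) (w : X → F) x, act (MonoidAlgebra.single g t) w x = t * w (g⁻¹ • x)) ∧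
  (∀ (a b : MonoidAlgebra F G) (w : X → F), act (a * b) w = act a (act b w) ∧
    act (a + b) w = act a w + act b w) ∧
  (∀ (a : MonoidAlgebra F G) (t : F) (w w' : X → F), act a (w + w') = act a w + act a w' ∧
    act a (t • w) = t • act a w ∧ act (t • a) w = t • act a w) ∧
  (∀ w : X → F, act (0 : MonoidAlgebra F G) w = 0 ∧ act (1 : MonoidAlgebra F G) w = w) ∧
  (∀ (K J I : Type) [Fintype J] [Fintype I] (m : Matrix K J (MonoidAlgebra F G))
    (m' : Matrix J I (MonoidAlgebra F G)) (w : I → X → F),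
    actM (m * m') w = actM m (actM m' w)) ∧
  (∀ (I : Type) [Fintype I] (w : I → X → F), actM (1 : Matrix I I (MonoidAlgebra F G)) w = w) ∧
  (∀ (J I : Type) [Fintype I] (M : J → I → F) (w : I → X → F) j x,
    actM (cst G M) w j x = ∑ i, M j i * w i x) ∧
  (∀ (J I : Type) [Fintype I] (A B : J → I → F) (g : G) (w : I → X → F) j x,
    actM (G := G) (fun j i => MonoidAlgebra.single 1 (A j i) + MonoidAlgebra.single g (B j i))
      w j x = ∑ i, (A j i * w i x + B j i * w i (g⁻¹ • x))) ∧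
  ∀ (H : Type) [Group H] (ι : H →* G) (e : X → H) (c : X → MonoidAlgebra F H),
    (∀ h x, e (ι h • x) = h * e x ∧ c (ι h • x) = c x) → ∀ a w : MonoidAlgebra F H,
      act (MonoidAlgebra.mapDomain ι a) (fun x => (w * c x).coeff (e x)) =
        fun x => (a * w * c x).coeff (e x)

/-- Rules for the augmentation and the derivations. -/
def S_der : Prop := (∀ (F G : Type) [Field F] [Group G],
    ∃ ε : MonoidAlgebra F G →ₐ[F] F, (∀ a, aug a = ε a) ∧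
      (∀ g t, ε (MonoidAlgebra.single g t) = t) ∧
      ∀ [Fintype G] (a : MonoidAlgebra F G), ε a = ∑ g, a.coeff g) ∧
  ∀ (l r : ℕ) [Fact l.Prime] (F : Type) [Field F] [Algebra (ZMod l) F] (i : Fin r),
    ∃ δ : MonoidAlgebra F (HA l r) →ₗ[F] MonoidAlgebra F (HA l r), (∀ a, der i a = δ a) ∧
      (∀ h t, δ (MonoidAlgebra.single h t) =
        MonoidAlgebra.single h (algebraMap (ZMod l) F (h.toAdd i) * t)) ∧
      (∀ a h, (δ a).coeff h = algebraMap (ZMod l) F (h.toAdd i) * a.coeff h) ∧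
      (∀ a b, δ (a * b) = δ a * b + a * δ b) ∧
      ∀ (c μ w : MonoidAlgebra F (HA l r)) h, μ * c = δ c → (δ w * c).coeff h =
        algebraMap (ZMod l) F (h.toAdd i) * (w * c).coeff h - (μ * w * c).coeff h

section
variable {U : Type} [Enc U] {l : ℕ} [Fact l.Prime]

/-- Families of matrices over the group algebras. -/
abbrev MatF (Φ : FF U l) (Γ : GF U) (J I : Fam U) : Type :=
  ∀ u, Matrix (J.T u) (I.T u) (MonoidAlgebra (Φ.F u) (Γ.G u))

end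

/-- Basic programs. -/
def S_p1 : Prop := ∀ (U : Type) [Enc U] (l : ℕ) [Fact l.Prime] (Φ : FF U l) (Γ : GF U),
  (∀ (J I : Fam U) (M : ∀ u, J.T u → I.T u → Φ.F u), DM M →
    Prg Φ Γ J I fun u => cst (Γ.G u) (M u)) ∧
  (∀ (I : Fam U) (g : ∀ u, I.T u → Γ.G u), D2 g →
    Prg Φ Γ I I fun u => Matrix.diagonal fun i => MonoidAlgebra.single (g u i) 1) ∧
  (∀ (T J I : Fam U) (m : MatF Φ Γ J I), Prg Φ Γ J I m → Prg Φ Γ (T.prod J) (T.prod I)
    fun u a b => if a.1 = b.1 then m u a.2 b.2 else 0) ∧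
  ∀ (B : Type) [Enc B] (p : B → U) (hp : PT p) (J I : Fam U) (m : MatF Φ Γ J I), Prg Φ Γ J I m →
    Prg (Φ.comap p hp) (Γ.comap p hp) (J.comap p hp) (I.comap p hp) fun b => m (p b)

/-- Products and sums of programs. -/
def S_p2 : Prop := ∀ (U : Type) [Enc U] (l : ℕ) [Fact l.Prime] (Φ : FF U l) (Γ : GF U),
  (∀ (K J I : Fam U) (m : MatF Φ Γ K J) (m' : MatF Φ Γ J I), Prg Φ Γ K J m → Prg Φ Γ J I m' →
    Prg Φ Γ K I fun u => m u * m' u) ∧
  ∀ (J I : Fam U) (m m' : MatF Φ Γ J I), Prg Φ Γ J I m → Prg Φ Γ J I m' →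
    Prg Φ Γ J I fun u => m u + m' u

/-- Powers of programs. -/
def S_p3 : Prop := ∀ (U : Type) [Enc U] (l : ℕ) [Fact l.Prime] (Φ : FF U l) (Γ : GF U)
  (I : Fam U) (m : MatF Φ Γ I I) (n : U → ℕ), Prg Φ Γ I I m → PT n → PB n →
    Prg Φ Γ I I fun u => m u ^ n u

/-- Derived programs. -/
def S_p4 : Prop := ∀ (U : Type) [Enc U] (l : ℕ) [Fact l.Prime] (Φ : FF U l) (Γ : GF U),
  (∀ (J I : Fam U) (g : ∀ u, J.T u → I.T u → Γ.G u) (t : ∀ u, J.T u → I.T u → Φ.F u),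
    DM g → DM t → Prg Φ Γ J I fun u j i => MonoidAlgebra.single (g u j i) (t u j i)) ∧
  (∀ (T J I : Fam U) (g : ∀ u, J.T u → I.T u × T.T u → Γ.G u)
    (t : ∀ u, J.T u → I.T u × T.T u → Φ.F u), DM g → DM t →
    Prg Φ Γ J I fun u j i => ∑ k, MonoidAlgebra.single (g u j (i, k)) (t u j (i, k))) ∧
  (∀ (J I : Fam U) (m m' : MatF Φ Γ J I), Prg Φ Γ J I m → Prg Φ Γ J I m' →
    Prg Φ Γ J I fun u => m u - m' u) ∧
  (∀ (I : Fam U), Prg Φ Γ I I fun _ => 1) ∧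
  (∀ (J I J' I' : Fam U) (m : MatF Φ Γ J I) (f : ∀ u, J'.T u → J.T u) (g : ∀ u, I'.T u → I.T u),
    D2 f → D2 g → Prg Φ Γ J I m → Prg Φ Γ J' I' fun u j i => m u (f u j) (g u i)) ∧
  (∀ (I : Fam U) (m : MatF Φ Γ I I) (n : U → ℕ), Prg Φ Γ I I m → PT n → PB n →
    Prg Φ Γ I I fun u => ∑ j ∈ range (n u), m u ^ j) ∧
  ∀ (I : Fam U) (P V : MatF Φ Γ I I) (n : U → ℕ), Prg Φ Γ I I P → Prg Φ Γ I I V → PT n → PB n →
    (∀ u, (1 - V u * P u) ^ n u = 0) → (∀ u, (1 - P u * V u) ^ n u = 0) →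
    ∃ W : MatF Φ Γ I I, Prg Φ Γ I I W ∧ ∀ u, W u * P u = 1 ∧ P u * W u = 1

/-- Compilation to generators. -/
def S_p5 : Prop := ∀ (U : Type) [Enc U] (l : ℕ) [Fact l.Prime] (Φ : FF U l) (Γ Γ' : GF U)
  (ι : ∀ u, Γ.G u →* Γ'.G u) (Bt : Type) [Fintype Bt] [Enc Bt] (gen : ∀ u, Bt → Γ'.G u) (b1 : Bt)
  (wd : ∀ u, Γ.G u → List Bt), (∀ b, D fun u => gen u b) → (∀ u, gen u b1 = 1) →
  PT (fun z : Σ u, Γ.G u => wd z.1 z.2) → (∀ u g, ((wd u g).map (gen u)).prod = ι u g) →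
  ∀ (J I : Fam U) (m : MatF Φ Γ J I), Prg Φ Γ J I m → ∃ P : Prog Φ Γ', P.Gen gen ∧
    P.Comp J I fun u j i => MonoidAlgebra.mapDomain (ι u) (m u j i)

/-- Programs run in polynomial time. -/
def S_p6 : Prop := ∀ (U : Type) [Enc U] (l : ℕ) [Fact l.Prime] (Φ : FF U l) (Γ : GF U)
  (X : Fam U) [∀ u, MulAction (Γ.G u) (X.T u)], D3 (fun u (g : Γ.G u) (x : X.T u) => g • x) →
  ∀ (J I : Fam U) (m : MatF Φ Γ J I), Prg Φ Γ J I m → ∀ w : ∀ u, I.T u → X.T u → Φ.F u, DM w →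
    DM fun u (j : J.T u) (x : X.T u) => actM (m u) (w u) j x

/-- Inversion modulo a nilpotent ideal. -/
def S_p7 : Prop := ∀ (U : Type) [Enc U] (l : ℕ) [Fact l.Prime] (Φ : FF U l) (Γ Κ : GF U)
  [∀ u, Fintype (Κ.G u)], PFam Κ.G → ∀ (π : ∀ u, Γ.G u →* Κ.G u) (s : ∀ u, Κ.G u → Γ.G u)
  (r : U → ℕ) (ι : ∀ u, HA l (r u) →* Γ.G u), D2 s → (∀ u k, π u (s u k) = k) → PT r → PB r →
  (∀ u g, π u g = 1 ↔ g ∈ (ι u).range) → ∀ (I : Fam U) (P : MatF Φ Γ I I)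
  (P0 : ∀ u, I.T u → I.T u × Κ.G u → Φ.F u), Prg Φ Γ I I P → DM P0 →
  (∀ u j i k, (MonoidAlgebra.mapDomain (π u) (P u j i)).coeff k = P0 u j (i, k)) →
  (∀ u, IsUnit (Matrix.of fun a b : I.T u × Κ.G u => P0 u a.1 (b.1, a.2 * b.2⁻¹))) →
  ∃ W : MatF Φ Γ I I, Prg Φ Γ I I W ∧ ∀ u, W u * P u = 1 ∧ P u * W u = 1

section
variable {U : Type} [Enc U] {l : ℕ} [Fact l.Prime] {r : U → ℕ}

theorem d_ha {x : ∀ u, HA l (r u)} : D x ↔ D fun u => (x u).toAdd := Iff.rfl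

theorem d_ha_app {x : ∀ u, HA l (r u)} {i : ∀ u, Fin (r u)} (hx : D x) (hi : D i) :
    PT fun u => (x u).toAdd (i u) := (D.fn_app (d_ha.1 hx) hi).pt

theorem d_ha_mk {f : ∀ u, Fin (r u) → ZMod l} (hr : PT r) (hr' : PB r)
    (hf : PT fun z : Σ u, Fin (r u) => f z.1 z.2) :
    D fun u => (Multiplicative.ofAdd (f u) : HA l (r u)) :=
  d_ha.2 (D.fn_mk hr hr' (D.of_pt hf))

/-- The family of elementary abelian groups. -/
@[reducible] def HF (l : ℕ) [Fact l.Prime] (r : U → ℕ) (hr : PT r) (hr' : PB r) : GF U where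
  G u := HA l (r u)
  d_one := d_ha_mk (f := fun _ _ => 0) hr hr' (PT.const 0)
  d_mul := d_ha_mk (r := fun z : Σ u, HA l (r u) × HA l (r u) => r z.1)
    (f := fun z i => z.2.1.toAdd i + z.2.2.toAdd i) (hr.comp pt_sigma_fst) (hr'.comp pt_sigma_fst)
    (pt_addZ (d_ha_app (r := fun z : Σ z : Σ u, HA l (r u) × HA l (r u), Fin (r z.1) => r z.1.1)
        (x := fun z => z.1.2.1) (i := fun z => z.2)
        (D.sigma_snd.comp pt_sigma_fst).fst D.sigma_snd)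
      (d_ha_app (r := fun z : Σ z : Σ u, HA l (r u) × HA l (r u), Fin (r z.1) => r z.1.1)
        (x := fun z => z.1.2.2) (i := fun z => z.2)
        (D.sigma_snd.comp pt_sigma_fst).snd D.sigma_snd))
  d_inv := d_ha_mk (r := fun z : Σ u, HA l (r u) => r z.1)
    (f := fun z i => - z.2.toAdd i) (hr.comp pt_sigma_fst) (hr'.comp pt_sigma_fst)
    (pt_negZ (d_ha_app (r := fun z : Σ z : Σ u, HA l (r u), Fin (r z.1) => r z.1.1)
      (x := fun z => z.1.2) (i := fun z => z.2) (D.sigma_snd.comp pt_sigma_fst) D.sigma_snd))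

end

/-- The matrix of a fixed point system. -/
noncomputable def fixM {k F G I : Type} [Field k] [Field F] [Algebra k F] [Group G] (θ : F)
    (M : I → I → k) (g : I → I → G) : Matrix I I (MonoidAlgebra F G) := fun j i =>
  (if j = i then 1 else 0) - MonoidAlgebra.single (g j i) (θ * algebraMap k F (M j i))

/-- Fixed point systems are solved by programs. -/
def FixThm : Prop := ∀ (U : Type) [Enc U] (l : ℕ) [Fact l.Prime] (Φ : FF U l) (Γ Κ : GF U)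
  [∀ u, Fintype (Κ.G u)], PFam Κ.G → ∀ (π : ∀ u, Γ.G u →* Κ.G u) (s : ∀ u, Κ.G u → Γ.G u)
  (r : U → ℕ) (ι : ∀ u, HA l (r u) →* Γ.G u), D2 (fun u g => π u g) → D2 s →
  (∀ u k, π u (s u k) = k) → PT r → PB r → (∀ u g, π u g = 1 ↔ g ∈ (ι u).range) →
  ∀ (I : Fam U) (M : ∀ u, I.T u → I.T u → ZMod l) (g : ∀ u, I.T u → I.T u → Γ.G u),
  PT (fun z : Σ u, I.T u × I.T u => M z.1 z.2.1 z.2.2) → DM g →
  (∀ u, Fintype.card (I.T u) * Fintype.card (Κ.G u) < Φ.m u) →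
  Prg Φ Γ I I (fun u => fixM (Φ.θ u) (M u) (g u)) ∧ ∃ W : MatF Φ Γ I I, Prg Φ Γ I I W ∧
    ∀ u, W u * fixM (Φ.θ u) (M u) (g u) = 1 ∧ fixM (Φ.θ u) (M u) (g u) * W u = 1

end Vale.Agent.P330Q
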