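import Vale.Agent.P330Q.GrpS
import Vale.Agent.P330Q.PrgS

/-! The semidirect product. -/

namespace Vale.Agent.P330Q

open Vale.Agent.Lib.PolyTime Vale.Agent.P330 Vale.Agent.P330.Exp Finset Module
open scoped Classical BigOperators

namespace GSemi

open SemidirectProduct Multiplicative

section
variable {l n : ℕ} [Fact l.Prime] {K X : Type} [Group K]

/-- The action in coordinates. -/
def r0 (b : K × X → Fin n → ZMod l) (p : Fin n → K × X) (k : K) (h : HA l n) : HA l n :=
  ofAdd fun j => ∑ i, b (k * (p i).1, (p i).2) j * h.toAdd i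

theorem exists_rho (b : K × X → Fin n → ZMod l) (p : Fin n → K × X)
    (h1 : ∀ i, b (p i) = Pi.single i 1)
    (h2 : ∀ k k' x j, b (k * k', x) j = ∑ i, b (k * (p i).1, (p i).2) j * b (k', x) i) :
    ∃ ρ : K →* MulAut (HA l n), ∀ k h, ρ k h = r0 b p k h := by
  have e1 : ∀ h, r0 b p 1 h = h := fun h => toAdd.injective (funext fun j => by
    simp [r0, h1, Pi.single_apply])
  have e2 : ∀ k k' h, r0 b p k (r0 b p k' h) = r0 b p (k * k') h := fun k k' h =>
    toAdd.injective (funext fun j => by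
      simp only [r0, toAdd_ofAdd, mul_sum]
      rw [sum_comm]
      refine sum_congr rfl fun i _ => ?_
      rw [mul_assoc k, h2 k (k' * (p i).1), sum_mul]
      simp only [mul_assoc])
  exact ⟨{ toFun := fun k =>
            { toFun := r0 b p k
              invFun := r0 b p k⁻¹
              left_inv := fun h => by rw [e2, inv_mul_cancel, e1]
              right_inv := fun h => by rw [e2, mul_inv_cancel, e1]
              map_mul' := fun h h' => toAdd.injective (funext fun j => by
                simp [r0, mul_add, sum_add_distrib]) }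
           map_one' := MulEquiv.ext e1
           map_mul' := fun k k' => MulEquiv.ext fun h => (e2 k k' h).symm }, fun _ _ => rfl⟩

theorem prod_single (h : HA l n) :
    ∏ i, (ofAdd (Pi.single i 1) : HA l n) ^ (h.toAdd i).val = h :=
  toAdd.injective (funext fun j => by
    simp only [toAdd_prod, toAdd_pow, toAdd_ofAdd, Finset.sum_apply, Pi.smul_apply]
    simp only [Pi.single_apply, nsmul_eq_mul, ZMod.natCast_zmod_val, mul_ite, mul_one, mul_zero,
      sum_ite_eq, mem_univ, if_true])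

end

section
variable {N K J X : Type} [Group N] [Group K] (φ : K →* MulAut N)

/-- The code of the semidirect product. -/
instance encSd [Enc N] [Enc K] : Enc (SemidirectProduct N K φ) :=
  Enc.pull (fun g => (g.left, g.right)) fun _ _ h =>
    SemidirectProduct.ext (congrArg Prod.fst h) (congrArg Prod.snd h)

/-- The generators. -/
def gn (kg : J → K) (β : K × X → N) (o : Option (J ⊕ X)) : SemidirectProduct N K φ :=
  o.elim 1 (Sum.elim (fun j => inr (kg j)) fun x => inl (β (1, x)))

variable {φ} {kg : J → K} {β : K × X → N}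

theorem conj (hβ : ∀ k x, φ k (β (1, x)) = β (k, x)) (z : K × X) :
    (inr z.1 * inl (β (1, z.2)) * inr z.1⁻¹ : SemidirectProduct N K φ) = inl (β z) := by
  rw [← inl_aut, hβ]

theorem kaz {c c2 : ℝ} (hβ : ∀ k x, φ k (β (1, x)) = β (k, x)) (hK : Kaz kg c) (hN : Kaz β c2) :
    Kaz (gn φ kg β) (c2 * (2 * c + 1) + c) := by
  intro V _ _ ρ hρ v e he g
  have t : ∀ a b, ‖ρ (a * b) v - v‖ ≤ ‖ρ a v - v‖ + ‖ρ b v - v‖ := fun a b => by
    rw [hρ.2, ← (ρ a).norm_map (ρ b v - v), map_sub, add_comm]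
    exact norm_sub_le_norm_sub_add_norm_sub _ _ _
  have k1 := hK V (fun k => ρ (inr k)) ⟨fun w => by rw [map_one, hρ.1],
    fun a b w => by rw [map_mul, hρ.2]⟩ v e fun j => he (some (.inl j))
  have k2 := hN V (fun k => ρ (inl k)) ⟨fun w => by rw [map_one, hρ.1],
    fun a b w => by rw [map_mul, hρ.2]⟩ v ((2 * c + 1) * e) fun z => by
      have a1 := t (inr z.1 * inl (β (1, z.2))) (inr z.1⁻¹)
      have a2 := t (inr z.1) (inl (β (1, z.2)))
      have a3 : ‖ρ (inl (β (1, z.2))) v - v‖ ≤ e := he (some (.inr z.2))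
      rw [conj hβ] at a1
      linarith [k1 z.1, k1 z.1⁻¹]
  have a1 := t (inl g.left) (inr g.right)
  rw [inl_left_mul_inr_right] at a1
  linarith [k1 g.right, k2 g.left]

/-- Words for the small group. -/
def wk (X : Type) (w : K → List J) (k : K) : List (Option (J ⊕ X)) :=
  (w k).map fun j => some (.inl j)

/-- Words for the conjugates. -/
def wz (w : K → List J) (z : K × X) : List (Option (J ⊕ X)) :=
  wk X w z.1 ++ some (.inr z.2) :: wk X w z.1⁻¹

theorem wk_prod {w : K → List J} (hw : ∀ k, ((w k).map kg).prod = k) (k : K) :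
    ((wk X w k).map (gn φ kg β)).prod = inr k := by
  conv_rhs => rw [← hw k, map_list_prod, List.map_map]
  rw [wk, List.map_map]
  rfl

theorem wz_prod (hβ : ∀ k x, φ k (β (1, x)) = β (k, x)) {w : K → List J}
    (hw : ∀ k, ((w k).map kg).prod = k) (z : K × X) (t : ℕ) :
    ((List.replicate t (wz w z)).flatten.map (gn φ kg β)).prod = inl (β z ^ t) := by
  induction t with
  | zero => simp
  | succ t ih =>
    rw [List.replicate_succ, List.flatten_cons, List.map_append, List.prod_append, ih, pow_succ',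
      map_mul, ← conj hβ z, wz, List.map_append, List.prod_append, List.map_cons, List.prod_cons,
      wk_prod hw, wk_prod hw, mul_assoc (inr z.1) (inl _)]
    rfl

theorem flat_prod {I A : Type} (f : A → SemidirectProduct N K φ) (F : I → List A) (y : I → N)
    (h : ∀ i, ((F i).map f).prod = inl (y i)) (L : List I) :
    ((L.flatMap F).map f).prod = inl (L.map y).prod := by
  induction L with
  | nil => simp
  | cons i L ih =>
    rw [List.flatMap_cons, List.map_append, List.prod_append, ih, h, List.map_cons, List.prod_cons,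
      map_mul]

end

section
variable {C : Type} [Enc C]

theorem d_sd {N K : C → Type} [∀ c, Group (N c)] [∀ c, Group (K c)] [∀ c, Enc (N c)]
    [∀ c, Enc (K c)] {φ : ∀ c, K c →* MulAut (N c)} {x : ∀ c, SemidirectProduct (N c) (K c) (φ c)} :
    D x ↔ D fun c => ((x c).left, (x c).right) := Iff.rfl

theorem d_rep {A : Type} [Enc A] {w : C → List A} (h : D w) (t : ℕ) :
    D fun c => (List.replicate t (w c)).flatten := by
  induction t with
  | zero => exact D.nil
  | succ t ih => exact h.append ih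

theorem d_wrd (Γ : GF C) {A : Type} {s : ∀ c, A → Γ.G c} (h : ∀ a, D fun c => s c a) {m : ℕ}
    (w : Fin m → A) : D fun c => word (s c) w := by
  induction m with
  | zero => exact Γ.d_one.congr fun _ => by simp [word]
  | succ m ih =>
    exact (Γ.d_mul.app PT.id (h (w 0)) (ih (Fin.tail w))).congr fun _ => by
      rw [← word_cons, Fin.cons_self_tail]

variable {U : Type} [Enc U] {l : ℕ} [Fact l.Prime] {J X : Type} [Fintype X] [Enc X] {c δ : ℝ}
  {T : SmG U J c} (Z : ModD l T X δ) {q : C → U}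

theorem pt_b (hq : PT q) {z : ∀ c, T.Κ.G (q c) × X} {i : ∀ c, Fin (Z.n (q c))} (hz : D z)
    (hi : D i) : PT fun c => Z.b (q c) (z c) (i c) :=
  Z.pt_b.comp (pt_sigma_mk (X := fun u => (T.Κ.G u × X) × Fin (Z.n u)) hq (D.pair hz hi))

theorem d_r0 (hq : PT q) {k : ∀ c, T.Κ.G (q c)} {h : ∀ c, HA l (Z.n (q c))} (hk : D k)
    (hh : D h) : D fun c => r0 (Z.b (q c)) (Z.p (q c)) (k c) (h c) := by
  refine d_ha_mk (r := fun c => Z.n (q c)) (Z.pt_n.comp hq) (Z.pb_n.comp hq) ?_
  have q1 : PT fun w : Σ c, Fin (Z.n (q c)) => q w.1 := hq.comp pt_sigma_fst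
  refine (PFam.fin (n := fun w : Σ c, Fin (Z.n (q c)) => Z.n (q w.1)) (Z.pt_n.comp q1)
    (Z.pb_n.comp q1)).pt_sumZ (f := fun w i => Z.b (q w.1)
      (k w.1 * (Z.p (q w.1) i).1, (Z.p (q w.1) i).2) w.2 * (h w.1).toAdd i) ?_
  have s1 : PT fun y : Σ w : (Σ c, Fin (Z.n (q c))), Fin (Z.n (q w.1)) => y.1.1 :=
    pt_sigma_fst.comp pt_sigma_fst
  have q2 := hq.comp s1
  have a := Z.d_p.app q2 D.sigma_snd
  exact pt_mulZ (pt_b Z q2 (D.pair (T.Κ.d_mul.app q2 (hk.comp s1) a.fst) a.snd)
    (D.sigma_snd.comp pt_sigma_fst)) (d_ha_app (hh.comp s1) D.sigma_snd)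

variable [Enc J] {w : ∀ u, T.Κ.G u → List J}

omit [Fintype X] in
theorem d_wk (hw : PT fun z : Σ u, T.Κ.G u => w z.1 z.2) (hq : PT q) {k : ∀ c, T.Κ.G (q c)}
    (hk : D k) : D fun c => wk X (w (q c)) (k c) :=
  D.map (f := fun _ j => (some (.inl j) : Option (J ⊕ X)))
    (D.of_pt (hw.comp (pt_sigma_mk hq hk))) D.sigma_snd.inl.some

omit [Fintype X] in
theorem d_wz (hw : PT fun z : Σ u, T.Κ.G u => w z.1 z.2) (hq : PT q) {z : ∀ c, T.Κ.G (q c) × X}
    (hz : D z) : D fun c => wz (w (q c)) (z c) :=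
  (d_wk hw hq hz.fst).append (hz.snd.inr.some.cons (d_wk hw hq (T.Κ.d_inv.app hq hz.fst)))

/-- Words for the big group. -/
noncomputable def wd (w : ∀ u, T.Κ.G u → List J) (u : U) (h : HA l (Z.n u)) (k : T.Κ.G u) :
    List (Option (J ⊕ X)) :=
  ((List.finRange (Z.n u)).flatMap fun i =>
    (List.replicate (h.toAdd i).val (wz (w u) (Z.p u i))).flatten) ++ wk X (w u) k

theorem d_wd (hw : PT fun z : Σ u, T.Κ.G u => w z.1 z.2) (hq : PT q) {k : ∀ c, T.Κ.G (q c)}
    {h : ∀ c, HA l (Z.n (q c))} (hk : D k) (hh : D h) : D fun c => wd Z w (q c) (h c) (k c) := by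
  have q2 : PT fun y : Σ c, Fin (Z.n (q c)) => q y.1 := hq.comp pt_sigma_fst
  refine D.append (D.flatMap (D.finRange (Z.pt_n.comp hq) (Z.pb_n.comp hq)) ?_) (d_wk hw hq hk)
  have a : PT fun y : Σ c, Fin (Z.n (q c)) => (h y.1).toAdd y.2 :=
    d_ha_app (r := fun y : Σ c, Fin (Z.n (q c)) => Z.n (q y.1)) (x := fun y => h y.1)
      (i := fun y => y.2) (hh.comp pt_sigma_fst) D.sigma_snd
  exact D.cases a
    (fun a y => (List.replicate a.val (wz (w (q y.1)) (Z.p (q y.1) y.2))).flatten)
    fun a => d_rep (d_wz hw q2 (Z.d_p.app q2 D.sigma_snd)) _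

/-- The big groups. -/
@[reducible] def GG (ρ : ∀ u, T.Κ.G u →* MulAut (HA l (Z.n u)))
    (hρ : ∀ u k h, ρ u k h = r0 (Z.b u) (Z.p u) k h) : GF U where
  G u := SemidirectProduct (HA l (Z.n u)) (T.Κ.G u) (ρ u)
  d_one := d_sd.2 (D.pair (HF l Z.n Z.pt_n Z.pb_n).d_one T.Κ.d_one)
  d_mul := by
    have z := D.sigma_snd (X := fun u => SemidirectProduct (HA l (Z.n u)) (T.Κ.G u) (ρ u) ×
      SemidirectProduct (HA l (Z.n u)) (T.Κ.G u) (ρ u))
    have x := d_sd.1 z.fst
    have y := d_sd.1 z.snd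
    exact d_sd.2 ((D.pair ((HF l Z.n Z.pt_n Z.pb_n).d_mul.app pt_sigma_fst x.fst
      (d_r0 Z pt_sigma_fst x.snd y.fst)) (T.Κ.d_mul.app pt_sigma_fst x.snd y.snd)).congr
        fun _ => by rw [← hρ]; rfl)
  d_inv := by
    have x := d_sd.1 (D.sigma_snd (X := fun u => SemidirectProduct (HA l (Z.n u)) (T.Κ.G u) (ρ u)))
    have y := T.Κ.d_inv.app pt_sigma_fst x.snd
    exact d_sd.2 ((D.pair (d_r0 Z pt_sigma_fst y
      ((HF l Z.n Z.pt_n Z.pb_n).d_inv.app pt_sigma_fst x.fst)) y).congr
        fun _ => by rw [← hρ]; rfl)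

end

end GSemi

open GSemi SemidirectProduct Multiplicative in
theorem s_semi (h1 : S_four) (h2 : S_gap) (h3 : S_wd) : S_semi := by
  intro l _ J X _ _ _ _ _ c δ lam hc hδ hlam
  obtain ⟨c2, hc2, H1⟩ := h1 l δ hδ
  have c3 : 1 ≤ c2 * (2 * c + 1) + c := by nlinarith
  have b1 : (1 : ℝ) ≤ Fintype.card (Option (J ⊕ X)) := by exact_mod_cast Fintype.card_pos
  have b2 : 1 / (4 * (c2 * (2 * c + 1) + c) ^ 2) / Fintype.card (Option (J ⊕ X)) ≤ 1 :=
    (div_le_self (by positivity) b1).trans ((div_le_one (by positivity)).2 (by nlinarith))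
  obtain ⟨m, hm⟩ := exists_pow_lt_of_lt_one hlam (sub_lt_self 1 (show
    0 < 1 / (4 * (c2 * (2 * c + 1) + c) ^ 2) / Fintype.card (Option (J ⊕ X)) by positivity))
  refine ⟨Fin m → Option (J ⊕ X), Option (J ⊕ X), inferInstance, inferInstance, inferInstance,
    inferInstance, inferInstance, fun U _ T Z => ?_⟩
  obtain ⟨w, hw, w1⟩ := h3 U J c T
  choose ρ hρ using fun u => exists_rho (Z.b u) (Z.p u) (Z.piv u) (Z.inv u)
  have hβ : ∀ u k x, ρ u k (ofAdd (Z.b u (1, x))) = ofAdd (Z.b u (k, x)) := fun u k x => by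
    rw [hρ]
    exact congrArg ofAdd (funext fun j => by simpa using (Z.inv u k 1 x j).symm)
  let fin : ∀ u, Fintype ((GG Z ρ hρ).G u) := fun u => Fintype.ofEquiv _ equivProd.symm
  let g : ∀ u, Option (J ⊕ X) → (GG Z ρ hρ).G u := fun u =>
    gn (ρ u) (T.kg u) fun z => ofAdd (Z.b u z)
  have dg : ∀ a, D fun u => g u a := by
    rintro (_ | j | x)
    · exact (GG Z ρ hρ).d_one
    · exact d_sd.2 (D.pair (HF l Z.n Z.pt_n Z.pb_n).d_one (T.d_kg j))
    · exact d_sd.2 (D.pair (d_ha_mk Z.pt_n Z.pb_n (pt_b Z pt_sigma_fst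
        (D.pair (T.Κ.d_one.comp pt_sigma_fst) (D.const x)) D.sigma_snd)) T.Κ.d_one)
  have gap := fun u => h2 _ _ (g u) none _ c3 rfl
    (kaz (hβ u) (T.kaz u) (H1 (Z.n u) _ (Z.b u) (Z.dist u)))
  have sn := d_sd.1 (D.sigma_snd (X := (GG Z ρ hρ).G))
  refine ⟨{ Γ := GG Z ρ hρ
            Κ := T.Κ
            pfK := T.pf
            n := Z.n
            pt_n := Z.pt_n
            pb_n := Z.pb_n
            π := fun u => rightHom
            s := fun u => inr
            ι := fun u => inl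
            e := fun u x => x.left
            d_π := sn.snd
            d_s := d_sd.2 (D.pair ((HF l Z.n Z.pt_n Z.pb_n).d_one.comp pt_sigma_fst) D.sigma_snd)
            d_ι := d_sd.2 (D.pair D.sigma_snd (T.Κ.d_one.comp pt_sigma_fst))
            d_e := sn.fst
            π_s := fun u k => rfl
            π_ι := fun u h => rfl
            e_mk := fun u h k => by simp
            dec := fun u x => inl_left_mul_inr_right x
            gs := fun u a => word (g u) a
            d_gs := fun a => d_wrd _ dg a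
            gapR := fun u => (Gap.powR (gap u).1 m).mono (pow_nonneg (sub_nonneg.2 b2) m) hm.le
            gapL := fun u => (Gap.powL (gap u).2 m).mono (pow_nonneg (sub_nonneg.2 b2) m) hm.le
            gen := g
            b1 := none
            wd := fun u x => wd Z w u x.left x.right
            d_gen := dg
            gen_b1 := fun u => rfl
            pt_wd := (d_wd Z hw pt_sigma_fst sn.snd sn.fst).pt
            wd_eq := fun u x => ?_ }, rfl⟩
  rw [wd, List.map_append, List.prod_append, wk_prod (w1 u),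
    flat_prod (g u) _ _ fun i => wz_prod (β := fun z => ofAdd (Z.b u z)) (hβ u) (w1 u) _ _,
    ← Fin.prod_univ_def]
  simp only [Z.piv, prod_single, inl_left_mul_inr_right]

end Vale.Agent.P330Q
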