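import Vale.Agent.P330Q.GrpS

/-! Words in small groups. -/

namespace Vale.Agent.P330Q

open Vale.Agent.Lib.PolyTime Vale.Agent.P330 Vale.Agent.P330.Exp Finset Module
open scoped Classical BigOperators

namespace GWd

section
variable {K J : Type} [Group K] [Fintype J] (kg : J → K)

/-- The neighbours of a table of words. -/
noncomputable def cand (L : List (K × List J)) : List (K × List J) :=
  L.flatMap fun p => (univ : Finset J).toList.map fun j => (p.1 * kg j, p.2 ++ [j])

/-- One more element is added to the table. -/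
noncomputable def step (L : List (K × List J)) : List (K × List J) :=
  ((cand kg L).find? fun p => decide (¬ p.1 ∈ L.map Prod.fst)).elim L fun p => p :: L

/-- The invariant. -/
def Inv (t : ℕ) (L : List (K × List J)) : Prop :=
  (∀ p ∈ L, (p.2.map kg).prod = p.1 ∧ p.2.length ≤ t) ∧ L.length ≤ t + 1 ∧
    (1 : K) ∈ L.map Prod.fst ∧ (L.map Prod.fst).Nodup ∧
    (L.length = t + 1 ∨ ∀ j, ∀ k ∈ L.map Prod.fst, k * kg j ∈ L.map Prod.fst)

theorem mem_cand {L : List (K × List J)} {q : K × List J} :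
    q ∈ cand kg L ↔ ∃ p ∈ L, ∃ j, (p.1 * kg j, p.2 ++ [j]) = q := by
  simp [cand]

theorem inv_step {t : ℕ} {L : List (K × List J)} (h : Inv kg t L) : Inv kg (t + 1) (step kg L) := by
  obtain ⟨h1, h2, h3, h4, h5⟩ := h
  unfold step
  cases e : (cand kg L).find? fun p => decide (¬ p.1 ∈ L.map Prod.fst) with
  | none =>
    refine ⟨fun p hp => ⟨(h1 p hp).1, (h1 p hp).2.trans (Nat.le_succ t)⟩,
      h2.trans (Nat.le_succ _), h3, h4, Or.inr fun j k hk => ?_⟩
    obtain ⟨p, hp, rfl⟩ := List.mem_map.1 hk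
    have := List.find?_eq_none.1 e _ ((mem_cand kg).2 ⟨p, hp, j, rfl⟩)
    exact not_not.1 fun hn => this (decide_eq_true hn)
  | some q =>
    have a0 := List.find?_some e
    have a1 : ¬ q.1 ∈ L.map Prod.fst := of_decide_eq_true a0
    obtain ⟨p, hp, j, rfl⟩ := (mem_cand kg).1 (List.mem_of_find?_eq_some e)
    have a2 : L.length = t + 1 := h5.resolve_right fun h6 => a1 (h6 j _ (List.mem_map_of_mem hp))
    refine ⟨fun r hr => ?_, ?_, List.mem_cons_of_mem _ h3, List.nodup_cons.2 ⟨a1, h4⟩, Or.inl ?_⟩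
    · rcases List.mem_cons.1 hr with rfl | hr
      · have := h1 p hp
        refine ⟨by simp [this.1], ?_⟩
        simpa using this.2
      · exact ⟨(h1 r hr).1, (h1 r hr).2.trans (Nat.le_succ t)⟩
    · exact (congrArg (· + 1) a2).le
    · exact congrArg (· + 1) a2

theorem inv_iter (t : ℕ) : Inv kg t ((step kg)^[t] [(1, [])]) := by
  induction t with
  | zero => simp [Inv]
  | succ t ih =>
    rw [Function.iterate_succ_apply']
    exact inv_step kg ih

omit [Fintype J] in
theorem all_mem [Fintype K] {c : ℝ} (hk : Kaz kg c) (M : List K) (h1 : 1 ∈ M)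
    (h : ∀ j, ∀ k ∈ M, k * kg j ∈ M) (g : K) : g ∈ M := by
  have h2 : ∀ j k, k * kg j ∈ M → k ∈ M := by
    intro j k hk'
    have hs := Finset.surjOn_of_injOn_of_card_le (s := M.toFinset) (t := M.toFinset)
      (fun x => x * kg j) (fun x hx => by simpa using h j x (by simpa using hx))
      (fun x _ y _ e => mul_right_cancel e) le_rfl
    obtain ⟨x, hx, e⟩ := hs (show k * kg j ∈ (M.toFinset : Set K) by simpa using hk')
    rw [← mul_right_cancel e]
    simpa using hx
  have h3 := hk (EuclideanSpace ℝ K) _ rep_right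
    (WithLp.toLp 2 fun x => if x ∈ M then (1 : ℝ) else 0) 0 (fun j => by
      refine le_of_eq (norm_eq_zero.2 (sub_eq_zero.2 ?_))
      ext x
      rw [prm_apply]
      exact if_congr ⟨h2 j x, h j x⟩ rfl rfl) g
  rw [mul_zero, norm_le_zero_iff, sub_eq_zero] at h3
  have h4 : (if 1 * g ∈ M then (1 : ℝ) else 0) = if 1 ∈ M then 1 else 0 :=
    congrArg (fun v : EuclideanSpace ℝ K => v 1) h3
  rw [if_pos h1, one_mul] at h4
  by_contra hn
  rw [if_neg hn] at h4
  exact zero_ne_one h4

/-- The word of an element. -/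
noncomputable def word [Fintype K] (k : K) : List J :=
  (((step kg)^[Fintype.card K] [(1, [])]).find? fun p => decide (p.1 = k)).elim [] fun p => p.2

theorem word_eq [Fintype K] {c : ℝ} (hk : Kaz kg c) (k : K) : ((word kg k).map kg).prod = k := by
  obtain ⟨h1, -, h3, h4, h5⟩ := inv_iter kg (Fintype.card K)
  have h6 := h4.length_le_card
  rw [List.length_map] at h6
  obtain ⟨p, hp, e⟩ := List.mem_map.1 (all_mem kg hk _ h3 (h5.resolve_left (by omega)) k)
  unfold word
  cases e' : ((step kg)^[Fintype.card K] [(1, [])]).find? fun p => decide (p.1 = k) with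
  | none => exact absurd (decide_eq_true e) (List.find?_eq_none.1 e' p hp)
  | some q =>
    have a0 := List.find?_some e'
    exact (h1 q (List.mem_of_find?_eq_some e')).1.trans (of_decide_eq_true a0)

end

variable {U J : Type} [Enc U] [Fintype J] [Enc J] {c : ℝ} (T : SmG U J c)

theorem d_cand : D2 fun u (L : List (T.Κ.G u × List J)) => cand (T.kg u) L := by
  refine D.flatMap D.sigma_snd (D.map (X := fun _ => J) (D.const _) ?_)
  have q : PT fun z : Σ _ : (Σ z : (Σ u, List (T.Κ.G u × List J)), T.Κ.G z.1 × List J), J =>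
      z.1.1.1 := pt_sigma_fst.comp (pt_sigma_fst.comp pt_sigma_fst)
  refine D.pair (T.Κ.d_mul.app q (D.sigma_snd.comp pt_sigma_fst).fst ?_)
    ((D.sigma_snd.comp pt_sigma_fst).snd.append (D.cons D.sigma_snd D.nil))
  exact D.cases D.sigma_snd.pt (fun j (z : Σ _ : (Σ z : (Σ u, List (T.Κ.G u × List J)),
    T.Κ.G z.1 × List J), J) => T.kg z.1.1.1 j) fun j => (T.d_kg j).comp q

theorem d_step : D2 fun u (L : List (T.Κ.G u × List J)) => step (T.kg u) L := by
  refine D.option_elim (D.find? (d_cand T) (PT.decide (PT.not (D.mem ?_ D.sigma_snd.fst))))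
    D.sigma_snd (D.cons D.sigma_snd (D.sigma_snd.comp pt_sigma_fst))
  exact D.map (f := fun _ => Prod.fst) (D.sigma_snd.comp pt_sigma_fst) D.sigma_snd.fst

theorem d_iter : D fun u => (step (T.kg u))^[Fintype.card (T.Κ.G u)] [(1, [])] := by
  obtain ⟨b, hb, h⟩ := T.pf.pb_sz
  obtain ⟨m, hm⟩ := dt_sz_fin J
  have hc := T.pf.pb_card
  refine D.iterate (d_step T) (D.cons (D.pair T.Κ.d_one D.nil) D.nil) T.pf.pt_card hc
    ((hc.lin 1 1).mul (((hb.lin 2 1).add (hc.mul (PB.const (2 * m + 2)))).lin 2 2)) fun u t ht => ?_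
  obtain ⟨h1, h2, -⟩ := inv_iter (T.kg u) t
  refine (sz_le_of_forall
    (b := 2 * b u + 1 + Fintype.card (T.Κ.G u) * (2 * m + 2)) fun p hp => ?_).trans
    (Nat.mul_le_mul_right _ (by omega))
  have a1 := h u p.1
  have a2 := (sz_le_of_forall (l := p.2) fun y _ => hm y).trans
    (Nat.mul_le_mul_right _ ((h1 p hp).2.trans ht))
  rw [sz_prod]
  omega

end GWd

theorem s_wd : S_wd := by
  intro U _ J _ _ c T
  refine ⟨fun u => GWd.word (T.kg u), D.pt ?_, fun u => GWd.word_eq _ (T.kaz u)⟩
  exact D.option_elim (D.find? ((GWd.d_iter T).comp pt_sigma_fst)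
    (PT.decide (D.eq D.sigma_snd.fst (D.sigma_snd.comp pt_sigma_fst)))) D.nil D.sigma_snd.snd

end Vale.Agent.P330Q
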