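import Vale.Agent.P330Q.GMod
import Vale.Agent.P330Q.GSemi
import Vale.Agent.P330Q.GEch
import Vale.Agent.P330Q.GLev
import Vale.Agent.P330Q.GFour
import Vale.Agent.P330Q.GCong
import Vale.Agent.P330Q.GWd
import Vale.Agent.P330Q.GDim
import Vale.Agent.P330Q.GGap
import Vale.Agent.P330Q.GDig

/-! The group block. -/

namespace Vale.Agent.P330Q

theorem grpThm : GrpThm :=
  grp_of (s_mod s_ech s_lev s_dim s_cong s_dig) (s_semi s_four s_gap s_wd)

end Vale.Agent.P330Q
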