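import Vale.Agent.P330Q.LcD
import Vale.Agent.P330Q.KSss
import Vale.Agent.P330Q.TwSSS

/-! Tanner codes are agreement testable. -/

namespace Vale.Agent.P330Q

open Vale.Agent.Lib.PolyTime Vale.Agent.P330 Finset
open scoped Classical BigOperators

namespace LcAgr

variable {F T S K : Type} [Field F] [Fintype T] [Fintype S]

omit [Fintype S] in
theorem comb (C : Submodule F (S → F)) (φ : (T → F) →ₗ[F] F) (u : T → S → F)
    (hu : ∀ t, u t ∈ C) : (fun s => φ fun t => u t s) ∈ C := by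
  have e : (fun s => φ fun t => u t s) = ∑ t, φ (Pi.single t 1) • u t := by
    funext s
    rw [Finset.sum_apply]
    conv_lhs => rw [pi_eq_sum_univ' fun t => u t s]
    rw [map_sum]
    exact sum_congr rfl fun t _ => by
      rw [map_smul, Pi.smul_apply, smul_eq_mul, smul_eq_mul, mul_comm]
  rw [e]
  exact C.sum_mem fun t _ => C.smul_mem _ (hu t)

theorem syn (C1 : Submodule F (T → F)) {CB : Submodule F (S → F)} {δ : ℝ} (hB : Dist0 CB δ)
    (u : T → S → F) (hu : ∀ t, u t ∈ CB) {s0 : S} (h : (fun t => u t s0) ∉ C1) :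
    δ ≤ fr S fun s => (fun t => u t s) ∉ C1 := by
  obtain ⟨φ, h1, h2⟩ := C1.exists_dual_map_eq_bot_of_notMem h inferInstance
  refine (hB _ (comb CB φ u hu) fun e => h1 (congrFun e s0)).trans (fr_mono fun s hs hm => hs ?_)
  have h3 : φ (fun t => u t s) ∈ C1.map φ := Submodule.mem_map_of_mem hm
  rw [h2] at h3
  exact h3

theorem zero_of {C : Submodule F (S → F)} {δ : ℝ} (h : Dist0 C δ) {B : S → Prop}
    (hB : fr S B < δ) {v : S → F} (hv : v ∈ C) (h0 : ∀ s, ¬ B s → v s = 0) : v = 0 := by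
  by_contra hne
  exact (((h v hv hne).trans (fr_mono fun s hs => not_not.1 fun k => hs (h0 s k))).trans_lt
    hB).false

theorem rect {CA : Submodule F (T → F)} {CB : Submodule F (S → F)} {δ δ' : ℝ} (hA : Dist0 CA δ)
    (hB : Dist0 CB δ') {BA : T → Prop} {BS : S → Prop} (kA : fr T BA < δ) (kS : fr S BS < δ')
    (f g : K → T → S → F) (hf : ∀ k a, f k a ∈ CB) (hg : ∀ k s, (fun a => g k a s) ∈ CA)
    (h : ∀ k a s, ¬ BA a → ¬ BS s → f k a s = g k a s) :
    ∃ w : K → T → S → F, (∀ k a, w k a ∈ CB) ∧ (∀ k s, (fun a => w k a s) ∈ CA) ∧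
      (∀ k a s, ¬ BA a → f k a s = w k a s) ∧ ∀ k a s, ¬ BS s → g k a s = w k a s := by
  let P : (S → F) →ₗ[F] ({s // ¬ BS s} → F) := LinearMap.funLeft F F Subtype.val
  have hP : LinearMap.ker (P.comp CB.subtype) = ⊥ := by
    refine LinearMap.ker_eq_bot'.2 fun v hv => Subtype.ext ?_
    exact zero_of hB kS v.2 fun s hs => congrFun hv ⟨s, hs⟩
  obtain ⟨R, hR⟩ := LinearMap.exists_leftInverse_of_injective _ hP
  have c : ∀ k s, (fun a => (R (P (g k a)) : S → F) s) ∈ CA := fun k s =>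
    comb CA ((LinearMap.proj s).comp (CB.subtype.comp (R.comp P))) (fun s a => g k a s) (hg k)
  have r : ∀ k a s, ¬ BA a → f k a s = (R (P (g k a)) : S → F) s := fun k a s ha => by
    have e : P (g k a) = P (f k a) := funext fun t => (h k a t.1 ha t.2).symm
    have e' : R (P (f k a)) = ⟨f k a, hf k a⟩ := LinearMap.congr_fun hR ⟨f k a, hf k a⟩
    rw [e, e']
  refine ⟨fun k a => R (P (g k a)), fun k a => (R _).2, c, r, fun k a s hs => ?_⟩
  have := zero_of hA kA (CA.sub_mem (hg k s) (c k s)) fun b hb =>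
    sub_eq_zero.2 ((h k b s hb hs).symm.trans (r k b s hb))
  exact sub_eq_zero.1 (congrFun this a)

variable {G : Type} [Fintype G] {C1 : Submodule F (T → F)} {nb : T → Equiv.Perm G}

theorem bad [Nonempty T] {CB : Submodule F (S → F)} {δ : ℝ} (h0 : 0 < δ) (hB : Dist0 CB δ)
    (f g : K → G × T → S → F) (hf : ∀ k a, f k a ∈ CB)
    (hg : ∀ k s, (fun a => g k a s) ∈ tsb2 C1 C1 nb) (b : Bool) :
    fr G (fun u => ∃ k s, (fun t => f k (vwp nb b u t) s) ∉ C1) ≤ Fintype.card T / δ *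
      fr ((G × T) × S) fun z => ∃ k, f k z.1 z.2 ≠ g k z.1 z.2 := by
  have hv : ∀ k s u, (fun t => g k (vwp nb b u t) s) ∈ C1 := fun k s u => by
    cases b
    · exact (hg k s).1 u
    · exact (hg k s).2 u
  have m := fr_markov (g := fun u => ∑ t, fr S fun s =>
    ∃ k, f k (vwp nb b u t) s ≠ g k (vwp nb b u t) s)
    (fun u => sum_nonneg fun _ _ => fr_nonneg _) h0
  refine (fr_mono ?_).trans (m.trans (le_of_eq ?_))
  · rintro u ⟨k, s, hs⟩
    refine (syn C1 hB (fun t => f k (vwp nb b u t)) (fun t => hf k _) hs).trans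
      (le_trans (fr_mono fun s hs => ?_) (fr_exists_le _))
    by_contra hn
    push Not at hn
    exact hs ((funext fun t => hn t k : _ = fun t => g k (vwp nb b u t) s) ▸ hv k s u)
  · rw [fr_prod, tw_sw nb b, div_mul_eq_mul_div, mul_expect]
    congr 1
    refine expect_congr rfl fun u _ => ?_
    rw [Fintype.card_mul_expect]

omit [Fintype S] in
theorem union [Nonempty G] {δ lam β : ℝ} (hT : TanGood δ lam T) (hd : Dist0 C1 δ)
    (hg : P325.Gap (fun s g => nb s g) lam) (e : K → G × T → S → F)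
    (hb : ∀ b, fr G (fun u => ∃ k s, (fun t => e k (vwp nb b u t) s) ∉ C1) ≤ β)
    (hβ : β ≤ δ ^ 2 / 16) (J : Finset S)
    (hJ : ∀ s ∈ J, fr (G × T) (fun a => ∃ k, e k a s ≠ 0) ≤ δ ^ 2 / 16) :
    fr (G × T) (fun a => ∃ s ∈ J, ∃ k, e k a s ≠ 0) ≤ β := by
  induction J using Finset.induction_on with
  | empty =>
    refine (le_of_eq ((fr_congr fun a => ?_).trans fr_false)).trans
      ((fr_nonneg _).trans (hb true))
    simp
  | insert s J hs ih =>
    have h1 := ih fun t ht => hJ t (mem_insert_of_mem ht)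
    have h2 := hJ s (mem_insert_self _ _)
    have q : ∀ a, (fun z : {t // t ∈ insert s J} × K => e z.2 a z.1) ≠ 0 ↔
        ∃ t ∈ insert s J, ∃ k, e k a t ≠ 0 := fun a => by
      rw [Function.ne_iff]
      exact ⟨fun ⟨z, hz⟩ => ⟨z.1, z.1.2, z.2, hz⟩, fun ⟨t, ht, k, hk⟩ => ⟨(⟨t, ht⟩, k), hk⟩⟩
    have d0 := hT.1
    have d1 := hT.2.1
    rw [← fr_congr q]
    refine sss2 F T G _ C1 C1 nb δ lam β hT hd hd hg _
      ((fr_mono fun u ⟨z, hz⟩ => ⟨z.2, z.1, hz⟩).trans (hb false))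
      ((fr_mono fun u ⟨z, hz⟩ => ⟨z.2, z.1, hz⟩).trans (hb true)) (by nlinarith) ?_
    rw [fr_congr q]
    refine ((fr_mono fun a ⟨t, ht, k⟩ => ?_).trans (fr_or_le (fun a => ∃ k, e k a s ≠ 0)
      fun a => ∃ s ∈ J, ∃ k, e k a s ≠ 0)).trans (by linarith)
    rcases mem_insert.1 ht with rfl | ht
    exacts [Or.inl k, Or.inr ⟨t, ht, k⟩]

theorem dist [Nonempty G] {δ lam : ℝ} (hT : TanGood δ lam T) (hd : Dist0 C1 δ)
    (hg : P325.Gap (fun s g => nb s g) lam) : Dist0 (tsb2 C1 C1 nb) (δ ^ 2 / 8) := by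
  intro c hc h0
  by_contra hn
  have q : ∀ a, (fun _ : Unit => c a) ≠ 0 ↔ c a ≠ 0 := fun a => by
    rw [Function.ne_iff]
    exact ⟨fun ⟨_, h⟩ => h, fun h => ⟨(), h⟩⟩
  have := sss2 F T G Unit C1 C1 nb δ lam 0 hT hd hd hg (fun a _ => c a)
    ((fr_mono fun u ⟨_, hz⟩ => hz (hc.1 u)).trans fr_false.le)
    ((fr_mono fun u ⟨_, hz⟩ => hz (hc.2 u)).trans fr_false.le) (by linarith [hT.1])
    (by rw [fr_congr q]; exact (not_le.1 hn).le)
  exact h0 (funext fun a => not_not.1 fun h => fr_eq_zero this a ((q a).2 h))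

end LcAgr

theorem l_agr : L_agr := by
  intro δ1 δB n d0 dB
  obtain ⟨M, hM⟩ : ∃ M : ℝ, M = n / δB + 16 / δ1 ^ 2 := ⟨_, rfl⟩
  obtain ⟨c, c0, c1, c2, c3⟩ : ∃ c : ℝ, 0 < c ∧ c ≤ δ1 ^ 2 / 16 ∧ c < δB ∧ c ≤ 2 :=
    ⟨min (δ1 ^ 2 / 16) (min (δB / 2) 2), by positivity, min_le_left _ _,
      ((min_le_right _ _).trans (min_le_left _ _)).trans_lt (by linarith),
      (min_le_right _ _).trans (min_le_right _ _)⟩
  have M0 : 0 < M := by rw [hM]; positivity
  refine ⟨c / (2 * M), by positivity, ?_⟩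
  intro F G S1 _ _ _ _ C1 nb lam hn hT hd hg
  have hD := LcAgr.dist hT hd hg
  refine ⟨hD, ?_⟩
  intro S _ _ CB hB K f g hf hg'
  have := tan_ne hT
  obtain ⟨ε, hε⟩ : ∃ ε, ε = fr ((G × S1) × S) fun z => ∃ k, f k z.1 z.2 ≠ g k z.1 z.2 := ⟨_, rfl⟩
  have ε0 : 0 ≤ ε := hε ▸ fr_nonneg _
  rw [← hε]
  by_cases hs : c < M * ε
  · refine ⟨0, fun _ _ => CB.zero_mem, fun _ _ => (tsb2 C1 C1 nb).zero_mem, ?_⟩
    refine (mul_le_mul_of_nonneg_left (add_le_add (fr_le_one _) (fr_le_one _))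
      (by positivity)).trans ?_
    rw [div_mul_eq_mul_div, div_le_iff₀ (by positivity)]
    linarith
  have a0 : 0 ≤ n / δB * ε := by positivity
  have b0 : 0 ≤ 16 / δ1 ^ 2 * ε := by positivity
  have hs' : n / δB * ε + 16 / δ1 ^ 2 * ε ≤ c := by rw [← add_mul, ← hM]; exact not_lt.1 hs
  have hb : ∀ b, fr G (fun u => ∃ k s,
      (fun t => f k (vwp nb b u t) s - g k (vwp nb b u t) s) ∉ C1) ≤ n / δB * ε := fun b => by
    refine (fr_mono ?_).trans ((LcAgr.bad dB hB f g hf hg' b).trans_eq (by rw [hn, hε]))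
    rintro u ⟨k, s, h⟩
    refine ⟨k, s, fun h' => h (C1.sub_mem h' ?_)⟩
    cases b
    · exact (hg' k s).1 u
    · exact (hg' k s).2 u
  let BS : S → Prop := fun s => δ1 ^ 2 / 16 ≤ fr (G × S1) fun a => ∃ k, f k a s ≠ g k a s
  have kS : fr S BS ≤ 16 / δ1 ^ 2 * ε := by
    refine (fr_markov (fun _ => fr_nonneg _) (by positivity)).trans (le_of_eq ?_)
    rw [hε, fr_prod']
    field_simp
  have kA := LcAgr.union hT hd hg (fun k a s => f k a s - g k a s) hb (by linarith)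
    (univ.filter fun s => ¬ BS s) fun s hs => by
      simp only [sub_ne_zero]
      exact (not_le.1 (mem_filter.1 hs).2).le
  obtain ⟨w, w1, w2, w3, w4⟩ := LcAgr.rect hD hB (kA.trans_lt (by nlinarith [pow_pos d0 2]))
    (kS.trans_lt (by linarith)) f g hf hg' fun k a s ha hs =>
      sub_eq_zero.1 (not_not.1 fun h => ha ⟨s, mem_filter.2 ⟨mem_univ _, hs⟩, k, h⟩)
  refine ⟨w, w1, w2, ?_⟩
  have e1 := (fr_mono fun a (h : ∃ k s, f k a s ≠ w k a s) =>
    not_not.1 fun ha => h.elim fun k h => h.elim fun s h => h (w3 k a s ha)).trans kA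
  have e2 := (fr_mono fun s (h : ∃ k a, g k a s ≠ w k a s) =>
    not_not.1 fun ha => h.elim fun k h => h.elim fun a h => h (w4 k a s ha)).trans kS
  refine (mul_le_mul_of_nonneg_left (add_le_add e1 e2) (by positivity)).trans ?_
  rw [← add_mul, ← hM, div_mul_eq_mul_div, div_le_iff₀ (by positivity)]
  nlinarith [mul_nonneg M0.le ε0]

end Vale.Agent.P330Q
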