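import Vale.Agent.P330Q.LcD

/-! Local codes of rate five sixths and the dimension of Tanner codes. -/

namespace Vale.Agent.P330Q

open Vale.Agent.Lib.PolyTime Vale.Agent.P330 Finset Polynomial Module
open scoped Classical BigOperators

theorem lcDim_rs {F S : Type} [Field F] [Fintype S] (pt : S → F) (hpt : Function.Injective pt) :
    ∃ C0 : Submodule F (S → F), Dist0 C0 (1 / 6) ∧ 5 * Fintype.card S ≤ 6 * finrank F C0 := by
  set n := Fintype.card S with hn
  let ev : F[X] →ₗ[F] (S → F) := LinearMap.pi fun s => leval (pt s)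
  have key : ∀ p ∈ degreeLT F (n - n / 6), p ≠ 0 →
      #(univ.filter fun s => p.eval (pt s) = 0) < n - n / 6 := by
    intro p hp h0
    have h1 : p.natDegree < n - n / 6 := (natDegree_lt_iff_degree_lt h0).2 (mem_degreeLT.1 hp)
    refine lt_of_le_of_lt (le_trans ?_ (card_roots' p)) h1
    refine le_trans ?_ (Multiset.toFinset_card_le _)
    refine card_le_card_of_injOn pt (fun s hs => ?_) hpt.injOn
    simpa [h0] using hs
  refine ⟨(degreeLT F (n - n / 6)).map ev, ?_, ?_⟩
  · rintro c ⟨p, hp, rfl⟩ hc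
    have h0 : p ≠ 0 := fun h => hc (by rw [h, map_zero])
    have h1 := key p hp h0
    have h2 := card_filter_add_card_filter_not (s := (univ : Finset S)) fun s => p.eval (pt s) = 0
    rw [card_univ, ← hn] at h2
    have h3 : n ≤ 6 * #(univ.filter fun s => ¬ p.eval (pt s) = 0) := by omega
    have h4 : (0 : ℝ) < n := by exact_mod_cast (by omega : 0 < n)
    have h5 : (n : ℝ) ≤ 6 * #(univ.filter fun s => ¬ p.eval (pt s) = 0) := by exact_mod_cast h3
    have h6 : fr S (fun s => ev p s ≠ 0) =
        (#(univ.filter fun s => ¬ p.eval (pt s) = 0) : ℝ) / n := by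
      unfold fr
      rw [filter_congr_decidable]
      rfl
    rw [h6, le_div_iff₀ h4]
    linarith
  · have hi : Function.Injective (ev.domRestrict (degreeLT F (n - n / 6))) := by
      refine (injective_iff_map_eq_zero _).2 fun p hp => Subtype.ext ?_
      by_contra h0
      have h1 := key p.1 p.2 h0
      rw [filter_true_of_mem (p := fun s => p.1.eval (pt s) = 0) fun s _ => congrFun hp s,
        card_univ, ← hn] at h1
      omega
    rw [← LinearMap.range_domRestrict, LinearMap.finrank_range_of_inj hi,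
      (degreeLTEquiv F (n - n / 6)).finrank_eq, finrank_fin_fun]
    omega

theorem lcDim_ker {k G S : Type} [Field k] [Fintype G] [Nonempty G] [Fintype S] [Nonempty S]
    (C1 : Submodule k (S → k)) (nb : S → Equiv.Perm G)
    (hk : 5 * Fintype.card S ≤ 6 * finrank k C1) (T : Submodule k (G × S → k))
    (hT : ∀ y ∈ tcode2 C1 C1 nb, y ∈ T) : Fintype.card (G × S) < 2 * finrank k T := by
  let L : (G × S → k) →ₗ[k] (G → ((S → k) ⧸ C1) × ((S → k) ⧸ C1)) :=
    LinearMap.pi fun g => LinearMap.prod
      (C1.mkQ ∘ₗ LinearMap.funLeft k k (fun s => (g, s)))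
      (C1.mkQ ∘ₗ LinearMap.funLeft k k (fun s => ((nb s)⁻¹ g, s)))
  have h2 := C1.finrank_quotient_add_finrank
  rw [finrank_fintype_fun_eq_card] at h2
  have hd : finrank k (G → ((S → k) ⧸ C1) × ((S → k) ⧸ C1)) =
      Fintype.card G * (finrank k ((S → k) ⧸ C1) + finrank k ((S → k) ⧸ C1)) := by
    rw [finrank_pi_fintype, finrank_prod, sum_const, smul_eq_mul, card_univ]
  have h3 := L.finrank_range_add_finrank_ker
  have h4 := Submodule.finrank_le (LinearMap.range L)
  have hle : LinearMap.ker L ≤ T := fun f hf => hT f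
    ⟨fun g => (Submodule.Quotient.mk_eq_zero C1).1 (congrArg Prod.fst (congrFun hf g)),
      fun g => (Submodule.Quotient.mk_eq_zero C1).1 (congrArg Prod.snd (congrFun hf g))⟩
  have h5 := Submodule.finrank_mono hle
  rw [finrank_fintype_fun_eq_card] at h3
  rw [hd] at h4
  have h6 : 3 * (finrank k ((S → k) ⧸ C1) + finrank k ((S → k) ⧸ C1)) ≤ Fintype.card S := by
    omega
  have h7 := Nat.mul_le_mul_left (Fintype.card G) h6
  have h8 : 0 < Fintype.card (G × S) := Fintype.card_pos
  rw [Nat.mul_left_comm, ← Fintype.card_prod] at h7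
  omega

theorem l_dim : L_dim := by
  refine ⟨fun k S _ _ _ h => ?_, fun k G S _ _ _ _ _ C1 nb hk => lcDim_ker C1 nb hk _ fun y hy => hy⟩
  obtain ⟨pt⟩ := Function.Embedding.nonempty_of_card_le h
  exact lcDim_rs pt pt.injective

end Vale.Agent.P330Q
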