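import Vale.Agent.P330Q.LcD
import Vale.Agent.P325.Marg
import Vale.Agent.P330.Exp.Gap

/-! Powers of the Margulis graph as permutations of a square. -/

namespace Vale.Agent.P330Q

open Vale.Agent.P330 Finset
open scoped Classical BigOperators

theorem marg_perm : ∃ lam : ℝ, 0 ≤ lam ∧ lam < 1 ∧ ∀ m : ℕ, 0 < m →
    ∃ mp : Fin 8 → Equiv.Perm (Fin (m * m)), Exp.Gap (fun p x => mp p x) lam := by
  obtain ⟨lam, l0, l1, H⟩ := P325.margThm
  refine ⟨lam, l0, l1, fun m hm => ?_⟩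
  obtain ⟨h1, h2, h3⟩ := H m hm
  have e4 : ∀ p : Fin 8, p + 4 + 4 = p := by decide
  let φ : Fin 8 → Fin (m * m) → Fin (m * m) := fun p i => ⟨P325.marg m p i, h1 p i i.2⟩
  refine ⟨fun p => ⟨φ p, φ (p + 4), fun i => Fin.ext (h2 p i i.2), fun i => Fin.ext ?_⟩,
    fun f hf => ?_⟩
  · have := h2 (p + 4) i i.2
    rwa [e4] at this
  · let F : ℕ → ℝ := fun i => if h : i < m * m then f ⟨i, h⟩ else 0
    have hF : ∀ i : Fin (m * m), F i = f i := fun i => by simp [F, i.2]
    have := h3 F (by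
      rw [← Fin.sum_univ_eq_sum_range F]
      exact (sum_congr rfl fun i _ => hF i).trans hf)
    rw [← Fin.sum_univ_eq_sum_range (fun i => ((∑ p : Fin 8, F (P325.marg m p i)) / 8) ^ 2),
      ← Fin.sum_univ_eq_sum_range (fun i => F i ^ 2)] at this
    refine le_of_eq_of_le (sum_congr rfl fun i _ => ?_) (this.trans_eq ?_)
    · rw [Fintype.expect_eq_sum_div_card]
      congr 2
      exact sum_congr rfl fun p _ => (hF (φ p i)).symm
    · exact congrArg _ (sum_congr rfl fun i _ => by rw [hF])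

theorem gap_pow {J X : Type} [Fintype J] [Fintype X] {s : J → Equiv.Perm X} {l : ℝ}
    (h : Exp.Gap (fun p x => s p x) l) (k : ℕ) :
    Exp.Gap (fun (w : Fin k → J) x => Exp.word s w x) (l ^ k) := by
  induction k with
  | zero =>
    rw [pow_zero]
    intro f _
    simp [Exp.word]
  | succ k ih =>
    rw [pow_succ']
    refine (h.comp ih fun w => (s w).bijective).reindex
      (Fin.consEquiv fun _ => J).symm fun w x => ?_
    obtain ⟨⟨p, u⟩, rfl⟩ := (Fin.consEquiv fun _ => J).surjective w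
    simp only [Equiv.symm_apply_apply]
    exact congrArg (fun σ : Equiv.Perm X => σ x) (Exp.word_cons s p u)

theorem l_exp : L_exp := by
  intro δ h0 h1
  obtain ⟨lam, l0, l1, H⟩ := marg_perm
  have d3 : 0 < δ ^ 3 := by positivity
  obtain ⟨t1, a1⟩ := exists_pow_lt_of_lt_one (show 0 < δ ^ 3 / 2048 by positivity) l1
  obtain ⟨t2, a2⟩ := pow_unbounded_of_one_lt (512 / δ ^ 3) (show (1 : ℝ) < 8 by norm_num)
  refine ⟨t1 + t2, lam ^ (t1 + t2), ⟨h0, h1, pow_nonneg l0 _, ?_, ?_⟩, fun m hm => ?_⟩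
  · have b1 : (lam ^ (t1 + t2)) ^ 2 ≤ lam ^ t1 := by
      rw [← pow_mul]
      exact pow_le_pow_of_le_one l0 l1.le (by omega)
    rw [lt_div_iff₀ (by norm_num)] at a1
    linarith
  · have b2 : (8 : ℝ) ^ t2 ≤ 8 ^ (t1 + t2) := pow_le_pow_right₀ (by norm_num) (by omega)
    rw [div_lt_iff₀ d3] at a2
    have : (Fintype.card (Fin (t1 + t2) → Fin 8) : ℝ) = 8 ^ (t1 + t2) := by simp
    rw [this]
    nlinarith
  · obtain ⟨mp, hp⟩ := H m hm
    exact ⟨fun w => Exp.word mp w, gap_pow hp _⟩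

end Vale.Agent.P330Q
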