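import Vale.Agent.P330Q.LcD

/-! Codes of rate above one half give a pair of systematic codes. -/

namespace Vale.Agent.P330Q

open Vale.Agent.Lib.PolyTime Vale.Agent.P330 Finset Module
open scoped Classical BigOperators

theorem lcSys_info {k A : Type} [Field k] [Fintype A] (C0 : Submodule k (A → k)) :
    ∃ (I : Finset A) (E : A → A → k), Sys C0 (fun s => s ∉ I) E ∧ finrank k C0 ≤ #I := by
  let P : Finset A → Prop := fun I => ∀ v ∈ C0, (∀ t ∈ I, v t = 0) → v = 0
  have hu : P univ := fun v _ h => funext fun t => h t (mem_univ t)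
  obtain ⟨I, hI, hmin⟩ := exists_min_image (univ.filter P) card ⟨univ, by simpa using hu⟩
  have hI : P I := (mem_filter.1 hI).2
  have hex : ∀ t, ∃ u ∈ C0, t ∈ I → u t = 1 ∧ ∀ t' ∈ I, t' ≠ t → u t' = 0 := by
    intro t
    by_cases ht : t ∈ I
    · have h1 : ¬ P (I.erase t) := fun h =>
        absurd (hmin _ (mem_filter.2 ⟨mem_univ _, h⟩)) (not_le.2 (card_erase_lt_of_mem ht))
      obtain ⟨v, hv⟩ := not_forall.1 h1
      obtain ⟨hv, h2⟩ := Classical.not_imp.1 hv
      obtain ⟨h2, h3⟩ := Classical.not_imp.1 h2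
      have h4 : v t ≠ 0 := fun h => h3 (hI v hv fun t' ht' => by
        by_cases h5 : t' = t
        · rw [h5, h]
        · exact h2 t' (mem_erase.2 ⟨h5, ht'⟩))
      refine ⟨(v t)⁻¹ • v, C0.smul_mem _ hv, fun _ => ⟨?_, fun t' ht' h5 => ?_⟩⟩
      · rw [Pi.smul_apply, smul_eq_mul, inv_mul_cancel₀ h4]
      · rw [Pi.smul_apply, h2 t' (mem_erase.2 ⟨h5, ht'⟩), smul_zero]
    · exact ⟨0, C0.zero_mem, fun h => absurd h ht⟩
  choose u hu1 hu2 using hex
  have hw : ∀ v : A → k, (∑ t ∈ I, v t • u t) ∈ C0 := fun v =>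
    C0.sum_mem fun t _ => C0.smul_mem _ (hu1 t)
  have hI1 : ∀ v : A → k, ∀ s ∈ I, (∑ t ∈ I, v t • u t) s = v s := by
    intro v s hs
    rw [Finset.sum_apply, sum_eq_single_of_mem s hs fun t ht h => by
      rw [Pi.smul_apply, (hu2 t ht).2 s hs h.symm, smul_zero]]
    rw [Pi.smul_apply, (hu2 s hs).1, smul_eq_mul, mul_one]
  have hI2 : ∀ (v : A → k) (s : A),
      (∑ t, if t ∉ I then 0 else u t s * v t) = (∑ t ∈ I, v t • u t) s := by
    intro v s
    rw [Finset.sum_apply, ← sum_filter_add_sum_filter_not univ (fun t => t ∈ I)]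
    rw [sum_eq_zero (s := univ.filter fun t => ¬ t ∈ I) fun t ht => if_pos (mem_filter.1 ht).2,
      add_zero, filter_mem_eq_inter, univ_inter]
    exact sum_congr rfl fun t ht => by
      rw [if_neg (not_not.2 ht), Pi.smul_apply, smul_eq_mul, mul_comm]
  refine ⟨I, fun s t => u t s, fun v => ⟨fun hv s _ => ?_, fun h => ?_⟩, ?_⟩
  · have h0 := hI (v - ∑ t ∈ I, v t • u t) (C0.sub_mem hv (hw v)) fun t ht => by
      rw [Pi.sub_apply, hI1 v t ht, sub_self]
    have h1 := congrFun (sub_eq_zero.1 h0) s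
    refine h1.trans ((hI2 v s).symm.trans (sum_congr rfl fun t _ => ?_))
    by_cases ht : t ∈ I <;> simp [ht]
  · have h0 : v = ∑ t ∈ I, v t • u t := by
      funext s
      by_cases hs : s ∈ I
      · exact (hI1 v s hs).symm
      · refine (h s hs).trans (Eq.trans (sum_congr rfl fun t _ => ?_) (hI2 v s))
        by_cases ht : t ∈ I <;> simp [ht]
    rw [h0]
    exact hw v
  · let M : C0 →ₗ[k] (I → k) := LinearMap.funLeft k k (fun t : I => (t : A)) ∘ₗ C0.subtype
    have hM : Function.Injective M := by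
      refine (injective_iff_map_eq_zero _).2 fun v hv => Subtype.ext ?_
      exact hI v.1 v.2 fun t ht => congrFun hv ⟨t, ht⟩
    have h5 := LinearMap.finrank_le_finrank_of_injective hM
    rwa [finrank_fintype_fun_eq_card, Fintype.card_coe] at h5

theorem lcSys_tr {k A : Type} [Field k] [Fintype A] {C0 : Submodule k (A → k)} {ck : A → Prop}
    {E : A → A → k} (h : Sys C0 ck E) (e : A ≃ A) :
    Sys (trC C0 e) (fun s => ck (e.symm s)) (fun s t => E (e.symm s) (e.symm t)) := by
  intro v
  have key : ∀ s, (∑ t, if ck (e.symm t) then 0 else E s (e.symm t) * v t) =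
      ∑ t, if ck t then 0 else E s t * v (e t) := by
    intro s
    rw [← Equiv.sum_comp e]
    simp only [Equiv.symm_apply_apply]
  rw [mem_trC, h]
  constructor
  · intro h1 s hs
    have h2 := h1 _ hs
    rw [Equiv.apply_symm_apply] at h2
    exact h2.trans (key _).symm
  · intro h1 s hs
    have h2 := h1 (e s) (by simpa only [Equiv.symm_apply_apply] using hs)
    rw [key, Equiv.symm_apply_apply] at h2
    exact h2

theorem l_sys : L_sys := by
  intro k A _ _ C0 hk
  obtain ⟨I, E, hS, hI⟩ := lcSys_info C0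
  have h1 := card_compl I
  have h2 := card_le_univ I
  obtain ⟨J, hJ, hJc⟩ := exists_subset_card_eq (s := I) (n := #Iᶜ) (by omega)
  obtain ⟨a0, ha, hb⟩ := exists_mem_notMem_of_card_lt_card (s := J) (t := I) (by omega)
  have hc : Fintype.card {s // s ∉ I} = Fintype.card {s // s ∈ J} := by
    rw [Fintype.card_coe, hJc, Fintype.card_subtype]
    exact congrArg card (by ext s; simp)
  let q := Fintype.equivOfCardEq hc
  let p : A ≃ A := q.extendSubtype
  have hp : ∀ s, p.symm s ∉ I → s ∈ J := fun s hs => by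
    have h3 := q.extendSubtype_mem _ hs
    rwa [show q.extendSubtype (p.symm s) = s from p.apply_symm_apply s] at h3
  let e : Bool → A ≃ A := fun b => cond b p (Equiv.refl A)
  refine ⟨e, fun b s => (e b).symm s ∉ I, fun b s t => E ((e b).symm s) ((e b).symm t), a0,
    fun b => ⟨lcSys_tr hS (e b), ?_⟩, fun s h3 h4 => h3 (hJ (hp s h4))⟩
  cases b
  · exact fun h => h ha
  · exact fun h => hb (hp a0 h)

end Vale.Agent.P330Q
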