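import Vale.Agent.P330Q.LcD

/-! Transport of distance and agreement testability along a bijection and a twist. -/

namespace Vale.Agent.P330Q

open Vale.Agent.Lib.PolyTime Vale.Agent.P330 Finset
open scoped Classical BigOperators

theorem l_tr : L_tr := by
  refine ⟨fun F A A' _ _ _ C0 e ω hω => ⟨fun δ hd c hc h0 => ?_, fun S _ CB κ h K f g hf hg => ?_⟩,
    fun k F G S A' _ _ _ C1 nb e => Submodule.ext fun v =>
      ⟨fun h => ⟨fun g φ => (h φ).1 g, fun g φ => (h φ).2 g⟩,
        fun h φ => ⟨fun g => h.1 g φ, fun g => h.2 g φ⟩⟩⟩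
  · have h1 := hd (fun a => ω (e a) * c (e a)) hc fun z => h0 (funext fun a => by
      have := congrFun z (e.symm a)
      rw [e.apply_symm_apply] at this
      exact (mul_eq_zero.1 this).resolve_left (hω a))
    rw [← fr_equiv e]
    exact h1.trans_eq (fr_congr fun a => by simp [hω])
  · obtain ⟨w, h1, h2, h3⟩ := h K (fun k a s => ω (e a) * f k (e a) s)
      (fun k a s => ω (e a) * g k (e a) s) (fun k a => CB.smul_mem (ω (e a)) (hf k (e a))) hg
    have key : ∀ (a : A) (x y : F), x ≠ (ω (e a))⁻¹ * y ↔ ω (e a) * x ≠ y := fun a x y =>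
      not_congr (eq_inv_mul_iff_mul_eq₀ (hω _))
    refine ⟨fun k a s => (ω a)⁻¹ * w k (e.symm a) s,
      fun k a => CB.smul_mem (ω a)⁻¹ (h1 k (e.symm a)), fun k s => ?_, ?_⟩
    · show (fun a => ω (e a) * ((ω (e a))⁻¹ * w k (e.symm (e a)) s)) ∈ C0
      simp only [e.symm_apply_apply, mul_inv_cancel_left₀ (hω _)]
      exact h2 k s
    · rw [← fr_equiv e, ← fr_equiv (e.prodCongr (Equiv.refl S))]
      refine le_of_eq_of_le ?_ (h3.trans_eq (fr_congr fun z => ?_))
      · refine congrArg (κ * ·) (congrArg₂ (· + ·) (fr_congr fun a => ?_) (fr_congr fun s => ?_))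
        · simp only [e.symm_apply_apply, key]
        · refine exists_congr fun k => ?_
          rw [e.surjective.exists]
          simp only [e.symm_apply_apply, key]
      · exact exists_congr fun k => not_congr (mul_right_inj' (hω _))

end Vale.Agent.P330Q
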