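import Vale.Agent.P330Q.LrG1

/-! The left-right test: the global argument. -/

namespace Vale.Agent.P330Q

open Vale.Agent.P330 Finset
open scoped Classical BigOperators

namespace LrG

section
variable {G A S : Type} [Group G]

/-- The neighbour along a left port. -/
def nA (α : A → G) (a : A) (v : (Bool × Bool) × G) : (Bool × Bool) × G :=
  ((!v.1.1, v.1.2), (if v.1.1 then (α a)⁻¹ else α a) * v.2)

/-- The neighbour along a right port. -/
def nS (γ : S → G) (s : S) (v : (Bool × Bool) × G) : (Bool × Bool) × G :=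
  ((v.1.1, !v.1.2), v.2 * if v.1.2 then (γ s)⁻¹ else γ s)

theorem nA_nA (α : A → G) (a : A) (v) : nA α a (nA α a v) = v := by
  obtain ⟨⟨i, j⟩, g⟩ := v
  cases i <;> simp [nA]

theorem nS_nS (γ : S → G) (s : S) (v) : nS γ s (nS γ s v) = v := by
  obtain ⟨⟨i, j⟩, g⟩ := v
  cases j <;> simp [nS]

theorem nA_nS (α : A → G) (γ : S → G) (a : A) (s : S) (v) :
    nA α a (nS γ s v) = nS γ s (nA α a v) := by
  simp [nA, nS, mul_assoc]

/-- The position seen by a vertex. -/
def ps (α : A → G) (γ : S → G) (v : (Bool × Bool) × G) (a : A) (s : S) : G :=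
  (if v.1.1 then (α a)⁻¹ else 1) * v.2 * if v.1.2 then (γ s)⁻¹ else 1

theorem ps_nA (α : A → G) (γ : S → G) (v) (a : A) (s : S) :
    ps α γ (nA α a v) a s = ps α γ v a s := by
  obtain ⟨⟨i, j⟩, g⟩ := v
  cases i <;> simp [nA, ps]

theorem ps_nS (α : A → G) (γ : S → G) (v) (a : A) (s : S) :
    ps α γ (nS γ s v) a s = ps α γ v a s := by
  obtain ⟨⟨i, j⟩, g⟩ := v
  cases j <;> simp [nS, ps, mul_assoc]

variable [Fintype G] [Fintype A] [Fintype S] [Nonempty A] [Nonempty S] {lam : ℝ}

theorem mixA (h0 : 0 < lam) {α : A → G} (h : P325.Gap (fun a g => (α a)⁻¹ * g) lam) :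
    Mix (nA α) lam :=
  mix_types h0 (Equiv.prodCongr (Function.Involutive.toPerm _ Bool.not_not) (Equiv.refl _))
    (fun t a g => (if t.1 then (α a)⁻¹ else α a) * g) fun t => by
      rcases t with ⟨_ | _, j⟩
      · simpa using tan_adj (nb := fun a => Equiv.mulLeft (α a)⁻¹) h
      · exact h

theorem mixS (h0 : 0 < lam) {γ : S → G} (h : P325.Gap (fun s g => g * γ s) lam) :
    Mix (nS γ) lam :=
  mix_types h0 (Equiv.prodCongr (Equiv.refl _) (Function.Involutive.toPerm _ Bool.not_not))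
    (fun t s g => g * if t.2 then (γ s)⁻¹ else γ s) fun t => by
      rcases t with ⟨i, _ | _⟩
      · exact h
      · simpa using tan_adj (nb := fun a => Equiv.mulRight (γ a)) h

end

theorem dist_le {F X : Type} [Field F] [Fintype X] {C : Submodule F (X → F)} {δ : ℝ}
    (h : Dist0 C δ) {u u' : X → F} (hu : u ∈ C) (hu' : u' ∈ C) {x : X} (hx : u x ≠ u' x) :
    δ ≤ fr X fun x => u x ≠ u' x :=
  (h _ (C.sub_mem hu hu') (Function.ne_iff.2 ⟨x, sub_ne_zero.2 hx⟩)).trans_eq
    (fr_congr fun _ => sub_ne_zero)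

theorem fr_or3 {X : Type} [Fintype X] {E a b c : X → Prop} (h : ∀ x, E x → a x ∨ b x ∨ c x) :
    fr X E ≤ fr X a + fr X b + fr X c :=
  (fr_mono h).trans ((fr_or_le _ _).trans (by linarith [fr_or_le b c]))

theorem fr_slices {G S : Type} [Fintype G] [Fintype S] (e : S → G ≃ G) (E : G × S → Prop) :
    fr G (fun g => ∃ s, E (e s g, s)) ≤ Fintype.card S * fr (G × S) E := by
  rw [fr_prod', Fintype.card_mul_expect]
  exact (fr_exists_le _).trans_eq (sum_congr rfl fun s _ => fr_equiv (e s) fun g => E (g, s))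

theorem cost {A S : Type} [Fintype A] [Fintype S] [Nonempty A] [Nonempty S] (p : A → Prop)
    (q : S → Prop) : ((∑ e : A ⊕ S, Sum.elim (fun a => if p a then Fintype.card S else 0)
      (fun s => if q s then Fintype.card A else 0) e : ℕ) : ℝ) =
      Fintype.card A * Fintype.card S * (fr A p + fr S q) := by
  have h1 : (Fintype.card A : ℝ) ≠ 0 := by exact_mod_cast Fintype.card_ne_zero
  have h2 : (Fintype.card S : ℝ) ≠ 0 := by exact_mod_cast Fintype.card_ne_zero
  simp only [Fintype.sum_sum_type, Sum.elim_inl, Sum.elim_inr, ← sum_filter, sum_const,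
    smul_eq_mul, fr]
  push_cast
  field_simp

end LrG

open LrG in
theorem dellmThm : DellmThm := by
  intro δA δB κ hA hB hκ
  obtain ⟨δ, δ0, d1, d2⟩ : ∃ δ : ℝ, 0 < δ ∧ δ ≤ δA ∧ δ ≤ δB :=
    ⟨min δA δB, lt_min hA hB, min_le_left _ _, min_le_right _ _⟩
  obtain ⟨lam, l0, l1, l2⟩ : ∃ lam : ℝ, 0 < lam ∧ 4 * lam ≤ κ ∧ 2 * lam ≤ δ :=
    ⟨min (κ / 4) (δ / 2), by positivity, by linarith [min_le_left (κ / 4) (δ / 2)],
      by linarith [min_le_right (κ / 4) (δ / 2)]⟩
  refine ⟨lam, l0, fun A S _ _ _ _ => ?_⟩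
  have cA : (0 : ℝ) < Fintype.card A := by exact_mod_cast Fintype.card_pos
  have cS : (0 : ℝ) < Fintype.card S := by exact_mod_cast Fintype.card_pos
  obtain ⟨t, ht⟩ : ∃ t : ℝ, t = Fintype.card A + Fintype.card S := ⟨_, rfl⟩
  have t0 : 0 < t := by rw [ht]; positivity
  obtain ⟨u, hu⟩ : ∃ u : ℝ, u = Fintype.card A * Fintype.card S := ⟨_, rfl⟩
  have u0 : 0 < u := by rw [hu]; positivity
  refine ⟨t * (1 + 16 * u) + (64 / κ + 4 * t) * (4 * t) / (δ / 2), by positivity,
    fun F G _ _ _ α γ gA gS CA CB dA dB hAg a0 K f β r0 r1 c0 c1 => ?_⟩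
  have β0 : 0 ≤ β := (fr_nonneg _).trans r0
  by_cases hβ : δ / 2 ≤ (64 / κ + 4 * t) * (4 * t * β)
  · refine ⟨0, fun k => ⟨fun _ => Submodule.zero_mem _, fun _ => Submodule.zero_mem _⟩,
      (fr_le_one _).trans ?_⟩
    have : 1 ≤ (64 / κ + 4 * t) * (4 * t) / (δ / 2) * β := by
      rw [div_mul_eq_mul_div, le_div_iff₀ (by positivity)]
      linarith
    have : 0 ≤ t * (1 + 16 * u) * β := by positivity
    linarith
  let Val : (Bool × Bool) × G → (K → A → S → F) → Prop := fun v w =>
    (∀ k a, w k a ∈ CB v.1.2) ∧ ∀ k s, (fun a => w k a s) ∈ CA v.1.1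
  let vw : (Bool × Bool) × G → K → A → S → F := fun v k a s => f k a (ps α γ v a s, s)
  let W0 : (Bool × Bool) × G → K → A → S → F := fun v => if Val v (vw v) then vw v else 0
  let c : A ⊕ S → (K → A → S → F) → (K → A → S → F) → ℕ := fun e w w' =>
    Sum.elim (fun a => if ∃ k s, w k a s ≠ w' k a s then Fintype.card S else 0)
      (fun s => if ∃ k a, w k a s ≠ w' k a s then Fintype.card A else 0) e
  have hb : ∀ ty, fr G (fun g => ¬ Val (ty, g) (vw (ty, g))) ≤ t * β := by
    rintro ⟨i, j⟩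
    have R : fr G (fun g => ∃ k a, (fun s => f k a (g * (if j then (γ s)⁻¹ else 1), s)) ∉ CB j)
        ≤ β := by cases j <;> simpa using ‹_›
    have C : fr (G × S) (fun x => ∃ k, (fun a =>
        f k a ((if i then (α a)⁻¹ else 1) * x.1, x.2)) ∉ CA i) ≤ β := by
      cases i <;> simpa using ‹_›
    have b1 := fr_slices (fun s => Equiv.mulRight (if j then (γ s)⁻¹ else 1)) fun x : G × S =>
      ∃ k, (fun a => f k a ((if i then (α a)⁻¹ else 1) * x.1, x.2)) ∉ CA i
    have b2 := fr_slices (fun a => Equiv.mulLeft (if i then (α a)⁻¹ else 1)) fun x : G × A =>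
      ∃ k a, (fun s => f k a (x.1 * (if j then (γ s)⁻¹ else 1), s)) ∉ CB j
    rw [fr_fst (Y := A) fun g => ∃ k a,
      (fun s => f k a (g * (if j then (γ s)⁻¹ else 1), s)) ∉ CB j] at b2
    have b3 := add_le_add (b2.trans (mul_le_mul_of_nonneg_left R cA.le))
      (b1.trans (mul_le_mul_of_nonneg_left C cS.le))
    rw [ht, add_mul]
    refine le_trans ((fr_mono fun g hg => ?_).trans (fr_or_le _ _)) b3
    by_contra hn
    simp only [not_or, not_exists, not_not] at hn
    exact hg ⟨fun k a => hn.1 a k a, fun k s => by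
      simpa only [vw, ps, mul_assoc, Equiv.coe_mulRight] using hn.2 s k⟩
  have hb' : fr ((Bool × Bool) × G) (fun v => ¬ Val v (vw v)) ≤ t * β := by
    rw [fr_prod]
    exact expect_le univ_nonempty fun ty _ => hb ty
  obtain ⟨W, hW, hmin, hpot⟩ := locmin (Sum.elim (nA α) (nS γ))
    (by rintro (a | s) v; exacts [nA_nA α a v, nS_nS γ s v])
    (by rintro (a | s) ⟨⟨i, j⟩, g⟩ <;> simp [nA, nS]) c
    (by rintro (a | s) w w' <;> simp only [c, Sum.elim_inl, Sum.elim_inr, ne_comm]) Val W0
    fun v => by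
      simp only [W0]
      split_ifs with h
      exacts [h, ⟨fun _ _ => Submodule.zero_mem _, fun _ _ => Submodule.zero_mem _⟩]
  have hc : ∀ (w : K → A → S → F) (X : (Bool × Bool) × G → K → A → S → F) v,
      ((∑ e, c e w (X (Sum.elim (nA α) (nS γ) e v)) : ℕ) : ℝ) =
        u * (fr A (fun a => ∃ k s, w k a s ≠ X (nA α a v) k a s) +
          fr S fun s => ∃ k a, w k a s ≠ X (nS γ s v) k a s) := fun w X v => by
    rw [hu, ← cost]
    exact congrArg _ (sum_congr rfl (by rintro (a | s) - <;> rfl))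
  let d : (Bool × Bool) × G → A → Prop := fun v a => ∃ k s, W v k a s ≠ W (nA α a v) k a s
  let d' : (Bool × Bool) × G → S → Prop := fun v s => ∃ k a, W v k a s ≠ W (nS γ s v) k a s
  have p0 : 𝔼 v, (fr A (fun a => ∃ k s, W0 v k a s ≠ W0 (nA α a v) k a s) +
      fr S fun s => ∃ k a, W0 v k a s ≠ W0 (nS γ s v) k a s) ≤ 4 * t * β := by
    have k : ∀ {E : Type} [Fintype E] [Nonempty E] (n : E → (Bool × Bool) × G → (Bool × Bool) × G)
        (p : (Bool × Bool) × G → E → Prop), (∀ e v, n e (n e v) = v) →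
        (∀ v e, Val v (vw v) → Val (n e v) (vw (n e v)) → ¬ p v e) →
        𝔼 v, fr E (p v) ≤ 2 * (t * β) := fun {E} _ _ n p hn hp => by
      rw [← fr_prod fun z : ((Bool × Bool) × G) × E => p z.1 z.2, fr_prod']
      refine expect_le univ_nonempty fun e _ => ?_
      have := fr_equiv (Function.Involutive.toPerm (n e) (hn e)) fun v => ¬ Val v (vw v)
      refine ((fr_mono fun v hv => ?_).trans (fr_or_le (fun v => ¬ Val v (vw v)) _)).trans
        ((add_le_add hb' (this.trans_le hb')).trans_eq (by ring))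
      by_contra h
      simp only [not_or, not_not] at h
      exact hp v e h.1 h.2 hv
    have k1 := k (nA α) (fun v a => ∃ k s, W0 v k a s ≠ W0 (nA α a v) k a s) (nA_nA α)
      fun v a h h' => by simp only [W0, if_pos h, if_pos h', vw, ps_nA, ne_eq, not_true,
        exists_false, not_false_iff]
    have k2 := k (nS γ) (fun v s => ∃ k a, W0 v k a s ≠ W0 (nS γ s v) k a s) (nS_nS γ)
      fun v a h h' => by simp only [W0, if_pos h, if_pos h', vw, ps_nS, ne_eq, not_true,
        exists_false, not_false_iff]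
    rw [expect_add_distrib]
    linarith
  have cG : (0 : ℝ) < Fintype.card G := by exact_mod_cast Fintype.card_pos
  have p1 : u * (𝔼 v, (fr A (d v) + fr S (d' v))) * (4 * Fintype.card G) +
      #(univ.filter fun v => W v ≠ W0 v) ≤ u * (4 * t * β) * (4 * Fintype.card G) := by
    have h := (Nat.cast_le (α := ℝ)).2 hpot
    rw [Nat.cast_add, Nat.cast_sum, Nat.cast_sum] at h
    simp only [hc, ← mul_sum, ← Fintype.card_mul_expect, Fintype.card_prod,
      Fintype.card_bool] at h
    push_cast at h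
    have := mul_le_mul_of_nonneg_left p0 (show 0 ≤ u * (4 * Fintype.card G) by positivity)
    simp only [d, d']
    linarith
  have μ0 : 0 ≤ 𝔼 v, (fr A (d v) + fr S (d' v)) :=
    expect_nonneg fun v _ => add_nonneg (fr_nonneg _) (fr_nonneg _)
  have p2 : 𝔼 v, (fr A (d v) + fr S (d' v)) ≤ 4 * t * β :=
    le_of_mul_le_mul_left (le_of_mul_le_mul_right ((le_add_of_nonneg_right
      (Nat.cast_nonneg _)).trans p1) (by positivity)) u0
  have z := core (d := d) (d' := d') hκ l1 l2 (nA_nA α) (nS_nS γ) (mixA l0 gA) (mixS l0 gS)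
    (fun v a => by simp only [d, nA_nA, ne_comm]) (fun v s => by simp only [d', nS_nS, ne_comm])
    (by
      rintro v a ⟨k, s, h⟩
      refine d2.trans ((dist_le (dB _) ((hW v).1 k a) ((hW (nA α a v)).1 k a) h).trans
        (fr_or3 fun s hs => ?_))
      by_contra hn
      simp only [d, d', not_or, not_exists, not_not, nA_nS] at hn
      exact hs ((hn.1 k a).trans ((hn.2.2 k s).trans (hn.2.1 k a).symm)))
    (by
      rintro v s ⟨k, a, h⟩
      refine d1.trans ((dist_le (dA _) ((hW v).2 k s) ((hW (nS γ s v)).2 k s) h).trans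
        (fr_or3 fun a ha => ?_))
      by_contra hn
      simp only [d, d', not_or, not_exists, not_not, nA_nS] at hn
      exact ha ((hn.1 k s).trans ((hn.2.2 k a).trans (hn.2.1 k s).symm)))
    (fun v => by
      obtain ⟨w, w1, w2, w3⟩ := hAg v.1.1 v.1.2 K (fun k a s => W (nA α a v) k a s)
        (fun k a s => W (nS γ s v) k a s) (fun k a => (hW (nA α a v)).1 k a)
        fun k s => (hW (nS γ s v)).2 k s
      have h := (Nat.cast_le (α := ℝ)).2 (hmin v w ⟨w1, w2⟩)
      rw [hc, hc] at h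
      have h' := mul_le_mul_of_nonneg_left (le_of_mul_le_mul_left h u0) hκ.le
      simp only [ne_comm (a := w _ _ _)] at h'
      refine (h'.trans w3).trans ?_
      rw [← fr_prod fun z : A × S => d' (nA α z.1 v) z.2,
        ← fr_prod' fun z : A × S => d (nS γ z.2 v) z.1]
      refine (fr_mono ?_).trans (fr_or_le _ _)
      rintro ⟨a, s⟩ ⟨k, hk⟩
      by_contra hn
      simp only [d, d', not_or, not_exists, not_not, nA_nS] at hn
      exact hk ((hn.1 k a).trans (hn.2 k s).symm))
    (by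
      rw [← ht]
      exact (mul_le_mul_of_nonneg_left p2 (by positivity)).trans_lt (not_le.1 hβ))
  have z' : ∀ v s, ¬ d' v s := fun v => fr_eq_zero (le_trans (le_add_of_nonneg_left
    (fr_nonneg (d v))) (((expect_eq_zero_iff_of_nonneg fun v _ =>
      add_nonneg (fr_nonneg _) (fr_nonneg _)).1 (le_antisymm z μ0) v (mem_univ v)).le))
  refine ⟨fun k x => W ((false, false), x.1) k a0 x.2,
    fun k => ⟨fun g => (hW ((false, false), g)).1 k a0, fun g => ?_⟩, ?_⟩
  · refine (congrArg (· ∈ CB true) (funext fun s => ?_)).mp ((hW ((false, true), g)).1 k a0)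
    exact not_not.1 fun h => z' ((false, true), g) s ⟨k, a0, h⟩
  · have q1 : fr G (fun g => W ((false, false), g) ≠ W0 ((false, false), g)) ≤
        u * (4 * t * β) * 4 := by
      rw [fr, div_le_iff₀ cG]
      refine le_trans (b := (#(univ.filter fun v => W v ≠ W0 v) : ℝ)) (Nat.cast_le.2 ?_) ?_
      · exact card_le_card_of_injOn (fun g => ((false, false), g))
          (fun g hg => by simpa using hg) fun _ _ _ _ e => (Prod.mk.inj e).2
      have : 0 ≤ u * (𝔼 v, (fr A (d v) + fr S (d' v))) * (4 * Fintype.card G) := by positivity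
      linarith
    have q2 := (fr_or_le _ _).trans (add_le_add (hb (false, false)) q1)
    rw [← fr_fst (Y := S)] at q2
    have : 0 ≤ (64 / κ + 4 * t) * (4 * t) / (δ / 2) * β := by positivity
    refine ((fr_mono ?_).trans q2).trans (by linarith)
    rintro ⟨g, s⟩ ⟨k, hk⟩
    by_contra hn
    simp only [not_or, not_not] at hn
    refine hk ?_
    simp only [hn.2, W0, if_pos hn.1]
    simp [vw, ps]

end Vale.Agent.P330Q
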