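import Vale.Agent.P330Q.Ltc
import Vale.Agent.P330Q.LrG
import Vale.Agent.P330Q.LcAgr
import Vale.Agent.P330Q.LcTr
import Vale.Agent.P330Q.LcSys
import Vale.Agent.P330Q.LcDim
import Vale.Agent.P330Q.LcExp

/-! The left-right test. -/

namespace Vale.Agent.P330Q

theorem ltcThm : LtcThm := ltc_of dellmThm l_agr l_tr l_sys l_dim l_exp

end Vale.Agent.P330Q
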