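import Vale.Agent.P330Q.WorldD

/-! Random systematic codes have constant distance. -/

namespace Vale.Agent.P330Q

open Vale.Agent.Lib.PolyTime Vale.Agent.P330 Finset
open scoped Classical BigOperators

namespace WGv

variable {k S : Type} [Field k] [Fintype S]

/-- the linear form of a check -/
noncomputable def lf (ck : S → Prop) (r v : S → k) : k := ∑ t, if ck t then 0 else r t * v t

theorem lf_add (ck : S → Prop) (r r' v : S → k) : lf ck (r + r') v = lf ck r v + lf ck r' v := by
  simp only [lf, ← sum_add_distrib]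
  exact sum_congr rfl fun t _ => by split_ifs <;> simp [add_mul]

/-- the systematic code of a matrix -/
noncomputable def code (ck : S → Prop) (E : S → S → k) : Submodule k (S → k) where
  carrier := {v | ∀ s, ck s → v s = lf ck (E s) v}
  add_mem' := fun {v w} hv hw s hs => by
    rw [Pi.add_apply, hv s hs, hw s hs]
    simp only [lf, ← sum_add_distrib]
    exact sum_congr rfl fun t _ => by split_ifs <;> simp [mul_add]
  zero_mem' := fun s _ => by simp [lf]
  smul_mem' := fun c v hv s hs => by
    rw [Pi.smul_apply, hv s hs]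
    simp only [lf, smul_eq_mul, mul_sum]
    exact sum_congr rfl fun t _ => by split_ifs <;> simp [mul_left_comm]

theorem sys (ck : S → Prop) (E : S → S → k) : Sys (code ck E) ck E := fun _ => Iff.rfl

variable [Fintype k]

theorem bad (ck : S → Prop) {v : S → k} (hv : v ≠ 0) :
    (univ.filter fun E : S → S → k => v ∈ code ck E).card *
      Fintype.card k ^ Fintype.card {s // ck s} ≤ Fintype.card (S → S → k) := by
  by_cases h : ∃ t, ¬ ck t ∧ v t ≠ 0
  · obtain ⟨t0, h0, h1⟩ := h
    rw [← Fintype.card_subtype, ← Fintype.card_fun, ← Fintype.card_prod]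
    let P : ({s // ck s} → k) → S → S → k := fun x s =>
      if hs : ck s then Pi.single t0 (x ⟨s, hs⟩) else 0
    have hP : ∀ x s (hs : ck s), lf ck (P x s) v = x ⟨s, hs⟩ * v t0 := fun x s hs => by
      simp only [P, dif_pos hs, lf]
      rw [sum_eq_single t0 (fun t _ ht => by simp [ht]) (by simp), if_neg h0, Pi.single_eq_same]
    refine Fintype.card_le_of_injective (fun z => z.1.1 + P z.2) ?_
    rintro ⟨⟨E, hE⟩, x⟩ ⟨⟨E', hE'⟩, x'⟩ e
    have e : E + P x = E' + P x' := e
    have ex : x = x' := funext fun s => by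
      have e1 := congrArg (fun M : S → S → k => lf ck (M s.1) v) e
      simp only [Pi.add_apply, lf_add, hP _ _ s.2, ← hE s.1 s.2, ← hE' s.1 s.2] at e1
      exact mul_right_cancel₀ h1 (add_left_cancel e1)
    subst ex
    obtain rfl : E = E' := add_right_cancel e
    rfl
  · rw [filter_false_of_mem, card_empty, zero_mul]
    · exact Nat.zero_le _
    · intro E _ hE
      push Not at h
      refine hv (funext fun s => ?_)
      by_cases hs : ck s
      · rw [hE s hs, Pi.zero_apply, lf]
        exact sum_eq_zero fun t _ => by split_ifs with ht <;> simp [h t, *]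
      · exact h s hs

theorem low (m : ℕ) : (univ.filter fun v : S → k => (univ.filter fun s => v s ≠ 0).card ≤ m).card ≤
    2 ^ Fintype.card S * Fintype.card k ^ m := by
  have h1 : (univ.filter fun v : S → k => (univ.filter fun s => v s ≠ 0).card ≤ m) ⊆
      (univ.filter fun T : Finset S => T.card ≤ m).biUnion fun T =>
        Fintype.piFinset fun s => if s ∈ T then univ else {0} := fun v hv => by
    refine mem_biUnion.2 ⟨_, mem_filter.2 ⟨mem_univ _, (mem_filter.1 hv).2⟩,
      Fintype.mem_piFinset.2 fun s => ?_⟩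
    by_cases h : v s = 0 <;> simp [h]
  refine (card_le_card h1).trans ((card_biUnion_le_card_mul _ _ (Fintype.card k ^ m)
    fun T hT => ?_).trans (Nat.mul_le_mul_right _ ?_))
  · rw [Fintype.card_piFinset]
    simp only [apply_ite card, card_univ, card_singleton, prod_ite_mem, univ_inter, prod_const]
    exact Nat.pow_le_pow_right Fintype.card_pos (mem_filter.1 hT).2
  · rw [← Fintype.card_finset]
    exact card_le_univ _

theorem good [Nonempty S] (ck : S → Prop)
    (h : 2 ^ Fintype.card S * Fintype.card k ^ (Fintype.card S / 8) <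
      Fintype.card k ^ Fintype.card {s // ck s}) :
    ∃ E : S → S → k, Dist0 (code ck E) (1 / 8) := by
  by_contra hc
  push Not at hc
  set B := (univ.filter fun v : S → k =>
    (univ.filter fun s => v s ≠ 0).card ≤ Fintype.card S / 8).erase 0
  have h1 : (univ : Finset (S → S → k)) ⊆
      B.biUnion fun v => univ.filter fun E : S → S → k => v ∈ code ck E := fun E _ => by
    have h2 := hc E
    simp only [Dist0, not_forall, not_le] at h2
    obtain ⟨v, hv, h0, h3⟩ := h2
    refine mem_biUnion.2 ⟨v, mem_erase.2 ⟨h0, mem_filter.2 ⟨mem_univ _, ?_⟩⟩,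
      mem_filter.2 ⟨mem_univ _, hv⟩⟩
    rw [fr, div_lt_div_iff₀ (by exact_mod_cast Fintype.card_pos) (by norm_num), one_mul] at h3
    rw [Nat.le_div_iff_mul_le (by norm_num)]
    exact_mod_cast h3.le
  have h2 := Nat.mul_le_mul_right (Fintype.card k ^ Fintype.card {s // ck s})
    ((card_le_card h1).trans card_biUnion_le)
  rw [sum_mul, card_univ] at h2
  have h3 := h2.trans (sum_le_card_nsmul _ _ _ fun v hv => bad ck (mem_erase.1 hv).1)
  rw [smul_eq_mul, mul_comm] at h3
  exact absurd (((Nat.le_of_mul_le_mul_right h3 Fintype.card_pos).trans card_erase_le).trans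
    (low _)) h.not_ge

theorem num {q n c : ℕ} (hq : 32 ≤ q) (hn : 0 < n) (hc : n ≤ c) :
    2 ^ (n * 3) * q ^ (n * 3 / 8) < q ^ c := by
  obtain ⟨d, rfl⟩ : ∃ d, c = d + n * 3 / 8 := ⟨c - n * 3 / 8, by omega⟩
  rw [pow_add]
  refine Nat.mul_lt_mul_of_pos_right ?_ (by positivity)
  calc 2 ^ (n * 3) < 2 ^ (5 * d) := Nat.pow_lt_pow_right (by norm_num) (by omega)
    _ = 32 ^ d := by rw [pow_mul]; norm_num
    _ ≤ q ^ d := Nat.pow_le_pow_left hq d

end WGv

theorem gvThm : GVThm := by
  refine ⟨1 / 8, 32, by norm_num, by norm_num, fun l _ hl S' _ _ => ?_⟩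
  have h : ∀ j : Fin 3, ∃ E : S' × Fin 3 → S' × Fin 3 → ZMod l,
      Dist0 (WGv.code (fun s => s.2 = j) E) (1 / 8) := fun j => by
    refine WGv.good _ ?_
    rw [ZMod.card, Fintype.card_prod, Fintype.card_fin]
    exact WGv.num hl Fintype.card_pos (@Fintype.card_le_of_injective _ _ _ (_)
      (fun a => ⟨(a, j), rfl⟩) fun a b e => congrArg (fun z => z.1.1) e)
  choose E hE using h
  refine ⟨fun b => WGv.code (fun s => s.2 = if b then 1 else 0) (E (if b then 1 else 0)),
    fun b s => s.2 = if b then 1 else 0, fun b => E (if b then 1 else 0),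
    (Classical.arbitrary S', 2), ⟨fun b => ⟨WGv.sys _ _, by cases b <;> simp⟩, fun s h1 h2 => ?_⟩,
    fun b => hE _⟩
  simp only [Bool.false_eq_true, if_false, if_true] at h1 h2
  exact absurd (h1.symm.trans h2) (by decide)

end Vale.Agent.P330Q
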