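import Vale.Agent.P330Q.World
import Vale.Agent.P330Q.WGv
import Vale.Agent.P330Q.Grp
import Vale.Agent.P330Q.LtcAll

/-! Worlds exist, without hypotheses. -/

namespace Vale.Agent.P330Q

theorem world_all : WorldThm := worldThm grpThm gvThm ltcThm

end Vale.Agent.P330Q
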