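import Vale.Agent.P330Q.TopQ
import Vale.Agent.P330Q.Store
import Vale.Agent.P330Q.WorldAll
import Vale.Agent.P330Q.QChain
import Vale.Agent.P330Q.QDec
import Vale.Agent.P330Q.PPBP
import Vale.Agent.P330Q.BT
import Vale.Agent.P330Q.BCell
import Vale.Agent.P330Q.PMach
import Vale.Agent.P330Q.Kit
import Vale.Agent.P330Q.Route
import Vale.Agent.P330Q.BcChain

/-! The quasi-linear theorem. -/

namespace Vale.Agent.P330Q

theorem goalS : GoalS := by
  obtain ⟨δ, L, hL, h⟩ := cellAll
  refine goal_of_coreS (coreThmS (store_of (δ := δ) world_all hL fun l _ hl => ?_)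
    (pMach kitThm routeThm))
  have hc := h l hl
  exact ⟨hc, hc.1, ixS, cMapS (cellMap hc), cTestS (cellTest hc),
    chainS hc.1 (cellMap hc) (bigChainThm hc), decS hc.1, lpbp l, ppbp l, qfS⟩

end Vale.Agent.P330Q
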