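import Vale.Agent.P330Q.GrpS
import Vale.Agent.P330.CodeQuad
import Vale.Agent.P330.TanMix

/-! Invariant codes of prescribed dimension. -/

namespace Vale.Agent.P330Q

open Vale.Agent.Lib.PolyTime Vale.Agent.P330 Vale.Agent.P330.Exp Finset Module
open scoped Classical BigOperators

namespace GMod

section
variable {F K S : Type} [Field F] [Group K] [Fintype K]

/-- The normalised indicator of a subgroup. -/
noncomputable def ind (F : Type) [Field F] (N : Subgroup K) (g : K) : F :=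
  if g ∈ N then (Nat.card N : F)⁻¹ else 0

/-- The coefficients of the projection at level `j`. -/
noncomputable def cf (F : Type) [Field F] (N : ℕ → Subgroup K) (j : ℕ) (g : K) : F :=
  ind F (N j) g - if j = 0 then 0 else ind F (N (j - 1)) g

theorem lev_eq (N : ℕ → Subgroup K) (j : ℕ) (w : K × S → F) (g : K) (s : S) :
    lev N j w (g, s) = ∑ g', cf F N j (g' * g⁻¹) * w (g', s) := by
  have e : ∀ M : Subgroup K, avgN M w (g, s) = ∑ g', ind F M (g' * g⁻¹) * w (g', s) := fun M => by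
    rw [← Equiv.sum_comp (Equiv.mulRight g)]
    simp only [Equiv.coe_mulRight, mul_inv_cancel_right]
    rfl
  cases j with
  | zero => simpa [cf, lev] using e (N 0)
  | succ j =>
    simp only [cf, lev, LinearMap.sub_apply, Pi.sub_apply, e, Nat.succ_ne_zero, if_false,
      Nat.add_sub_cancel, sub_mul, sum_sub_distrib]

/-- Tuples of words with prescribed levels. -/
noncomputable def WW (V : Submodule F (K × S → F)) (N : ℕ → Subgroup K) (r M : ℕ) (m : ℕ → ℕ) :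
    Submodule F (K × S × Fin M → F) where
  carrier := {w | ∀ i : Fin M, (fun x : K × S => w (x.1, x.2, i)) ∈
    subJ V N r ((range (r + 1)).filter fun j => (i : ℕ) < m j)}
  add_mem' ha hb i := Submodule.add_mem _ (ha i) (hb i)
  zero_mem' _ := Submodule.zero_mem _
  smul_mem' t _ hw i := Submodule.smul_mem _ t (hw i)

theorem finrank_WW [Fintype S] (V : Submodule F (K × S → F)) (N : ℕ → Subgroup K) (r M : ℕ)
    (m d : ℕ → ℕ) (hm : ∀ j, m j ≤ M)
    (h : ∀ J ⊆ range (r + 1), finrank F (subJ V N r J) = ∑ j ∈ J, d j) :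
    finrank F (WW V N r M m) = ∑ j ∈ range (r + 1), m j * d j := by
  let e : WW V N r M m ≃ₗ[F] ∀ i : Fin M,
      subJ V N r ((range (r + 1)).filter fun j => (i : ℕ) < m j) :=
    { toFun := fun w i => ⟨fun x => w.1 (x.1, x.2, i), w.2 i⟩
      invFun := fun f => ⟨fun z => (f z.2.2).1 (z.1, z.2.1), fun i => (f i).2⟩
      map_add' := fun _ _ => rfl
      map_smul' := fun _ _ => rfl
      left_inv := fun _ => rfl
      right_inv := fun _ => rfl }
  rw [e.finrank_eq, finrank_pi_fintype]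
  simp only [fun i : Fin M => h _ (filter_subset (fun j => (i : ℕ) < m j) _), sum_filter]
  rw [sum_comm]
  refine sum_congr rfl fun j _ => ?_
  rw [← sum_filter, sum_const, smul_eq_mul, Fin.card_filter_val_lt, min_eq_right (hm j)]

/-- The linear system. -/
noncomputable def sys {Q : Type} (h : Q → S → F) (a : S → K) (N : ℕ → Subgroup K) {r M : ℕ}
    (m : ℕ → ℕ) (y : (Fin 3 × Fin M × Q × S) × Fin (r + 1) × K) (x : K × S × Fin M) : F :=
  if x.2.2 = y.1.2.1 then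
    if y.1.1 = 0 then (if x.1 = y.2.2 then h y.1.2.2.1 x.2.1 else 0)
    else if y.1.1 = 1 then (if x.1 * a x.2.1 = y.2.2 then h y.1.2.2.1 x.2.1 else 0)
    else if x.2.1 = y.1.2.2.2 ∧ ¬ (y.1.2.1 : ℕ) < m y.2.1 then cf F N y.2.1 (x.1 * y.2.2⁻¹) else 0
  else 0

theorem sys_iff [Fintype S] [Nonempty S] {Q : Type} [Nonempty Q] {C0 : Submodule F (S → F)}
    {h : Q → S → F} (hK : ∀ c, c ∈ C0 ↔ ∀ k, ∑ s, h k s * c s = 0) (a : S → K)
    (N : ℕ → Subgroup K) (r M : ℕ) (m : ℕ → ℕ) (v : K × S × Fin M → F) :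
    v ∈ WW (tsubK C0 a) N r M m ↔ ∀ y, ∑ x, sys (r := r) h a N m y x * v x = 0 := by
  have e0 : ∀ i k s j g, ∑ x, sys (r := r) h a N m ((0, i, k, s), j, g) x * v x =
      ∑ s, h k s * v (g, s, i) := by
    intro i k s j g
    simp [sys, Fintype.sum_prod_type]
  have e1 : ∀ i k s j g, ∑ x, sys (r := r) h a N m ((1, i, k, s), j, g) x * v x =
      ∑ s, h k s * v (g * (a s)⁻¹, s, i) := by
    intro i k s j g
    simp [sys, Fintype.sum_prod_type, ← eq_mul_inv_iff_mul_eq]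
    rw [sum_comm]
    simp
  have e2 : ∀ (i : Fin M) k s (j : Fin (r + 1)) g,
      ∑ x, sys (r := r) h a N m ((2, i, k, s), j, g) x * v x =
      if ¬ (i : ℕ) < m j then lev N j (fun x : K × S => v (x.1, x.2, i)) (g, s) else 0 := by
    intro i k s j g
    have t0 : ¬ (2 : Fin 3) = 0 := by decide
    have t1 : ¬ (2 : Fin 3) = 1 := by decide
    rw [lev_eq]
    by_cases hi : (i : ℕ) < m j <;> simp [sys, Fintype.sum_prod_type, t0, t1, hi]
  obtain ⟨s₀⟩ := ‹Nonempty S›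
  obtain ⟨k₀⟩ := ‹Nonempty Q›
  constructor
  · rintro H ⟨⟨t, i, k, s⟩, j, g⟩
    fin_cases t
    · exact (e0 i k s j g).trans ((hK _).1 ((H i).1.1 g) k)
    · exact (e1 i k s j g).trans ((hK _).1 ((H i).1.2 g) k)
    · refine (e2 i k s j g).trans ?_
      split_ifs with hi
      · rfl
      · rw [(H i).2 j (Nat.lt_succ_iff.1 j.2) fun h' => hi (mem_filter.1 h').2]
        rfl
  · intro H i
    refine ⟨⟨fun g => (hK _).2 fun k => (e0 i k s₀ 0 g).symm.trans (H _),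
      fun g => (hK _).2 fun k => (e1 i k s₀ 0 g).symm.trans (H _)⟩, fun j hj hn => ?_⟩
    funext ⟨g, s⟩
    have := (e2 i k₀ s ⟨j, Nat.lt_succ_iff.2 hj⟩ g).symm.trans (H _)
    rwa [if_pos fun h' => hn (mem_filter.2 ⟨mem_range.2 (Nat.lt_succ_iff.2 hj), h'⟩)] at this

theorem fr_slice [Fintype S] {M : ℕ} (E : K × S × Fin M → Prop) (i : Fin M) :
    fr (K × S) (fun x => E (x.1, x.2, i)) / M ≤ fr (K × S × Fin M) E := by
  unfold fr
  rw [div_div, Fintype.card_prod, Fintype.card_prod, Fintype.card_prod, Fintype.card_fin]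
  push_cast
  rw [mul_assoc]
  refine div_le_div_of_nonneg_right (Nat.cast_le.2 (card_le_card_of_injOn
    (fun x => (x.1, x.2, i)) (fun x hx => ?_) fun x _ y _ e => ?_)) (by positivity)
  · simpa using hx
  · simp only [Prod.mk.injEq, and_true] at e
    exact Prod.ext e.1 e.2

end

section
variable {B : Type} [Enc B] {r : B → ℕ} {l : ℕ} [Fact l.Prime]
  {N : ∀ r, ℕ → Subgroup (SL3 (RR r))}
  (hN : ∀ r j g, g ∈ N r j ↔ ∀ a b, ∀ i ≤ j, co (g a b) i = co ((1 : SL3 (RR r)) a b) i)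
include hN

theorem pt_mem (hr : Sm r) {g : ∀ b, SL3 (RR (r b))} {j : B → ℕ} (hg : D g) (hj : PT j) :
    PT fun b => g b ∈ N (r b) (j b) := by
  have h1 := hr.sig fun b => (Fin 3 × Fin 3) × Fin (r b)
  have z := D.sigma_snd (X := fun b => (Fin 3 × Fin 3) × Fin (r b))
  have i := D.fin_iff.1 z.snd
  have k : ∀ {x : ∀ b, SL3 (RR (r b))}, D x →
      PT fun w : Σ b, (Fin 3 × Fin 3) × Fin (r b) => co (x w.1 w.2.1.1 w.2.1.2) w.2.2 :=
    fun {x} hx => pt_co (D.cases z.fst.pt (fun p w => x w.1 p.1 p.2)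
      fun p => d_entry (hx.comp pt_sigma_fst) p.1 p.2) i
  refine (((PFam.const (Fin 3 × Fin 3)).prod (PFam.fin hr.pt hr.pb')).pt_forall
    (p := fun b w => ¬ (w.2 : ℕ) ≤ j b ∨ co (g b w.1.1 w.1.2) w.2 =
      co ((1 : SL3 (RR (r b))) w.1.1 w.1.2) w.2)
    ((i.le (hj.comp pt_sigma_fst)).not.or ((k hg).eq (k (d_gone hr))))).congr fun b => ?_
  rw [hN]
  refine propext ⟨fun h w => or_iff_not_imp_left.2 fun h' => h _ _ _ (not_not.1 h'),
    fun h a c i hi => ?_⟩
  by_cases h' : i < r b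
  · exact (h ((a, c), ⟨i, h'⟩)).resolve_left (not_not.2 hi)
  · rw [co_ge _ (not_lt.1 h'), co_ge _ (not_lt.1 h')]

theorem pt_ind (hr : Sm r) {g : ∀ b, SL3 (RR (r b))} {j : B → ℕ} (hg : D g) (hj : PT j) :
    PT fun b => ind (ZMod l) (N (r b) (j b)) (g b) := by
  refine PT.ite (pt_mem hN hr hg hj) (pt_invZ (((pfam_SL hr).pt_sumZ
    (f := fun b x => if x ∈ N (r b) (j b) then (1 : ZMod l) else 0)
    (PT.ite (pt_mem hN (hr.sig _) D.sigma_snd (hj.comp pt_sigma_fst)) (PT.const 1)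
      (PT.const 0))).congr fun b => ?_)) (PT.const 0)
  rw [sum_boole, Nat.card_eq_fintype_card, Fintype.card_subtype]

theorem pt_sys (hr : Sm r) (h1 : ∀ b, 0 < r b) {S Q : Type} [Fintype S] [Enc S] [Fintype Q]
    [Enc Q] (h : Q → S → ZMod l) (a : ∀ b, S → SL3 (RR (r b))) (ha : ∀ s, D fun b => a b s)
    {M : ℕ} (m : B → ℕ → ℕ) (hm : PT fun z : Σ b, Fin (r b + 1) => m z.1 z.2) :
    PT fun z : Σ b, ((Fin 3 × Fin M × Q × S) × Fin (r b + 1) × SL3 (RR (r b))) ×
      (SL3 (RR (r b)) × S × Fin M) => sys h (a z.1) (N (r z.1)) (m z.1) z.2.1 z.2.2 := by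
  have H := hr.sig fun b => ((Fin 3 × Fin M × Q × S) × Fin (r b + 1) × SL3 (RR (r b))) ×
    (SL3 (RR (r b)) × S × Fin M)
  have z := D.sigma_snd (X := fun b => ((Fin 3 × Fin M × Q × S) × Fin (r b + 1) × SL3 (RR (r b))) ×
    (SL3 (RR (r b)) × S × Fin M))
  have f := D.pt z.fst.fst
  have j := z.fst.snd.fst
  have j' := D.fin_iff.1 j
  have g := z.fst.snd.snd
  have x := z.snd.fst
  have s := D.pt z.snd.snd
  have k := P325.pt_finite (f.snd.snd.fst.mk s.fst) fun p => h p.1 p.2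
  have ws := D.cases s.fst (fun s z => a z.1 s) fun s => (ha s).comp pt_sigma_fst
  have q := d_gmul H x ((SLG hr h1).Κ.d_inv.app pt_sigma_fst g)
  exact PT.ite (s.snd.eq f.snd.fst) (PT.ite (f.fst.eq (PT.const 0))
    (@PT.ite _ _ _ _ _ (_) _ _ (D.eq x g) k (PT.const 0)) (PT.ite (f.fst.eq (PT.const 1))
      (@PT.ite _ _ _ _ _ (_) _ _ (D.eq (d_gmul H x ws) g) k (PT.const 0))
      (PT.ite ((s.fst.eq f.snd.snd.snd).and ((P325.pt_finite f.snd.fst Fin.val).lt
        (hm.comp (pt_sigma_mk pt_sigma_fst j))).not)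
        (pt_subZ (pt_ind hN H q j') (PT.ite (j'.eq (PT.const 0)) (PT.const 0)
          (pt_ind hN H q (j'.sub (PT.const 1))))) (PT.const 0)))) (PT.const 0)

end

end GMod

open GMod in
theorem s_mod (hE : S_ech) (hL : S_lev) (hD : S_dim) (hC : S_cong) (hG : S_dig) : S_mod := by
  obtain ⟨m, l0, -, h1, h2, -⟩ := exists_par (lam := 1 / 256) (512 * 27) (by norm_num)
  obtain ⟨N, hN⟩ := hC
  refine ⟨18 ^ m, fun l _ h3 => ?_⟩
  have hc : Fintype.card (Fin m → JJ) = 18 ^ m := by simp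
  obtain ⟨pt⟩ : Nonempty ((Fin m → JJ) ↪ ZMod l) :=
    Function.Embedding.nonempty_of_card_le (by rw [hc, ZMod.card]; exact h3)
  obtain ⟨C0, hd, hk⟩ := exists_rs pt pt.injective (by omega)
  have two : (2 : ZMod l) ≠ 0 := fun h => by
    have := Nat.le_of_dvd two_pos ((ZMod.natCast_eq_zero_iff 2 l).1 (by exact_mod_cast h))
    omega
  obtain ⟨Q, _, _, h, hK⟩ := exists_checks C0
  let _ : Enc Q := Enc.fin Q
  generalize hS : Fintype.card (Fin m → JJ) = σ at hc hk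
  have hT : TanGood (1 / 3) (1 / 256) (Fin m → JJ) := by
    refine ⟨by norm_num, by norm_num, by norm_num, by norm_num, ?_⟩
    have : (512 * 27 : ℝ) ≤ Fintype.card (Fin m → JJ) := by
      rw [hS]; exact_mod_cast (by omega : 512 * 27 ≤ σ)
    linarith
  obtain ⟨M, hM⟩ : ∃ M, M = 512 * σ := ⟨_, rfl⟩
  have M0 : 0 < M := by omega
  have : Nonempty (Fin M) := ⟨⟨0, M0⟩⟩
  refine ⟨(Fin m → JJ) × Fin M, inferInstance, inferInstance, inferInstance,
    (1 / 3) ^ 2 / 8 / M, M, by positivity, fun U _ r0 p0 b0 => ?_⟩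
  let r : U → ℕ := fun u => Nat.size (r0 u) + 1
  have hr : Sm r := ⟨(Lib.PolyTime.Q.pt_size p0).add (PT.const 1), (b0.lin 4 2).of_le fun u => cquad_size _⟩
  have r1 : ∀ u, 0 < r u := fun u => Nat.succ_pos _
  let a : ∀ u, (Fin m → JJ) → SL3 (RR (r u)) := fun u s => word (gen (r u)) s
  have hV : ∀ u g, ∀ w ∈ tsubK C0 (a u), (fun x => w (g * x.1, x.2)) ∈ tsubK C0 (a u) :=
    fun u g w hw => ⟨fun k => hw.1 (g * k), fun k => by simpa only [mul_assoc] using hw.2 (g * k)⟩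
  choose d hd1 hd2 using fun u => hL (ZMod l) _ _ (tsubK C0 (a u)) (hV u) (N (r u)) (r u)
    (fun j => (hN _ j).2.1) (fun j => (hN _ j).2.2.1) (hN _ 0).2.2.2.2.2.1 fun j => by
      obtain ⟨e, he⟩ := (hN (r u) j).2.2.2.2.2.2.1
      rw [he]
      push_cast
      exact pow_ne_zero _ two
  have dm := fun u j => hD (ZMod l) _ _ C0 (a u) (N (r u) j) (hS ▸ hk)
  simp only [← hd1, hS] at dm
  have hP : PFam fun u => Fin (r u + 1) → Fin (M + 1) :=
    PFam.fn (n := fun u => r u + 1) (PFam.const _) (hr.pt.add (PT.const 1))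
      (hr.pb'.add (PB.const 1)) (((hr.pb.lin 2 0).pow (M + 1)).of_le fun u => by
        rw [Fintype.card_fin, add_zero, ← pow_succ', ← pow_mul, mul_comm, pow_mul]
        exact Nat.pow_le_pow_left Nat.lt_two_pow_self.le _)
  let B : Type := Σ u, Fin (r u + 1) → Fin (M + 1)
  let mm : B → ℕ → ℕ := fun b j => if h : j < r b.1 + 1 then b.2 ⟨j, h⟩ else 0
  have hmm : ∀ b j, mm b j ≤ M := fun b j => by
    simp only [mm]
    split_ifs
    · exact Nat.lt_succ_iff.1 (Fin.is_lt _)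
    · exact Nat.zero_le _
  have HB : Sm fun b : B => r b.1 := hr.sig _
  obtain ⟨n, w, p, pn, bn, pw, dp, H⟩ := hE l B _ _
    ((pfam_SL HB).prod (PFam.const ((Fin m → JJ) × Fin M)))
    ((PFam.const (Fin 3 × Fin M × Q × (Fin m → JJ))).prod
      ((PFam.fin (HB.pt.add (PT.const 1)) (HB.pb'.add (PB.const 1))).prod (pfam_SL HB)))
    (fun b => sys h (a b.1) (N (r b.1)) (mm b))
    (pt_sys (fun r j => (hN r j).1) HB (fun b => r1 b.1) h (fun b => a b.1)
      (fun s => d_word HB s) mm ((D.fin_iff.1 (D.fn_app (n := fun z : Σ b : B, Fin (r b.1 + 1) =>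
        r z.1.1 + 1) (D.sigma_snd.comp pt_sigma_fst) D.sigma_snd)).congr fun z => dif_pos z.2.2))
  have hW := fun b : B => sys_iff hK (a b.1) (N (r b.1)) (r b.1) M (mm b)
  have hn : ∀ b : B, n b = ∑ j ∈ range (r b.1 + 1), mm b j * d b.1 j := fun b =>
    ((H b).2.2.2 _ (hW b)).trans (finrank_WW _ _ _ _ _ _ (hmm b) fun J hJ => (hd2 b.1 J hJ).1)
  obtain ⟨μ, dμ, hμ⟩ := hP.choose (p := fun u μ => r0 u ≤ n ⟨u, μ⟩ ∧ n ⟨u, μ⟩ ≤ r0 u + M)
    (((p0.comp pt_sigma_fst).le pn).and (pn.le ((p0.comp pt_sigma_fst).add (PT.const M))))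
    fun u => by
      obtain ⟨m', a1, a2, a3⟩ := hG (d u) M (r u) (r0 u) (fun j => by
        have b1 := (dm u (j + 1)).2
        have b2 := (dm u j).1
        have b3 := (hN (r u) j).2.2.2.1
        rw [sum_range_succ] at b1
        calc d u (j + 1) ≤ 512 * (N (r u) j).index * σ :=
              (Nat.le_add_left _ _).trans (b1.trans (Nat.mul_le_mul_right _ b3))
          _ = M * (N (r u) j).index := by rw [hM]; ring
          _ ≤ _ := Nat.mul_le_mul_left _ b2) (by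
        have b1 := (dm u (r u)).1
        rw [(hN (r u) 0).2.2.2.2.2.1, Subgroup.index_bot, Nat.card_eq_fintype_card] at b1
        have b2 := (hN (r u) 0).2.2.2.2.2.2.2
        have b3 : r0 u ≤ 2 ^ r u :=
          (Nat.lt_size_self _).le.trans (Nat.pow_le_pow_right (by norm_num) (Nat.le_succ _))
        exact ((b3.trans b2).trans b1).trans (Nat.le_mul_of_pos_left _ M0))
      have b1 := (dm u 0).2
      rw [sum_range_one] at b1
      have b2 : d u 0 ≤ M :=
        b1.trans ((Nat.mul_le_mul_right _ (hN (r u) 0).2.2.2.2.1).trans hM.ge)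
      refine ⟨fun j => ⟨m' j, Nat.lt_succ_iff.2 (a1 j)⟩, ?_⟩
      rw [hn, sum_congr rfl (g := fun j => m' j * d u j) fun j hj => by
        simp only [mm, dif_pos (mem_range.1 hj)]]
      exact ⟨a2, a3.trans (Nat.add_le_add_left b2 _)⟩
  have q : PT fun u => (⟨u, μ u⟩ : B) := pt_sigma_mk PT.id dμ
  refine ⟨SLG hr r1, ⟨fun u => n ⟨u, μ u⟩, pn.comp q, bn.comp q, fun u => w ⟨u, μ u⟩,
    fun u => p ⟨u, μ u⟩, pw.comp (pt_sigma_mk (q.comp pt_sigma_fst) D.sigma_snd),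
    dp.app (q.comp pt_sigma_fst) D.sigma_snd, fun u => (H _).1, fun u k k' x j => ?_,
    fun u t ht => ?_⟩, hμ⟩
  · have b1 := (hW ⟨u, μ u⟩ _).2 ((H ⟨u, μ u⟩).2.1 j)
    exact (H ⟨u, μ u⟩).2.2.1 (fun z => w ⟨u, μ u⟩ (k * z.1, z.2) j) ((hW ⟨u, μ u⟩ _).1 fun i =>
      (hd2 u _ (filter_subset _ _)).2 k _ (b1 i)) (k', x)
  · have b1 : (fun z => ∑ i, t i * w ⟨u, μ u⟩ z i) ∈
        WW (tsubK C0 (a u)) (N (r u)) (r u) M (mm ⟨u, μ u⟩) := by
      have := Submodule.sum_mem _ fun i (_ : i ∈ univ) => Submodule.smul_mem _ (t i)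
        ((hW ⟨u, μ u⟩ _).2 ((H ⟨u, μ u⟩).2.1 i))
      rwa [show (∑ i, t i • fun x => w ⟨u, μ u⟩ x i) = fun z => ∑ i, t i * w ⟨u, μ u⟩ z i from
        funext fun z => by simp] at this
    obtain ⟨i, hi⟩ := Function.ne_iff.1 ht
    have b2 : ∑ i', t i' * w ⟨u, μ u⟩ (p ⟨u, μ u⟩ i) i' ≠ 0 := by
      rw [(H _).1]
      simpa [Pi.single_apply] using hi
    have b3 := supp_large sssThm (nb := fun s => Equiv.mulRight (a u s)) hT hd
      (((gap_gen (r1 u)).powR m).mono (by positivity) h1) (b1 (p ⟨u, μ u⟩ i).2.2).1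
      (Function.ne_iff.2 ⟨((p ⟨u, μ u⟩ i).1, (p ⟨u, μ u⟩ i).2.1), b2⟩)
    exact (div_le_div_of_nonneg_right b3.le (Nat.cast_nonneg _)).trans
      (fr_slice (fun z => ∑ i, t i * w ⟨u, μ u⟩ z i ≠ 0) _)

end Vale.Agent.P330Q
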