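import Vale.Agent.P330Q.PMachD

/-! Encodings of tuples of tables with robust programs and tests: the interface. -/

namespace Vale.Agent.P330Q

open Vale.Agent.Lib.PolyTime Vale.Agent.P330 Finset
open scoped Classical BigOperators

variable {C : Type} [Enc C] {l : ℕ} [Fact l.Prime]

/-- The words `enc c w` encode the tuples of tables `w`; plain programs run on them. -/
structure MemOK (Y : PS C l) (a : C → ℕ) (I : SF Y.lg) (δ Δ : ℝ) (X : Fam C)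
    (enc : ∀ c, (I.T c → Y.Tab c) → X.T c → ZMod l) : Prop where
  ne : ∀ c, Nonempty (X.T c)
  size : Sz a Y.lg fun c => Fintype.card (X.T c)
  dist : ∀ c w w', w ≠ w' → Δ ≤ hd (enc c w) (enc c w')
  pt : ∀ w : ∀ c, I.T c → Y.Tab c, D3 w → PT fun z : Σ c, X.T c => enc z.1 (w z.1) z.2
  run : ∀ f, PP Y I I f → ∀ η : ℝ, 0 < η → ImplS (ZMod l) a Y.lg (.of X) (.of X) fun c x y =>
    ∀ w, du x (enc c w) ≤ δ → du y (enc c fun i => f c i w) ≤ η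
  zero : ∀ (Z : SF Y.lg) tz, PP Y I Z tz → ∃ v1 : ℝ, 0 < v1 ∧ ∀ v0 : ℝ, 0 < v0 →
    ImplRS (ZMod l) a Y.lg (.of X) fun c x T => ∀ w, du x (enc c w) ≤ δ →
      (T < v1 → ∀ z, tz c z w = 0) ∧ ((∀ z, tz c z w = 0) → T ≤ v0)
  point : ∀ (O E : SF Y.lg) ty
    (φ : ∀ c, E.T c → Y.H c → Option (O.T c) → Option (O.T c) → Y.F c), PP Y I O ty →
    D3 (fun c (z : E.T c × Y.H c) (u : Option (O.T c) × Option (O.T c)) => φ c z.1 z.2 u.1 u.2) →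
    ∃ v1 : ℝ, 0 < v1 ∧ ∀ v0 : ℝ, 0 < v0 →
      ImplRS (ZMod l) a Y.lg (.of X) fun c x T => ∀ w, du x (enc c w) ≤ δ →
        (T < v1 → fr (Y.H c) (fun h => ∃ e, qf (φ c e h) (fun o => ty c o w h) ≠ 0) < 1 / 3) ∧
        ((∀ h e, qf (φ c e h) (fun o => ty c o w h) = 0) → T ≤ v0)
  near : ∀ δ' : ℝ, 0 < δ' → ∃ v1 : ℝ, 0 < v1 ∧ ∀ v0 : ℝ, 0 < v0 → ∃ η : ℝ, 0 < η ∧
    ImplRS (ZMod l) a Y.lg (.of X) fun c x T =>
      (T < v1 → ∃ w, du x (enc c w) ≤ δ') ∧ ∀ w, du x (enc c w) ≤ η → T ≤ v0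
  dec : ∀ (B : Type) [Enc B] (p : B → C) (u : ∀ b, X.T (p b) → ZMod l), PT p →
    PT (fun z : Σ b, X.T (p b) => u z.1 z.2) →
    ∃ v : ∀ b, I.T (p b) → Y.Tab (p b), D3 v ∧ ∀ b w, hd (u b) (enc (p b) w) ≤ δ → v b = w

/-- A memory of quasi-linear size exists for every rank. -/
def StoreThm : Prop :=
  ∃ (l : ℕ) (_ : Fact l.Prime), 3 ≤ l ∧ ∀ (C : Type) [Enc C] (a lg n0 : C → ℕ), PT n0 → PB a →
    PB lg → Sz a lg (fun c => l ^ n0 c) → Pl lg n0 →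
    ∃ Y : PS C l, Y.lg = lg ∧ (∀ c, n0 c ≤ Y.n c) ∧ ∃ δ Δ : ℝ, 0 < δ ∧ 0 < Δ ∧
      ∀ I : SF Y.lg, ∃ X enc, MemOK Y a I δ Δ X enc

end Vale.Agent.P330Q
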