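import Vale.Agent.P330Q.QD
import Vale.Agent.P330Q.MemS
import Vale.Agent.P330Q.PPF
import Vale.Agent.P330Q.CombX

/-! The memory seen from the top: statements of the pieces. -/

namespace Vale.Agent.P330Q

open Vale.Agent.Lib.PolyTime Vale.Agent.P330 Finset
open scoped Classical BigOperators

/-- The theorems on cells and block programs. -/
structure Hyp (l : ℕ) [Fact l.Prime] (δ : ℝ) : Prop where
  pos : 0 < δ
  ix : IxS l δ
  map : CMapS l δ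
  test : CTestS l δ
  chain : ChainS l δ
  dec : DecS l δ
  lp : LPBP l
  pp : PPBP l
  qf : QFS l

variable {C : Type} [Enc C] {l : ℕ} [Fact l.Prime] {a : C → ℕ} {S B : Type} [Fintype S] [Enc S]
  [Fintype B] [Enc B] {δ0 lam : ℝ}

namespace World
variable (W : World C l a S B δ0 lam) {δ : ℝ} (Z : Cell l δ FinU)

/-- The positions of the cell encoding. -/
@[reducible] def Rg {K : SF W.P.lg} (N : Ix W.P.lg (W.CV K)) : Fam C := W.Y.Pos.prod (N.X Z)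

/-- The cell at the position `p` is far from the cell of `y`. -/
def Far {K : SF W.P.lg} (N : Ix W.P.lg (W.CV K)) (e : ℝ) {c : C}
    (x : (W.Rg Z N).T c → ZMod l → ℝ) (y : K.T c → W.Wd c) (p : W.Ps c) : Prop :=
  e < du (fun ξ => x (p, ξ)) (cw (N.gen Z c) (W.cell y p))

/-- Block programs between cell encodings. -/
def G_chain : Prop :=
  ∀ (I O : SF W.P.lg) (N : Ix W.P.lg (W.CV I)) (N' : Ix W.P.lg (W.CV O)) (A : C → Type)
    (i : ∀ c, A c → I.T c → W.Wd c) (o : ∀ c, A c → O.T c → W.Wd c), W.BP I O A i o →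
    ∀ η : ℝ, 0 < η → ImplS (ZMod l) a W.P.lg (.of (W.Rg Z N)) (.of (W.Rg Z N')) fun c x y =>
      ∀ s, du x (W.benc N Z (i c s)) ≤ δ ^ 2 * δ0 ^ 2 / 256 → du y (W.benc N' Z (o c s)) ≤ η

/-- Linear programs with one input act on every lane. -/
def G_lp : Prop :=
  ∀ (I O : SF W.P.lg) (m : ∀ c, W.Wd c → O.T c → W.Wd c),
    W.LP (.const _ Unit) O (fun c y => m c (y ())) → (∀ c, ∀ y ∈ W.T c, ∀ o, m c y o ∈ W.T c) ∧
      W.BP I (I.prod O) (fun c => {y : I.T c → W.Wd c // ∀ k, y k ∈ W.T c}) (fun _ y => y.1)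
        fun c y z => m c (y.1 z.1) z.2

/-- Tests of quadratic relations over the big field between cells. -/
def G_test : Prop :=
  ∀ (K : SF W.P.lg) (N : Ix W.P.lg (W.CV K)) (A : Type) [Fintype A] [Enc A] [Nonempty A]
    (O : Fam C) (E : SF W.P.lg) (pos : ∀ c, O.T c → A → W.Ps c) (κ : ℝ)
    (g : ∀ c, O.T c × E.T c → (A × K.T c → W.P.F c) → W.P.F c), (∀ c, Nonempty (O.T c)) →
    Sz a W.P.lg (fun c => Fintype.card (O.T c)) → (∀ i, D2 fun c o => pos c o i) →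
    (∀ c i p, fr (O.T c) (fun o => pos c o i = p) ≤ κ / Fintype.card (W.Ps c)) →
    QF W.P.Φ ((Fam.const C A).prod K.toFam) (O.prod E.toFam) g → ∀ β : ℝ, 0 < β →
    ∃ v1 θ : ℝ, 0 < v1 ∧ 0 < θ ∧ ∀ v0 : ℝ, 0 < v0 → ∃ η : ℝ, 0 < η ∧
      ImplRS (ZMod l) a W.P.lg (.of (W.Rg Z N)) fun c x T =>
        (T < v1 → (∃ y : K.T c → W.Wd c, fr (O.T c) (fun o =>
            (∃ e, g c (o, e) (fun z => y z.2 (pos c o z.1)) ≠ 0) ∨
              ∃ i, W.Far Z N δ x y (pos c o i)) ≤ β) ∧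
          ∀ y : K.T c → W.Wd c, du x (W.benc N Z y) ≤ θ →
            fr (O.T c) (fun o => ∃ e, g c (o, e) (fun z => y z.2 (pos c o z.1)) ≠ 0) ≤ 2 * β) ∧
        ∀ y : K.T c → W.Wd c, (∀ o e, g c (o, e) (fun z => y z.2 (pos c o z.1)) = 0) →
          du x (W.benc N Z y) ≤ η → T ≤ v0

/-- Linear equations for the local codes. -/
def G_eqs : Prop :=
  ∃ (n : ℕ) (hh : ∀ c, Bool → Fin n → S → W.P.F c), (∀ b j s, D fun c => hh c b j s) ∧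
    ∀ c b v, v ∈ W.loc c b ↔ ∀ j, ∑ s, hh c b j s * v s = 0

/-- Selection of lanes. -/
def G_lane : Prop :=
  ∀ (I K : SF W.P.lg) (N : Ix W.P.lg (W.CV I)) (N' : Ix W.P.lg (W.CV K))
    (j : ∀ c, I.T c → K.T c), D2 j → ∀ η : ℝ, 0 < η →
    ImplS (ZMod l) a W.P.lg (.of (W.Rg Z N')) (.of (W.Rg Z N)) fun c x z =>
      ∀ f : K.T c → W.Wd c, du z (W.benc N Z fun i => f (j c i)) ≤ η + fr (W.Ps c) (W.Far Z N' δ x f)

/-- The test for the left-right code. -/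
def G_lr {A R : Type} [Fintype A] [Enc A] (L : Lr W A R) : Prop :=
  ∀ (I : SF W.P.lg) (N' : Ix W.P.lg (W.CV (I.prod (.const _ A)))) (β : ℝ), 0 < β →
    ∃ v1 : ℝ, 0 < v1 ∧ ∀ v0 : ℝ, 0 < v0 → ∃ η : ℝ, 0 < η ∧
      ImplRS (ZMod l) a W.P.lg (.of (W.Rg Z N')) fun c x T =>
        (T < v1 → ∃ (f : I.T c × A → W.Wd c) (y : I.T c → W.Wd c), (∀ k, y k ∈ W.T c) ∧
          fr (W.Ps c) (fun p => ∃ k, f (k, L.a0) p ≠ y k p) ≤ β ∧
          fr (W.Ps c) (W.Far Z N' δ x f) ≤ β) ∧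
        ∀ y : I.T c → W.Wd c, (∀ k, y k ∈ W.T c) →
          du x (W.benc N' Z fun z : I.T c × A => L.κ c (y z.1) z.2) ≤ η → T ≤ v0

/-- The test for being close to the outer code. -/
def G_code : Prop :=
  ∀ (I : SF W.P.lg) (N : Ix W.P.lg (W.CV I)) (θ : ℝ), 0 < θ →
    ∃ v1 : ℝ, 0 < v1 ∧ ∀ v0 : ℝ, 0 < v0 → ∃ η : ℝ, 0 < η ∧
      ImplRS (ZMod l) a W.P.lg (.of (W.Rg Z N)) fun c x T =>
        (T < v1 → ∃ y : I.T c → W.Wd c, (∀ k, y k ∈ W.T c) ∧ du x (W.benc N Z y) ≤ θ) ∧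
        ∀ y : I.T c → W.Wd c, (∀ k, y k ∈ W.T c) → du x (W.benc N Z y) ≤ η → T ≤ v0

/-- Codewords that pass the rank one test encode tables. -/
def G_rk0 (M : Mem W) : Prop :=
  ∀ c, (∀ y ∈ W.T c, fr (W.Y.G.T c × M.Ty.T c × S) (fun z =>
      y ((M.e c).symm ((M.e c z.1).1, z.2.1), z.2.2) ≠ M.cq c y z.2 (z.1, M.s0)) < δ0 ^ 2 / 8 →
      ∃ u, y = M.E c u) ∧
    ∀ u (z : W.Y.G.T c × M.Ty.T c × S),
      M.E c u ((M.e c).symm ((M.e c z.1).1, z.2.1), z.2.2) = M.cq c (M.E c u) z.2 (z.1, M.s0)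

/-- The rank one test. -/
def G_rank (M : Mem W) : Prop :=
  ∀ (I : SF W.P.lg) (N : Ix W.P.lg (W.CV I)), ∃ v1 θ : ℝ, 0 < v1 ∧ 0 < θ ∧ ∀ v0 : ℝ, 0 < v0 →
    ∃ η : ℝ, 0 < η ∧ ImplRS (ZMod l) a W.P.lg (.of (W.Rg Z N)) fun c x T =>
      (∀ y : I.T c → W.Wd c, (∀ k, y k ∈ W.T c) → du x (W.benc N Z y) ≤ θ → T < v1 →
        ∃ w : I.T c → W.P.Tab c, y = fun k => M.E c (w k)) ∧
      ∀ w : I.T c → W.P.Tab c, du x (W.benc N Z fun k => M.E c (w k)) ≤ η → T ≤ v0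

/-- Zero tests. -/
def G_zero (M : Mem W) : Prop :=
  ∀ (I : SF W.P.lg) (N : Ix W.P.lg (W.CV I)) (O : SF W.P.lg)
    (tz : ∀ c, O.T c → (I.T c → W.P.Tab c) → W.P.Tab c), PP W.P I O tz →
    ∃ v1 : ℝ, 0 < v1 ∧ ∀ v0 : ℝ, 0 < v0 →
      ImplRS (ZMod l) a W.P.lg (.of (W.Rg Z N)) fun c x T => ∀ w : I.T c → W.P.Tab c,
        du x (W.benc N Z fun k => M.E c (w k)) ≤ δ ^ 2 * δ0 ^ 2 / 256 →
        (T < v1 → ∀ z, tz c z w = 0) ∧ ((∀ z, tz c z w = 0) → T ≤ v0)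

/-- Pointwise tests. -/
def G_point (M : Mem W) : Prop :=
  ∀ (I : SF W.P.lg) (N : Ix W.P.lg (W.CV I)) (O E : SF W.P.lg)
    (ty : ∀ c, O.T c → (I.T c → W.P.Tab c) → W.P.Tab c)
    (φ : ∀ c, E.T c → W.P.H c → Option (O.T c) → Option (O.T c) → W.P.F c), PP W.P I O ty →
    D3 (fun c (z : E.T c × W.P.H c) (u : Option (O.T c) × Option (O.T c)) =>
      φ c z.1 z.2 u.1 u.2) →
    ∃ v1 : ℝ, 0 < v1 ∧ ∀ v0 : ℝ, 0 < v0 →
      ImplRS (ZMod l) a W.P.lg (.of (W.Rg Z N)) fun c x T => ∀ w : I.T c → W.P.Tab c,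
        du x (W.benc N Z fun k => M.E c (w k)) ≤ δ ^ 2 * δ0 ^ 2 / 256 →
        (T < v1 → fr (W.P.H c) (fun h => ∃ e, qf (φ c e h) (fun o => ty c o w h) ≠ 0) < 1 / 3) ∧
        ((∀ h e, qf (φ c e h) (fun o => ty c o w h) = 0) → T ≤ v0)

/-- Encoding and decoding in polynomial time, distance and size. -/
def G_dec (M : Mem W) : Prop :=
  ∀ (I : SF W.P.lg) (N : Ix W.P.lg (W.CV I)),
    (∀ c, Nonempty ((W.Rg Z N).T c)) ∧ Sz a W.P.lg (fun c => Fintype.card ((W.Rg Z N).T c)) ∧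
    (∀ c (w w' : I.T c → W.P.Tab c), w ≠ w' → δ * δ0 ^ 2 / 2 ≤
      hd (W.benc N Z fun k => M.E c (w k)) (W.benc N Z fun k => M.E c (w' k))) ∧
    (∀ w : ∀ c, I.T c → W.P.Tab c, D3 w →
      PT fun z : Σ c, (W.Rg Z N).T c => W.benc N Z (fun k => M.E z.1 (w z.1 k)) z.2) ∧
    ∀ (B' : Type) [Enc B'] (p : B' → C) (u : ∀ b, (W.Rg Z N).T (p b) → ZMod l), PT p →
      PT (fun z : Σ b, (W.Rg Z N).T (p b) => u z.1 z.2) →
      ∃ v : ∀ b, I.T (p b) → W.P.Tab (p b), D3 v ∧ ∀ b (w : I.T (p b) → W.P.Tab (p b)),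
        hd (u b) (W.benc N Z fun k => M.E (p b) (w k)) ≤ δ * δ0 ^ 2 / 128 → v b = w

end World

/-- Linear forms are quadratic polynomials. -/
def G_qlin (l : ℕ) [Fact l.Prime] : Prop :=
  ∀ (C : Type) [Enc C] (Y : PS C l) (V J : Fam C) (co : ∀ c, J.T c → V.T c → Y.F c), D3 co →
    QF Y.Φ V J fun c j w => ∑ v, co c j v * w v

/-- Comparison of two families of nodes. -/
def G_cmp (l : ℕ) [Fact l.Prime] : Prop :=
  ∀ (C : Type) [Enc C] (a lg : C → ℕ) (I : Reg C) (Q : Fam C) (p q : ∀ c, Q.T c → I.T c) (κ : ℝ),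
    (∀ c, Nonempty (Q.T c)) → Sz a lg (fun c => Fintype.card (Q.T c)) → D2 p → D2 q →
    (∀ c u, fr (Q.T c) (fun t => p c t = u) ≤ κ * I.w c u) →
    (∀ c u, fr (Q.T c) (fun t => q c t = u) ≤ κ * I.w c u) → ∀ η : ℝ, 0 < η →
    ImplRS (ZMod l) a lg I fun c x r => ∀ v : Q.T c → ZMod l,
      du (fun t => x (p c t)) v ≤ r + η + du (fun t => x (q c t)) v ∧
      r ≤ η + du (fun t => x (p c t)) v + du (fun t => x (q c t)) v

end Vale.Agent.P330Q
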