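import Vale.Agent.P330Q.PrgD

/-! Expanding semidirect products: the interface. -/

namespace Vale.Agent.P330Q

open Vale.Agent.Lib.PolyTime Vale.Agent.P330 Finset
open scoped Classical BigOperators

/-- A family of split extensions `Γ` of a small group `Κ` by `HA l n`, expanding with respect to
the elements `gs`, with words in the generators `gen`. -/
structure GrpD (U : Type) [Enc U] (l : ℕ) [Fact l.Prime] (S Bt : Type) [Fintype S] [Enc Bt]
    (lam : ℝ) : Type 1 where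
  Γ : GF U
  Κ : GF U
  [finG : ∀ u, Fintype (Γ.G u)]
  [finK : ∀ u, Fintype (Κ.G u)]
  pfK : PFam Κ.G
  n : U → ℕ
  pt_n : PT n
  pb_n : PB n
  π : ∀ u, Γ.G u →* Κ.G u
  s : ∀ u, Κ.G u →* Γ.G u
  ι : ∀ u, HA l (n u) →* Γ.G u
  e : ∀ u, Γ.G u → HA l (n u)
  d_π : D2 fun u g => π u g
  d_s : D2 fun u k => s u k
  d_ι : D2 fun u h => ι u h
  d_e : D2 e
  π_s : ∀ u k, π u (s u k) = k
  π_ι : ∀ u h, π u (ι u h) = 1
  e_mk : ∀ u h k, e u (ι u h * s u k) = h
  dec : ∀ u g, ι u (e u g) * s u (π u g) = g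
  gs : ∀ u, S → Γ.G u
  d_gs : ∀ a, D fun u => gs u a
  gapR : ∀ u, P325.Gap (fun a g => g * gs u a) lam
  gapL : ∀ u, P325.Gap (fun a g => gs u a * g) lam
  gen : ∀ u, Bt → Γ.G u
  b1 : Bt
  wd : ∀ u, Γ.G u → List Bt
  d_gen : ∀ b, D fun u => gen u b
  gen_b1 : ∀ u, gen u b1 = 1
  pt_wd : PT fun z : Σ u, Γ.G u => wd z.1 z.2
  wd_eq : ∀ u g, ((wd u g).map (gen u)).prod = g

attribute [instance] GrpD.finG GrpD.finK

/-- Expanding groups of every prescribed rank, up to an additive constant. -/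
def GrpAt (l : ℕ) [Fact l.Prime] : Prop :=
  ∀ lam : ℝ, 0 < lam → ∃ (S Bt : Type) (_ : Fintype S) (_ : Enc S) (_ : Nonempty S)
    (_ : Fintype Bt) (_ : Enc Bt) (C : ℕ), ∀ (U : Type) [Enc U] (r0 : U → ℕ), PT r0 → PB r0 →
      ∃ Y : GrpD U l S Bt lam, ∀ u, r0 u ≤ Y.n u ∧ Y.n u ≤ r0 u + C

/-- The group block. -/
def GrpThm : Prop := ∃ L : ℕ, ∀ (l : ℕ) [Fact l.Prime], L ≤ l → GrpAt l

namespace GrpD
variable {U : Type} [Enc U] {l : ℕ} [Fact l.Prime] {S Bt : Type} [Fintype S] [Enc Bt] {lam : ℝ}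
  (Y : GrpD U l S Bt lam)

theorem π_mk (u : U) (h : HA l (Y.n u)) (k : Y.Κ.G u) : Y.π u (Y.ι u h * Y.s u k) = k := by
  rw [map_mul, Y.π_ι, Y.π_s, one_mul]

theorem ker (u : U) (g : Y.Γ.G u) : Y.π u g = 1 ↔ g ∈ (Y.ι u).range := by
  refine ⟨fun h => ⟨Y.e u g, ?_⟩, ?_⟩
  · have := Y.dec u g
    rwa [h, map_one, mul_one] at this
  · rintro ⟨h, rfl⟩
    exact Y.π_ι u h

theorem e_ι (u : U) (h : HA l (Y.n u)) : Y.e u (Y.ι u h) = h := by
  have := Y.e_mk u h 1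
  rwa [map_one, mul_one] at this

theorem e_s (u : U) (k : Y.Κ.G u) : Y.e u (Y.s u k) = 1 := by
  have := Y.e_mk u 1 k
  rwa [map_one, one_mul] at this

theorem ι_inj (u : U) : Function.Injective (Y.ι u) := fun a b h => by
  rw [← Y.e_ι u a, h, Y.e_ι]

theorem e_ι_mul (u : U) (h : HA l (Y.n u)) (g : Y.Γ.G u) :
    Y.e u (Y.ι u h * g) = h * Y.e u g := by
  conv_lhs => rw [← Y.dec u g, ← mul_assoc, ← map_mul]
  exact Y.e_mk u _ _

theorem π_ι_mul (u : U) (h : HA l (Y.n u)) (g : Y.Γ.G u) : Y.π u (Y.ι u h * g) = Y.π u g := by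
  rw [map_mul, Y.π_ι, one_mul]

/-- Coordinates on the big group. -/
def eqv (u : U) : Y.Γ.G u ≃ HA l (Y.n u) × Y.Κ.G u where
  toFun g := (Y.e u g, Y.π u g)
  invFun z := Y.ι u z.1 * Y.s u z.2
  left_inv := Y.dec u
  right_inv z := Prod.ext (Y.e_mk u _ _) (Y.π_mk u _ _)

theorem card_G (u : U) : Fintype.card (Y.Γ.G u) = l ^ Y.n u * Fintype.card (Y.Κ.G u) := by
  rw [Fintype.card_congr (Y.eqv u), Fintype.card_prod, Fintype.card_multiplicative]
  simp

/-- The big groups form a family over every base on which they have polynomial size. -/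
theorem pfam {C : Type} [Enc C] {p : C → U} (hp : PT p) (hb : PB fun c => l ^ Y.n (p c)) :
    PFam fun c => Y.Γ.G (p c) := by
  have h1 : PFam fun c => HA l (Y.n (p c)) :=
    PFam.fn (n := fun c => Y.n (p c)) (PFam.const (ZMod l)) (Y.pt_n.comp hp) (Y.pb_n.comp hp)
      (by simpa using hb)
  have q : PT fun z : Σ c, HA l (Y.n (p c)) × Y.Κ.G (p c) => p z.1 := hp.comp pt_sigma_fst
  exact (h1.prod (Y.pfK.comap hp)).of_bij (f := fun c z => Y.ι (p c) z.1 * Y.s (p c) z.2)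
    (Y.Γ.d_mul.app q (Y.d_ι.app q D.sigma_snd.fst) (Y.d_s.app q D.sigma_snd.snd))
    fun c => (Y.eqv (p c)).symm.bijective

/-- The small groups as a family. -/
@[reducible] def KF : Fam U := ⟨Y.Κ.G, Y.finK, Y.Κ.cod, Y.pfK⟩

/-- The big groups as a family. -/
@[reducible] def GFam {C : Type} [Enc C] (p : C → U) (hp : PT p)
    (hb : PB fun c => l ^ Y.n (p c)) : Fam C :=
  ⟨fun c => Y.Γ.G (p c), fun c => Y.finG (p c), fun c => Y.Γ.cod (p c), Y.pfam hp hb⟩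

end GrpD

/-- Repetition of ports keeps the gap. -/
theorem gap_ports {S S' T X : Type} [Fintype S] [Fintype S'] [Fintype T] [Nonempty T] [Fintype X]
    {π : S → X → X} {lam : ℝ} (h : P325.Gap π lam) (q : S' ≃ S × T) :
    P325.Gap (fun a => π (q a).1) lam := by
  intro f hf
  have e : ∀ x, (𝔼 a, f (π (q a).1 x)) = 𝔼 a, f (π a x) := fun x => by
    rw [Fintype.expect_equiv q _ (fun z => f (π z.1 x)) fun _ => rfl, ← univ_product_univ,
      expect_product]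
    simp
  simp only [e]
  exact h f hf

end Vale.Agent.P330Q
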