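import Vale.Agent.P330Q.GrpD
import Vale.Agent.P330.HeisD

/-! Statements of the pieces of the group block. -/

namespace Vale.Agent.P330Q

open Vale.Agent.Lib.PolyTime Vale.Agent.P330 Vale.Agent.P330.Exp Finset Module
open scoped Classical BigOperators

/-- A Kazhdan type inequality for the family `s`. -/
def Kaz {G J : Type} [Group G] (s : J → G) (c : ℝ) : Prop :=
  ∀ (V : Type) [NormedAddCommGroup V] [InnerProductSpace ℝ V] (ρ : G → V →ₗᵢ[ℝ] V), Rep ρ →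
    ∀ (v : V) (e : ℝ), (∀ j, ‖ρ (s j) v - v‖ ≤ e) → ∀ g, ‖ρ g v - v‖ ≤ c * e

/-- Small groups with Kazhdan generators. -/
structure SmG (U : Type) [Enc U] (J : Type) (c : ℝ) : Type 1 where
  Κ : GF U
  [fin : ∀ u, Fintype (Κ.G u)]
  pf : PFam Κ.G
  kg : ∀ u, J → Κ.G u
  d_kg : ∀ j, D fun u => kg u j
  kaz : ∀ u, Kaz (kg u) c

attribute [instance] SmG.fin

/-- An invariant code of length `Κ × X` in echelon form, given by its columns. -/
structure ModD {U : Type} [Enc U] (l : ℕ) [Fact l.Prime] {J : Type} {c : ℝ} (T : SmG U J c)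
    (X : Type) [Fintype X] [Enc X] (δ : ℝ) : Type where
  n : U → ℕ
  pt_n : PT n
  pb_n : PB n
  b : ∀ u, T.Κ.G u × X → Fin (n u) → ZMod l
  p : ∀ u, Fin (n u) → T.Κ.G u × X
  pt_b : PT fun z : Σ u, (T.Κ.G u × X) × Fin (n u) => b z.1 z.2.1 z.2.2
  d_p : D2 p
  piv : ∀ u i, b u (p u i) = Pi.single i 1
  inv : ∀ u k k' x j, b u (k * k', x) j = ∑ i, b u (k * (p u i).1, (p u i).2) j * b u (k', x) i
  dist : ∀ u (t : Fin (n u) → ZMod l), t ≠ 0 →
    δ ≤ fr (T.Κ.G u × X) fun z => ∑ i, t i * b u z i ≠ 0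

/-- Fourier analysis on the elementary abelian group. -/
def S_four : Prop := ∀ (l : ℕ) [Fact l.Prime] (δ : ℝ), 0 < δ → ∃ c : ℝ, 1 ≤ c ∧
  ∀ (n : ℕ) (X : Type) [Fintype X] [Nonempty X] (b : X → Fin n → ZMod l),
    (∀ t : Fin n → ZMod l, t ≠ 0 → δ ≤ fr X fun x => ∑ i, t i * b x i ≠ 0) →
    Kaz (G := HA l n) (fun x => Multiplicative.ofAdd (b x)) c

/-- From the Kazhdan inequality to the spectral gap. -/
def S_gap : Prop := ∀ (G J : Type) [Group G] [Fintype G] [Fintype J] (s : J → G) (j0 : J) (c : ℝ),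
  1 ≤ c → s j0 = 1 → Kaz s c →
    P325.Gap (fun a g => g * s a) (1 - 1 / (4 * c ^ 2) / Fintype.card J) ∧
    P325.Gap (fun a g => s a * g) (1 - 1 / (4 * c ^ 2) / Fintype.card J)

/-- Words in small groups. -/
def S_wd : Prop := ∀ (U : Type) [Enc U] (J : Type) [Fintype J] [Enc J] (c : ℝ) (T : SmG U J c),
  ∃ wd : ∀ u, T.Κ.G u → List J, PT (fun z : Σ u, T.Κ.G u => wd z.1 z.2) ∧
    ∀ u k, ((wd u k).map (T.kg u)).prod = k

/-- The semidirect product. -/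
def S_semi : Prop := ∀ (l : ℕ) [Fact l.Prime] (J X : Type) [Fintype J] [Enc J] [Fintype X] [Enc X]
  [Nonempty X] (c δ lam : ℝ), 1 ≤ c → 0 < δ → 0 < lam →
  ∃ (S Bt : Type) (_ : Fintype S) (_ : Enc S) (_ : Nonempty S) (_ : Fintype Bt) (_ : Enc Bt),
    ∀ (U : Type) [Enc U] (T : SmG U J c) (Z : ModD l T X δ),
      ∃ Y : GrpD U l S Bt lam, Y.n = Z.n

/-- Echelon bases of kernels in polynomial time. -/
def S_ech : Prop := ∀ (l : ℕ) [Fact l.Prime] (U : Type) [Enc U] (X Y : U → Type)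
  [∀ u, Enc (X u)] [∀ u, Enc (Y u)] [∀ u, Fintype (X u)] [∀ u, Fintype (Y u)], PFam X → PFam Y →
  ∀ A : ∀ u, Y u → X u → ZMod l, PT (fun z : Σ u, Y u × X u => A z.1 z.2.1 z.2.2) →
  ∃ (n : U → ℕ) (w : ∀ u, X u → Fin (n u) → ZMod l) (p : ∀ u, Fin (n u) → X u), PT n ∧ PB n ∧
    PT (fun z : Σ u, X u × Fin (n u) => w z.1 z.2.1 z.2.2) ∧ D2 p ∧ ∀ u,
      (∀ i, w u (p u i) = Pi.single i 1) ∧ (∀ i y, ∑ x, A u y x * w u x i = 0) ∧
      (∀ v : X u → ZMod l, (∀ y, ∑ x, A u y x * v x = 0) → ∀ x, v x = ∑ i, v (p u i) * w u x i) ∧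
      ∀ W : Submodule (ZMod l) (X u → ZMod l), (∀ v, v ∈ W ↔ ∀ y, ∑ x, A u y x * v x = 0) →
        n u = finrank (ZMod l) W

section
variable {F K S : Type} [Field F] [Group K] [Fintype K]

/-- The average over a subgroup acting on the left. -/
noncomputable def avgN (N : Subgroup K) : (K × S → F) →ₗ[F] (K × S → F) where
  toFun w x := ∑ g, (if g ∈ N then (Nat.card N : F)⁻¹ else 0) * w (g * x.1, x.2)
  map_add' w w' := funext fun x => by simp only [Pi.add_apply, mul_add, sum_add_distrib]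
  map_smul' t w := funext fun x => by
    simp only [Pi.smul_apply, smul_eq_mul, RingHom.id_apply, mul_sum, mul_left_comm t]

/-- The new part at level `j`. -/
noncomputable def lev (N : ℕ → Subgroup K) : ℕ → (K × S → F) →ₗ[F] (K × S → F)
  | 0 => avgN (N 0)
  | j + 1 => avgN (N (j + 1)) - avgN (N j)

/-- Words with components only at the levels in `J`. -/
noncomputable def subJ (V : Submodule F (K × S → F)) (N : ℕ → Subgroup K) (r : ℕ)
    (J : Finset ℕ) : Submodule F (K × S → F) where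
  carrier := {w | w ∈ V ∧ ∀ j ≤ r, j ∉ J → lev N j w = 0}
  add_mem' ha hb := ⟨V.add_mem ha.1 hb.1, fun j h h' => by
    rw [map_add, ha.2 j h h', hb.2 j h h', add_zero]⟩
  zero_mem' := ⟨V.zero_mem, fun j _ _ => map_zero _⟩
  smul_mem' t w hw := ⟨V.smul_mem t hw.1, fun j h h' => by
    rw [map_smul, hw.2 j h h', smul_zero]⟩

omit [Fintype K] in
/-- Words invariant under a subgroup. -/
def invS (F S : Type) [Field F] (N : Subgroup K) : Submodule F (K × S → F) where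
  carrier := {w | ∀ g ∈ N, ∀ x : K × S, w (g * x.1, x.2) = w x}
  add_mem' ha hb g h x := by simp only [Pi.add_apply, ha g h x, hb g h x]
  zero_mem' _ _ _ := rfl
  smul_mem' t w hw g h x := by simp only [Pi.smul_apply, hw g h x]

omit [Fintype K] in
/-- The Tanner code of a Cayley graph as a subspace. -/
def tsubK (C0 : Submodule F (S → F)) (a : S → K) : Submodule F (K × S → F) where
  carrier := {y | (∀ g, (fun s => y (g, s)) ∈ C0) ∧ ∀ h, (fun s => y (h * (a s)⁻¹, s)) ∈ C0}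
  add_mem' ha hb := ⟨fun g => C0.add_mem (ha.1 g) (hb.1 g), fun g => C0.add_mem (ha.2 g) (hb.2 g)⟩
  zero_mem' := ⟨fun _ => C0.zero_mem, fun _ => C0.zero_mem⟩
  smul_mem' t _ hw := ⟨fun g => C0.smul_mem t (hw.1 g), fun g => C0.smul_mem t (hw.2 g)⟩

end

/-- The decomposition into levels. -/
def S_lev : Prop := ∀ (F K S : Type) [Field F] [Group K] [Fintype K] [Fintype S]
  (V : Submodule F (K × S → F)), (∀ g : K, ∀ w ∈ V, (fun x : K × S => w (g * x.1, x.2)) ∈ V) →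
  ∀ (N : ℕ → Subgroup K) (r : ℕ), (∀ j, (N j).Normal) → (∀ j, N (j + 1) ≤ N j) → N r = ⊥ →
  (∀ j, (Nat.card (N j) : F) ≠ 0) → ∃ d : ℕ → ℕ,
    (∀ j, ∑ i ∈ range (j + 1), d i = finrank F ↥(V ⊓ invS F S (N j))) ∧
    ∀ J ⊆ range (r + 1), finrank F (subJ V N r J) = ∑ j ∈ J, d j ∧
      ∀ g : K, ∀ w ∈ subJ V N r J, (fun x : K × S => w (g * x.1, x.2)) ∈ subJ V N r J

/-- Dimensions of the invariant parts. -/
def S_dim : Prop := ∀ (F K S : Type) [Field F] [Group K] [Fintype K] [Fintype S]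
  (C0 : Submodule F (S → F)) (a : S → K) (N : Subgroup K),
  Fintype.card S < 2 * finrank F C0 →
    N.index ≤ finrank F ↥(tsubK C0 a ⊓ invS F S N) ∧
    finrank F ↥(tsubK C0 a ⊓ invS F S N) ≤ N.index * Fintype.card S

/-- Congruence subgroups. -/
def S_cong : Prop := ∃ N : ∀ r, ℕ → Subgroup (SL3 (RR r)), ∀ r j,
  (∀ g, g ∈ N r j ↔ ∀ a b, ∀ i ≤ j, co (g a b) i = co ((1 : SL3 (RR r)) a b) i) ∧
  (N r j).Normal ∧ N r (j + 1) ≤ N r j ∧ (N r (j + 1)).index ≤ 512 * (N r j).index ∧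
  (N r 0).index ≤ 512 ∧ N r r = ⊥ ∧ (∃ e, Nat.card (N r j) = 2 ^ e) ∧
  2 ^ r ≤ Fintype.card (SL3 (RR r))

/-- Greedy digits. -/
def S_dig : Prop := ∀ (d : ℕ → ℕ) (M r t : ℕ), (∀ j, d (j + 1) ≤ M * ∑ i ∈ range (j + 1), d i) →
  t ≤ M * ∑ i ∈ range (r + 1), d i → ∃ m : ℕ → ℕ, (∀ j, m j ≤ M) ∧
    t ≤ ∑ j ∈ range (r + 1), m j * d j ∧ ∑ j ∈ range (r + 1), m j * d j ≤ t + d 0

/-- The groups `SL₃` as a family. -/
@[reducible] noncomputable def SLG {U : Type} [Enc U] {r : U → ℕ} (hr : Sm r) (h1 : ∀ u, 0 < r u) :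
    SmG U JJ 170 where
  Κ := { G := fun u => SL3 (RR (r u))
         d_one := d_gone hr
         d_mul := d_gmul (hr.sig _) D.sigma_snd.fst D.sigma_snd.snd
         d_inv := (d_gpow (hr.sig _) D.sigma_snd
          (n := fun z => Fintype.card (SL3 (RR (r z.1))) - 1)
          (((pfam_SL hr).pt_card.comp pt_sigma_fst).sub (PT.const 1))
          (((pfam_SL hr).pb_card.comp pt_sigma_fst).of_le fun _ => Nat.sub_le _ _)).congr
            fun z => inv_eq_of_mul_eq_one_left (by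
              rw [← pow_succ, Nat.sub_add_cancel Fintype.card_pos, pow_card_eq_one]) }
  pf := pfam_SL hr
  kg u := gen (r u)
  d_kg := d_gen hr
  kaz u V _ _ ρ hρ v e he := kazhdan (good_RR (h1 u)) hρ v fun i j h =>
    ⟨by have := he (i, j, false); rwa [gen, dif_pos h] at this,
      by have := he (i, j, true); rwa [gen, dif_pos h] at this⟩

/-- Invariant codes of prescribed dimension. -/
def S_mod : Prop := ∃ L : ℕ, ∀ (l : ℕ) [Fact l.Prime], L ≤ l →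
  ∃ (X : Type) (_ : Fintype X) (_ : Enc X) (_ : Nonempty X) (δ : ℝ) (C : ℕ), 0 < δ ∧
    ∀ (U : Type) [Enc U] (r0 : U → ℕ), PT r0 → PB r0 →
      ∃ (T : SmG U JJ 170) (Z : ModD l T X δ), ∀ u, r0 u ≤ Z.n u ∧ Z.n u ≤ r0 u + C

theorem grp_of (h1 : S_mod) (h2 : S_semi) : GrpThm := by
  obtain ⟨L, h1⟩ := h1
  refine ⟨L, fun l _ hl lam hlam => ?_⟩
  obtain ⟨X, _, _, _, δ, C, hδ, H⟩ := h1 l hl
  obtain ⟨S, Bt, _, _, _, _, _, H'⟩ := h2 l JJ X 170 δ lam (by norm_num) hδ hlam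
  refine ⟨S, Bt, inferInstance, inferInstance, inferInstance, inferInstance, inferInstance, C,
    fun U _ r0 a b => ?_⟩
  obtain ⟨T, Z, hZ⟩ := H U r0 a b
  obtain ⟨Y, hY⟩ := H' U T Z
  exact ⟨Y, fun u => hY ▸ hZ u⟩

end Vale.Agent.P330Q
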