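import Vale.Agent.P330Q.PrgS

/-! Rules for the action of a group algebra on words. -/

namespace Vale.Agent.P330Q

open Vale.Agent.Lib.PolyTime Vale.Agent.P330 Finset
open scoped Classical BigOperators

namespace KAct

variable {F G X : Type} [Field F] [Group G] [MulAction G X]

/-- The action of the group on words. -/
def sh (F G X : Type) [Field F] [Group G] [MulAction G X] : G →* Module.End F (X → F) where
  toFun g := LinearMap.funLeft F F fun x => g⁻¹ • x
  map_one' := by
    ext w x
    simp [LinearMap.funLeft_apply]
  map_mul' g h := by
    refine LinearMap.ext fun w => funext fun x => ?_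
    simp [LinearMap.funLeft_apply, mul_smul]

/-- The action of the group algebra on words. -/
noncomputable def rho (F G X : Type) [Field F] [Group G] [MulAction G X] :
    MonoidAlgebra F G →ₐ[F] Module.End F (X → F) :=
  MonoidAlgebra.lift F (Module.End F (X → F)) G (sh F G X)

theorem act_eq (a : MonoidAlgebra F G) (w : X → F) : act a w = rho F G X a w := by
  funext x
  simp only [act, rho, MonoidAlgebra.lift_apply, Finsupp.sum, LinearMap.sum_apply,
    Finset.sum_apply, LinearMap.smul_apply, Pi.smul_apply, smul_eq_mul]
  rfl

theorem act_single (g : G) (t : F) (w : X → F) (x : X) :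
    act (MonoidAlgebra.single g t) w x = t * w (g⁻¹ • x) := by
  rw [act_eq, rho, MonoidAlgebra.lift_single]
  rfl

theorem act_add (a b : MonoidAlgebra F G) (w : X → F) : act (a + b) w = act a w + act b w := by
  simp only [act_eq, map_add, LinearMap.add_apply]

theorem act_zero (w : X → F) : act (0 : MonoidAlgebra F G) w = 0 := by
  simp only [act_eq, map_zero, LinearMap.zero_apply]

theorem actM_eq {J I : Type} [Fintype I] (m : Matrix J I (MonoidAlgebra F G)) (w : I → X → F)
    (j : J) : actM m w j = ∑ i, rho F G X (m j i) (w i) := by
  funext x
  simp only [actM, act_eq, Finset.sum_apply]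

end KAct

open KAct in
theorem s_act : S_act := by
  intro F G X _ _ _
  refine ⟨act_single, fun a b w => ⟨?_, act_add a b w⟩, fun a t w w' => ⟨?_, ?_, ?_⟩,
    fun w => ⟨act_zero w, ?_⟩, fun K J I _ _ m m' w => ?_, fun I _ w => ?_,
    fun J I _ M w j x => ?_, fun J I _ A B g w j x => ?_, fun H _ ι e c h a w => ?_⟩
  · simp only [act_eq, map_mul, Module.End.mul_apply]
  · simp only [act_eq, map_add]
  · simp only [act_eq, map_smul]
  · simp only [act_eq, map_smul, LinearMap.smul_apply]
  · simp only [act_eq, map_one, Module.End.one_apply]
  · funext k
    simp only [actM_eq, Matrix.mul_apply, map_sum, map_mul, LinearMap.sum_apply,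
      Module.End.mul_apply]
    exact Finset.sum_comm
  · funext i
    rw [actM_eq, Finset.sum_eq_single i (fun j _ h => by simp [Matrix.one_apply_ne h.symm])
      (by simp)]
    simp
  · simp only [actM, cst, act_single, inv_one, one_smul]
  · simp only [actM, act_add, Pi.add_apply, act_single, inv_one, one_smul]
  · induction a using MonoidAlgebra.induction_linear with
    | zero =>
      funext x
      simp [act_zero]
    | add a b ha hb =>
      funext x
      rw [MonoidAlgebra.mapDomain_add, act_add, ha, hb]
      simp [add_mul]
    | single g t =>
      funext x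
      rw [MonoidAlgebra.mapDomain_single, act_single, ← map_inv, (h _ _).1, (h _ _).2, mul_assoc,
        MonoidAlgebra.coeff_single_mul_apply]

end Vale.Agent.P330Q
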