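import Vale.Agent.P330Q.PrgS

/-! Rules for the augmentation and the derivations of a group algebra. -/

namespace Vale.Agent.P330Q

open Vale.Agent.Lib.PolyTime Vale.Agent.P330 Finset Polynomial
open scoped Classical BigOperators

namespace KDer

variable {l r : ℕ} [Fact l.Prime] {F : Type} [Field F] [Algebra (ZMod l) F]

theorem co (i : Fin r) (a : MonoidAlgebra F (HA l r)) (h : HA l r) :
    (der i a).coeff h = algebraMap (ZMod l) F (h.toAdd i) * a.coeff h := by
  unfold der
  simp only [MonoidAlgebra.coeff_finsuppSum, Finsupp.sum_apply, MonoidAlgebra.coeff_single,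
    Finsupp.single_apply, Finsupp.sum_ite_eq']
  split_ifs with k
  · rfl
  · rw [Finsupp.notMem_support_iff.1 k, mul_zero]

/-- the derivation as a linear map -/
noncomputable def dl (i : Fin r) : MonoidAlgebra F (HA l r) →ₗ[F] MonoidAlgebra F (HA l r) where
  toFun := der i
  map_add' a b := by
    ext h
    simp only [co, MonoidAlgebra.coeff_add, Finsupp.add_apply, mul_add]
  map_smul' t a := by
    ext h
    simp only [co, MonoidAlgebra.coeff_smul_apply, smul_eq_mul, RingHom.id_apply, mul_left_comm]

theorem dl_co (i : Fin r) (a : MonoidAlgebra F (HA l r)) (h : HA l r) :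
    (dl i a).coeff h = algebraMap (ZMod l) F (h.toAdd i) * a.coeff h := co i a h

theorem dl_single (i : Fin r) (h : HA l r) (t : F) : dl i (MonoidAlgebra.single h t) =
    MonoidAlgebra.single h (algebraMap (ZMod l) F (h.toAdd i) * t) := by
  ext g
  simp only [dl_co, MonoidAlgebra.coeff_single, Finsupp.single_apply]
  split_ifs with k
  · rw [k]
  · exact mul_zero _

theorem dl_mul (i : Fin r) (a b : MonoidAlgebra F (HA l r)) :
    dl i (a * b) = dl i a * b + a * dl i b := by
  induction a using MonoidAlgebra.induction_linear with
  | zero => simp only [zero_mul, map_zero, add_zero]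
  | add x y hx hy =>
    simp only [add_mul, map_add, hx, hy]
    abel
  | single g s =>
    induction b using MonoidAlgebra.induction_linear with
    | zero => simp only [mul_zero, map_zero, add_zero]
    | add x y hx hy =>
      simp only [mul_add, map_add, hx, hy]
      abel
    | single h t =>
      simp only [MonoidAlgebra.single_mul_single, dl_single, ← MonoidAlgebra.single_add,
        toAdd_mul, Pi.add_apply, map_add]
      congr 1
      ring

end KDer

open KDer

theorem s_der : S_der := by
  refine ⟨fun F G _ _ => ?_, fun l r _ F _ _ i => ⟨dl i, fun _ => rfl, dl_single i, dl_co i,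
    dl_mul i, fun c μ w h k => ?_⟩⟩
  · have e : ∀ a, MonoidAlgebra.lift F F G 1 a = aug a := fun a => by
      simp only [MonoidAlgebra.lift_apply, MonoidHom.one_apply, smul_eq_mul, mul_one, aug]
    refine ⟨MonoidAlgebra.lift F F G 1, fun a => (e a).symm, fun g t => ?_, fun a => ?_⟩
    · rw [MonoidAlgebra.lift_single, MonoidHom.one_apply, smul_eq_mul, mul_one]
    · rw [e, aug, Finsupp.sum_fintype _ _ fun _ => rfl]
  · have e : dl i (w * c) = dl i w * c + μ * w * c := by
      rw [dl_mul, ← k]
      ring
    rw [← dl_co, e, MonoidAlgebra.coeff_add, Finsupp.add_apply, add_sub_cancel_right]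

end Vale.Agent.P330Q
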