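import Vale.Agent.P330Q.PrgS

/-! An element of large degree is not the inverse of an eigenvalue. -/

namespace Vale.Agent.P330Q

open Vale.Agent.Lib.PolyTime Vale.Agent.P330 Finset Polynomial
open scoped Classical BigOperators

namespace KEig

theorem unit {k F I : Type} [Field k] [Field F] [Algebra k F] [Fintype I] (θ : F)
    (M : I → I → k) (h : ∀ p : k[X], p ≠ 0 → p.natDegree ≤ Fintype.card I → aeval θ p ≠ 0) :
    IsUnit (Matrix.of fun i j => (if i = j then 1 else 0) - θ * algebraMap k F (M i j)) := by
  have h0 : (Matrix.of M).charpolyRev ≠ 0 := fun e => by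
    have h1 := Matrix.eval_charpolyRev (M := Matrix.of M)
    rw [e, eval_zero] at h1
    exact zero_ne_one h1
  have h1 : (Matrix.of M).charpolyRev.natDegree ≤ Fintype.card I := by
    rw [← Matrix.reverse_charpoly]
    exact (reverse_natDegree_le _).trans (Matrix.charpoly_natDegree_eq_dim _).le
  have h2 := h _ h0 h1
  rw [Matrix.charpolyRev, AlgHom.map_det] at h2
  have e : (aeval θ : k[X] →ₐ[k] F).mapMatrix (1 - (X : k[X]) • (Matrix.of M).map C) =
      Matrix.of fun i j => (if i = j then 1 else 0) - θ * algebraMap k F (M i j) := by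
    ext i j
    rw [Matrix.of_apply, mul_comm θ]
    by_cases hij : i = j <;> simp [hij]
  rw [e] at h2
  exact (Matrix.isUnit_iff_isUnit_det _).2 (isUnit_iff_ne_zero.2 h2)

end KEig

theorem s_eig : S_eig := by
  intro k F I _ _ _ _ θ M h
  refine ⟨KEig.unit θ M h, fun v x hx i hv hi => ?_⟩
  have hu := KEig.unit θ (fun j t => M j t - v j * (v i)⁻¹ * M i t) h
  have hv' : algebraMap k F (v i) ≠ 0 := (_root_.map_ne_zero _).2 hv
  have h1 : θ * ∑ t, algebraMap k F (M i t) * x t = -algebraMap k F (v i) := by
    have h2 := hx i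
    rw [hi] at h2
    exact eq_neg_of_add_eq_zero_right h2.symm
  have h0 : x = 0 := by
    refine Matrix.mulVec_injective_of_isUnit hu ?_
    rw [Matrix.mulVec_zero]
    funext j
    have e : ∀ t, ((if j = t then 1 else 0) -
        θ * algebraMap k F (M j t - v j * (v i)⁻¹ * M i t)) * x t =
        (if j = t then x t else 0) - θ * (algebraMap k F (M j t) * x t) +
          algebraMap k F (v j) * (algebraMap k F (v i))⁻¹ *
            (θ * (algebraMap k F (M i t) * x t)) := fun t => by
      rw [map_sub, map_mul, map_mul, map_inv₀]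
      split_ifs <;> ring
    simp only [Matrix.mulVec, dotProduct, Matrix.of_apply, e, sum_add_distrib, sum_sub_distrib,
      sum_ite_eq, mem_univ, if_true, ← mul_sum, h1, Pi.zero_apply]
    rw [mul_neg, inv_mul_cancel_right₀ hv']
    have h3 := hx j
    linear_combination h3
  rw [h0] at h1
  simp only [Pi.zero_apply, mul_zero, sum_const_zero] at h1
  exact hv' (neg_eq_zero.1 h1.symm)

end Vale.Agent.P330Q
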