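import Vale.Agent.P330Q.MemD

/-! Rules for words on the big group. -/

namespace Vale.Agent.P330Q

open Vale.Agent.Lib.PolyTime Vale.Agent.P330 Finset
open scoped Classical BigOperators

namespace KEnc

theorem view {F G S : Type} [Field F] [Group G] (C : Submodule F (S → F)) (a : MonoidAlgebra F G)
    (t : G × S → F) (β : S → G) (h : ∀ g, (fun s => t (g * β s, s)) ∈ C) (g : G) :
    (fun s => actL a t (g * β s, s)) ∈ C := by
  have e : (fun s => actL a t (g * β s, s)) =
      ∑ k ∈ a.coeff.support, a.coeff k • fun s => t (k⁻¹ * g * β s, s) := by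
    funext s
    rw [Finset.sum_apply]
    refine sum_congr rfl fun k _ => ?_
    show a.coeff k * t (k⁻¹ * (g * β s), s) = a.coeff k * t (k⁻¹ * g * β s, s)
    rw [mul_assoc]
  rw [e]
  exact C.sum_mem fun k _ => C.smul_mem _ (h _)

end KEnc

theorem s_enc (ha : S_act) (hd : S_der) : S_enc := by
  intro U _ l _ S0 Bt _ _ lam Y u F S _ _
  refine ⟨fun CL CR γ a t ht => ⟨fun g => ?_, fun g => ?_⟩, fun c => ⟨fun a w => ?_,
    fun w w' t => ⟨funext fun x => ?_, funext fun x => ?_⟩,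
    fun s0 h0 => ⟨fun w g => ?_, fun a w g s => ?_, fun i w g s => ?_⟩⟩⟩
  · simpa only [mul_one] using KEnc.view CL a t (fun _ => 1) (by simpa only [mul_one] using ht.1) g
  · exact KEnc.view CR a t (fun s => (γ s)⁻¹) ht.2 g
  · let := lAct (Y.Γ.G u) S
    exact (ha F (Y.Γ.G u) (Y.Γ.G u × S)).2.2.2.2.2.2.2.2 _ (Y.ι u) (fun x => Y.e u x.1)
      (fun x => c (Y.π u x.1, x.2))
      (fun h x => ⟨Y.e_ι_mul u h x.1, congrArg (fun k => c (k, x.2)) (Y.π_ι_mul u h x.1)⟩) a w
  · simp [GrpD.enc, add_mul]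
  · simp [GrpD.enc]
  · simp only [GrpD.enc, h0, mul_one]
  · simp only [GrpD.enc, h0, mul_one]
    rw [mul_comm (a * w), mul_assoc]
  · obtain ⟨δ, e1, -, e2, e3, -⟩ := hd.2 l (Y.n u) F i
    simp only [GrpD.enc, h0, mul_one, e1]
    rw [← e2, e3, mul_comm w]
    simp

end Vale.Agent.P330Q
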