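import Vale.Agent.P330Q.PrgS
import Vale.Agent.P330.Prob

/-! Extension of scalars and scaling of a local code. -/

namespace Vale.Agent.P330Q

open Vale.Agent.Lib.PolyTime Vale.Agent.P330 Finset Polynomial
open scoped Classical BigOperators

namespace KExt

variable {k F S : Type} [Field k] [Field F] [Algebra k F]

theorem mem_ext (C0 : Submodule k (S → k)) (v : S → F) :
    v ∈ extC F C0 ↔ ∀ φ : F →ₗ[k] k, (fun s => φ (v s)) ∈ C0 := Iff.rfl

theorem mem_tw (C : Submodule F (S → F)) (ω v : S → F) :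
    v ∈ twC C ω ↔ (fun s => ω s * v s) ∈ C := Iff.rfl

theorem eq_of_dual {x y : F} (h : ∀ φ : F →ₗ[k] k, φ x = φ y) : x = y :=
  sub_eq_zero.1 ((Module.forall_dual_apply_eq_zero_iff k (x - y)).1 fun φ => by
    rw [map_sub, h φ, sub_self])

theorem dist [Fintype S] (C0 : Submodule k (S → k)) (δ0 : ℝ) (h : Dist0 C0 δ0) (ω : S → F)
    (hω : ∀ s, ω s ≠ 0) : Dist0 (twC (extC F C0) ω) δ0 := by
  intro c hc hc0
  obtain ⟨s, hs⟩ := Function.ne_iff.1 hc0
  have h1 : ω s * c s ≠ 0 := mul_ne_zero (hω s) hs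
  obtain ⟨φ, hφ⟩ := not_forall.1 fun h2 =>
    h1 ((Module.forall_dual_apply_eq_zero_iff k (ω s * c s)).1 h2)
  have h3 : (fun t => φ (ω t * c t)) ∈ C0 := (mem_ext C0 _).1 ((mem_tw _ ω c).1 hc) φ
  refine (h _ h3 fun e => hφ (congrFun e s)).trans (fr_mono fun t ht e => ht ?_)
  rw [e, mul_zero, map_zero]

theorem coord (C0 : Submodule k (S → k)) (n : ℕ) (co : F ≃ₗ[k] (Fin n → k)) (v : S → F) :
    v ∈ extC F C0 ↔ ∀ i, (fun s => co (v s) i) ∈ C0 := by
  rw [mem_ext]
  refine ⟨fun h i => h ((LinearMap.proj i).comp co.toLinearMap), fun h φ => ?_⟩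
  have e : (fun s => φ (v s)) =
      ∑ i, φ (co.symm (Pi.single i 1)) • fun s => co (v s) i := by
    funext s
    rw [Finset.sum_apply]
    conv_lhs => rw [← co.symm_apply_apply (v s), pi_eq_sum_univ' (co (v s))]
    rw [map_sum, map_sum]
    exact Finset.sum_congr rfl fun i _ => by
      rw [map_smul, map_smul, Pi.smul_apply, smul_eq_mul, smul_eq_mul, mul_comm]
  rw [e]
  exact C0.sum_mem fun i _ => C0.smul_mem _ (h i)

theorem sum_eq [Fintype S] (ck : S → Prop) (E : S → S → k) (θ : F) (v : S → F)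
    (φ : F →ₗ[k] k) (s : S) :
    φ (∑ t, if ck t then 0 else θ * algebraMap k F (E s t) * v t) =
      ∑ t, if ck t then 0 else E s t * φ ((if ck t then 1 else θ) * v t) := by
  rw [map_sum]
  refine Finset.sum_congr rfl fun t _ => ?_
  by_cases ht : ck t
  · rw [if_pos ht, if_pos ht, map_zero]
  · rw [if_neg ht, if_neg ht, if_neg ht, ← smul_eq_mul (E s t), ← map_smul, Algebra.smul_def,
      mul_comm θ, mul_assoc]

theorem sys [Fintype S] (C0 : Submodule k (S → k)) (ck : S → Prop) (E : S → S → k)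
    (h : Sys C0 ck E) (θ : F) (v : S → F) : v ∈ thC C0 ck θ ↔
    ∀ s, ck s → v s = ∑ t, if ck t then 0 else θ * algebraMap k F (E s t) * v t := by
  rw [thC, mem_tw, mem_ext]
  constructor
  · intro h1 s hs
    refine eq_of_dual (k := k) fun φ => ?_
    have h2 := (h _).1 (h1 φ) s hs
    rw [if_pos hs, one_mul] at h2
    rw [sum_eq, h2]
  · intro h1 φ
    refine (h _).2 fun s hs => ?_
    rw [if_pos hs, one_mul, ← sum_eq, ← h1 s hs]

end KExt

theorem s_ext : S_ext := fun _ _ _ _ _ _ _ C0 =>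
  ⟨KExt.dist C0, KExt.coord C0, KExt.sys C0⟩

end Vale.Agent.P330Q
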