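import Vale.Agent.P330Q.PrgS

/-! Fixed point systems are solved by programs. -/

namespace Vale.Agent.P330Q

open Vale.Agent.Lib.PolyTime Vale.Agent.P330 Finset Polynomial
open scoped Classical BigOperators

namespace KFix

theorem coeff_fix {k F G K I : Type} [Field k] [Field F] [Algebra k F] [Group G] [Group K]
    (π : G →* K) (θ : F) (M : I → I → k) (g : I → I → G) (j i : I) (c : K) :
    (MonoidAlgebra.mapDomain π (fixM θ M g j i)).coeff c =
      (if j = i ∧ c = 1 then 1 else 0) -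
        if π (g j i) = c then θ * algebraMap k F (M j i) else 0 := by
  have e : MonoidAlgebra.mapDomain π (fixM θ M g j i) =
      (if j = i then 1 else 0) - MonoidAlgebra.single (π (g j i)) (θ * algebraMap k F (M j i)) := by
    show MonoidAlgebra.mapDomainRingHom F π (fixM θ M g j i) = _
    unfold fixM
    rw [map_sub, apply_ite (MonoidAlgebra.mapDomainRingHom F π), map_one, map_zero]
    congr 1
    exact MonoidAlgebra.mapDomain_single
  rw [e, MonoidAlgebra.coeff_sub, Finsupp.sub_apply, MonoidAlgebra.coeff_single,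
    Finsupp.single_apply]
  congr 1
  by_cases h : j = i
  · rw [if_pos h, MonoidAlgebra.one_def, MonoidAlgebra.coeff_single, Finsupp.single_apply]
    simp only [h, true_and, eq_comm]
  · simp [h]

theorem unit_dec {F I : Type} [Field F] [Fintype I] {d d' : DecidableEq I} {A B : Matrix I I F}
    (h : @IsUnit _ (@Matrix.semiring I F _ _ d).toMonoid A) (e : A = B) :
    @IsUnit _ (@Matrix.semiring I F _ _ d').toMonoid B := by
  obtain rfl : d = d' := Subsingleton.elim _ _
  exact e ▸ h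

end KFix

theorem fixThm (hf : S_ft) (he : S_eig) (h4 : S_p4) (h7 : S_p7) : FixThm := by
  intro U _ l _ Φ Γ Κ _ hK π s r ι hπ hs hπs hr hr' hι I M g hM hg hd
  obtain ⟨p1, -, p3, p4, -⟩ := h4 U l Φ Γ
  have dt : DM fun u (j i : I.T u) => Φ.θ u * algebraMap (ZMod l) (Φ.F u) (M u j i) := by
    obtain ⟨-, -, f3, -, f5, -⟩ := hf (Σ u, I.T u × I.T u) l (Φ.comap _ pt_sigma_fst)
    exact (f3 _ _ (Φ.d_θ.comp pt_sigma_fst) (f5 _ hM)).2.2
  have hP : Prg Φ Γ I I fun u => fixM (Φ.θ u) (M u) (g u) := by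
    have := p3 I I _ _ (p4 I) (p1 I I g _ hg dt)
    refine (congrArg (Prg Φ Γ I I) (funext fun u => ?_)).mp this
    exact Matrix.ext fun j i => (Matrix.sub_apply _ _ j i).trans (by rw [Matrix.one_apply]; rfl)
  refine ⟨hP, h7 U l Φ Γ Κ hK π s r ι hs hπs hr hr' hι I _
    (fun u j z => (if j = z.1 ∧ z.2 = 1 then 1 else 0) -
      if π u (g u j z.1) = z.2 then Φ.θ u * algebraMap (ZMod l) (Φ.F u) (M u j z.1) else 0)
    hP ?_ (fun u j i c => KFix.coeff_fix (π u) _ _ _ j i c) fun u => ?_⟩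
  · obtain ⟨f1, f2, f3, -⟩ := hf (Σ u, I.T u × I.T u × Κ.G u) l (Φ.comap _ pt_sigma_fst)
    have a1 : D fun z : Σ u, I.T u × I.T u × Κ.G u => z.2.1 := D.sigma_snd.fst
    have a2 : D fun z : Σ u, I.T u × I.T u × Κ.G u => z.2.2.1 := D.sigma_snd.snd.fst
    have a3 : D fun z : Σ u, I.T u × I.T u × Κ.G u => z.2.2.2 := D.sigma_snd.snd.snd
    exact (f3 _ _ (D.ite ((a1.eq a2).and (a3.eq (Κ.d_one.comp pt_sigma_fst))) f2 f1)
      (D.ite ((hπ.app pt_sigma_fst (hg.app pt_sigma_fst a1 a2)).eq a3)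
        (dt.app pt_sigma_fst a1 a2) f1)).2.1
  · obtain ⟨-, -, -, -, -, -, -, -, f9, -⟩ := hf U l Φ
    have := (he (ZMod l) (Φ.F u) (I.T u × Κ.G u) (Φ.θ u)
      (fun a b => if π u (g u a.1 b.1) = a.2 * b.2⁻¹ then M u a.1 b.1 else 0)
      fun p hp hp' => f9 u p hp (by
        rw [Fintype.card_prod] at hp'
        exact hp'.trans_lt (hd u))).1
    refine KFix.unit_dec this ?_
    ext a b
    simp only [Matrix.of_apply, mul_inv_eq_one, ← Prod.ext_iff]
    split_ifs <;> simp

end Vale.Agent.P330Q
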