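import Vale.Agent.P330Q.PrgS

/-! Existence of computable field families. -/

namespace Vale.Agent.P330Q

open Vale.Agent.Lib.PolyTime Vale.Agent.P330 Finset Polynomial
open scoped Classical BigOperators

namespace KFld

theorem noncube (l : ℕ) [hl : Fact l.Prime] (h : l % 3 = 1) : ∃ a : ZMod l, ∀ b, b ^ 3 ≠ a := by
  by_contra hc
  have hs : Function.Surjective fun b : ZMod l => b ^ 3 := fun a => by
    by_contra h1
    exact hc ⟨a, fun b hb => h1 ⟨b, hb⟩⟩
  have hi := Finite.injective_iff_surjective.2 hs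
  have : Fact (Nat.Prime 3) := ⟨Nat.prime_three⟩
  obtain ⟨x, hx⟩ := exists_prime_orderOf_dvd_card (G := (ZMod l)ˣ) 3 (by
    rw [ZMod.card_units]
    have := hl.out.two_le
    omega)
  have h1 : (x : ZMod l) ^ 3 = 1 ^ 3 := by
    rw [← Units.val_pow_eq_pow_val, ← hx, pow_orderOf_eq_one, one_pow, Units.val_one]
  rw [Units.val_eq_one.1 (hi h1), orderOf_one] at hx
  omega

theorem ex_field {K : Type} [Field K] {a : K} (ha : ∀ b, b ^ 3 ≠ a) (k : ℕ) :
    ∃ (F : Type) (_ : Field F) (_ : Algebra K F) (θ : F) (B : Module.Basis (Fin (3 ^ k)) K F),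
      (∀ i, B i = θ ^ (i : ℕ)) ∧ θ ^ 3 ^ k = algebraMap K F a := by
  have hi := X_pow_sub_C_irreducible_of_prime_pow Nat.prime_three (by norm_num) k ha
  have : Fact (Irreducible (X ^ 3 ^ k - C a : K[X])) := ⟨hi⟩
  refine ⟨AdjoinRoot (X ^ 3 ^ k - C a : K[X]), inferInstance, inferInstance, AdjoinRoot.root _,
    (AdjoinRoot.powerBasis hi.ne_zero).basis.reindex (finCongr natDegree_X_pow_sub_C),
    fun i => ?_, ?_⟩
  · rw [Module.Basis.reindex_apply, PowerBasis.basis_eq_pow]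
    rfl
  · have := AdjoinRoot.eval₂_root (X ^ 3 ^ k - C a : K[X])
    rw [eval₂_sub, eval₂_X_pow, eval₂_C, sub_eq_zero] at this
    exact this

variable {K F : Type} [Field K] [Field F] [Algebra K F] {m : ℕ} {θ : F} {a : K}
  {B : Module.Basis (Fin m) K F}

theorem co_pow (hB : ∀ i, B i = θ ^ (i : ℕ)) {n : ℕ} (hn : n < m) (k : Fin m) :
    B.equivFun (θ ^ n) k = if n = k then 1 else 0 := by
  rw [← hB ⟨n, hn⟩, B.equivFun_self]
  simp only [Fin.ext_iff]

theorem co_BB (hB : ∀ i, B i = θ ^ (i : ℕ)) (ha : θ ^ m = algebraMap K F a) (i j k : Fin m) :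
    B.equivFun (B i * B j) k =
      if (i : ℕ) + j = k then 1 else if (i : ℕ) + j = k + m then a else 0 := by
  have h1 := i.2
  have h2 := j.2
  have h3 := k.2
  rw [hB, hB, ← pow_add]
  by_cases h : (i : ℕ) + j < m
  · rw [co_pow hB h, if_neg (by omega : ¬ (i : ℕ) + j = k + m)]
  · obtain ⟨n, hn⟩ := Nat.exists_eq_add_of_le (not_lt.1 h)
    rw [hn, pow_add, ha, ← Algebra.smul_def, map_smul, Pi.smul_apply, co_pow hB (by omega),
      if_neg (by omega : ¬ m + n = k), smul_eq_mul]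
    by_cases h4 : n = k
    · rw [if_pos h4, if_pos (by omega), mul_one]
    · rw [if_neg h4, if_neg (by omega), mul_zero]

theorem co_mul (hB : ∀ i, B i = θ ^ (i : ℕ)) (ha : θ ^ m = algebraMap K F a) (x y : F)
    (k : Fin m) : B.equivFun (x * y) k = ∑ p : Fin m × Fin m,
      B.equivFun x p.1 * (B.equivFun y p.2 *
        if (p.1 : ℕ) + p.2 = k then 1 else if (p.1 : ℕ) + p.2 = k + m then a else 0) := by
  conv_lhs => rw [← B.sum_equivFun x, ← B.sum_equivFun y]
  rw [sum_mul_sum, Fintype.sum_prod_type]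
  simp only [map_sum, smul_mul_smul_comm, map_smul, Finset.sum_apply, Pi.smul_apply, smul_eq_mul,
    co_BB hB ha, mul_assoc]

end KFld

open KFld

theorem s_fld : S_fld := by
  intro l _ hl U _ n hn hn'
  obtain ⟨a, ha⟩ := noncube l hl
  choose F i1 i2 θ B h1 h2 using ex_field ha
  let k : U → ℕ := fun u => Nat.size (n u) + 1
  have hk : ∀ u, 2 ^ k u ≤ 3 ^ k u := fun u => Nat.pow_le_pow_left (by norm_num) _
  have hlt : ∀ u, n u < 3 ^ k u ∧ 1 < 3 ^ k u := fun u => by
    have := hk u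
    have := Nat.lt_size_self (n u)
    have : 2 ^ k u = 2 ^ Nat.size (n u) * 2 := pow_succ _ _
    omega
  have pm : PT fun u => 3 ^ k u :=
    P325.pt_pow (PT.const 3) ((Q.pt_size hn).add (PT.const 1)) (hn.1.add (PB.const 1))
  have bm : PB fun u => 3 ^ k u := by
    refine ((hn'.lin 4 2).pow 2).of_le fun u => ?_
    have h3 : 2 ^ Nat.size (n u) ≤ 2 * n u + 1 := by
      rcases Nat.eq_zero_or_pos (n u) with e | e
      · simp [e]
      · obtain ⟨s, hs⟩ := Nat.exists_eq_add_one_of_ne_zero (Nat.size_pos.2 e).ne'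
        have := Nat.lt_size.1 (hs ▸ Nat.lt_succ_self s : s < Nat.size (n u))
        rw [hs, pow_succ]
        omega
    calc 3 ^ k u ≤ (2 ^ 2) ^ k u := Nat.pow_le_pow_left (by norm_num) _
      _ = (2 ^ Nat.size (n u) * 2) ^ 2 := by rw [← pow_mul, mul_comm, pow_mul, pow_succ 2]
      _ ≤ _ := Nat.pow_le_pow_left (by omega) _
  let cod : ∀ u, Enc (F (k u)) := fun u => Enc.pull (B (k u)).equivFun (B (k u)).equivFun.injective
  have dco : D2 fun u (x : F (k u)) => ((B (k u)).equivFun x : Fin (3 ^ k u) → ZMod l) :=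
    D.sigma_snd (X := fun u => F (k u))
  refine ⟨{ F := fun u => F (k u), m := fun u => 3 ^ k u, co := fun u => (B (k u)).equivFun
            θ := fun u => θ (k u), pt_m := pm, pb_m := bm, d_co := dco, d_co' := ?_, d_mul := ?_
            d_θ := ?_, co_θ := fun u i => ?_ }, fun u => (hlt u).1⟩
  · exact D.congr (g := fun z : Σ u, (Fin (3 ^ k u) → ZMod l) =>
      (B (k z.1)).equivFun ((B (k z.1)).equivFun.symm z.2)) D.sigma_snd
      fun z => LinearEquiv.apply_symm_apply _ _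
  · have q0 : PT fun z : Σ u, F (k u) × F (k u) => z.1 := pt_sigma_fst
    have q1 := q0.comp (pt_sigma_fst (X := fun z : Σ u, F (k u) × F (k u) => Fin (3 ^ k z.1)))
    refine D.fn_mk (f := fun (z : Σ u, F (k u) × F (k u)) i => (B (k z.1)).equivFun (z.2.1 * z.2.2) i)
      (pm.comp q0) (bm.comp q0) (D.of_pt ?_)
    simp only [co_mul (h1 _) (h2 _)]
    refine ((PFam.fin (pm.comp q1) (bm.comp q1)).prod (PFam.fin (pm.comp q1) (bm.comp q1))).pt_sumZ ?_
    have q2 := q1.comp (pt_sigma_fst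
      (X := fun w : Σ z : Σ u, F (k u) × F (k u), Fin (3 ^ k z.1) =>
        Fin (3 ^ k w.1.1) × Fin (3 ^ k w.1.1)))
    have q3 := D.sigma_snd (X := fun w : Σ z : Σ u, F (k u) × F (k u), Fin (3 ^ k z.1) =>
      Fin (3 ^ k w.1.1) × Fin (3 ^ k w.1.1))
    have q4 := D.fin_iff.1 ((D.sigma_snd
      (X := fun z : Σ u, F (k u) × F (k u) => Fin (3 ^ k z.1))).comp (pt_sigma_fst
        (X := fun w => Fin (3 ^ k w.1.1) × Fin (3 ^ k w.1.1))))
    have q5 := ((D.sigma_snd (X := fun u => F (k u) × F (k u))).comp (pt_sigma_fst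
      (X := fun z => Fin (3 ^ k z.1)))).comp (pt_sigma_fst
        (X := fun w => Fin (3 ^ k w.1.1) × Fin (3 ^ k w.1.1)))
    have q6 := (D.fin_iff.1 q3.fst).add (D.fin_iff.1 q3.snd)
    exact pt_mulZ ((dco.app q2 q5.fst).fn_app q3.fst).pt
      (pt_mulZ ((dco.app q2 q5.snd).fn_app q3.snd).pt (PT.ite (q6.eq q4) (PT.const 1)
        (PT.ite (q6.eq (q4.add (pm.comp q2))) (PT.const a) (PT.const 0))))
  · refine D.fn_mk (f := fun u i => (B (k u)).equivFun (θ (k u)) i) pm bm (D.of_pt ?_)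
    refine (PT.ite ((PT.const 1).eq (D.fin_iff.1 (D.sigma_snd (X := fun u => Fin (3 ^ k u)))))
      (PT.const (1 : ZMod l)) (PT.const 0)).congr fun z => ?_
    rw [← co_pow (h1 _) (hlt z.1).2, pow_one]
  · funext j
    rw [← h1, Module.Basis.equivFun_self, Pi.single_apply]
    simp only [eq_comm]

end Vale.Agent.P330Q
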