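import Vale.Agent.P330Q.MemD

/-! A word of the left Tanner code over the group algebra with a prescribed free entry. -/

namespace Vale.Agent.P330Q

open Vale.Agent.Lib.PolyTime Vale.Agent.P330 Finset
open scoped Classical BigOperators

namespace KKap

theorem actL_eq {F G S : Type} [Field F] [Group G] [Fintype G] (a : MonoidAlgebra F G)
    (y : G × S → F) (g : G) (s : S) : actL a y (g, s) = ∑ h, a.coeff h * y (h⁻¹ * g, s) :=
  Finsupp.sum_fintype a.coeff (fun h t => t * y (h⁻¹ * g, s)) fun _ => zero_mul _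

theorem view {F G A : Type} [Field F] [Fintype G] (C : Submodule F (A → F)) (c : G → A → F)
    (hc : ∀ h, c h ∈ C) (t : G → F) : (fun a => ∑ h, c h a * t h) ∈ C := by
  have h := C.sum_mem (t := univ) fun h _ => C.smul_mem (t h) (hc h)
  rwa [show (fun a => ∑ h, c h a * t h) = ∑ h, t h • c h from
    funext fun a => by simp [mul_comm]]

end KKap

theorem kapThm (hf : S_ft) (h2 : S_p2) (h4 : S_p4) (ht : S_tan) (hx : FixThm) : KapThm := by
  intro U _ l _ S0 Bt _ _ lam Y Φ A _ _ CL CR ckL ckR EL ER hL hR hd a0 h0L h0R α hα hc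
  have _ := hf
  have _ := h2
  obtain ⟨-, W, hW, hW'⟩ := hx U l Φ Y.Γ Y.Κ Y.pfK Y.π (fun u k => Y.s u k) Y.n Y.ι Y.d_π Y.d_s
    Y.π_s Y.pt_n Y.pb_n Y.ker ((Fam.const U Unit).prod (Fam.const U A))
    (fun _ => tM ckL ckR EL ER fun _ => 1) (fun u => tG ckL fun q => α u q.2)
    (P325.pt_finite (g := fun z : Σ _ : U, (Unit × A) × (Unit × A) => z.2) D.sigma_snd.pt
      fun z => tM ckL ckR EL ER (fun _ => 1) z.1 z.2)
    (D.cases (g := fun z : Σ _ : U, (Unit × A) × (Unit × A) => z.2) D.sigma_snd.pt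
      (fun b z => tG ckL (fun q => α z.1 q.2) b.1 b.2) fun b => by
        unfold tG
        split_ifs
        · exact Y.Γ.d_one.comp pt_sigma_fst
        · exact Y.Γ.d_mul.app pt_sigma_fst
            (Y.Γ.d_inv.app pt_sigma_fst ((hα _).comp pt_sigma_fst)) ((hα _).comp pt_sigma_fst))
    fun u => by simpa [mul_comm] using hc u
  refine ⟨fun u a => W u ((), a) ((), a0),
    (h4 U l Φ Y.Γ).2.2.2.2.1 _ _ (.const U A) (.const U Unit) W (fun _ a => ((), a))
      (fun _ _ => ((), a0)) ((D.const ()).pair D.sigma_snd) (D.const ((), a0)) hW, fun u => ?_⟩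
  obtain ⟨t1, t2⟩ := ht (ZMod l) (Φ.F u) (Y.Γ.G u) Unit A CL CR ckL ckR EL ER hL hR hd (Φ.θ u)
    (fun _ => 1) (fun q => α u q.2) fun q => W u q ((), a0)
  have e := fun q => congrFun (congrFun (hW' u).2 q) ((), a0)
  simp only [Matrix.mul_apply, Matrix.one_apply] at e
  obtain ⟨m1, m2⟩ := t1.1 fun q hq => (e q).trans (if_neg fun k => by
    rw [k] at hq
    exact hq.elim h0L h0R)
  refine ⟨(t2 _ h0L h0R).symm.trans ((e _).trans (if_pos rfl)), m1 (), m2 (), fun S y g s => ?_⟩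
  simp only [KKap.actL_eq]
  refine ⟨KKap.view _ _ (m1 ()) _, ?_⟩
  have h := KKap.view _ _ (m2 ()) fun h => y (h⁻¹ * g, s)
  refine (congrArg (· ∈ thC CR ckR (Φ.θ u)) (funext fun a => ?_)).mp h
  refine Fintype.sum_equiv (Equiv.mulLeft (α u a)⁻¹) _ _ fun h => ?_
  simp [mul_assoc]

end Vale.Agent.P330Q
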