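import Vale.Agent.P330Q.PrgS

/-! Nilpotency of the relative augmentation ideal. -/

namespace Vale.Agent.P330Q

open Vale.Agent.Lib.PolyTime Vale.Agent.P330 Finset Polynomial
open scoped Classical BigOperators

namespace KNil

theorem span_pow {A ι : Type} [CommRing A] (x : ι → A) (l : ℕ) (hx : ∀ i, x i ^ l = 0)
    (s : Finset ι) : Ideal.span (x '' s) ^ (s.card * l + 1) = ⊥ := by
  induction s using Finset.induction_on with
  | empty => simp
  | insert i s hi ih =>
    rw [Finset.coe_insert, Set.image_insert_eq, Ideal.span_insert, Finset.card_insert_of_notMem hi,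
      show (s.card + 1) * l + 1 = l + (s.card * l + 1) by ring, eq_bot_iff]
    refine Ideal.sup_pow_add_le_pow_sup_pow.trans ?_
    rw [ih, Ideal.span_singleton_pow, hx, Ideal.span_singleton_eq_bot.2 rfl, sup_idem]

theorem ideal (l r : ℕ) [Fact l.Prime] (F : Type) [Field F] [Algebra (ZMod l) F] :
    ∃ m : Ideal (MonoidAlgebra F (HA l r)), m ^ (r * l + 1) = ⊥ ∧
      ∀ h, MonoidAlgebra.single h 1 - 1 ∈ m := by
  have : CharP F l := charP_of_injective_algebraMap (algebraMap (ZMod l) F).injective l
  have : CharP (MonoidAlgebra F (HA l r)) l :=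
    charP_of_injective_algebraMap (algebraMap F (MonoidAlgebra F (HA l r))).injective l
  obtain ⟨x, hx⟩ : ∃ x : Fin r → MonoidAlgebra F (HA l r), ∀ i,
      x i = MonoidAlgebra.single (Multiplicative.ofAdd (Pi.single i 1)) 1 - 1 := ⟨_, fun _ => rfl⟩
  have h1 := span_pow x l (fun i => by
    rw [hx, sub_pow_char, MonoidAlgebra.single_pow, one_pow, one_pow, ← ofAdd_nsmul,
      show l • (Pi.single i 1 : Fin r → ZMod l) = 0 by
        funext j; rw [Pi.smul_apply, nsmul_eq_mul, ZMod.natCast_self, zero_mul]; rfl]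
    exact sub_self _) Finset.univ
  rw [Finset.card_univ, Fintype.card_fin] at h1
  obtain ⟨m, hm⟩ : ∃ m, m = Ideal.span (x '' (Finset.univ : Finset (Fin r))) := ⟨_, rfl⟩
  rw [← hm] at h1
  refine ⟨_, h1, fun h => ?_⟩
  let S : Submonoid (HA l r) :=
    { carrier := {h | MonoidAlgebra.single h (1 : F) - 1 ∈ m}
      one_mem' := by
        show MonoidAlgebra.single 1 (1 : F) - 1 ∈ m
        rw [← MonoidAlgebra.one_def, sub_self]
        exact zero_mem _
      mul_mem' := fun {a b} ha hb => by
        show MonoidAlgebra.single (a * b) (1 : F) - 1 ∈ m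
        rw [show MonoidAlgebra.single (a * b) (1 : F) - 1 =
          MonoidAlgebra.single a 1 * (MonoidAlgebra.single b 1 - 1) +
            (MonoidAlgebra.single a 1 - 1) by
          rw [mul_sub, MonoidAlgebra.single_mul_single, mul_one, mul_one, sub_add_sub_cancel]]
        exact add_mem (Ideal.mul_mem_left _ _ hb) ha }
  have e : h = ∏ i, Multiplicative.ofAdd (Pi.single i 1 : Fin r → ZMod l) ^ (h.toAdd i).val := by
    apply Multiplicative.toAdd.injective
    simp only [toAdd_prod, toAdd_pow, toAdd_ofAdd]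
    funext j
    simp [Finset.sum_apply, Pi.single_apply, -ZMod.natCast_val, ZMod.natCast_zmod_val]
  show h ∈ S
  rw [e]
  refine prod_mem fun i _ => pow_mem ?_ _
  show MonoidAlgebra.single _ (1 : F) - 1 ∈ m
  rw [← hx, hm]
  exact Ideal.subset_span ⟨i, by simp, rfl⟩

variable {F H G K : Type} [Field F] [CommGroup H] [Group G] [Group K]

/-- The additive span of the products of an ideal with the group elements. -/
noncomputable def J (ι : H →* G) (m : Ideal (MonoidAlgebra F H)) : AddSubmonoid (MonoidAlgebra F G) :=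
  AddSubmonoid.closure
    {b | ∃ a ∈ m, ∃ g t, b = MonoidAlgebra.mapDomain ι a * MonoidAlgebra.single g t}

/-- The relative augmentation ideal. -/
noncomputable def J1 (F : Type) [Field F] (π : G →* K) : AddSubmonoid (MonoidAlgebra F G) :=
  AddSubmonoid.closure
    {b | ∃ h g t, π h = 1 ∧ b = (MonoidAlgebra.single h 1 - 1) * MonoidAlgebra.single g t}

theorem ker (π : G →* K) (b : MonoidAlgebra F G) (hb : MonoidAlgebra.mapDomain π b = 0) :
    b ∈ J1 F π := by
  have key : ∀ b : MonoidAlgebra F G, b - MonoidAlgebra.mapDomain (Function.invFun π)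
      (MonoidAlgebra.mapDomain π b) ∈ J1 F π := fun b => by
    induction b using MonoidAlgebra.induction_linear with
    | zero => simp
    | add a b ha hb =>
      rw [MonoidAlgebra.mapDomain_add, MonoidAlgebra.mapDomain_add, add_sub_add_comm]
      exact add_mem ha hb
    | single g t =>
      refine AddSubmonoid.subset_closure ⟨g * (Function.invFun π (π g))⁻¹,
        Function.invFun π (π g), t, ?_, ?_⟩
      · rw [map_mul, map_inv, Function.invFun_eq (f := π) ⟨g, rfl⟩, mul_inv_cancel]
      · rw [MonoidAlgebra.mapDomain_single, MonoidAlgebra.mapDomain_single, sub_mul,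
          MonoidAlgebra.single_mul_single, one_mul, one_mul, inv_mul_cancel_right]
  have := key b
  rwa [hb, MonoidAlgebra.mapDomain_zero, sub_zero] at this

theorem mul (π : G →* K) (ι : H →* G) (hι : ∀ g, π g = 1 ↔ g ∈ ι.range)
    {m m' : Ideal (MonoidAlgebra F H)} (hm : ∀ h, MonoidAlgebra.single h 1 - 1 ∈ m')
    {u v : MonoidAlgebra F G} (hu : u ∈ J ι m) (hv : v ∈ J1 F π) : u * v ∈ J ι (m * m') := by
  induction hu using AddSubmonoid.closure_induction with
  | zero => rw [zero_mul]; exact zero_mem _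
  | add a b _ _ ha hb => rw [add_mul]; exact add_mem ha hb
  | mem u hu =>
    induction hv using AddSubmonoid.closure_induction with
    | zero => rw [mul_zero]; exact zero_mem _
    | add a b _ _ ha hb => rw [mul_add]; exact add_mem ha hb
    | mem v hv =>
      obtain ⟨a, ha, g, t, rfl⟩ := hu
      obtain ⟨h, g', t', hh, rfl⟩ := hv
      obtain ⟨h', e⟩ := (hι (g * h * g⁻¹)).1 (by
        rw [map_mul, map_mul, hh, mul_one, map_inv, mul_inv_cancel])
      refine AddSubmonoid.subset_closure ⟨a * (MonoidAlgebra.single h' 1 - 1),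
        Ideal.mul_mem_mul ha (hm h'), g * g', t * t', ?_⟩
      have e1 : MonoidAlgebra.mapDomain ι (MonoidAlgebra.single h' (1 : F) - 1) =
          MonoidAlgebra.single (g * h * g⁻¹) 1 - 1 := by
        rw [eq_sub_iff_add_eq, ← MonoidAlgebra.mapDomain_one (R := F) ι,
          ← MonoidAlgebra.mapDomain_add, sub_add_cancel,
          MonoidAlgebra.mapDomain_single, e]
      rw [MonoidAlgebra.mapDomain_mul, e1, mul_assoc, mul_assoc]
      congr 1
      simp only [sub_mul, mul_sub, MonoidAlgebra.single_mul_single, one_mul, mul_assoc,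
        inv_mul_cancel_left]

theorem main {I : Type} [Fintype I] (π : G →* K) (ι : H →* G) (hι : ∀ g, π g = 1 ↔ g ∈ ι.range)
    {m : Ideal (MonoidAlgebra F H)} (hm : ∀ h, MonoidAlgebra.single h 1 - 1 ∈ m) {n : ℕ}
    (hn : m ^ n = ⊥) (N : Matrix I I (MonoidAlgebra F G))
    (hN : ∀ i j, MonoidAlgebra.mapDomain π (N i j) = 0) : N ^ n = 0 := by
  have key : ∀ k i j, (N ^ k) i j ∈ J ι (m ^ k) := fun k => by
    induction k with
    | zero =>
      intro i j
      rw [pow_zero N, Matrix.one_apply]
      split_ifs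
      · refine AddSubmonoid.subset_closure ⟨1, by simp, 1, 1, ?_⟩
        rw [MonoidAlgebra.mapDomain_one, one_mul, MonoidAlgebra.one_def]
      · exact zero_mem _
    | succ k ih =>
      intro i j
      rw [pow_succ N, pow_succ m, Matrix.mul_apply]
      exact sum_mem fun c _ => mul π ι hι hm (ih i c) (ker π _ (hN c j))
  ext1 i j
  have h1 := key n i j
  rw [hn] at h1
  refine (AddSubmonoid.closure_le (S := ⊥)).2 ?_ h1
  rintro _ ⟨a, ha, g, t, rfl⟩
  rw [Ideal.mem_bot.1 ha, MonoidAlgebra.mapDomain_zero, zero_mul]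
  exact zero_mem _

end KNil

theorem s_nil : S_nil := by
  intro l r _ F I _ _ _
  obtain ⟨m, h1, h2⟩ := KNil.ideal l r F
  refine ⟨fun G K _ _ π ι hι N hN => KNil.main π ι hι h2 h1 N hN, fun N hN =>
    KNil.main (K := Unit) 1 (MonoidHom.id _) (fun g => ⟨fun _ => ⟨g, rfl⟩, fun _ => rfl⟩) h2 h1 N
      fun i j => ?_⟩
  apply MonoidAlgebra.coeff_injective
  have h3 := map_finsuppSum (Finsupp.singleAddHom (1 : Unit)) (N i j).coeff fun _ t => t
  have h4 : ((N i j).coeff.sum fun _ t => t) = 0 := hN i j
  rw [h4, map_zero] at h3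
  exact h3.symm

end Vale.Agent.P330Q
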