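import Vale.Agent.P330Q.PrgS

/-! Basic linear programs. -/

namespace Vale.Agent.P330Q

open Vale.Agent.Lib.PolyTime Vale.Agent.P330 Finset
open scoped Classical BigOperators

namespace KP1

section alg
variable {F G T K J I R : Type} [Field F] [Group G] [Semiring R]

theorem cst_one : cst G (fun i j : I => if i = j then (1 : F) else 0) = 1 := by
  refine Matrix.ext fun i j => ?_
  simp only [cst, Matrix.one_apply]
  split_ifs
  · rfl
  · exact MonoidAlgebra.single_zero _

/-- parallel copies of a matrix -/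
noncomputable def kr (T : Type) (m : Matrix J I R) : Matrix (T × J) (T × I) R :=
  fun a b => if a.1 = b.1 then m a.2 b.2 else 0

theorem kr_mul [Fintype T] [Fintype J] (m : Matrix K J R) (m' : Matrix J I R) :
    kr T (m * m') = kr T m * kr T m' := by
  refine Matrix.ext fun a b => ?_
  simp only [kr, Matrix.mul_apply, Fintype.sum_prod_type]
  rw [Finset.sum_eq_single a.1 (fun t _ ht => by simp [ht.symm]) (by simp)]
  by_cases h : a.1 = b.1 <;> simp [h]

theorem kr_one {_ : DecidableEq (T × K)} : kr T (1 : Matrix K K R) = 1 := by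
  refine Matrix.ext fun a b => ?_
  by_cases h : a.1 = b.1 <;> by_cases h' : a.2 = b.2 <;>
    simp [kr, Matrix.one_apply, Prod.ext_iff, h, h']

theorem kr_cst (M : J → I → F) : kr T (cst G M) =
    cst G fun (a : T × J) (b : T × I) => if a.1 = b.1 then M a.2 b.2 else 0 := by
  refine Matrix.ext fun a b => ?_
  simp only [kr, cst]
  split_ifs
  · rfl
  · exact (MonoidAlgebra.single_zero _).symm

end alg

variable {U : Type} [Enc U] {l : ℕ} [Fact l.Prime] {Φ : FF U l} {Γ : GF U}

theorem d_id (h0 : D fun u => (0 : Φ.F u)) (h1 : D fun u => (1 : Φ.F u)) (I : Fam U) :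
    DM fun u (i j : I.T u) => if i = j then (1 : Φ.F u) else 0 :=
  D.ite (D.eq D.sigma_snd.fst D.sigma_snd.snd) (h1.comp pt_sigma_fst) (h0.comp pt_sigma_fst)

theorem d_kr (h0 : D fun u => (0 : Φ.F u)) (T J I : Fam U) {M : ∀ u, J.T u → I.T u → Φ.F u}
    (hM : DM M) : DM fun u (a : T.T u × J.T u) (b : T.T u × I.T u) =>
      if a.1 = b.1 then M u a.2 b.2 else 0 :=
  D.ite (D.eq D.sigma_snd.fst.fst D.sigma_snd.snd.fst)
    (hM.app pt_sigma_fst D.sigma_snd.fst.snd D.sigma_snd.snd.snd) (h0.comp pt_sigma_fst)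

/-- the empty program -/
@[reducible] noncomputable def nil (Γ : GF U) (h0 : D fun u => (0 : Φ.F u)) (I : Fam U) : Prog Φ Γ where
  K := I
  L _ := 0
  g _ _ := 1
  A _ _ _ _ := 0
  B _ _ _ _ := 0
  pt_L := PT.const 0
  pb_L := PB.const 0
  d_g := Γ.d_one.comp pt_sigma_fst
  d_A := h0.comp pt_sigma_fst
  d_B := h0.comp pt_sigma_fst

/-- the program of a diagonal matrix -/
@[reducible] noncomputable def dg (h0 : D fun u => (0 : Φ.F u)) (h1 : D fun u => (1 : Φ.F u)) (I : Fam U)
    (g : ∀ u, I.T u → Γ.G u) (hg : D2 g) (e : ∀ u, I.T u ≃ Fin (Fintype.card (I.T u)))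
    (he : D2 fun u x => e u x) (he' : D2 fun u i => (e u).symm i) : Prog Φ Γ where
  K := I
  L u := Fintype.card (I.T u)
  g u j := if h : j < Fintype.card (I.T u) then g u ((e u).symm ⟨j, h⟩) else 1
  A u j k k' := if k = k' ∧ ¬ (e u k : ℕ) = j then 1 else 0
  B u j k k' := if k = k' ∧ (e u k : ℕ) = j then 1 else 0
  pt_L := I.pf.pt_card
  pb_L := I.pf.pb_card
  d_g := D.dite (PT.lt D.sigma_snd.pt (I.pf.pt_card.comp pt_sigma_fst))
    (hg.app (pt_sigma_fst.comp pt_val) (he'.app (pt_sigma_fst.comp pt_val)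
      (D.fin_iff.2 (D.sigma_snd.comp pt_val).pt)))
    (Γ.d_one.comp (pt_sigma_fst.comp pt_val))
  d_A := D.ite (PT.and (D.eq D.sigma_snd.snd.fst D.sigma_snd.snd.snd)
      (PT.eq (D.fin_iff.1 (he.app pt_sigma_fst D.sigma_snd.snd.fst)) D.sigma_snd.fst.pt).not)
    (h1.comp pt_sigma_fst) (h0.comp pt_sigma_fst)
  d_B := D.ite (PT.and (D.eq D.sigma_snd.snd.fst D.sigma_snd.snd.snd)
      (PT.eq (D.fin_iff.1 (he.app pt_sigma_fst D.sigma_snd.snd.fst)) D.sigma_snd.fst.pt))
    (h1.comp pt_sigma_fst) (h0.comp pt_sigma_fst)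

theorem dg_mat (h0 : D fun u => (0 : Φ.F u)) (h1 : D fun u => (1 : Φ.F u)) (I : Fam U)
    (g : ∀ u, I.T u → Γ.G u) (hg : D2 g) (e : ∀ u, I.T u ≃ Fin (Fintype.card (I.T u)))
    (he : D2 fun u x => e u x) (he' : D2 fun u i => (e u).symm i) (u : U) (j : ℕ) :
    (dg h0 h1 I g hg e he he').mat u j = Matrix.diagonal fun k : I.T u =>
      if (e u k : ℕ) < j then MonoidAlgebra.single (g u k) (1 : Φ.F u) else 1 := by
  induction j with
  | zero => exact Matrix.diagonal_one.symm
  | succ j ih =>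
    have s : (dg h0 h1 I g hg e he he').step u j = Matrix.diagonal fun k : I.T u =>
        if (e u k : ℕ) = j then MonoidAlgebra.single (g u k) (1 : Φ.F u) else 1 := by
      refine Matrix.ext fun k k' => ?_
      simp only [Prog.step, Matrix.diagonal_apply]
      by_cases h : k = k'
      · by_cases h' : (e u k : ℕ) = j
        · subst h'
          simp [h]
        · simp [h, h ▸ h', MonoidAlgebra.one_def]
      · simp [h]
    rw [Prog.mat, ih, s]
    refine (Matrix.diagonal_mul_diagonal _ _).trans (congrArg _ (funext fun k => ?_))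
    rcases lt_trichotomy (e u k : ℕ) j with h | h | h
    · rw [if_neg h.ne, if_pos h, if_pos (by omega), one_mul]
    · rw [if_pos h, if_neg (by omega), if_pos (by omega), mul_one]
    · rw [if_neg h.ne', if_neg (by omega), if_neg (by omega), mul_one]

/-- parallel copies of a program -/
@[reducible] noncomputable def lanes (h0 : D fun u => (0 : Φ.F u)) (P : Prog Φ Γ) (T : Fam U) : Prog Φ Γ where
  K := T.prod P.K
  L := P.L
  g := P.g
  A u j a b := if a.1 = b.1 then P.A u j a.2 b.2 else 0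
  B u j a b := if a.1 = b.1 then P.B u j a.2 b.2 else 0
  pt_L := P.pt_L
  pb_L := P.pb_L
  d_g := P.d_g
  d_A := D.ite (D.eq D.sigma_snd.snd.fst.fst D.sigma_snd.snd.snd.fst)
    (P.d_A.app pt_sigma_fst (D.sigma_snd.fst.pair
      (D.sigma_snd.snd.fst.snd.pair D.sigma_snd.snd.snd.snd))) (h0.comp pt_sigma_fst)
  d_B := D.ite (D.eq D.sigma_snd.snd.fst.fst D.sigma_snd.snd.snd.fst)
    (P.d_B.app pt_sigma_fst (D.sigma_snd.fst.pair
      (D.sigma_snd.snd.fst.snd.pair D.sigma_snd.snd.snd.snd))) (h0.comp pt_sigma_fst)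

theorem lanes_mat (h0 : D fun u => (0 : Φ.F u)) (P : Prog Φ Γ) (T : Fam U) (u : U) (j : ℕ) :
    (lanes h0 P T).mat u j = kr (T.T u) (P.mat u j) := by
  induction j with
  | zero => exact kr_one.symm
  | succ j ih =>
    have s : (lanes h0 P T).step u j = kr (T.T u) (P.step u j) := by
      refine Matrix.ext fun a b => ?_
      simp only [Prog.step, kr]
      split_ifs
      · rfl
      · simp
    rw [Prog.mat, Prog.mat, kr_mul, ih, s]

/-- change of the base -/
@[reducible] noncomputable def cm {B : Type} [Enc B] (P : Prog Φ Γ) (p : B → U) (hp : PT p) :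
    Prog (Φ.comap p hp) (Γ.comap p hp) where
  K := P.K.comap p hp
  L b := P.L (p b)
  g b := P.g (p b)
  A b := P.A (p b)
  B b := P.B (p b)
  pt_L := P.pt_L.comp hp
  pb_L := P.pb_L.comp hp
  d_g := P.d_g.app (hp.comp pt_sigma_fst) D.sigma_snd
  d_A := P.d_A.app (hp.comp pt_sigma_fst) D.sigma_snd
  d_B := P.d_B.app (hp.comp pt_sigma_fst) D.sigma_snd

theorem cm_mat {B : Type} [Enc B] (P : Prog Φ Γ) (p : B → U) (hp : PT p) (b : B) (j : ℕ) :
    (cm P p hp).mat b j = P.mat (p b) j := by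
  induction j with
  | zero => rfl
  | succ j ih => exact congrArg (P.step (p b) j * ·) ih

end KP1

open KP1 in
theorem s_p1 (hf : S_ft) : S_p1 := by
  intro U _ l _ Φ Γ
  obtain ⟨h0, h1, -⟩ := hf U l Φ
  refine ⟨fun J I M hM => ⟨nil Γ h0 I, M, _, hM, d_id h0 h1 I, fun u => ?_⟩, fun I g hg => ?_,
    fun T J I m ⟨P, O, N, hO, hN, e⟩ => ⟨lanes h0 P T, _, _, d_kr h0 T J P.K hO,
      d_kr h0 T P.K I hN, fun u => ?_⟩,
    fun B _ p hp J I m ⟨P, O, N, hO, hN, e⟩ => ⟨cm P p hp, fun b => O (p b), fun b => N (p b),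
      hO.app (hp.comp pt_sigma_fst) D.sigma_snd.fst D.sigma_snd.snd,
      hN.app (hp.comp pt_sigma_fst) D.sigma_snd.fst D.sigma_snd.snd, fun b => ?_⟩⟩
  · rw [cst_one]
    exact ((Matrix.mul_one _).trans (Matrix.mul_one _)).symm
  · obtain ⟨e, he, he'⟩ := I.pf.equiv
    refine ⟨dg h0 h1 I g hg e he he', _, _, d_id h0 h1 I, d_id h0 h1 I, fun u => ?_⟩
    rw [cst_one, dg_mat]
    refine Eq.trans ?_ ((Matrix.mul_one _).trans (Matrix.one_mul _)).symm
    exact congrArg _ (funext fun k => (if_pos (e u k).2).symm)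
  · rw [lanes_mat, ← kr_cst, ← kr_cst]
    refine Eq.trans ?_ ((kr_mul _ _).trans (congrArg (· * _) (kr_mul _ _)))
    exact congrArg (kr (T.T u)) (e u)
  · rw [cm_mat]
    exact e (p b)

end Vale.Agent.P330Q
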