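import Vale.Agent.P330Q.PrgS

/-! Products and sums of linear programs. -/

namespace Vale.Agent.P330Q

open Vale.Agent.Lib.PolyTime Vale.Agent.P330 Finset Polynomial
open scoped Classical BigOperators

namespace KP2

section
variable {C : Type} [Enc C] {X X' Y Y' Z : C → Type} [∀ c, Enc (X c)] [∀ c, Enc (X' c)]
  [∀ c, Enc (Y c)] [∀ c, Enc (Y' c)] [∀ c, Enc (Z c)]

theorem d_rows {A : ∀ c, X c → Y c → Z c} {B : ∀ c, X' c → Y c → Z c} (hA : DM A) (hB : DM B) :
    DM fun c (x : X c ⊕ X' c) (y : Y c) => Sum.elim (A c) (B c) x y := by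
  have h := D.sum_elim (C := Σ c, (X c ⊕ X' c) × Y c) (X := fun z => X z.1) (Y := fun z => X' z.1)
    (Z := fun z => Z z.1) (z := fun z => z.2.1) (f := fun z x => A z.1 x z.2.2)
    (g := fun z x => B z.1 x z.2.2) D.sigma_snd.fst
    (hA.app (pt_sigma_fst.comp pt_sigma_fst) D.sigma_snd (D.sigma_snd.comp pt_sigma_fst).snd)
    (hB.app (pt_sigma_fst.comp pt_sigma_fst) D.sigma_snd (D.sigma_snd.comp pt_sigma_fst).snd)
  refine h.congr fun z => ?_
  obtain ⟨c, x | x, y⟩ := z <;> rfl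

theorem d_cols {A : ∀ c, X c → Y c → Z c} {B : ∀ c, X c → Y' c → Z c} (hA : DM A) (hB : DM B) :
    DM fun c (x : X c) (y : Y c ⊕ Y' c) => Sum.elim (A c x) (B c x) y :=
  D.sum_elim (C := Σ c, X c × (Y c ⊕ Y' c)) (X := fun z => Y z.1) (Y := fun z => Y' z.1)
    (Z := fun z => Z z.1) (z := fun z => z.2.2) (f := fun z y => A z.1 z.2.1 y)
    (g := fun z y => B z.1 z.2.1 y) D.sigma_snd.snd
    (hA.app (pt_sigma_fst.comp pt_sigma_fst) (D.sigma_snd.comp pt_sigma_fst).fst D.sigma_snd)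
    (hB.app (pt_sigma_fst.comp pt_sigma_fst) (D.sigma_snd.comp pt_sigma_fst).fst D.sigma_snd)

/-- Block matrices. -/
def blk {I I' J J' R : Type} (A : I → J → R) (B : I → J' → R) (E : I' → J → R) (F : I' → J' → R) :
    I ⊕ I' → J ⊕ J' → R :=
  Sum.elim (fun x y => Sum.elim (A x) (B x) y) fun x y => Sum.elim (E x) (F x) y

theorem d_blk {A : ∀ c, X c → Y c → Z c} {B : ∀ c, X c → Y' c → Z c} {E : ∀ c, X' c → Y c → Z c}
    {F : ∀ c, X' c → Y' c → Z c} (hA : DM A) (hB : DM B) (hE : DM E) (hF : DM F) :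
    DM fun c => blk (A c) (B c) (E c) (F c) :=
  d_rows (d_cols hA hB) (d_cols hE hF)

theorem d_cst {z : ∀ c, Z c} (h : D z) : DM fun c (_ : X c) (_ : Y c) => z c :=
  h.comp pt_sigma_fst

theorem d_idm {z o : ∀ c, Z c} (hz : D z) (ho : D o) :
    DM fun c (x y : X c) => if x = y then o c else z c :=
  D.ite (D.eq D.sigma_snd.fst D.sigma_snd.snd) (ho.comp pt_sigma_fst) (hz.comp pt_sigma_fst)

theorem d_if {p : C → Prop} [DecidablePred p] (hp : PT p) {A B : ∀ c, X c → Y c → Z c} (hA : DM A) (hB : DM B) :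
    DM fun c => if p c then A c else B c :=
  (D.ite (hp.comp pt_sigma_fst) hA hB).congr fun z => by
    by_cases h : p z.1 <;> simp only [h, if_true, if_false]

theorem d_time {A : ∀ c, ℕ → X c → Y c → Z c}
    (h : D2 fun c (z : ℕ × X c × Y c) => A c z.1 z.2.1 z.2.2) {n : (Σ _ : C, ℕ) → ℕ} (hn : PT n) :
    DM (U := Σ _ : C, ℕ) fun z => A z.1 (n z) :=
  h.app (pt_sigma_fst.comp pt_sigma_fst) ((D.of_pt (hn.comp pt_sigma_fst)).pair D.sigma_snd)

theorem d_time' {A : ∀ z : Σ _ : C, ℕ, X z.1 → Y z.1 → Z z.1} (h : DM (U := Σ _ : C, ℕ) A) :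
    D2 fun c (z : ℕ × X c × Y c) => A ⟨c, z.1⟩ z.2.1 z.2.2 :=
  h.app (pt_sigma_mk (X := fun _ : C => ℕ) pt_sigma_fst D.sigma_snd.fst) D.sigma_snd.snd.fst
    D.sigma_snd.snd.snd

theorem d_up {A : ∀ c, X c → Y c → Z c} (h : DM A) : DM (U := Σ _ : C, ℕ) fun z => A z.1 :=
  h.app (pt_sigma_fst.comp pt_sigma_fst) D.sigma_snd.fst D.sigma_snd.snd

end

section
variable {F : Type} [Field F] (G : Type) [Group G]

theorem cst_mul {K J I : Type} [Fintype J] (M : K → J → F) (N : J → I → F) :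
    cst G (fun k i => ∑ j, M k j * N j i) = cst G M * cst G N := by
  refine Matrix.ext fun k i => ?_
  simp only [cst, Matrix.mul_apply, MonoidAlgebra.single_mul_single, mul_one]
  exact map_sum (MonoidAlgebra.singleAddHom (R := F) (1 : G)) (fun j => M k j * N j i) univ

theorem cst_blk {I I' J J' : Type} (A : I → J → F) (B : I → J' → F) (E : I' → J → F)
    (H : I' → J' → F) :
    cst G (blk A B E H) = Matrix.fromBlocks (cst G A) (cst G B) (cst G E) (cst G H) := by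
  ext (i | i) (j | j) : 2 <;> rfl

theorem cst_zero {I J : Type} : cst G (fun (_ : I) (_ : J) => (0 : F)) = 0 := by
  ext i j : 2
  simp [cst]

theorem cst_one {I : Type} : cst G (fun i j : I => if i = j then (1 : F) else 0) = 1 := by
  ext i j : 2
  by_cases h : i = j <;> simp [cst, Matrix.one_apply, h, MonoidAlgebra.one_def]

theorem cst_rows {I I' J : Type} (A : I → J → F) (B : I' → J → F) :
    cst G (fun x y => Sum.elim A B x y) = Matrix.fromRows (cst G A) (cst G B) := by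
  ext (i | i) j : 2 <;> rfl

theorem cst_cols {I J J' : Type} (A : I → J → F) (B : I → J' → F) :
    cst G (fun x y => Sum.elim (A x) (B x) y) = Matrix.fromCols (cst G A) (cst G B) := by
  ext i (j | j) : 2 <;> rfl

end

variable {U : Type} [Enc U] {l : ℕ} [Fact l.Prime] {Φ : FF U l} {Γ : GF U}

/-- Sequential composition with a scalar step in the middle. -/
@[reducible] noncomputable def seq (h0 : D fun u => (0 : Φ.F u)) (h1 : D fun u => (1 : Φ.F u))
    (P Q : Prog Φ Γ) (X : ∀ u, P.K.T u ⊕ Q.K.T u → P.K.T u ⊕ Q.K.T u → Φ.F u) (hX : DM X) :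
    Prog Φ Γ where
  K := P.K.sum Q.K
  L u := P.L u + 1 + Q.L u
  g u j := if j < P.L u then P.g u j else Q.g u (j - (P.L u + 1))
  A u j := if j < P.L u then blk (P.A u j) (fun _ _ => 0) (fun _ _ => 0)
      (fun x y => if x = y then 1 else 0) else if j = P.L u then X u else
    blk (fun x y => if x = y then 1 else 0) (fun _ _ => 0) (fun _ _ => 0)
      (Q.A u (j - (P.L u + 1)))
  B u j := if j < P.L u then blk (P.B u j) (fun _ _ => 0) (fun _ _ => 0) (fun _ _ => 0)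
    else if j = P.L u then (fun _ _ => 0) else
    blk (fun _ _ => 0) (fun _ _ => 0) (fun _ _ => 0) (Q.B u (j - (P.L u + 1)))
  pt_L := (P.pt_L.add (PT.const 1)).add Q.pt_L
  pb_L := (P.pb_L.add (PB.const 1)).add Q.pb_L
  d_g := D.ite (PT.lt D.sigma_snd.pt (P.pt_L.comp pt_sigma_fst)) P.d_g
    (Q.d_g.app pt_sigma_fst (D.of_pt (PT.sub D.sigma_snd.pt
      ((P.pt_L.comp pt_sigma_fst).add (PT.const 1)))))
  d_A := by
    have z0 := h0.comp (pt_sigma_fst (X := fun _ : U => ℕ))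
    have z1 := h1.comp (pt_sigma_fst (X := fun _ : U => ℕ))
    refine d_time' (d_if (PT.lt D.sigma_snd.pt (P.pt_L.comp pt_sigma_fst))
      (d_blk (d_time P.d_A D.sigma_snd.pt) (d_cst z0) (d_cst z0) (d_idm z0 z1))
      (d_if (PT.eq D.sigma_snd.pt (P.pt_L.comp pt_sigma_fst)) (d_up hX)
        (d_blk (d_idm z0 z1) (d_cst z0) (d_cst z0) (d_time Q.d_A (PT.sub D.sigma_snd.pt
          ((P.pt_L.comp pt_sigma_fst).add (PT.const 1)))))))
  d_B := by
    have z0 := h0.comp (pt_sigma_fst (X := fun _ : U => ℕ))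
    have k1 := d_blk (d_time P.d_B D.sigma_snd.pt) (d_cst z0)
      (d_cst (X := fun z => Q.K.T z.1) z0) (d_cst (Y := fun z => Q.K.T z.1) z0)
    have k2 := d_blk (d_cst (X := fun z => P.K.T z.1) (Y := fun z => P.K.T z.1) z0) (d_cst z0)
      (d_cst z0) (d_time Q.d_B (PT.sub D.sigma_snd.pt
        ((P.pt_L.comp pt_sigma_fst).add (PT.const 1))))
    have k3 : DM (U := Σ _ : U, ℕ) fun z (_ _ : P.K.T z.1 ⊕ Q.K.T z.1) => (0 : Φ.F z.1) :=
      d_cst z0
    have k4 := d_if (PT.eq D.sigma_snd.pt (P.pt_L.comp pt_sigma_fst)) k3 k2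
    have k5 := d_if (PT.lt D.sigma_snd.pt (P.pt_L.comp pt_sigma_fst)) k1 k4
    exact d_time' (X := fun u => P.K.T u ⊕ Q.K.T u) (Y := fun u => P.K.T u ⊕ Q.K.T u)
      (Z := fun u => Φ.F u) k5

variable (h0 : D fun u => (0 : Φ.F u)) (h1 : D fun u => (1 : Φ.F u))
  (P Q : Prog Φ Γ) (X : ∀ u, P.K.T u ⊕ Q.K.T u → P.K.T u ⊕ Q.K.T u → Φ.F u) (hX : DM X) (u : U)

theorem step_lt {j : ℕ} (hj : j < P.L u) :
    (seq h0 h1 P Q X hX).step u j = Matrix.fromBlocks (P.step u j) 0 0 1 := by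
  ext (a | a) (b | b) : 2 <;> simp [Prog.step, hj, blk, Matrix.one_apply]
  split_ifs <;> simp [MonoidAlgebra.one_def]

theorem step_eq : (seq h0 h1 P Q X hX).step u (P.L u) = cst (Γ.G u) (X u) := by
  ext a b : 2
  simp [Prog.step, cst]

theorem step_gt (j : ℕ) :
    (seq h0 h1 P Q X hX).step u (P.L u + 1 + j) = Matrix.fromBlocks 1 0 0 (Q.step u j) := by
  have e1 : ¬ P.L u + 1 + j < P.L u := by omega
  have e2 : ¬ P.L u + 1 + j = P.L u := by omega
  have e3 : P.L u + 1 + j - (P.L u + 1) = j := by omega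
  ext (a | a) (b | b) : 2 <;> simp [Prog.step, e1, e2, e3, blk, Matrix.one_apply]
  split_ifs <;> simp [MonoidAlgebra.one_def]

theorem mat_le {j : ℕ} (hj : j ≤ P.L u) :
    (seq h0 h1 P Q X hX).mat u j = Matrix.fromBlocks (P.mat u j) 0 0 1 := by
  induction j with
  | zero => ext (a | a) (b | b) : 2 <;> simp [Prog.mat, Matrix.one_apply]
  | succ j ih =>
    rw [Prog.mat, Prog.mat, ih (by omega), step_lt h0 h1 P Q X hX u (by omega)]
    exact (Matrix.fromBlocks_multiply _ _ _ _ _ _ _ _).trans (by simp)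

theorem mat_gt (j : ℕ) : (seq h0 h1 P Q X hX).mat u (P.L u + 1 + j) =
    Matrix.fromBlocks 1 0 0 (Q.mat u j) *
      (cst (Γ.G u) (X u) * Matrix.fromBlocks (P.mat u (P.L u)) 0 0 1) := by
  induction j with
  | zero =>
    rw [Nat.add_zero, Prog.mat, Prog.mat, step_eq, mat_le h0 h1 P Q X hX u le_rfl,
      Matrix.fromBlocks_one, Matrix.one_mul]
  | succ j ih =>
    rw [← Nat.add_assoc, Prog.mat, ih, step_gt, Prog.mat]
    refine (Matrix.mul_assoc _ _ _).symm.trans (congrArg (· * _) ?_)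
    exact (Matrix.fromBlocks_multiply _ _ _ _ _ _ _ _).trans (by simp)

end KP2

open KP2 in
theorem s_p2 (hf : S_ft) : S_p2 := by
  intro U _ l _ Φ Γ
  obtain ⟨h0, h1, -⟩ := hf U l Φ
  refine ⟨fun K J I m m' ⟨Q, O2, I2, hO2, hI2, e2⟩ ⟨P, O1, I1, hO1, hI1, e1⟩ => ?_,
    fun J I m m' ⟨P, O1, I1, hO1, hI1, e1⟩ ⟨Q, O2, I2, hO2, hI2, e2⟩ => ?_⟩
  · have hs : DM fun u (a : Q.K.T u) (b : P.K.T u) => ∑ j, I2 u a j * O1 u j b := by
      have hp : PT fun z : Σ u, Q.K.T u × P.K.T u => z.1 := pt_sigma_fst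
      have hp2 : PT fun z : Σ z : Σ u, Q.K.T u × P.K.T u, J.T z.1 => z.1.1 :=
        hp.comp pt_sigma_fst
      refine ((hf _ l (Φ.comap _ hp)).2.2.2.2.2.2.1 (fun z => J.T z.1) (J.pf.comap hp)
        (fun z j => I2 z.1 z.2.1 j * O1 z.1 j z.2.2) ?_).1
      exact ((hf _ l (Φ.comap _ hp2)).2.2.1 _ _
        (hI2.app hp2 (D.sigma_snd.comp pt_sigma_fst).fst D.sigma_snd)
        (hO1.app hp2 D.sigma_snd (D.sigma_snd.comp pt_sigma_fst).snd)).2.2
    refine ⟨seq h0 h1 P Q _ (d_blk (d_idm h0 h1) (d_cst h0) hs (d_cst h0)), _, _,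
      d_cols (d_cst h0) hO2, d_rows hI1 (d_cst h0), fun u => ?_⟩
    change m u * m' u = _ * (seq h0 h1 P Q _ _).mat u (P.L u + 1 + Q.L u) * _
    rw [mat_gt, e1, e2, cst_blk, cst_rows, cst_cols, cst_mul, cst_one, cst_zero, cst_zero,
      cst_zero, cst_zero]
    simp [Matrix.fromBlocks_multiply, Matrix.fromCols_mul_fromBlocks, Matrix.fromCols_mul_fromRows,
      Matrix.mul_assoc]
  · refine ⟨seq h0 h1 P Q _ (d_blk (d_idm h0 h1) (d_cst h0) (d_cst h0) (d_idm h0 h1)), _, _,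
      d_cols hO1 hO2, d_rows hI1 hI2, fun u => ?_⟩
    change m u + m' u = _ * (seq h0 h1 P Q _ _).mat u (P.L u + 1 + Q.L u) * _
    rw [mat_gt, e1, e2, cst_blk, cst_rows, cst_cols, cst_one, cst_one, cst_zero, cst_zero]
    simp [Matrix.fromBlocks_multiply, Matrix.fromCols_mul_fromBlocks, Matrix.fromCols_mul_fromRows,
      Matrix.mul_assoc]

end Vale.Agent.P330Q
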