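import Vale.Agent.P330Q.PrgS

/-! Powers of linear programs. -/

namespace Vale.Agent.P330Q

open Vale.Agent.Lib.PolyTime Vale.Agent.P330 Finset Polynomial
open scoped Classical BigOperators

namespace KP3

open Matrix

theorem alg {R K I : Type} [Ring R] [Fintype K] [Fintype I] [DecidableEq K] [DecidableEq I]
    (L : ℕ) (s μ : ℕ → Matrix K K R) (h0 : μ 0 = 1) (hμ : ∀ j, μ (j + 1) = s j * μ j)
    (Out : Matrix I K R) (In : Matrix K I R) (s' : ℕ → Matrix (K ⊕ I) (K ⊕ I) R)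
    (X : ℕ → Matrix (K ⊕ I) I R) (X0 : X 0 = fromRows In 1) (hX : ∀ j, X (j + 1) = s' j * X j)
    (hs : ∀ j, s' j = if j % (L + 1) < L then fromBlocks (s (j % (L + 1))) 0 0 1
      else fromBlocks (In * Out) 0 Out 0) (q : ℕ) :
    X ((L + 1) * q) = fromRows (In * (Out * μ L * In) ^ q) ((Out * μ L * In) ^ q) := by
  have inner : ∀ q (Y : Matrix I I R), X ((L + 1) * q) = fromRows (In * Y) Y → ∀ t, t ≤ L →
      X ((L + 1) * q + t) = fromRows (μ t * (In * Y)) Y := by
    intro q Y h t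
    induction t with
    | zero => intro _; rw [add_zero, h, h0, Matrix.one_mul]
    | succ t ih =>
      intro ht
      have e : ((L + 1) * q + t) % (L + 1) = t := by
        rw [Nat.mul_add_mod, Nat.mod_eq_of_lt (by omega)]
      rw [← add_assoc, hX, ih (by omega), hs, e, if_pos (by omega), fromBlocks_mul_fromRows, hμ]
      simp only [Matrix.zero_mul, Matrix.one_mul, add_zero, zero_add, Matrix.mul_assoc]
  induction q with
  | zero => simp [X0]
  | succ q ih =>
    have e : ((L + 1) * q + L) % (L + 1) = L := by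
      rw [Nat.mul_add_mod, Nat.mod_eq_of_lt (by omega)]
    rw [show (L + 1) * (q + 1) = (L + 1) * q + L + 1 by ring, hX, inner q _ ih L le_rfl, hs, e,
      if_neg (lt_irrefl L), fromBlocks_mul_fromRows, pow_succ']
    simp only [Matrix.zero_mul, add_zero, Matrix.mul_assoc]

section
variable {C : Type} [Enc C] {X Y X' Y' Z : C → Type} [∀ c, Enc (X c)] [∀ c, Enc (Y c)]
  [∀ c, Enc (X' c)] [∀ c, Enc (Y' c)] [∀ c, Enc (Z c)]

theorem d_rows {a : ∀ c, X c → X' c → Z c} {e : ∀ c, Y c → X' c → Z c} (ha : D3 a) (he : D3 e) :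
    D3 fun c (k : X c ⊕ Y c) (w : X' c) => Sum.elim (a c) (e c) k w :=
  (D.sum_elim (C := Σ c, (X c ⊕ Y c) × X' c) (z := fun z => z.2.1)
    (f := fun z x => a z.1 x z.2.2) (g := fun z y => e z.1 y z.2.2) D.sigma_snd.fst
    (ha.app (pt_sigma_fst.comp pt_sigma_fst) D.sigma_snd (D.sigma_snd.comp pt_sigma_fst).snd)
    (he.app (pt_sigma_fst.comp pt_sigma_fst) D.sigma_snd
      (D.sigma_snd.comp pt_sigma_fst).snd)).congr fun z => by
    rcases z with ⟨c, k | k, w⟩ <;> rfl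

theorem d_cols {a : ∀ c, X c → X' c → Z c} {b : ∀ c, X c → Y' c → Z c} (ha : D3 a) (hb : D3 b) :
    D3 fun c (w : X c) (k : X' c ⊕ Y' c) => Sum.elim (a c w) (b c w) k :=
  D.sum_elim (C := Σ c, X c × (X' c ⊕ Y' c)) (z := fun z => z.2.2)
    (f := fun z x => a z.1 z.2.1 x) (g := fun z y => b z.1 z.2.1 y) D.sigma_snd.snd
    (ha.app (pt_sigma_fst.comp pt_sigma_fst) (D.sigma_snd.comp pt_sigma_fst).fst D.sigma_snd)
    (hb.app (pt_sigma_fst.comp pt_sigma_fst) (D.sigma_snd.comp pt_sigma_fst).fst D.sigma_snd)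

theorem d_blk {a : ∀ c, X c → X' c → Z c} {b : ∀ c, X c → Y' c → Z c} {e : ∀ c, Y c → X' c → Z c}
    {d : ∀ c, Y c → Y' c → Z c} (ha : D3 a) (hb : D3 b) (he : D3 e) (hd : D3 d) :
    D3 fun c (k : X c ⊕ Y c) (k' : X' c ⊕ Y' c) => Sum.elim (fun i => Sum.elim (a c i) (b c i))
      (fun i => Sum.elim (e c i) (d c i)) k k' := d_rows (d_cols ha hb) (d_cols he hd)

theorem d_cst {z : ∀ c, Z c} (h : D z) : D3 fun c (_ : X c) (_ : Y c) => z c := h.comp pt_sigma_fst

theorem d_id {z o : ∀ c, Z c} (hz : D z) (ho : D o) :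
    D3 fun c (i j : X c) => if i = j then o c else z c :=
  D.ite (D.eq D.sigma_snd.fst D.sigma_snd.snd) (ho.comp pt_sigma_fst) (hz.comp pt_sigma_fst)

theorem d_up {a : ∀ c, X c → Y c → Z c} (ha : D3 a) :
    D3 fun (c : Σ _ : C, ℕ) (x : X c.1) (y : Y c.1) => a c.1 x y :=
  ha.app (pt_sigma_fst.comp pt_sigma_fst) D.sigma_snd.fst D.sigma_snd.snd

theorem d_time {a b : ∀ c : Σ _ : C, ℕ, X c.1 → X c.1 → Z c.1} {L : C → ℕ} (hL : PT L)
    (ha : D3 a) (hb : D3 b) : D2 fun c (z : ℕ × X c × X c) =>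
      if z.1 % (L c + 1) < L c then a ⟨c, z.1 % (L c + 1)⟩ z.2.1 z.2.2
      else b ⟨c, z.1 % (L c + 1)⟩ z.2.1 z.2.2 := by
  have h1 : PT fun z : Σ c, ℕ × X c × X c => z.2.1 % (L z.1 + 1) :=
    (D.sigma_snd (X := fun c => ℕ × X c × X c)).fst.pt.mod ((hL.comp pt_sigma_fst).add (PT.const 1))
  have h2 : PT fun z : Σ c, ℕ × X c × X c => (⟨z.1, z.2.1 % (L z.1 + 1)⟩ : Σ _ : C, ℕ) :=
    pt_sigma_mk (X := fun _ => ℕ) pt_sigma_fst (D.of_pt h1)
  exact D.ite (h1.lt (hL.comp pt_sigma_fst)) (ha.app h2 D.sigma_snd.snd.fst D.sigma_snd.snd.snd)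
    (hb.app h2 D.sigma_snd.snd.fst D.sigma_snd.snd.snd)

theorem d_flat {a : ∀ c, ℕ → X c → X c → Z c}
    (ha : D2 fun c (z : ℕ × X c × X c) => a c z.1 z.2.1 z.2.2) :
    D3 fun (c : Σ _ : C, ℕ) (x y : X c.1) => a c.1 c.2 x y :=
  ha.app (x := fun z : Σ c : Σ _ : C, ℕ, X c.1 × X c.1 => (z.1.2, z.2))
    (pt_sigma_fst.comp pt_sigma_fst) ((D.sigma_snd.comp pt_sigma_fst).pair D.sigma_snd)

end

theorem cst_mul {F G J I K : Type} [Field F] [Group G] [Fintype I] (M : J → I → F)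
    (M' : I → K → F) : cst G (fun j k => ∑ i, M j i * M' i k) = cst G M * cst G M' := by
  ext1 j k
  simp only [cst, Matrix.mul_apply, MonoidAlgebra.single_mul_single, mul_one]
  exact map_sum (MonoidAlgebra.singleAddHom (1 : G)) _ _

end KP3

open KP3 in
theorem s_p3 (hf : S_ft) : S_p3 := by
  rintro U _ l _ Φ Γ I m n ⟨P, Out, In, hO, hI, hm⟩ hn hn'
  obtain ⟨h0, h1, -⟩ := hf U l Φ
  have hIO : DM fun u (k k' : P.K.T u) => ∑ i, In u k i * Out u i k' :=
    ((hf _ l (Φ.comap (fun z : Σ u, P.K.T u × P.K.T u => z.1) pt_sigma_fst)).2.2.2.2.2.2.1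
      (fun z => I.T z.1) (I.pf.comap pt_sigma_fst)
      (fun z i => In z.1 z.2.1 i * Out z.1 i z.2.2) (Φ.d_mul.app (pt_sigma_fst.comp pt_sigma_fst)
        (hI.app (pt_sigma_fst.comp pt_sigma_fst) (D.sigma_snd.comp pt_sigma_fst).fst D.sigma_snd)
        (hO.app (pt_sigma_fst.comp pt_sigma_fst) D.sigma_snd
          (D.sigma_snd.comp pt_sigma_fst).snd))).1
  let P' : Prog Φ Γ :=
    { K := P.K.sum I
      L := fun u => (P.L u + 1) * n u
      g := fun u j => P.g u (j % (P.L u + 1))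
      A := fun u j k k' => if j % (P.L u + 1) < P.L u then Sum.elim
          (fun i => Sum.elim (P.A u (j % (P.L u + 1)) i) fun _ => 0)
          (fun i => Sum.elim (fun _ => 0) fun i' => if i = i' then 1 else 0) k k'
        else Sum.elim (fun i => Sum.elim (fun i' => ∑ x, In u i x * Out u x i') fun _ => 0)
          (fun i => Sum.elim (Out u i) fun _ => 0) k k'
      B := fun u j k k' => if j % (P.L u + 1) < P.L u then Sum.elim
          (fun i => Sum.elim (P.B u (j % (P.L u + 1)) i) fun _ => 0)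
          (fun _ => Sum.elim (fun _ => 0) fun _ => 0) k k' else 0
      pt_L := (P.pt_L.add (PT.const 1)).mul hn
      pb_L := (P.pb_L.add (PB.const 1)).mul hn'
      d_g := P.d_g.app pt_sigma_fst (D.of_pt ((D.sigma_snd (X := fun _ : U => ℕ)).pt.mod
        ((P.pt_L.comp pt_sigma_fst).add (PT.const 1))))
      d_A := d_time (X := fun u => P.K.T u ⊕ I.T u) P.pt_L
        (d_blk (d_flat P.d_A) (d_up (d_cst h0)) (d_up (d_cst h0)) (d_up (d_id h0 h1)))
        (d_blk (d_up hIO) (d_up (d_cst h0)) (d_up hO) (d_up (d_cst h0)))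
      d_B := d_time (X := fun u => P.K.T u ⊕ I.T u) P.pt_L
        (d_blk (d_flat P.d_B) (d_up (d_cst h0)) (d_up (d_cst h0)) (d_up (d_cst h0)))
        (d_up (X := fun u => P.K.T u ⊕ I.T u) (Y := fun u => P.K.T u ⊕ I.T u) (d_cst h0)) }
  refine ⟨P', _, _, d_cols (d_cst h0) (d_id h0 h1), d_rows hI (d_id h0 h1), fun u => ?_⟩
  have key := alg (P.L u) (P.step u) (P.mat u) rfl (fun _ => rfl) (cst (Γ.G u) (Out u))
    (cst (Γ.G u) (In u)) (P'.step u)
    (fun j => P'.mat u j * Matrix.fromRows (cst (Γ.G u) (In u)) 1)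
    (@Matrix.one_mul _ _ _ _ _ (fun a b => Classical.propDecidable (a = b)) _)
    (fun j => Matrix.mul_assoc _ _ _) (fun j => ?_) (n u)
  · have e1 : cst (Γ.G u) (fun (k : P.K.T u ⊕ I.T u) (w : I.T u) => Sum.elim (In u)
        (fun i j => if i = j then (1 : Φ.F u) else 0) k w) =
        Matrix.fromRows (cst (Γ.G u) (In u)) 1 := by
      ext1 (k | k) w
      · rfl
      · by_cases h : k = w <;> simp [cst, h, MonoidAlgebra.one_def]
    have e2 : cst (Γ.G u) (fun (w : I.T u) (k : P.K.T u ⊕ I.T u) => Sum.elim (fun _ => 0)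
        (fun j => if w = j then (1 : Φ.F u) else 0) k) = Matrix.fromCols 0 1 := by
      ext1 w (k | k)
      · simp [cst]
      · by_cases h : w = k <;> simp [cst, h, MonoidAlgebra.one_def]
    rw [Matrix.mul_assoc]
    erw [e1, e2, key]
    rw [Matrix.fromCols_mul_fromRows, Matrix.zero_mul, zero_add, Matrix.one_mul, ← hm]
  · rw [← cst_mul]
    by_cases h : j % (P.L u + 1) < P.L u
    · rw [if_pos h]
      ext1 (k | k) (k' | k')
      · simp [Prog.step, P', h]
      · simp [Prog.step, P', h]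
      · simp [Prog.step, P', h]
      · by_cases e : k = k' <;> simp [Prog.step, P', h, e, MonoidAlgebra.one_def]
    · rw [if_neg h]
      ext1 (k | k) (k' | k') <;> simp [Prog.step, P', h, cst]

end Vale.Agent.P330Q
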