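import Vale.Agent.P330Q.PrgS

/-! Derived programs. -/

namespace Vale.Agent.P330Q

open Vale.Agent.Lib.PolyTime Vale.Agent.P330 Finset
open scoped Classical BigOperators

namespace KP4

variable {U : Type} [Enc U] {l : ℕ} [Fact l.Prime] {Φ : FF U l} {Γ : GF U}

theorem congr {J I : Fam U} {m m' : MatF Φ Γ J I} (h : Prg Φ Γ J I m) (e : ∀ u, m' u = m u) :
    Prg Φ Γ J I m' := by
  rwa [show m' = m from funext e]

theorem d_zero (hf : S_ft) {B : Type} [Enc B] {p : B → U} (hp : PT p) :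
    D fun b => (0 : Φ.F (p b)) := (hf U l Φ).1.comp hp

theorem d_one (hf : S_ft) {B : Type} [Enc B] {p : B → U} (hp : PT p) :
    D fun b => (1 : Φ.F (p b)) := (hf U l Φ).2.1.comp hp

/-- selection matrices -/
theorem sel (hf : S_ft) (h1 : S_p1) (J I : Fam U) {X : U → Type} [∀ u, Enc (X u)]
    {a : ∀ u, J.T u → X u} {b : ∀ u, I.T u → X u} (ha : D2 a) (hb : D2 b) :
    Prg Φ Γ J I fun u => Matrix.of fun j i => if a u j = b u i then 1 else 0 := by
  refine congr ((h1 U l Φ Γ).1 J I (fun u j i => if a u j = b u i then 1 else 0)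
    (D.ite (D.eq (ha.app pt_sigma_fst D.sigma_snd.fst) (hb.app pt_sigma_fst D.sigma_snd.snd))
      (d_one hf pt_sigma_fst) (d_zero hf pt_sigma_fst))) fun u => ?_
  funext j i
  simp only [cst, Matrix.of_apply]
  split_ifs
  · exact MonoidAlgebra.one_def
  · exact (MonoidAlgebra.single_zero _).symm

theorem p1 (hf : S_ft) (h1 : S_p1) (h2 : S_p2) (J I : Fam U) (g : ∀ u, J.T u → I.T u → Γ.G u)
    (t : ∀ u, J.T u → I.T u → Φ.F u) (hg : DM g) (ht : DM t) :
    Prg Φ Γ J I fun u j i => MonoidAlgebra.single (g u j i) (t u j i) := by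
  have a := (h1 U l Φ Γ).1 J (J.prod I) (fun u j q => if q.1 = j then t u q.1 q.2 else 0)
    (D.ite (D.eq D.sigma_snd.snd.fst D.sigma_snd.fst)
      (ht.app pt_sigma_fst D.sigma_snd.snd.fst D.sigma_snd.snd.snd) (d_zero hf pt_sigma_fst))
  have b := (h1 U l Φ Γ).2.1 (J.prod I) (fun u q => g u q.1 q.2) hg
  have c := sel (Φ := Φ) (Γ := Γ) hf h1 (J.prod I) I (a := fun u q => q.2) (b := fun u i => i)
    D.sigma_snd.snd D.sigma_snd
  refine congr ((h2 U l Φ Γ).1 _ _ _ _ _ ((h2 U l Φ Γ).1 _ _ _ _ _ a b) c) fun u => ?_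
  funext j i
  rw [Matrix.mul_apply, Finset.sum_eq_single (j, i)]
  · simp [Matrix.mul_diagonal, cst, MonoidAlgebra.single_mul_single]
  · rintro ⟨j', i'⟩ - h
    by_cases k : i' = i
    · have k' : j' ≠ j := fun e => h (by rw [e, k])
      simp [Matrix.mul_diagonal, cst, k']
    · simp [k]
  · exact fun h => absurd (Finset.mem_univ _) h

theorem p2 (hf : S_ft) (h1 : S_p1) (h2 : S_p2) (T J I : Fam U)
    (g : ∀ u, J.T u → I.T u × T.T u → Γ.G u) (t : ∀ u, J.T u → I.T u × T.T u → Φ.F u)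
    (hg : DM g) (ht : DM t) :
    Prg Φ Γ J I fun u j i => ∑ k, MonoidAlgebra.single (g u j (i, k)) (t u j (i, k)) := by
  have c := sel (Φ := Φ) (Γ := Γ) hf h1 (I.prod T) I (a := fun u q => q.1) (b := fun u i => i)
    D.sigma_snd.fst D.sigma_snd
  have a : Prg Φ Γ J (I.prod T) fun u => Matrix.of fun j q =>
      MonoidAlgebra.single (g u j q) (t u j q) := p1 hf h1 h2 J (I.prod T) g t hg ht
  refine congr ((h2 U l Φ Γ).1 _ _ _ _ _ a c) fun u => ?_
  funext j i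
  rw [Matrix.mul_apply]
  refine Eq.trans ?_ (Fintype.sum_prod_type _).symm
  rw [Finset.sum_eq_single i]
  · simp
  · intro i' _ h
    simp [h]
  · exact fun h => absurd (Finset.mem_univ _) h

theorem p4 (hf : S_ft) (h1 : S_p1) (I : Fam U) : Prg Φ Γ I I fun _ => 1 :=
  congr (sel hf h1 I I (a := fun _ i => i) (b := fun _ i => i) D.sigma_snd D.sigma_snd)
    fun _ => funext fun _ => funext fun _ => Matrix.one_apply

theorem p3 (hf : S_ft) (h1 : S_p1) (h2 : S_p2) (J I : Fam U) (m m' : MatF Φ Γ J I)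
    (hm : Prg Φ Γ J I m) (hm' : Prg Φ Γ J I m') : Prg Φ Γ J I fun u => m u - m' u := by
  have n1 : D fun u => -(1 : Φ.F u) := (hf U l Φ).2.2.2.1 _ (hf U l Φ).2.1
  have a := (h1 U l Φ Γ).1 J J (fun u j i => if j = i then -1 else 0)
    (D.ite (D.eq D.sigma_snd.fst D.sigma_snd.snd) (n1.comp pt_sigma_fst) (d_zero hf pt_sigma_fst))
  refine congr ((h2 U l Φ Γ).2 _ _ _ _ hm ((h2 U l Φ Γ).1 _ _ _ _ _ a hm')) fun u => ?_
  have e : cst (Γ.G u) (fun j i : J.T u => if j = i then (-1 : Φ.F u) else 0) = -1 := by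
    funext j i
    rw [Matrix.neg_apply, Matrix.one_apply, cst]
    split_ifs
    · rw [MonoidAlgebra.single_neg, MonoidAlgebra.one_def]
    · rw [MonoidAlgebra.single_zero, neg_zero]
  rw [e, Matrix.neg_mul, Matrix.one_mul, sub_eq_add_neg]

theorem p5 (hf : S_ft) (h1 : S_p1) (h2 : S_p2) (J I J' I' : Fam U) (m : MatF Φ Γ J I)
    (f : ∀ u, J'.T u → J.T u) (g : ∀ u, I'.T u → I.T u) (df : D2 f) (dg : D2 g)
    (hm : Prg Φ Γ J I m) : Prg Φ Γ J' I' fun u j i => m u (f u j) (g u i) := by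
  have a := sel (Φ := Φ) (Γ := Γ) hf h1 J' J (b := fun u i => i) df D.sigma_snd
  have b := sel (Φ := Φ) (Γ := Γ) hf h1 I I' (a := fun u i => i) D.sigma_snd dg
  refine congr ((h2 U l Φ Γ).1 _ _ _ _ _ ((h2 U l Φ Γ).1 _ _ _ _ _ a hm) b) fun u => ?_
  funext j i
  simp [Matrix.mul_apply]

theorem blk {R I : Type} [Ring R] [Fintype I] [DecidableEq I] [DecidableEq (I ⊕ I)]
    (m : Matrix I I R) (n : ℕ) (i j : I) :
    (Matrix.fromBlocks m 1 0 (1 : Matrix I I R) ^ n) (Sum.inl i) (Sum.inr j) =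
      (∑ k ∈ range n, m ^ k) i j := by
  have e : ∀ n : ℕ, Matrix.fromBlocks m 1 0 (1 : Matrix I I R) ^ n =
      Matrix.fromBlocks (m ^ n) (∑ k ∈ range n, m ^ k) 0 1 := by
    intro n
    induction n with
    | zero =>
      ext a b
      rcases a with a | a <;> rcases b with b | b <;> simp [Matrix.one_apply]
    | succ n ih =>
      rw [pow_succ, ih, Matrix.fromBlocks_multiply, Finset.sum_range_succ, pow_succ]
      simp [add_comm]
  rw [e, Matrix.fromBlocks_apply₁₂]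

theorem p6 (hf : S_ft) (h1 : S_p1) (h2 : S_p2) (h3 : S_p3) (I : Fam U) (m : MatF Φ Γ I I)
    (n : U → ℕ) (hm : Prg Φ Γ I I m) (hn : PT n) (hn' : PB n) :
    Prg Φ Γ I I fun u => ∑ j ∈ range (n u), m u ^ j := by
  have a := sel (Φ := Φ) (Γ := Γ) hf h1 (I.sum I) I (X := fun u => I.T u ⊕ I.T u)
    (a := fun u q => q) (b := fun u i => Sum.inl i) D.sigma_snd D.sigma_snd.inl
  have b := sel (Φ := Φ) (Γ := Γ) hf h1 I (I.sum I) (X := fun u => I.T u ⊕ I.T u)
    (a := fun u i => Sum.inl i) (b := fun u q => q) D.sigma_snd.inl D.sigma_snd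
  have c := sel (Φ := Φ) (Γ := Γ) hf h1 (I.sum I) (I.sum I) (X := fun u => I.T u ⊕ I.T u)
    (a := fun u q => Sum.inr (Sum.elim (fun i => i) (fun i => i) q)) (b := fun u q => q)
    (D.sum_elim (C := Σ u, I.T u ⊕ I.T u) (X := fun z => I.T z.1) (Y := fun z => I.T z.1)
      (Z := fun z => I.T z.1) (f := fun _ i => i) (g := fun _ i => i) D.sigma_snd D.sigma_snd
      D.sigma_snd).inr D.sigma_snd
  have d : Prg Φ Γ (I.sum I) (I.sum I) fun u => Matrix.fromBlocks (m u) 1 0 1 := by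
    refine congr ((h2 U l Φ Γ).2 _ _ _ _
      ((h2 U l Φ Γ).1 _ _ _ _ _ ((h2 U l Φ Γ).1 _ _ _ _ _ a hm) b) c) fun u => ?_
    funext q q'
    rcases q with i | i <;> rcases q' with j | j <;> simp [Matrix.mul_apply, Matrix.one_apply]
  refine congr (p5 hf h1 h2 (I.sum I) (I.sum I) I I _ (fun _ i => Sum.inl i) (fun _ i => Sum.inr i)
    D.sigma_snd.inl D.sigma_snd.inr (h3 U l Φ Γ _ _ n d hn hn')) fun u => ?_
  funext i j
  exact (@blk _ _ _ _ _ (fun a b => Classical.propDecidable (a = b)) (m u) (n u) i j).symm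

theorem inv {R : Type} [Ring R] (P V : R) (n : ℕ) (h : (1 - V * P) ^ n = 0)
    (h' : (1 - P * V) ^ n = 0) : (∑ j ∈ range n, (1 - V * P) ^ j) * V * P = 1 ∧
      P * ((∑ j ∈ range n, (1 - V * P) ^ j) * V) = 1 := by
  have a := geom_sum_mul_neg (1 - V * P) n
  have b := mul_neg_geom_sum (1 - P * V) n
  rw [h, sub_sub_cancel, sub_zero, ← mul_assoc] at a
  rw [h', sub_sub_cancel, sub_zero, mul_assoc] at b
  exact ⟨a, by rw [left_inv_eq_right_inv a b, b]⟩

end KP4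

theorem s_p4 (hf : S_ft) (h1 : S_p1) (h2 : S_p2) (h3 : S_p3) : S_p4 := by
  intro U _ l _ Φ Γ
  refine ⟨KP4.p1 hf h1 h2, KP4.p2 hf h1 h2, KP4.p3 hf h1 h2, KP4.p4 hf h1, KP4.p5 hf h1 h2,
    KP4.p6 hf h1 h2 h3, fun I P V n hP hV hn hn' e e' => ?_⟩
  exact ⟨_, (h2 U l Φ Γ).1 _ _ _ _ _ (KP4.p6 hf h1 h2 h3 I _ n (KP4.p3 hf h1 h2 I I _ _
    (KP4.p4 hf h1 I) ((h2 U l Φ Γ).1 _ _ _ _ _ hV hP)) hn hn') hV,
    fun u => KP4.inv (P u) (V u) (n u) (e u) (e' u)⟩

end Vale.Agent.P330Q
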