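import Vale.Agent.P330Q.PrgS

/-! Compilation of linear programs to generators. -/

namespace Vale.Agent.P330Q

open Vale.Agent.Lib.PolyTime Vale.Agent.P330 Finset
open scoped Classical BigOperators

namespace KP5

open Matrix

theorem core {R K I : Type} [Ring R] [Fintype K] (lam L : ℕ) (c γ : ℕ → ℕ → R)
    (a b : ℕ → Matrix K K R) (S : ℕ → Matrix (K ⊕ K) (K ⊕ K) R) (N : ℕ → Matrix (K ⊕ K) I R)
    (X : ℕ → Matrix K I R) (hN0 : N 0 = fromRows (X 0) 0) (hN : ∀ j, N (j + 1) = S j * N j)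
    (h0 : ∀ q, S ((lam + 2) * q) = fromBlocks 1 0 1 0)
    (h1 : ∀ q s, s < lam → S ((lam + 2) * q + (s + 1)) = fromBlocks 1 0 0 (diagonal fun _ => c q s))
    (h2 : ∀ q, S ((lam + 2) * q + (lam + 1)) = fromBlocks (a q) (b q) 0 0)
    (g0 : ∀ q, γ q 0 = 1) (g1 : ∀ q s, γ q (s + 1) = c q s * γ q s)
    (hX : ∀ q, q < L → X (q + 1) = (a q + b q * diagonal fun _ => γ q lam) * X q) :
    ∀ q, q ≤ L → N ((lam + 2) * q) = fromRows (X q) 0 := by
  intro q
  induction q with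
  | zero => exact fun _ => hN0
  | succ q ih =>
    intro hq
    have k : ∀ s, s ≤ lam → N ((lam + 2) * q + (s + 1)) =
        fromRows (X q) (((diagonal fun _ => γ q s : Matrix K K R) * X q : Matrix K I R)) := by
      intro s
      induction s with
      | zero => exact fun _ => by rw [zero_add, hN, h0, ih (by omega), fromBlocks_mul_fromRows]; simp [g0]
      | succ s ih' =>
        intro hs
        rw [← add_assoc, hN, h1 q s (by omega), ih' (by omega), fromBlocks_mul_fromRows,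
          ← Matrix.mul_assoc (diagonal _), diagonal_mul_diagonal]
        simp [g1]
    rw [show (lam + 2) * (q + 1) = (lam + 2) * q + (lam + 1) + 1 by ring, hN, h2, k lam le_rfl,
      fromBlocks_mul_fromRows, hX q hq, Matrix.add_mul, Matrix.mul_assoc]
    simp

theorem take_succ {B G : Type} [Monoid G] (f : B → G) (b : B) (hb : f b = 1) (w : List B) (s : ℕ) :
    ((w.take (s + 1)).reverse.map f).prod = f (w.getD s b) * ((w.take s).reverse.map f).prod := by
  rw [List.take_add_one, List.getD_eq_getElem?_getD]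
  cases w[s]? <;> simp [hb]

variable {V : Type} [Enc V] {X X' Y Y' Z : V → Type} [∀ v, Enc (X v)] [∀ v, Enc (X' v)]
  [∀ v, Enc (Y v)] [∀ v, Enc (Y' v)] [∀ v, Enc (Z v)]

theorem d_cols {a : ∀ v, X v → Y v → Z v} {b : ∀ v, X v → Y' v → Z v} (ha : DM a) (hb : DM b) :
    DM fun v x (y : Y v ⊕ Y' v) => Sum.elim (a v x) (b v x) y :=
  D.sum_elim (C := Σ v, X v × (Y v ⊕ Y' v)) (z := fun c => c.2.2) (f := fun c => a c.1 c.2.1)
    (g := fun c => b c.1 c.2.1) D.sigma_snd.snd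
    (ha.app (pt_sigma_fst.comp pt_sigma_fst) (D.sigma_snd.comp pt_sigma_fst).fst D.sigma_snd)
    (hb.app (pt_sigma_fst.comp pt_sigma_fst) (D.sigma_snd.comp pt_sigma_fst).fst D.sigma_snd)

theorem d_rows {a : ∀ v, X v → Y v → Z v} {b : ∀ v, X' v → Y v → Z v} (ha : DM a) (hb : DM b) :
    DM fun v (x : X v ⊕ X' v) y => Sum.elim (a v) (b v) x y :=
  (D.sum_elim (C := Σ v, (X v ⊕ X' v) × Y v) (z := fun c => c.2.1)
    (f := fun c x => a c.1 x c.2.2) (g := fun c x => b c.1 x c.2.2) D.sigma_snd.fst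
    (ha.app (pt_sigma_fst.comp pt_sigma_fst) D.sigma_snd (D.sigma_snd.comp pt_sigma_fst).snd)
    (hb.app (pt_sigma_fst.comp pt_sigma_fst) D.sigma_snd
      (D.sigma_snd.comp pt_sigma_fst).snd)).congr fun c => by rcases c with ⟨v, x | x, y⟩ <;> rfl

theorem d_cst {z : ∀ v, Z v} (h : D z) : DM fun v (_ : X v) (_ : Y v) => z v := h.comp pt_sigma_fst

theorem d_ite {p : V → Prop} {a b : ∀ v, X v → Y v → Z v} (hp : PT p) (ha : DM a) (hb : DM b) :
    DM fun v x y => if p v then a v x y else b v x y := D.ite (hp.comp pt_sigma_fst) ha hb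

theorem d_id {z z' : ∀ v, Z v} (h : D z) (h' : D z') :
    DM fun v (x y : X v) => if x = y then z v else z' v :=
  D.ite (D.sigma_snd.fst.eq D.sigma_snd.snd) (h.comp pt_sigma_fst) (h'.comp pt_sigma_fst)

theorem d_in {a : ∀ v, ℕ → X v → Y v → Z v} (ha : D2 fun v (z : ℕ × X v × Y v) => a v z.1 z.2.1 z.2.2)
    {q : (Σ _ : V, ℕ) → ℕ} (hq : PT q) : DM fun (v : Σ _ : V, ℕ) => a v.1 (q v) :=
  ha.app (p := fun c : Σ v : Σ _ : V, ℕ, X v.1 × Y v.1 => c.1.1) (x := fun c => (q c.1, c.2))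
    (pt_sigma_fst.comp pt_sigma_fst) ((D.of_pt (hq.comp pt_sigma_fst)).pair D.sigma_snd)

/-- currying -/
def unc {V : Type} {W : V → Type} (a : ∀ v : Σ _ : V, ℕ, W v.1) (v : V) (j : ℕ) : W v := a ⟨v, j⟩

theorem d_out {a : ∀ v : Σ _ : V, ℕ, X v.1 → Y v.1 → Z v.1} (ha : DM a) :
    D2 fun v (z : ℕ × X v × Y v) => unc (W := fun v => X v → Y v → Z v) a v z.1 z.2.1 z.2.2 :=
  ha.app (p := fun c : Σ v, ℕ × X v × Y v => (⟨c.1, c.2.1⟩ : Σ _ : V, ℕ))
    (pt_sigma_mk pt_sigma_fst D.sigma_snd.fst) D.sigma_snd.snd.fst D.sigma_snd.snd.snd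

end KP5

open KP5 Matrix in
theorem s_p5 (hf : S_ft) : S_p5 := by
  intro U _ l _ Φ Γ Γ' ι Bt _ _ gen b1 wd hgen h1 hwd hι J I m ⟨P, Out, In, hO, hI, hm⟩
  obtain ⟨z0, z1, -⟩ := hf U l Φ
  let w : U → ℕ → List Bt := fun u j => (wd u (P.g u j)).reverse
  have hw : D2 (X := fun _ => ℕ) (Y := fun _ => List Bt) w :=
    (D.of_pt (hwd.comp (pt_sigma_mk pt_sigma_fst P.d_g))).reverse
  let lam : U → ℕ := fun u => ∑ j : Fin (P.L u), (w u j).length
  have hw' := hw.app (p := fun z : Σ u, Fin (P.L u) => z.1) (x := fun z => (z.2 : ℕ)) pt_sigma_fst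
    (D.of_pt (D.fin_iff.1 D.sigma_snd))
  have l1 : PT lam := (PFam.fin P.pt_L P.pb_L).pt_sumN hw'.length
  have l2 : PB lam := (PFam.fin P.pt_L P.pb_L).pb_sumN hw'.pb_length
  have l3 : PT fun v : Σ _ : U, ℕ => lam v.1 := l1.comp pt_sigma_fst
  have l4 : PT fun v : Σ _ : U, ℕ => v.2 := D.pt (D.sigma_snd (X := fun _ : U => ℕ))
  have hq : PT fun v : Σ _ : U, ℕ => v.2 / (lam v.1 + 2) := Q.pt_div l4 (l3.add (PT.const 2))
  have ht : PT fun v : Σ _ : U, ℕ => v.2 % (lam v.1 + 2) := PT.mod l4 (l3.add (PT.const 2))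
  let b : U → ℕ → Bt := fun u j => (w u (j / (lam u + 2))).getD (j % (lam u + 2) - 1) b1
  have hb : PT fun v : Σ _ : U, ℕ => b v.1 v.2 :=
    ((hw.app pt_sigma_fst (D.of_pt hq)).getD (ht.sub (PT.const 1)) (D.const b1)).pt
  have y0 := z0.comp (pt_sigma_fst (X := fun _ => ℕ))
  have y1 := z1.comp (pt_sigma_fst (X := fun _ => ℕ))
  have e0 := PT.eq ht (PT.const 0)
  have e1 := PT.eq ht (l3.add (PT.const 1))
  let P' : Prog Φ Γ' := ⟨P.K.sum P.K, fun u => (lam u + 2) * P.L u, fun u j => gen u (b u j), _, _,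
    (l1.add (PT.const 2)).mul P.pt_L, (l2.add (PB.const 2)).mul P.pb_L,
    D.cases hb (fun b v => gen v.1 b) fun b => (hgen b).comp pt_sigma_fst,
    d_out (d_rows (d_cols (d_ite e1 (d_in P.d_A hq) (d_id y1 y0))
        (d_ite e1 (d_in P.d_B hq) (d_cst y0)))
      (d_cols (d_ite e0 (d_id y1 y0) (d_cst y0)) (d_cst y0))),
    d_out (d_rows (d_cols (d_cst y0) (d_cst y0))
      (d_cols (d_cst y0) (d_ite e0 (d_cst y0) (d_ite e1 (d_cst y0) (d_id y1 y0)))))⟩
  refine ⟨P', ⟨b, hb.comp (pt_sigma_mk (X := fun _ => ℕ) PT.id.fst (D.of_pt PT.id.snd)),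
    fun _ _ => rfl⟩, _, _, d_cols hO (d_cst z0), d_rows hI (d_cst z0), fun u => ?_⟩
  let f := MonoidAlgebra.mapDomainRingHom (Φ.F u) (ι u)
  have hs : ∀ g t, f (MonoidAlgebra.single g t) = MonoidAlgebra.single (ι u g) t := fun g t =>
    MonoidAlgebra.mapDomain_single
  have hc : ∀ (J I : Type) (M : J → I → Φ.F u), (cst (Γ.G u) M).map f = cst (Γ'.G u) M :=
    fun J I M => by ext1 j i; simp only [map_apply, cst, hs, map_one]
  have d1 : ∀ q s, s < lam u + 2 → ((lam u + 2) * q + s) / (lam u + 2) = q ∧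
      ((lam u + 2) * q + s) % (lam u + 2) = s := fun q s h =>
    ⟨by rw [Nat.mul_add_div (by omega), Nat.div_eq_of_lt h, add_zero],
      by rw [Nat.mul_add_mod, Nat.mod_eq_of_lt h]⟩
  have key := core (lam u) (P.L u)
    (fun q s => MonoidAlgebra.single (gen u ((w u q).getD s b1)) (1 : Φ.F u))
    (fun q s => MonoidAlgebra.single (((w u q).take s).reverse.map (gen u)).prod 1)
    (fun q => cst (Γ'.G u) (P.A u q)) (fun q => cst (Γ'.G u) (P.B u q)) (P'.step u)
    (fun j => P'.mat u j * cst (Γ'.G u) (Sum.elim (In u) fun _ _ => 0))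
    (fun q => (P.mat u q * cst (Γ.G u) (In u)).map f)
    (by
      simp only [Prog.mat, Matrix.one_mul, hc]
      ext1 (x | x) y <;> simp [cst])
    (fun j => Matrix.mul_assoc _ _ _)
    (fun q => by
      ext1 (x | x) (y | y) <;>
        simp [Prog.step, P', unc, one_apply, apply_ite (MonoidAlgebra.single (1 : Γ'.G u)),
          MonoidAlgebra.one_def])
    (fun q s h => by
      obtain ⟨a1, a2⟩ := d1 q (s + 1) (by omega)
      ext1 (x | x) (y | y) <;>
        simp [Prog.step, P', unc, b, a1, a2, h.ne, one_apply, diagonal_apply, MonoidAlgebra.one_def,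
          apply_ite (MonoidAlgebra.single (M := Γ'.G u) _)])
    (fun q => by
      obtain ⟨a1, a2⟩ := d1 q (lam u + 1) (by omega)
      ext1 (x | x) (y | y) <;> simp [Prog.step, P', unc, a1, a2, cst])
    (fun q => by simp [MonoidAlgebra.one_def])
    (fun q s => by rw [take_succ _ b1 (h1 u), MonoidAlgebra.single_mul_single, mul_one])
    (fun q h => by
      rw [Prog.mat, Matrix.mul_assoc, Matrix.map_mul]
      congr 1
      ext1 x y
      rw [List.take_of_length_le (single_le_sum (f := fun j : Fin (P.L u) => (w u j).length)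
        (fun _ _ => Nat.zero_le _) (mem_univ ⟨q, h⟩)), List.reverse_reverse, hι]
      simp [Prog.step, hs, cst, MonoidAlgebra.single_mul_single])
    (P.L u) le_rfl
  rw [Matrix.mul_assoc]
  refine Eq.trans ?_ (congrArg _ key.symm)
  refine Eq.trans (b := (m u).map f) rfl ?_
  rw [hm, Matrix.mul_assoc, Matrix.map_mul, hc]
  ext1 x y
  refine Eq.trans ?_ (Fintype.sum_sum_type _).symm
  simp [mul_apply, cst]

end Vale.Agent.P330Q
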