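import Vale.Agent.P330Q.PrgS

/-! Linear programs run in polynomial time. -/

namespace Vale.Agent.P330Q

open Vale.Agent.Lib.PolyTime Vale.Agent.P330 Finset Polynomial
open scoped Classical BigOperators

namespace KP6

/-- Iteration with a clock on words with values of bounded size. -/
theorem iter {C : Type} [Enc C] {X Y : C → Type} [∀ c, Enc (X c)] [∀ c, Enc (Y c)]
    [∀ c, Fintype (X c)] (hX : PFam X) {b : C → ℕ} (hb : PB b) (hY : ∀ c (y : Y c), sz y ≤ b c)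
    (st : ∀ c, ℕ → (X c → Y c) → X c → Y c)
    (hst : ∀ (B' : Type) [Enc B'] (p : B' → C) (j : B' → ℕ) (w : ∀ b, X (p b) → Y (p b)), PT p →
      PT j → D2 w → D2 fun b x => st (p b) (j b) (w b) x)
    (R : ∀ c, ℕ → X c → Y c) (h0 : D2 fun c => R c 0) (hR : ∀ c j, R c (j + 1) = st c j (R c j))
    {n : C → ℕ} (hn : PT n) (hn' : PB n) : D2 fun c => R c (n c) := by
  obtain ⟨e, he, he'⟩ := hX.equiv
  have hc := hX.pt_card
  have hc' := hX.pb_card
  let T : C → Type := fun c => ℕ × (Fin (Fintype.card (X c)) → Y c)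
  let F : ∀ c, T c → T c := fun c t =>
    (t.1 + 1, fun i => st c t.1 (fun x => t.2 (e c x)) ((e c).symm i))
  have h1 : PT fun z : Σ c, T c => z.1 := pt_sigma_fst
  have h1' : PT fun z : Σ c, T c => z.2.1 := (D.sigma_snd (X := T)).fst.pt
  have h2 := hst (Σ c, T c) (fun z => z.1) (fun z => z.2.1) (fun z x => z.2.2 (e z.1 x)) h1 h1'
    (D.fn_app ((D.sigma_snd (X := T)).comp pt_sigma_fst).snd
      (he.app (h1.comp pt_sigma_fst) D.sigma_snd))
  have hF : D2 F := D.pair (D.of_pt (h1'.add (PT.const 1))) (D.fn_mk (hc.comp h1) (hc'.comp h1)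
    (h2.app pt_sigma_fst (he'.app (h1.comp pt_sigma_fst) D.sigma_snd)))
  have hi : D fun c => ((0, fun i => R c 0 ((e c).symm i)) : T c) :=
    D.pair (D.const 0) (D.fn_mk hc hc' (h0.app pt_sigma_fst he'))
  have key : ∀ c m, (F c)^[m] (0, fun i => R c 0 ((e c).symm i)) =
      (m, fun i => R c m ((e c).symm i)) := fun c m => by
    induction m with
    | zero => rfl
    | succ m ih =>
      rw [Function.iterate_succ_apply', ih, hR]
      simp only [F, Equiv.symm_apply_apply]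
  have h3 := D.iterate hF hi hn hn' ((hn'.lin 2 1).add (hc'.mul (hb.lin 2 2))) fun c m hm => by
    rw [key]
    have a1 := sz_nat_le m
    have a2 : sz (List.ofFn fun i => R c m ((e c).symm i)) ≤
        Fintype.card (X c) * (2 * b c + 2) :=
      (sz_le_of_forall (l := List.ofFn _) fun y _ => hY c y).trans (by simp)
    have a3 : sz ((m, fun i => R c m ((e c).symm i)) : T c) =
        2 * sz m + sz (List.ofFn fun i => R c m ((e c).symm i)) + 1 := rfl
    rw [a3]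
    omega
  exact (D.fn_app (h3.comp pt_sigma_fst).snd he).congr fun z => by
    rw [key]; simp

variable {U B : Type} [Enc U] [Enc B] {l : ℕ} [Fact l.Prime]

theorem add (hf : S_ft) (Φ : FF U l) {p : B → U} (hp : PT p) {x y : ∀ b, Φ.F (p b)} (hx : D x)
    (hy : D y) : D fun b => x b + y b := ((hf B l (Φ.comap p hp)).2.2.1 x y hx hy).1

theorem mul (Φ : FF U l) {p : B → U} (hp : PT p) {x y : ∀ b, Φ.F (p b)} (hx : D x)
    (hy : D y) : D fun b => x b * y b := Φ.d_mul.app hp hx hy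

theorem sum (hf : S_ft) (Φ : FF U l) (I : Fam U) {p : B → U} (hp : PT p)
    {f : ∀ b, I.T (p b) → Φ.F (p b)} (h : D2 f) : D fun b => ∑ i, f b i :=
  ((hf B l (Φ.comap p hp)).2.2.2.2.2.2.1 (fun b => I.T (p b)) (I.pf.comap hp) f h).1

/-- Matrix times tuple of words. -/
theorem mv (hf : S_ft) (Φ : FF U l) (J I X : Fam U) {M : ∀ u, J.T u → I.T u → Φ.F u}
    {w : ∀ u, I.T u → X.T u → Φ.F u} (hM : DM M) (hw : DM w) :
    DM fun u (j : J.T u) (x : X.T u) => ∑ i, M u j i * w u i x := by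
  have h1 : PT fun z : Σ u, J.T u × X.T u => z.1 := pt_sigma_fst
  have h2 : PT fun z : Σ z : Σ u, J.T u × X.T u, I.T z.1 => z.1.1 := h1.comp pt_sigma_fst
  have h3 : D fun z : Σ z : Σ u, J.T u × X.T u, I.T z.1 => z.1.2 :=
    D.sigma_snd.comp pt_sigma_fst
  exact sum hf Φ I h1 (f := fun z i => M z.1 z.2.1 i * w z.1 i z.2.2)
    (mul Φ h2 (hM.app h2 h3.fst D.sigma_snd) (hw.app h2 D.sigma_snd h3.snd))

/-- One step of a program. -/
theorem stp (hf : S_ft) {Φ : FF U l} {Γ : GF U} (P : Prog Φ Γ) (X : Fam U)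
    [∀ u, MulAction (Γ.G u) (X.T u)] (hs : D3 fun u (g : Γ.G u) (x : X.T u) => g • x)
    {p : B → U} {j : B → ℕ} {w : ∀ b, P.K.T (p b) × X.T (p b) → Φ.F (p b)} (hp : PT p)
    (hj : PT j) (hw : D2 w) : D2 fun b (y : P.K.T (p b) × X.T (p b)) =>
      ∑ k, (P.A (p b) (j b) y.1 k * w b (k, y.2) +
        P.B (p b) (j b) y.1 k * w b (k, (P.g (p b) (j b))⁻¹ • y.2)) := by
  have h0 : PT fun z : Σ b, P.K.T (p b) × X.T (p b) => z.1 := pt_sigma_fst
  have h1 : PT fun z : Σ b, P.K.T (p b) × X.T (p b) => p z.1 := hp.comp h0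
  have h2 : PT fun z : Σ z : Σ b, P.K.T (p b) × X.T (p b), P.K.T (p z.1) => z.1.1 :=
    h0.comp pt_sigma_fst
  have h3 : D fun z : Σ z : Σ b, P.K.T (p b) × X.T (p b), P.K.T (p z.1) => z.1.2 :=
    D.sigma_snd.comp pt_sigma_fst
  have h4 : D fun z : Σ z : Σ b, P.K.T (p b) × X.T (p b), P.K.T (p z.1) => z.2 := D.sigma_snd
  have h5 := hp.comp h2
  have h6 := D.of_pt (hj.comp h2)
  have h7 := D.pair h6 (D.pair h3.fst h4)
  exact sum hf Φ P.K h1 (f := fun z k => P.A (p z.1) (j z.1) z.2.1 k * w z.1 (k, z.2.2) +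
      P.B (p z.1) (j z.1) z.2.1 k * w z.1 (k, (P.g (p z.1) (j z.1))⁻¹ • z.2.2))
    (add hf Φ h5 (mul Φ h5 (P.d_A.app h5 h7) (hw.app h2 (D.pair h4 h3.snd)))
      (mul Φ h5 (P.d_B.app h5 h7) (hw.app h2 (D.pair h4
        (hs.app h5 (Γ.d_inv.app h5 (P.d_g.app h5 h6)) h3.snd)))))

end KP6

theorem s_p6 (hf : S_ft) (ha : S_act) : S_p6 := by
  intro U _ l _ Φ Γ X _ hs J I m ⟨P, Out, In, hO, hI, hm⟩ w hw
  obtain ⟨b, hb, hY⟩ := (hf U l Φ).2.2.2.2.2.1
  let R : ∀ u, ℕ → P.K.T u × X.T u → Φ.F u := fun u j y =>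
    actM (P.mat u j) (actM (cst (Γ.G u) (In u)) (w u)) y.1 y.2
  have h0 : D2 fun u => R u 0 := (KP6.mv hf Φ P.K I X hI hw).congr fun z => by
    obtain ⟨-, -, -, -, -, a1, a2, -⟩ := ha (Φ.F z.1) (Γ.G z.1) (X.T z.1)
    show actM (1 : Matrix _ _ _) _ _ _ = _
    rw [a1, a2]
  have hR : ∀ u j, R u (j + 1) = fun y : P.K.T u × X.T u => ∑ k, (P.A u j y.1 k * R u j (k, y.2) +
      P.B u j y.1 k * R u j (k, (P.g u j)⁻¹ • y.2)) := fun u j => by
    obtain ⟨-, -, -, -, a0, -, -, a3, -⟩ := ha (Φ.F u) (Γ.G u) (X.T u)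
    funext y
    show actM (P.step u j * P.mat u j) _ _ _ = _
    rw [a0]
    exact a3 _ _ (P.A u j) (P.B u j) (P.g u j) _ y.1 y.2
  have h1 := KP6.iter (P.K.pf.prod X.pf) hb hY
    (fun u j r y => ∑ k, (P.A u j y.1 k * r (k, y.2) + P.B u j y.1 k * r (k, (P.g u j)⁻¹ • y.2)))
    (fun _ _ _ _ _ hp hj hr => KP6.stp hf P X hs hp hj hr) R h0 hR P.pt_L P.pb_L
  refine (KP6.mv hf Φ J P.K X (w := fun u k x => R u (P.L u) (k, x)) hO h1).congr fun z => ?_
  obtain ⟨-, -, -, -, a0, -, a2, -⟩ := ha (Φ.F z.1) (Γ.G z.1) (X.T z.1)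
  beta_reduce
  rw [hm, a0, a0, a2]

end Vale.Agent.P330Q
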