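import Vale.Agent.P330Q.PrgS

/-! Inversion modulo a nilpotent ideal. -/

namespace Vale.Agent.P330Q

open Vale.Agent.Lib.PolyTime Vale.Agent.P330 Finset Polynomial
open scoped Classical BigOperators

namespace KP7

variable {F K I : Type} [Field F] [Group K] [Fintype K] [Fintype I]

theorem coeff_mat {Q : Matrix I I (MonoidAlgebra F K)} {P0 : I → I × K → F}
    (hQ : ∀ j i k, (Q j i).coeff k = P0 j (i, k)) (Z : Matrix I I (MonoidAlgebra F K))
    (i : I) (a : I × K) : ((Q * Z) a.1 i).coeff a.2 =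
      ∑ b : I × K, P0 a.1 (b.1, a.2 * b.2⁻¹) * (Z b.1 i).coeff b.2 := by
  rw [Matrix.mul_apply, MonoidAlgebra.coeff_sum, Finsupp.finsetSum_apply, Fintype.sum_prod_type]
  refine Finset.sum_congr rfl fun i' _ => ?_
  rw [MonoidAlgebra.coeff_mul_apply_right, Finsupp.sum_fintype _ _ fun _ => mul_zero _]
  simp only [hQ]

theorem coeff_sum_single (t : K → F) (k : K) :
    (∑ k', MonoidAlgebra.single k' (t k') : MonoidAlgebra F K).coeff k = t k := by
  rw [MonoidAlgebra.coeff_sum, Finsupp.finsetSum_apply]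
  simp [Finsupp.single_apply]

theorem inv_mat {Q : Matrix I I (MonoidAlgebra F K)} {P0 : I → I × K → F}
    (hQ : ∀ j i k, (Q j i).coeff k = P0 j (i, k)) {Ut : Matrix (I × K) (I × K) F}
    (h1 : (Matrix.of fun a b : I × K => P0 a.1 (b.1, a.2 * b.2⁻¹)) * Ut = 1)
    (h2 : Ut * (Matrix.of fun a b : I × K => P0 a.1 (b.1, a.2 * b.2⁻¹)) = 1)
    {U0 : Matrix I I (MonoidAlgebra F K)} (hU : ∀ j i k, (U0 j i).coeff k = Ut (j, k) (i, 1)) :
    Q * U0 = 1 ∧ U0 * Q = 1 := by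
  have hr : Q * U0 = 1 := by
    refine Matrix.ext fun j i => MonoidAlgebra.ext (Finsupp.ext fun k => ?_)
    have h3 := congrFun (congrFun h1 (j, k)) (i, 1)
    rw [coeff_mat hQ U0 i (j, k)]
    simp only [Matrix.mul_apply, Matrix.of_apply] at h3
    simp only [hU]
    rw [h3, Matrix.one_apply, Matrix.one_apply]
    by_cases hj : j = i
    · simp [hj, MonoidAlgebra.one_def, Finsupp.single_apply, eq_comm]
    · simp [hj]
  refine ⟨hr, ?_⟩
  have hz : Q * (U0 * Q - 1) = 0 := by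
    rw [Matrix.mul_sub, ← Matrix.mul_assoc, hr, Matrix.one_mul, Matrix.mul_one, sub_self]
  rw [← sub_eq_zero]
  generalize U0 * Q - 1 = Z at hz
  refine Matrix.ext fun j i => MonoidAlgebra.ext (Finsupp.ext fun k => ?_)
  have h3 : (Matrix.of fun a b : I × K => P0 a.1 (b.1, a.2 * b.2⁻¹)).mulVec
      (fun b => (Z b.1 i).coeff b.2) = 0 := by
    funext a
    have h4 := coeff_mat hQ Z i a
    rw [hz] at h4
    exact h4.symm
  have h5 := congrArg Ut.mulVec h3
  rw [Matrix.mulVec_mulVec, h2, Matrix.one_mulVec, Matrix.mulVec_zero] at h5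
  exact congrFun h5 (j, k)

theorem kill {A B : Type} [Ring A] [Ring B] (f : A →+* B) {V P : Matrix I I A}
    (h : V.map f * P.map f = 1) (i j : I) : f ((1 - V * P) i j) = 0 := by
  have h1 : (1 - V * P).map f = 0 := by
    rw [Matrix.map_sub _ (map_sub f), Matrix.map_mul, h, Matrix.map_one _ (map_zero f) (map_one f),
      sub_self]
  exact congrFun (congrFun h1 i) j

theorem minv (hm : S_minv) {U : Type} [Enc U] {l : ℕ} [Fact l.Prime] (Φ : FF U l) {X : U → Type}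
    [∀ u, Enc (X u)] [∀ u, Fintype (X u)] [d : ∀ u, DecidableEq (X u)] (hX : PFam X)
    {M : ∀ u, X u → X u → Φ.F u} (hM : DM M) (hu : ∀ u, IsUnit (Matrix.of (M u))) :
    ∃ N : ∀ u, Matrix (X u) (X u) (Φ.F u), DM (fun u a b => N u a b) ∧
      ∀ u, Matrix.of (M u) * N u = 1 ∧ N u * Matrix.of (M u) = 1 := by
  obtain rfl : d = fun u a b => Classical.propDecidable (a = b) := Subsingleton.elim _ _
  exact ⟨_, (hm U l Φ).1 X hX M hM hu, fun u =>
    ⟨Matrix.mul_nonsing_inv _ ((Matrix.isUnit_iff_isUnit_det _).1 (hu u)),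
      Matrix.nonsing_inv_mul _ ((Matrix.isUnit_iff_isUnit_det _).1 (hu u))⟩⟩

theorem nil {G : Type} [Group G] (π : G →* K) (s : K → G) (hπ : ∀ k, π (s k) = k)
    {P : Matrix I I (MonoidAlgebra F G)} {P0 : I → I × K → F}
    (hc : ∀ j i k, (MonoidAlgebra.mapDomain π (P j i)).coeff k = P0 j (i, k))
    {Ut : Matrix (I × K) (I × K) F}
    (h1 : (Matrix.of fun a b : I × K => P0 a.1 (b.1, a.2 * b.2⁻¹)) * Ut = 1)
    (h2 : Ut * (Matrix.of fun a b : I × K => P0 a.1 (b.1, a.2 * b.2⁻¹)) = 1)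
    (V : Matrix I I (MonoidAlgebra F G))
    (hV : ∀ j i, V j i = ∑ k, MonoidAlgebra.single (s k) (Ut (j, k) (i, 1))) :
    (∀ i j, MonoidAlgebra.mapDomain π ((1 - V * P) i j) = 0) ∧
      ∀ i j, MonoidAlgebra.mapDomain π ((1 - P * V) i j) = 0 := by
  have key := inv_mat (Q := P.map (MonoidAlgebra.mapDomainRingHom F π)) hc h1 h2
    (U0 := V.map (MonoidAlgebra.mapDomainRingHom F π)) fun j i k => by
      rw [Matrix.map_apply, hV, map_sum]
      simp only [MonoidAlgebra.mapDomainRingHom_apply, MonoidAlgebra.mapDomain_single, hπ]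
      exact coeff_sum_single _ k
  exact ⟨kill _ key.2, kill _ key.1⟩

end KP7

theorem s_p7 (hm : S_minv) (hn : S_nil) (h4 : S_p4) : S_p7 := by
  intro U _ l _ Φ Γ Κ _ hK π s r ι hs hπ hr hr' hι I P P0 hP hP0 hc hu
  have hPt : DM fun u (a b : I.T u × Κ.G u) => P0 u a.1 (b.1, a.2 * b.2⁻¹) :=
    D3.app hP0 pt_sigma_fst D.sigma_snd.fst.fst (D.pair D.sigma_snd.snd.fst
      (D3.app Κ.d_mul pt_sigma_fst D.sigma_snd.fst.snd
        (D2.app Κ.d_inv pt_sigma_fst D.sigma_snd.snd.snd)))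
  obtain ⟨Ut, hUt, hU⟩ := KP7.minv hm Φ (I.pf.prod hK) hPt hu
  have hV := (h4 U l Φ Γ).2.1 ⟨Κ.G, inferInstance, inferInstance, hK⟩ I I
    (fun u _ z => s u z.2) (fun u j z => Ut u (j, z.2) (z.1, 1))
    (D2.app hs pt_sigma_fst D.sigma_snd.snd.snd)
    (D3.app hUt pt_sigma_fst (D.pair D.sigma_snd.fst D.sigma_snd.snd.snd)
      (D.pair D.sigma_snd.snd.fst (Κ.d_one.comp pt_sigma_fst)))
  have key := fun u => KP7.nil (π u) (s u) (hπ u) (hc u) (hU u).1 (hU u).2 _ fun _ _ => rfl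
  refine (h4 U l Φ Γ).2.2.2.2.2.2 I P _ (fun u => r u * l + 1) hP hV ?_ ?_ (fun u => ?_) fun u => ?_
  · fun_prop
  · exact (hr'.mul (PB.const l)).add (PB.const 1)
  · exact (hn l (r u) (Φ.F u) (I.T u)).1 _ _ (π u) (ι u) (hι u) _ (key u).1
  · exact (hn l (r u) (Φ.F u) (I.T u)).1 _ _ (π u) (ι u) (hι u) _ (key u).2

end Vale.Agent.P330Q
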