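import Vale.Agent.P330Q.MemD

/-! The Tanner conditions as a fixed point system. -/

namespace Vale.Agent.P330Q

open Vale.Agent.Lib.PolyTime Vale.Agent.P330 Finset
open scoped Classical BigOperators

namespace KTan

variable {k F G B S : Type} [Field k] [Field F] [Algebra k F] [Group G]

theorem key {I : Type} [Fintype I] (θ : F) (M : I → I → k) (γ : I → I → G)
    (x : I → MonoidAlgebra F G) (q : I) (g : G) : (∑ q', fixM θ M γ q q' * x q').coeff g =
      (x q).coeff g - ∑ q', θ * algebraMap k F (M q q') * (x q').coeff ((γ q q')⁻¹ * g) := by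
  simp [fixM, sub_mul, MonoidAlgebra.coeff_sum]

variable [Fintype B] [Fintype S] {ckL ckR : S → Prop} (EL ER : S → S → k) (θ : F)
  (ν : S → Equiv.Perm B) (a : B × S → G) (x : B × S → MonoidAlgebra F G) {s : S} (b : B)

theorem left (h : ckL s) : ∑ q', fixM θ (tM ckL ckR EL ER ν) (tG ckL a) (b, s) q' * x q' = 0 ↔
    ∀ g, (x (b, s)).coeff g =
      ∑ t, if ckL t then 0 else θ * algebraMap k F (EL s t) * (x (b, t)).coeff g := by
  rw [← MonoidAlgebra.coeff_eq_zero, Finsupp.ext_iff]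
  refine forall_congr' fun g => ?_
  rw [key, Finsupp.zero_apply, sub_eq_zero, Fintype.sum_prod_type_right]
  refine Eq.congr_right (sum_congr rfl fun t _ => ?_)
  rw [sum_eq_single b (fun b' _ n => by simp [tM, h, n]) (by simp)]
  by_cases e : ckL t <;> simp [tM, tG, h, e]

theorem right (h : ckR s) (h' : ¬ ckL s) :
    ∑ q', fixM θ (tM ckL ckR EL ER ν) (tG ckL a) (b, s) q' * x q' = 0 ↔
    ∀ g, (x (b, s)).coeff ((a (b, s))⁻¹ * g) = ∑ t, if ckR t then 0 else θ * algebraMap k F (ER s t) *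
      (x ((ν t)⁻¹ (ν s b), t)).coeff ((a ((ν t)⁻¹ (ν s b), t))⁻¹ * g) := by
  rw [← MonoidAlgebra.coeff_eq_zero, Finsupp.ext_iff,
    ← (Equiv.mulLeft (a (b, s))⁻¹).forall_congr_right]
  refine forall_congr' fun g => ?_
  rw [key, Finsupp.zero_apply, sub_eq_zero, Fintype.sum_prod_type_right]
  refine Eq.congr_right (sum_congr rfl fun t _ => ?_)
  rw [sum_eq_single ((ν t)⁻¹ (ν s b))
    (fun b' _ n => by simp [tM, h, h', mt Equiv.Perm.eq_inv_iff_eq.2 n]) (by simp)]
  by_cases e : ckR t <;> simp [tM, tG, h, h', e, mul_assoc]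

end KTan

theorem s_tan (hx : S_ext) : S_tan := by
  intro k F G B S _ _ _ _ _ _ CL CR ckL ckR EL ER hL hR hd θ ν a x
  simp only [(hx k F S CL).2.2 ckL EL hL, (hx k F S CR).2.2 ckR ER hR]
  refine ⟨⟨fun h => ⟨fun b g s hs => (KTan.left EL ER θ ν a x b hs).1 (h _ (Or.inl hs)) g,
    fun b g s hs => ?_⟩, fun h q hq => ?_⟩, fun q h h' => ?_⟩
  · have := (KTan.right EL ER θ ν a x ((ν s)⁻¹ b) hs fun e => hd s e hs).1 (h _ (Or.inr hs)) g
    rwa [Equiv.Perm.coe_inv, Equiv.apply_symm_apply] at this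
  · obtain ⟨b, s⟩ := q
    rcases hq with hq | hq
    · exact (KTan.left EL ER θ ν a x b hq).2 fun g => h.1 b g s hq
    · refine (KTan.right EL ER θ ν a x b hq fun e => hd s e hq).2 fun g => ?_
      have := h.2 (ν s b) g s hq
      rwa [Equiv.Perm.coe_inv, Equiv.symm_apply_apply] at this
  · ext g
    rw [KTan.key]
    simp [tM, h, h']

end Vale.Agent.P330Q
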