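import Vale.Agent.P330Q.BPc

/-! Linear programs are block programs. -/

namespace Vale.Agent.P330Q

open Vale.Agent.Lib.PolyTime Vale.Agent.P330 Finset
open scoped Classical BigOperators

namespace World
variable {C : Type} [Enc C] {l : ℕ} [Fact l.Prime] {a : C → ℕ} {S B : Type} [Fintype S] [Enc S]
  [Fintype B] [Enc B] {δ0 lam : ℝ} {W : World C l a S B δ0 lam} {b1 : B}

/-- A matrix acts on every group of lanes. -/
theorem BP.lin (hb : ∀ c x, W.π c b1 x = x) (L : SF W.P.lg) {I O : SF W.P.lg} {A : C → Type}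
    {i : ∀ c, A c → L.T c × I.T c → W.Wd c} {M : ∀ c, O.T c → I.T c → W.P.F c} (hM : D3 M)
    (hi : ∀ c s k, i c s k ∈ W.T c) :
    W.BP (L.prod I) (L.prod O) A i fun c s z x => ∑ k, M c z.2 k * i c s (z.1, k) x :=
  BP.step (g := fun c z w => ∑ k, M c z.2.2 k * w (b1, z.2.1, k))
    (AG.sum I.pf (AG.cmul (hM.app pt_sigma_fst D.s1.snd.snd D.s2)
      (AG.var (V := W.VF (L.prod I)) (by show D _; fun_prop)))).qg
    hi (fun c s z => T_lin _ fun k => hi c s (z.1, k)) fun c s z x => by simp only [hb]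

end World

theorem lpbp (l : ℕ) [Fact l.Prime] : LPBP l := by
  intro C S B _ _ _ _ _ δ0 lam a W b1 hb L I O m h
  obtain ⟨K, r, b, A₀, A₁, In, Out, h1, h2, h3, h4, h5, h6, h7, h8, h9⟩ := h
  let X : ∀ c, (I.T c → W.Wd c) → ℕ → K.T c → W.Wd c := fun c y =>
    itr (fun t (X : K.T c → W.Wd c) k x =>
      ∑ k', (A₀ c t k k' * X k' x + A₁ c t k k' * X k' (W.π c (b c t) x)))
      fun k x => ∑ i, In c k i * y i x
  have hX : ∀ c y, (∀ i, y i ∈ W.T c) → ∀ t k, X c y t k ∈ W.T c := fun c y hy t => by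
    induction t with
    | zero => exact fun k => World.T_lin _ hy
    | succ t ih =>
      intro k
      have := World.T_add (World.T_lin (A₀ c t k) ih)
        (World.T_lin (A₁ c t k) fun k' => h8 c t _ (ih k'))
      simp only [← sum_add_distrib] at this
      exact this
  have e : ∀ c y o, m c y o = fun x => ∑ k, Out c o k * X c y (r c) k x := fun c y o =>
    funext fun x => h9 c y o x
  refine ⟨fun c y hy o => e c y o ▸ World.T_lin _ (hX c y hy _), ?_⟩
  let A : C → Type := fun c => {y : L.T c × I.T c → W.Wd c // ∀ k, y k ∈ W.T c}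
  have hY : ∀ c (y : A c) t (z : L.T c × K.T c), X c (fun i => y.1 (z.1, i)) t z.2 ∈ W.T c :=
    fun c y t z => hX c _ (fun i => y.2 (z.1, i)) t z.2
  have p1 := World.BP.lin hb L (A := A) (i := fun _ y => y.1) h6 fun _ y => y.2
  have p2 : W.BP (L.prod K) (L.prod K) A (fun c y z => X c (fun i => y.1 (z.1, i)) 0 z.2)
      fun c y z => X c (fun i => y.1 (z.1, i)) (r c) z.2 :=
    World.Tr.bp ⟨L.prod K, r, fun c z w => ∑ k', (A₀ c z.1 z.2.2.2 k' * w (b1, z.2.2.1, k') +
        A₁ c z.1 z.2.2.2 k' * w (b c z.1, z.2.2.1, k')), fun _ v => some v, fun _ k => k,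
      fun c y t z => X c (fun i => y.1 (z.1, i)) t z.2, h1, h2,
      (AG.sum K.pf (AG.add
        (AG.cmul (h4.app pt_sigma_fst (D.pair D.s1.fst (D.pair D.s1.snd.snd.snd D.s2)))
          (AG.var (V := W.VF (L.prod K)) (D.pair (D.const b1) (D.pair D.s1.snd.snd.fst D.s2))))
        (AG.cmul (h5.app pt_sigma_fst (D.pair D.s1.fst (D.pair D.s1.snd.snd.snd D.s2)))
          (AG.var (V := W.VF (L.prod K)) (D.pair
            (D.of_pt (h3.comp (D.pair (D.of_pt pt_sigma_fst) D.s1.fst).pt))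
            (D.pair D.s1.snd.snd.fst D.s2)))))).qg,
      D.some D.sigma_snd, D.sigma_snd, fun _ _ _ => rfl, fun c y t _ v x => by
        simp only [hb]
        rfl, fun c y t _ => hY c y t, fun _ _ _ => rfl⟩
  have p3 := World.BP.lin hb L h7 fun c y => hY c y (r c)
  exact ((p1.comp hb p2).comp hb p3).congr (fun _ _ _ => rfl) fun c y z => e c _ z.2

end Vale.Agent.P330Q
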