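import Vale.Agent.P330Q.PrgS
import Vale.Agent.P330Q.GrpD

/-! The memory code: statements. -/

namespace Vale.Agent.P330Q

open Vale.Agent.Lib.PolyTime Vale.Agent.P330 Finset
open scoped Classical BigOperators

/-- Left multiplication on the edges. -/
@[reducible] def lAct (G S : Type) [Group G] : MulAction G (G × S) where
  smul g x := (g * x.1, x.2)
  one_smul x := Prod.ext (one_mul x.1) rfl
  mul_smul g h x := Prod.ext (mul_assoc g h x.1) rfl

/-- The group algebra acts on words by left multiplication. -/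
noncomputable def actL {F G S : Type} [Field F] [Group G] (a : MonoidAlgebra F G)
    (w : G × S → F) : G × S → F := @act F G (G × S) _ _ (lAct G S) a w

/-- The right Tanner code with scaled local codes. -/
def TC {k F G S : Type} [Field k] [Field F] [Algebra k F] [Group G]
    (CL CR : Submodule k (S → k)) (ckL ckR : S → Prop) (θ : F) (γ : S → G) : Set (G × S → F) :=
  tcode2 (thC CL ckL θ) (thC CR ckR θ) fun s => Equiv.mulRight (γ s)

variable {U : Type} [Enc U] {l : ℕ} [Fact l.Prime] {S0 Bt : Type} [Fintype S0] [Enc Bt] {lam : ℝ}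

/-- The word `w * c` on the edges of the big group. -/
noncomputable def GrpD.enc (Y : GrpD U l S0 Bt lam) {u : U} {F S : Type} [Field F]
    (c : Y.Κ.G u × S → MonoidAlgebra F (HA l (Y.n u))) (w : MonoidAlgebra F (HA l (Y.n u)))
    (x : Y.Γ.G u × S) : F := (w * c (Y.π u x.1, x.2)).coeff (Y.e u x.1)

/-- The normal subgroup as a group family. -/
@[reducible] def GrpD.HF (Y : GrpD U l S0 Bt lam) : GF U := P330Q.HF l Y.n Y.pt_n Y.pb_n

/-- The coordinates as a family. -/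
@[reducible] def GrpD.Co (Y : GrpD U l S0 Bt lam) : Fam U := Fam.ofFin Y.n Y.pt_n Y.pb_n

/-- The generator `c` of the memory code and its programs. -/
def MemThm : Prop := ∀ (U : Type) [Enc U] (l : ℕ) [Fact l.Prime] (S0 Bt : Type) [Fintype S0]
  [Enc Bt] (lam : ℝ) (Y : GrpD U l S0 Bt lam) (Φ : FF U l) (S : Type) [Fintype S] [Enc S]
  (CL CR : Submodule (ZMod l) (S → ZMod l)) (ckL ckR : S → Prop) (EL ER : S → S → ZMod l),
  Sys CL ckL EL → Sys CR ckR ER → (∀ s, ckL s → ¬ ckR s) → ∀ γ : ∀ u, S → Y.Γ.G u,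
  (∀ s, D fun u => γ u s) → (∀ u, Fintype.card (Y.Κ.G u) * Fintype.card S < Φ.m u) →
  ∃ c : ∀ u, Y.Κ.G u × S → MonoidAlgebra (Φ.F u) (HA l (Y.n u)),
    Prg Φ Y.HF (Y.KF.prod (.const U S)) (.const U Unit) (fun u q _ => c u q) ∧
    Prg Φ Y.HF (Y.Co.prod (Y.KF.prod (.const U S))) (.const U Unit)
      (fun u q _ => der q.1 (c u q.2)) ∧ ∀ u,
      (∀ k s, ¬ ckL s → ¬ ckR s → c u (k, s) = 1) ∧
      (∀ w, Y.enc (c u) w ∈ TC CL CR ckL ckR (Φ.θ u) (γ u)) ∧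
      ∀ t ∈ TC CL CR ckL ckR (Φ.θ u) (γ u), (∀ g s, ¬ ckL s → ¬ ckR s → t (g, s) = 0) → t = 0

/-- A word of the left Tanner code over the group algebra with a prescribed free entry. -/
def KapThm : Prop := ∀ (U : Type) [Enc U] (l : ℕ) [Fact l.Prime] (S0 Bt : Type) [Fintype S0]
  [Enc Bt] (lam : ℝ) (Y : GrpD U l S0 Bt lam) (Φ : FF U l) (A : Type) [Fintype A] [Enc A]
  (CL CR : Submodule (ZMod l) (A → ZMod l)) (ckL ckR : A → Prop) (EL ER : A → A → ZMod l),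
  Sys CL ckL EL → Sys CR ckR ER → (∀ a, ckL a → ¬ ckR a) → ∀ a0, ¬ ckL a0 → ¬ ckR a0 →
  ∀ α : ∀ u, A → Y.Γ.G u, (∀ a, D fun u => α u a) →
  (∀ u, Fintype.card (Y.Κ.G u) * Fintype.card A < Φ.m u) →
  ∃ κ : ∀ u, A → MonoidAlgebra (Φ.F u) (Y.Γ.G u),
    Prg Φ Y.Γ (.const U A) (.const U Unit) (fun u a _ => κ u a) ∧ ∀ u, κ u a0 = 1 ∧
      (∀ g, (fun a => (κ u a).coeff g) ∈ thC CL ckL (Φ.θ u)) ∧
      (∀ g, (fun a => (κ u a).coeff ((α u a)⁻¹ * g)) ∈ thC CR ckR (Φ.θ u)) ∧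
      ∀ (S : Type) (y : Y.Γ.G u × S → Φ.F u) g s,
        (fun a => actL (κ u a) y (g, s)) ∈ thC CL ckL (Φ.θ u) ∧
        (fun a => actL (κ u a) y ((α u a)⁻¹ * g, s)) ∈ thC CR ckR (Φ.θ u)

/-- Rules for words on the big group. -/
def S_enc : Prop := ∀ (U : Type) [Enc U] (l : ℕ) [Fact l.Prime] (S0 Bt : Type) [Fintype S0]
  [Enc Bt] (lam : ℝ) (Y : GrpD U l S0 Bt lam) (u : U) (F S : Type) [Field F] [Algebra (ZMod l) F],
  (∀ (CL CR : Submodule F (S → F)) (γ : S → Y.Γ.G u) (a : MonoidAlgebra F (Y.Γ.G u)),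
    ∀ t ∈ tcode2 CL CR fun s => Equiv.mulRight (γ s),
      actL a t ∈ tcode2 CL CR fun s => Equiv.mulRight (γ s)) ∧
  ∀ c : Y.Κ.G u × S → MonoidAlgebra F (HA l (Y.n u)),
    (∀ a w, actL (MonoidAlgebra.mapDomain (Y.ι u) a) (Y.enc c w) = Y.enc c (a * w)) ∧
    (∀ w w' (t : F), Y.enc c (w + w') = Y.enc c w + Y.enc c w' ∧
      Y.enc c (t • w) = t • Y.enc c w) ∧
    ∀ s0, (∀ k, c (k, s0) = 1) → (∀ w g, Y.enc c w (g, s0) = w.coeff (Y.e u g)) ∧
      (∀ a w g s, Y.enc c (a * w) (g, s) = Y.enc c (c (Y.π u g, s) * a * w) (g, s0)) ∧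
      ∀ i w g s, Y.enc c (der i w) (g, s) =
        algebraMap (ZMod l) F ((Y.e u g).toAdd i) * Y.enc c w (g, s) -
          Y.enc c (der i (c (Y.π u g, s)) * w) (g, s0)

section
variable {k G B S : Type} [Field k] [Group G]

/-- The scalar part of the Tanner system. -/
noncomputable def tM (ckL ckR : S → Prop) (EL ER : S → S → k) (ν : S → Equiv.Perm B)
    (q q' : B × S) : k :=
  if ckL q.2 then (if q'.1 = q.1 ∧ ¬ ckL q'.2 then EL q.2 q'.2 else 0)
  else if ckR q.2 then (if ν q'.2 q'.1 = ν q.2 q.1 ∧ ¬ ckR q'.2 then ER q.2 q'.2 else 0) else 0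

/-- The voltages of the Tanner system. -/
noncomputable def tG (ckL : S → Prop) (a : B × S → G) (q q' : B × S) : G :=
  if ckL q.2 then 1 else (a q)⁻¹ * a q'

end

/-- The Tanner conditions as a fixed point system. -/
def S_tan : Prop := ∀ (k F G B S : Type) [Field k] [Field F] [Algebra k F] [Group G] [Fintype B]
  [Fintype S] (CL CR : Submodule k (S → k)) (ckL ckR : S → Prop) (EL ER : S → S → k),
  Sys CL ckL EL → Sys CR ckR ER → (∀ s, ckL s → ¬ ckR s) →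
  ∀ (θ : F) (ν : S → Equiv.Perm B) (a : B × S → G) (x : B × S → MonoidAlgebra F G),
    ((∀ q, ckL q.2 ∨ ckR q.2 → ∑ q', fixM θ (tM ckL ckR EL ER ν) (tG ckL a) q q' * x q' = 0) ↔
      (∀ b g, (fun s => (x (b, s)).coeff g) ∈ thC CL ckL θ) ∧
      ∀ b g, (fun s => (x ((ν s)⁻¹ b, s)).coeff ((a ((ν s)⁻¹ b, s))⁻¹ * g)) ∈ thC CR ckR θ) ∧
    ∀ q, ¬ ckL q.2 → ¬ ckR q.2 → ∑ q', fixM θ (tM ckL ckR EL ER ν) (tG ckL a) q q' * x q' = x q

end Vale.Agent.P330Q
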