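import Vale.Agent.P330Q.QD
import Vale.Agent.P330Q.MemD

/-! The construction of worlds: data and statements. -/

namespace Vale.Agent.P330Q

open Vale.Agent.Lib.PolyTime Vale.Agent.P330 Finset
open scoped Classical BigOperators

/-- Two systematic codes with disjoint check ports and a free port. -/
def Two {k S : Type} [Field k] [Fintype S] (C0 : Bool → Submodule k (S → k))
    (ck : Bool → S → Prop) (E : Bool → S → S → k) (s0 : S) : Prop :=
  (∀ b, Sys (C0 b) (ck b) (E b) ∧ ¬ ck b s0) ∧ ∀ s, ck false s → ¬ ck true s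

/-- Local codes of rate two thirds with constant distance. -/
def GVThm : Prop := ∃ (δ0 : ℝ) (L : ℕ), 0 < δ0 ∧ δ0 ≤ 1 ∧ ∀ (l : ℕ) [Fact l.Prime], L ≤ l →
  ∀ (S' : Type) [Fintype S'] [Nonempty S'],
    ∃ (C0 : Bool → Submodule (ZMod l) (S' × Fin 3 → ZMod l)) (ck : Bool → S' × Fin 3 → Prop)
      (E : Bool → S' × Fin 3 → S' × Fin 3 → ZMod l) (s0 : S' × Fin 3),
      Two C0 ck E s0 ∧ ∀ b, Dist0 (C0 b) δ0

/-- Left-right Cayley complexes: column codes and soundness. -/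
def LtcThm : Prop := ∀ δ0 : ℝ, 0 < δ0 → δ0 ≤ 1 → ∃ (lam : ℝ) (L : ℕ), 0 < lam ∧
  ∀ (l : ℕ) [Fact l.Prime], L ≤ l → ∀ (S' : Type) [Fintype S'] [Nonempty S'],
    ∃ (A T : Type) (_ : Fintype A) (_ : Fintype T) (_ : Nonempty T) (_ : A ≃ S' × T)
      (CA : Bool → Submodule (ZMod l) (A → ZMod l)) (ck : Bool → A → Prop)
      (E : Bool → A → A → ZMod l) (a0 : A), Two CA ck E a0 ∧
      ∀ (S : Type) [Fintype S] [Nonempty S], ∃ K0 : ℝ, 0 < K0 ∧
        ∀ (F G K : Type) [Field F] [Algebra (ZMod l) F] [Group G] [Fintype G] (θ : F), θ ≠ 0 →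
        ∀ (α : A → G) (γ : S → G), P325.Gap (fun a g => α a * g) lam →
          P325.Gap (fun s g => g * γ s) lam → ∀ CB : Bool → Submodule F (S → F),
          (∀ b, Dist0 (CB b) δ0) → ∀ (f : K → A → G × S → F) (β : ℝ),
          fr G (fun g => ∃ k i, (fun s => f k i (g, s)) ∉ CB false) ≤ β →
          fr G (fun g => ∃ k i, (fun s => f k i (g * (γ s)⁻¹, s)) ∉ CB true) ≤ β →
          fr (G × S) (fun x => ∃ k, (fun i => f k i x) ∉ thC (CA false) (ck false) θ) ≤ β →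
          fr (G × S) (fun x => ∃ k,
            (fun i => f k i ((α i)⁻¹ * x.1, x.2)) ∉ thC (CA true) (ck true) θ) ≤ β →
          ∃ y : K → G × S → F,
            (∀ k, y k ∈ tcode2 (CB false) (CB true) fun s => Equiv.mulRight (γ s)) ∧
            fr (G × S) (fun x => ∃ k, f k a0 x ≠ y k x) ≤ K0 * β

/-- The sum of all group elements has a program. -/
def S_norm : Prop := ∀ (U : Type) [Enc U] (l : ℕ) [Fact l.Prime] (Φ : FF U l) (r : U → ℕ)
  (hr : PT r) (hr' : PB r), Prg Φ (HF l r hr hr') (.const U Unit) (.const U Unit)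
    fun u _ _ => ∑ h : HA l (r u), MonoidAlgebra.single h 1

/-- The data of a world. -/
structure WD (C : Type) [Enc C] (l : ℕ) [Fact l.Prime] (a lg : C → ℕ) (S0 Bt S : Type)
    [Fintype S0] [Enc Bt] [Fintype S] [Enc S] (δ0 lam lam' : ℝ) : Type 1 where
  Y : GrpD (List Unit) l S0 Bt lam'
  Φ : FF (List Unit) l
  p : C → List Unit
  hp : PT p
  pl : Pl lg fun c => sz (p c)
  pb_lg : PB lg
  pb_H : PB fun c => l ^ Y.n (p c)
  sz_H : Sz a lg fun c => l ^ Y.n (p c)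
  n_le : ∀ u, Y.n u ≤ Φ.m u
  θ0 : ∀ u, Φ.θ u ≠ 0
  γ : ∀ u, S → Y.Γ.G u
  d_γ : ∀ s, D fun u => γ u s
  gap : ∀ u, P325.Gap (fun s g => g * γ u s) lam
  C0 : Bool → Submodule (ZMod l) (S → ZMod l)
  ck : Bool → S → Prop
  E : Bool → S → S → ZMod l
  s0 : S
  two : Two C0 ck E s0
  good : TanGood δ0 lam S
  dist : ∀ b, Dist0 (C0 b) δ0
  hm : ∀ u, Fintype.card (Y.Κ.G u) * Fintype.card S < Φ.m u

namespace WD
variable {C : Type} [Enc C] {l : ℕ} [Fact l.Prime] {a lg : C → ℕ} {S0 Bt S : Type}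
  [Fintype S0] [Fintype Bt] [Enc Bt] [Fintype S] [Enc S] {δ0 lam lam' : ℝ}
  (X : WD C l a lg S0 Bt S δ0 lam lam')

/-- The setting of plain programs. -/
@[reducible] def P : PS C l where
  Φ := X.Φ.comap X.p X.hp
  n c := X.Y.n (X.p c)
  lg := lg
  pt_n := X.Y.pt_n.comp X.hp
  pb_H := X.pb_H
  pb_lg := X.pb_lg
  pl_n := Sz.of_pb X.Y.pb_n X.pl
  n_le c := X.n_le (X.p c)

/-- The expander family. -/
@[reducible] def TS : TSys C S lam where
  G := X.Y.GFam X.p X.hp X.pb_H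
  ne _ := ⟨1⟩
  nb c s := Equiv.mulRight (X.γ (X.p c) s)
  d_nb s := X.Y.Γ.d_mul.app (X.hp.comp pt_sigma_fst) D.sigma_snd
    ((X.d_γ s).comp (X.hp.comp pt_sigma_fst))
  gap c := X.gap (X.p c)

/-- The moves: left multiplications and exchanges of ports. -/
noncomputable def mv (c : C) : Bt ⊕ S → Equiv.Perm (X.Y.Γ.G (X.p c) × S)
  | .inl b => (Equiv.mulLeft (X.Y.gen (X.p c) b)⁻¹).prodCongr (Equiv.refl S)
  | .inr s => (Equiv.refl _).prodCongr (Equiv.swap s X.s0)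

theorem d_mv (i : Bt ⊕ S) : D2 fun c x => X.mv c i x := by
  have q : PT fun z : Σ c, X.Y.Γ.G (X.p c) × S => X.p z.1 := X.hp.comp pt_sigma_fst
  rcases i with b | s
  · exact D.pair (X.Y.Γ.d_mul.app q (X.Y.Γ.d_inv.app q ((X.Y.d_gen b).comp q)) D.sigma_snd.fst)
      D.sigma_snd.snd
  · exact D.pair D.sigma_snd.fst
      (D.of_pt (P325.pt_finite D.sigma_snd.snd.pt fun t => Equiv.swap s X.s0 t))

/-- The world. -/
@[reducible] noncomputable def W : World C l a S (Bt ⊕ S) δ0 lam where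
  P := X.P
  Y := X.TS
  π := X.mv
  C0 := X.C0
  ck := X.ck
  good := X.good
  dist := X.dist
  d_π := X.d_mv
  szG := (X.sz_H.mul (Sz.card_comap X.Y.KF X.pl)).congr fun _ => X.Y.card_G _
  plm := Sz.of_pb X.Φ.pb_m X.pl
  θ0 c := X.θ0 (X.p c)

/-- Families over the unary context are small. -/
@[reducible] def sf (J : Fam (List Unit)) : SF lg := ⟨J.comap X.p X.hp, Sz.card_comap J X.pl⟩

end WD

/-- Programs over a group family that maps to the big group are linear programs. -/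
def S_lp : Prop := ∀ (C : Type) [Enc C] (l : ℕ) [Fact l.Prime] (a lg : C → ℕ) (S0 Bt S : Type)
  [Fintype S0] [Fintype Bt] [Enc Bt] [Fintype S] [Enc S] (δ0 lam lam' : ℝ)
  (X : WD C l a lg S0 Bt S δ0 lam lam') (Γ : GF (List Unit)) (ι : ∀ u, Γ.G u →* X.Y.Γ.G u),
  D2 (fun u g => ι u g) → ∀ (J : Fam (List Unit)) (m : MatF X.Φ Γ J (.const _ Unit)),
  Prg X.Φ Γ J (.const _ Unit) m → ∀ (O : SF lg) (f : ∀ c, O.T c → J.T (X.p c)), D2 f →
  X.W.LP (.const _ Unit) O fun c y o =>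
    actL (MonoidAlgebra.mapDomain (ι (X.p c)) (m (X.p c) (f c o) ())) (y ())

/-- The memory structure exists. -/
def S_wmem : Prop := ∀ (C : Type) [Enc C] (l : ℕ) [Fact l.Prime] (a lg : C → ℕ) (S0 Bt S : Type)
  [Fintype S0] [Fintype Bt] [Enc Bt] [Fintype S] [Enc S] (δ0 lam lam' : ℝ)
  (X : WD C l a lg S0 Bt S δ0 lam lam'), Nonempty (Mem X.W)

end Vale.Agent.P330Q
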