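import Vale.Agent.P330Q.LrD
import Vale.Agent.P330Q.WorldD
import Vale.Agent.P330.Prob

/-! The column codes of the left-right test: definitions and statements of the pieces. -/

namespace Vale.Agent.P330Q

open Vale.Agent.Lib.PolyTime Vale.Agent.P330 Finset
open scoped Classical BigOperators

/-- The Tanner code as a subspace. -/
def tsb2 {F S G : Type} [Field F] (CL CR : Submodule F (S → F)) (nb : S → Equiv.Perm G) :
    Submodule F (G × S → F) where
  carrier := tcode2 CL CR nb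
  add_mem' ha hb := ⟨fun g => CL.add_mem (ha.1 g) (hb.1 g), fun g => CR.add_mem (ha.2 g) (hb.2 g)⟩
  zero_mem' := ⟨fun _ => CL.zero_mem, fun _ => CR.zero_mem⟩
  smul_mem' t _ hv := ⟨fun g => CL.smul_mem t (hv.1 g), fun g => CR.smul_mem t (hv.2 g)⟩

/-- A code transported along a bijection of the ports. -/
def trC {F A A' : Type} [Field F] (C0 : Submodule F (A → F)) (e : A ≃ A') :
    Submodule F (A' → F) := C0.comap (LinearMap.funLeft F F e)

theorem mem_trC {F A A' : Type} [Field F] {C0 : Submodule F (A → F)} {e : A ≃ A'} {v : A' → F} :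
    v ∈ trC C0 e ↔ (fun a => v (e a)) ∈ C0 := Iff.rfl

/-- Tanner codes have distance and are agreement testable. -/
def L_agr : Prop := ∀ (δ1 δB : ℝ) (n : ℕ), 0 < δ1 → 0 < δB → ∃ κ : ℝ, 0 < κ ∧
  ∀ (F G S1 : Type) [Field F] [Fintype G] [Nonempty G] [Fintype S1] (C1 : Submodule F (S1 → F))
    (nb : S1 → Equiv.Perm G) (lam : ℝ), Fintype.card S1 = n → TanGood δ1 lam S1 → Dist0 C1 δ1 →
    P325.Gap (fun s g => nb s g) lam → Dist0 (tsb2 C1 C1 nb) (δ1 ^ 2 / 8) ∧
      ∀ (S : Type) [Fintype S] [Nonempty S] (CB : Submodule F (S → F)), Dist0 CB δB →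
        Agr (tsb2 C1 C1 nb) CB κ

/-- Transport of distance and agreement testability. -/
def L_tr : Prop :=
  (∀ (F A A' : Type) [Field F] [Fintype A] [Fintype A'] (C0 : Submodule F (A → F)) (e : A ≃ A')
    (ω : A' → F), (∀ a, ω a ≠ 0) → (∀ δ, Dist0 C0 δ → Dist0 (twC (trC C0 e) ω) δ) ∧
      ∀ (S : Type) [Fintype S] (CB : Submodule F (S → F)) (κ : ℝ), Agr C0 CB κ →
        Agr (twC (trC C0 e) ω) CB κ) ∧
  ∀ (k F G S A' : Type) [Field k] [Field F] [Algebra k F] (C1 : Submodule k (S → k))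
    (nb : S → Equiv.Perm G) (e : G × S ≃ A'),
    extC F (trC (tsb2 C1 C1 nb) e) = trC (tsb2 (extC F C1) (extC F C1) nb) e

/-- Codes of rate above one half give a pair of systematic codes. -/
def L_sys : Prop := ∀ (k A : Type) [Field k] [Fintype A] (C0 : Submodule k (A → k)),
  Fintype.card A < 2 * Module.finrank k C0 →
    ∃ (e : Bool → A ≃ A) (ck : Bool → A → Prop) (E : Bool → A → A → k) (a0 : A),
      Two (fun b => trC C0 (e b)) ck E a0

/-- Local codes of rate five sixths and the dimension of Tanner codes. -/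
def L_dim : Prop :=
  (∀ (k S : Type) [Field k] [Fintype k] [Fintype S], Fintype.card S ≤ Fintype.card k →
    ∃ C1 : Submodule k (S → k), Dist0 C1 (1 / 6) ∧
      5 * Fintype.card S ≤ 6 * Module.finrank k C1) ∧
  ∀ (k G S : Type) [Field k] [Fintype G] [Nonempty G] [Fintype S] [Nonempty S]
    (C1 : Submodule k (S → k)) (nb : S → Equiv.Perm G),
    5 * Fintype.card S ≤ 6 * Module.finrank k C1 →
      Fintype.card (G × S) < 2 * Module.finrank k (tsb2 C1 C1 nb)

/-- Expanders of constant degree on all squares. -/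
def L_exp : Prop := ∀ δ1 : ℝ, 0 < δ1 → δ1 ≤ 1 → ∃ (t : ℕ) (lam : ℝ),
  TanGood δ1 lam (Fin t → Fin 8) ∧ ∀ m : ℕ, 0 < m →
    ∃ nb : (Fin t → Fin 8) → Equiv.Perm (Fin (m * m)), P325.Gap (fun s g => nb s g) lam

end Vale.Agent.P330Q
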