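import Vale.Agent.P330Q.WorD

/-! The left-right test: agreement property and the global statement. -/

namespace Vale.Agent.P330Q

open Vale.Agent.P330 Finset
open scoped Classical BigOperators

/-- The agreement property of a pair of codes, for vector valued words. -/
def Agr {F A S : Type} [Field F] [Fintype A] [Fintype S] (CA : Submodule F (A → F))
    (CB : Submodule F (S → F)) (κ : ℝ) : Prop :=
  ∀ (K : Type) (f g : K → A → S → F), (∀ k a, f k a ∈ CB) → (∀ k s, (fun a => g k a s) ∈ CA) →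
    ∃ w : K → A → S → F, (∀ k a, w k a ∈ CB) ∧ (∀ k s, (fun a => w k a s) ∈ CA) ∧
      κ * (fr A (fun a => ∃ k s, f k a s ≠ w k a s) + fr S fun s => ∃ k a, g k a s ≠ w k a s) ≤
        fr (A × S) fun z => ∃ k, f k z.1 z.2 ≠ g k z.1 z.2

/-- The global part of the left-right test. -/
def DellmThm : Prop :=
  ∀ δA δB κ : ℝ, 0 < δA → 0 < δB → 0 < κ → ∃ lam : ℝ, 0 < lam ∧
    ∀ (A S : Type) [Fintype A] [Nonempty A] [Fintype S] [Nonempty S], ∃ K0 : ℝ, 0 < K0 ∧
      ∀ (F G : Type) [Field F] [Group G] [Fintype G] (α : A → G) (γ : S → G),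
        P325.Gap (fun a g => (α a)⁻¹ * g) lam → P325.Gap (fun s g => g * γ s) lam →
        ∀ (CA : Bool → Submodule F (A → F)) (CB : Bool → Submodule F (S → F)),
        (∀ b, Dist0 (CA b) δA) → (∀ b, Dist0 (CB b) δB) → (∀ i j, Agr (CA i) (CB j) κ) →
        ∀ (a0 : A) (K : Type) (f : K → A → G × S → F) (β : ℝ),
          fr G (fun g => ∃ k a, (fun s => f k a (g, s)) ∉ CB false) ≤ β →
          fr G (fun g => ∃ k a, (fun s => f k a (g * (γ s)⁻¹, s)) ∉ CB true) ≤ β →
          fr (G × S) (fun x => ∃ k, (fun a => f k a x) ∉ CA false) ≤ β →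
          fr (G × S) (fun x => ∃ k, (fun a => f k a ((α a)⁻¹ * x.1, x.2)) ∉ CA true) ≤ β →
          ∃ y : K → G × S → F,
            (∀ k, y k ∈ tcode2 (CB false) (CB true) fun s => Equiv.mulRight (γ s)) ∧
            fr (G × S) (fun x => ∃ k, f k a0 x ≠ y k x) ≤ K0 * β

end Vale.Agent.P330Q
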