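import Vale.Agent.P330Q.LrD
import Vale.Agent.P330.TanMix
import Vale.Agent.P330.Prob

/-! The left-right test: local minima and the spectral estimate. -/

namespace Vale.Agent.P330Q.LrG

open Vale.Agent.P330 Finset
open scoped Classical BigOperators

theorem locmin {V E M : Type} [Fintype V] [Fintype E] (n : E → V → V)
    (hn : ∀ e v, n e (n e v) = v) (hf : ∀ e v, n e v ≠ v) (c : E → M → M → ℕ)
    (hc : ∀ e u u', c e u u' = c e u' u) (Val : V → M → Prop) (W0 : V → M)
    (h0 : ∀ v, Val v (W0 v)) : ∃ W : V → M, (∀ v, Val v (W v)) ∧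
      (∀ v w, Val v w → ∑ e, c e (W v) (W (n e v)) ≤ ∑ e, c e w (W (n e v))) ∧
      ∑ v, ∑ e, c e (W v) (W (n e v)) + #(univ.filter fun v => W v ≠ W0 v) ≤
        ∑ v, ∑ e, c e (W0 v) (W0 (n e v)) := by
  let Ψ : (V → M) → ℕ := fun W =>
    ∑ v, ∑ e, c e (W v) (W (n e v)) + #(univ.filter fun v => W v ≠ W0 v)
  obtain ⟨W, hW, hm⟩ := (measure Ψ).wf.has_min {W | ∀ v, Val v (W v)} ⟨W0, h0⟩
  refine ⟨W, hW, fun v w hw => ?_, (not_lt.1 (hm W0 h0)).trans (by simp [Ψ])⟩
  have h1 : Ψ W ≤ Ψ (Function.update W v w) := not_lt.1 (hm _ fun u => by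
    by_cases h : u = v
    · rw [h, Function.update_self]; exact hw
    · rw [Function.update_of_ne h]; exact hW u)
  have h2 : #(univ.filter fun u => Function.update W v w u ≠ W0 u) ≤
      #(univ.filter fun u => W u ≠ W0 u) + 1 := by
    refine le_trans (card_le_card fun u hu => ?_) (card_insert_le v _)
    by_cases h : u = v
    · rw [h]; exact mem_insert_self _ _
    · rw [mem_filter, Function.update_of_ne h] at hu
      exact mem_insert_of_mem (mem_filter.2 hu)
  have h3 : ∀ e, ∑ u, (c e (Function.update W v w u) (Function.update W v w (n e u)) : ℤ) -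
      ∑ u, (c e (W u) (W (n e u)) : ℤ) = 2 * (c e w (W (n e v)) - c e (W v) (W (n e v))) := by
    intro e
    rw [← sum_sub_distrib, sum_eq_add v (n e v) (hf e v).symm (fun u _ hu => by
      rw [Function.update_of_ne hu.1, Function.update_of_ne fun h => hu.2 (by rw [← h, hn]),
        sub_self]) (by simp) (by simp), hn, Function.update_self, Function.update_of_ne (hf e v),
      hc e (W (n e v)) w, hc e (W (n e v)) (W v)]
    ring
  have h4 := sum_congr rfl fun e (_ : e ∈ univ) => h3 e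
  rw [sum_sub_distrib, ← mul_sum, sum_sub_distrib, sum_comm, sum_comm (γ := E) (β := ℤ)
    (f := fun e u => (c e (W u) (W (n e u)) : ℤ))] at h4
  simp only [Ψ] at h1
  zify at h1 h2 ⊢
  omega

theorem mix {S G : Type} [Fintype S] [Fintype G] [Nonempty S] [Nonempty G] {π : S → G → G}
    {lam : ℝ} (h0 : 0 < lam) (hg : P325.Gap π lam) (p q : G → ℝ) :
    𝔼 x, p x * 𝔼 s, q (π s x) ≤ (𝔼 x, p x) * (𝔼 x, q x) +
      lam * ((𝔼 x, p x ^ 2) + 𝔼 x, q x ^ 2) / 2 := by
  have hn : (0 : ℝ) < Fintype.card G := by exact_mod_cast Fintype.card_pos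
  set m := 𝔼 x, q x with hm
  have f0 : 𝔼 x, (q x - m) = 0 := by
    simp only [expect_sub_distrib, Fintype.expect_const, ← hm, sub_self]
  have f2 : 𝔼 x, (q x - m) ^ 2 ≤ 𝔼 x, q x ^ 2 := by
    have : ∀ x, (q x - m) ^ 2 = q x ^ 2 - 2 * m * q x + m ^ 2 := fun x => by ring
    simp only [this, expect_add_distrib, expect_sub_distrib, ← mul_expect, Fintype.expect_const,
      ← hm]
    nlinarith
  have g2 : 𝔼 x, (𝔼 s, (q (π s x) - m)) ^ 2 ≤ lam ^ 2 * 𝔼 x, (q x - m) ^ 2 := by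
    rw [Fintype.expect_eq_sum_div_card,
      Fintype.expect_eq_sum_div_card (f := fun x => (q x - m) ^ 2), ← mul_div_assoc]
    rw [Fintype.expect_eq_sum_div_card, div_eq_zero_iff, or_iff_left hn.ne'] at f0
    exact div_le_div_of_nonneg_right (hg (fun x => q x - m) f0) hn.le
  have e : ∀ x, p x * 𝔼 s, q (π s x) ≤ p x * m + (lam / 2 * p x ^ 2 +
      (2 * lam)⁻¹ * (𝔼 s, (q (π s x) - m)) ^ 2) := fun x => by
    simp only [expect_sub_distrib, Fintype.expect_const]
    generalize 𝔼 s, q (π s x) = t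
    have : lam / 2 * p x ^ 2 + (2 * lam)⁻¹ * (t - m) ^ 2 - p x * (t - m) =
        (2 * lam)⁻¹ * (lam * p x - (t - m)) ^ 2 := by field_simp; ring
    have : 0 ≤ (2 * lam)⁻¹ * (lam * p x - (t - m)) ^ 2 := by positivity
    linarith
  refine (expect_le_expect fun x _ => e x).trans ?_
  simp only [expect_add_distrib, ← mul_expect, ← expect_mul]
  have k := mul_le_mul_of_nonneg_left (g2.trans (mul_le_mul_of_nonneg_left f2 (sq_nonneg lam)))
    (show 0 ≤ (2 * lam)⁻¹ by positivity)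
  have : (2 * lam)⁻¹ * (lam ^ 2 * 𝔼 x, q x ^ 2) = lam / 2 * 𝔼 x, q x ^ 2 := by field_simp
  linarith

/-- Mixing up to the number of vertex types. -/
def Mix {V E : Type} [Fintype V] [Fintype E] (n : E → V → V) (lam : ℝ) : Prop :=
  ∀ p q : V → ℝ, (∀ v, 0 ≤ p v) → (∀ v, 0 ≤ q v) → 𝔼 v, p v * 𝔼 e, q (n e v) ≤
    4 * ((𝔼 v, p v) * 𝔼 v, q v) + lam * ((𝔼 v, p v ^ 2) + 𝔼 v, q v ^ 2) / 2

theorem mix_types {E G : Type} [Fintype E] [Fintype G] [Nonempty E] [Nonempty G] {lam : ℝ}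
    (h0 : 0 < lam) (σ : Equiv.Perm (Bool × Bool)) (π : Bool × Bool → E → G → G)
    (hg : ∀ t, P325.Gap (π t) lam) :
    Mix (fun e (v : (Bool × Bool) × G) => (σ v.1, π v.1 e v.2)) lam := by
  intro p q hp hq
  simp only [expect_prod' (X := Bool × Bool)]
  refine (expect_le_expect fun t _ => mix h0 (hg t) (fun x => p (t, x)) fun x => q (σ t, x)).trans ?_
  have k : ∀ t, 𝔼 x, q (t, x) ≤ 4 * 𝔼 t, 𝔼 x, q (t, x) := fun t => by
    rw [Fintype.expect_eq_sum_div_card (f := fun t => 𝔼 x, q (t, x))]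
    have := single_le_sum (f := fun t => 𝔼 x, q (t, x))
      (fun t _ => expect_nonneg fun x _ => hq (t, x)) (mem_univ t)
    simp only [Fintype.card_prod, Fintype.card_bool]
    push_cast
    linarith
  simp only [expect_add_distrib, ← mul_expect, ← expect_div]
  rw [expect_equiv' σ fun t => 𝔼 x, q (t, x) ^ 2, mul_left_comm, expect_mul]
  exact add_le_add_left (expect_le_expect fun t _ =>
    mul_le_mul_of_nonneg_left (k _) (expect_nonneg fun x _ => hp (t, x))) _

section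
variable {V A S : Type} [Fintype V] [Fintype A] [Fintype S] [Nonempty A] [Nonempty S]

theorem side {n : A → V → V} {m : S → V → V} {lam δ : ℝ} (hn : ∀ a v, n a (n a v) = v)
    (hm : Mix m lam) {d : V → A → Prop} (hd : ∀ v a, d (n a v) a ↔ d v a) {y z : V → ℝ}
    (y0 : ∀ v, 0 ≤ y v) (hy : ∀ v, y v ≤ z v) (hx : ∀ v, fr A (d v) ≤ z v)
    (h : ∀ v a, d v a → δ ≤ y v + y (n a v) + fr S fun s => d (m s v) a) :
    δ * 𝔼 v, fr A (d v) ≤ 2 * (𝔼 v, z v ^ 2) +
      (4 * Fintype.card A * (𝔼 v, z v) + lam) * 𝔼 v, fr A (d v) := by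
  let I : A → V → ℝ := fun a v => if d v a then 1 else 0
  have I0 : ∀ a v, 0 ≤ I a v := fun a v => by simp only [I]; positivity
  have I2 : ∀ a v, I a v ^ 2 = I a v := fun a v => by simp only [I]; split_ifs <;> simp
  have e1 : ∀ v, fr A (d v) = 𝔼 a, I a v := fun v => fr_eq_expect _
  have k1 : ∀ a v, δ * I a v ≤ I a v * y v + I a (n a v) * y (n a v) +
      I a v * 𝔼 s, I a (m s v) := fun a v => by
    have := h v a
    rw [fr_eq_expect] at this
    by_cases hv : d v a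
    · simpa only [I, hv, (hd v a).2 hv, if_true, mul_one, one_mul] using this hv
    · simp only [I, hv, (hd v a).not.2 hv, if_false, mul_zero, zero_mul, add_zero, le_refl]
  have k2 : ∀ a, 𝔼 v, I a v ≤ Fintype.card A * 𝔼 v, z v := fun a => by
    rw [mul_expect]
    refine expect_le_expect fun v _ => le_trans ?_
      (mul_le_mul_of_nonneg_left (hx v) (Nat.cast_nonneg _))
    rw [e1, Fintype.card_mul_expect]
    exact single_le_sum (f := fun a => I a v) (fun a _ => I0 a v) (mem_univ a)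
  have k3 : ∀ a, δ * 𝔼 v, I a v ≤ 2 * (𝔼 v, I a v * y v) +
      (4 * Fintype.card A * (𝔼 v, z v) + lam) * 𝔼 v, I a v := fun a => by
    have b1 := hm (I a) (I a) (I0 a) (I0 a)
    simp only [I2] at b1
    have b2 : 𝔼 v, I a (n a v) * y (n a v) = 𝔼 v, I a v * y v :=
      expect_equiv' (Function.Involutive.toPerm (n a) (hn a)) fun v => I a v * y v
    have b3 := mul_le_mul_of_nonneg_left (k2 a) (expect_nonneg fun v (_ : v ∈ univ) => I0 a v)
    rw [mul_expect]
    refine (expect_le_expect fun v _ => k1 a v).trans ?_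
    simp only [expect_add_distrib]
    rw [b2]
    nlinarith
  simp only [e1]
  rw [expect_comm, mul_expect]
  refine (expect_le_expect fun a _ => k3 a).trans ?_
  simp only [expect_add_distrib, ← mul_expect]
  refine add_le_add_left (mul_le_mul_of_nonneg_left ?_ (by norm_num)) _
  rw [expect_comm]
  refine expect_le_expect fun v _ => ?_
  rw [← expect_mul, ← e1, sq]
  exact mul_le_mul (hx v) (hy v) (y0 v) ((y0 v).trans (hy v))

theorem core {n : A → V → V} {m : S → V → V} {lam δ κ : ℝ} (hκ : 0 < κ) (l1 : 4 * lam ≤ κ)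
    (l2 : 2 * lam ≤ δ) (hn : ∀ a v, n a (n a v) = v) (hm : ∀ s v, m s (m s v) = v)
    (Mn : Mix n lam) (Mm : Mix m lam) {d : V → A → Prop} {d' : V → S → Prop}
    (hd : ∀ v a, d (n a v) a ↔ d v a) (hd' : ∀ v s, d' (m s v) s ↔ d' v s)
    (h1 : ∀ v a, d v a → δ ≤ fr S (d' v) + fr S (d' (n a v)) + fr S fun s => d (m s v) a)
    (h2 : ∀ v s, d' v s → δ ≤ fr A (d v) + fr A (d (m s v)) + fr A fun a => d' (n a v) s)
    (h3 : ∀ v, κ * (fr A (d v) + fr S (d' v)) ≤
      (𝔼 a, fr S (d' (n a v))) + 𝔼 s, fr A (d (m s v)))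
    (h4 : (64 / κ + 4 * (Fintype.card A + Fintype.card S)) *
      𝔼 v, (fr A (d v) + fr S (d' v)) < δ / 2) : 𝔼 v, (fr A (d v) + fr S (d' v)) ≤ 0 := by
  set z : V → ℝ := fun v => fr A (d v) + fr S (d' v) with hz
  have x0 := fun v => fr_nonneg (d v)
  have y0 := fun v => fr_nonneg (d' v)
  have z0 : ∀ v, 0 ≤ z v := fun v => add_nonneg (x0 v) (y0 v)
  have xz : ∀ v, fr A (d v) ≤ z v := fun v => le_add_of_nonneg_right (y0 v)
  have yz : ∀ v, fr S (d' v) ≤ z v := fun v => le_add_of_nonneg_left (x0 v)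
  have a1 := side hn Mm hd y0 yz xz h1
  have a2 := side hm Mn hd' x0 xz yz h2
  have a3 : κ * 𝔼 v, z v ^ 2 ≤ (𝔼 v, z v * 𝔼 a, z (n a v)) + 𝔼 v, z v * 𝔼 s, z (m s v) := by
    rw [mul_expect, ← expect_add_distrib]
    refine expect_le_expect fun v _ => ?_
    have := mul_le_mul_of_nonneg_left ((h3 v).trans (add_le_add
      (expect_le_expect fun a _ => yz _) (expect_le_expect fun s _ => xz _))) (z0 v)
    calc κ * z v ^ 2 = z v * (κ * z v) := by ring
      _ ≤ _ := this.trans_eq (mul_add _ _ _)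
  have a4 := Mn z z z0 z0
  have a5 := Mm z z z0 z0
  have e : 𝔼 v, z v = (𝔼 v, fr A (d v)) + 𝔼 v, fr S (d' v) := expect_add_distrib _ _ _
  have X0 : 0 ≤ 𝔼 v, fr A (d v) := expect_nonneg fun v _ => x0 v
  have Y0 : 0 ≤ 𝔼 v, fr S (d' v) := expect_nonneg fun v _ => y0 v
  have N0 : 0 ≤ 𝔼 v, z v ^ 2 := expect_nonneg fun v _ => sq_nonneg _
  have cA : (0 : ℝ) ≤ Fintype.card A := Nat.cast_nonneg _
  have cS : (0 : ℝ) ≤ Fintype.card S := Nat.cast_nonneg _
  generalize 𝔼 v, fr A (d v) = X at *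
  generalize 𝔼 v, fr S (d' v) = Y at *
  generalize 𝔼 v, z v ^ 2 = N at *
  generalize 𝔼 v, z v = μ at *
  generalize (Fintype.card A : ℝ) = a at *
  generalize (Fintype.card S : ℝ) = s at *
  have μ0 : 0 ≤ μ := by linarith
  have b1 : κ * N ≤ 16 * μ ^ 2 := by nlinarith [mul_le_mul_of_nonneg_right l1 N0]
  have b2 : 4 * N ≤ 64 / κ * μ ^ 2 := by
    rw [div_mul_eq_mul_div, le_div_iff₀ hκ]
    linarith
  by_contra hc
  have μ1 : 0 < μ := not_le.1 hc
  have b3 := mul_lt_mul_of_pos_right h4 μ1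
  have b4 := mul_le_mul_of_nonneg_right l2 μ0
  have b5 : a * μ * X ≤ a * μ * μ := mul_le_mul_of_nonneg_left (by linarith) (by positivity)
  have b6 : s * μ * Y ≤ s * μ * μ := mul_le_mul_of_nonneg_left (by linarith) (by positivity)
  subst e
  nlinarith

end

end Vale.Agent.P330Q.LrG
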