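import Vale.Agent.P330Q.PrgS

/-! Column codes of the left-right test: definitions. -/

namespace Vale.Agent.P330Q

open Vale.Agent.Lib.PolyTime Vale.Agent.P330 Finset
open scoped Classical BigOperators

/-- Agreement testability of the tensor product of two codes, for vector valued words. -/
def AgrL {F A S : Type} [Field F] [Fintype A] [Fintype S] (CA : Submodule F (A → F))
    (CB : Submodule F (S → F)) (κ : ℝ) : Prop :=
  ∀ (K : Type) (f g : K → A → S → F), (∀ k a, f k a ∈ CB) → (∀ k s, (fun a => g k a s) ∈ CA) →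
    ∃ w : K → A → S → F, (∀ k a, w k a ∈ CB) ∧ (∀ k s, (fun a => w k a s) ∈ CA) ∧
      κ * (fr A (fun a => ∃ k, f k a ≠ w k a) + fr S fun s => ∃ k a, g k a s ≠ w k a s) ≤
        fr (A × S) fun z => ∃ k, f k z.1 z.2 ≠ g k z.1 z.2

/-- The Tanner code as a submodule. -/
def tanS {F S G : Type} [Field F] (C0 : Submodule F (S → F)) (nb : S → Equiv.Perm G) :
    Submodule F (G × S → F) where
  carrier := tcode C0 nb
  add_mem' ha hb := ⟨fun g => C0.add_mem (ha.1 g) (hb.1 g), fun g => C0.add_mem (ha.2 g) (hb.2 g)⟩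
  zero_mem' := ⟨fun _ => C0.zero_mem, fun _ => C0.zero_mem⟩
  smul_mem' t _ hv := ⟨fun g => C0.smul_mem t (hv.1 g), fun g => C0.smul_mem t (hv.2 g)⟩

/-- A code with renamed coordinates. -/
def prC {F A A' : Type} [Field F] (e : A ≃ A') (C : Submodule F (A → F)) :
    Submodule F (A' → F) where
  carrier := {v | (fun a => v (e a)) ∈ C}
  add_mem' ha hb := C.add_mem ha hb
  zero_mem' := C.zero_mem
  smul_mem' t _ hv := C.smul_mem t hv

/-- Column codes with distance and agreement testability that do not depend on the length. -/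
def ACode : Prop :=
  ∃ (L : ℕ) (dA : ℝ), 0 < dA ∧ ∀ δB : ℝ, 0 < δB → ∃ κ : ℝ, 0 < κ ∧
    ∀ (l : ℕ) [Fact l.Prime], L ≤ l → ∀ (S0 : Type) [Fintype S0] [Nonempty S0],
      ∃ (T : Type) (_ : Fintype T) (_ : Nonempty T)
        (CA : Bool → Submodule (ZMod l) (S0 × T → ZMod l)) (ck : Bool → S0 × T → Prop)
        (E : Bool → S0 × T → S0 × T → ZMod l) (a0 : S0 × T),
        (∀ b, Sys (CA b) (ck b) (E b) ∧ ¬ ck b a0) ∧ (∀ s, ck false s → ¬ ck true s) ∧
        ∀ (F : Type) [Field F] [Algebra (ZMod l) F] (θ : F), θ ≠ 0 → ∀ b,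
          Dist0 (thC (CA b) (ck b) θ) dA ∧ ∀ (S : Type) [Fintype S] (CB : Submodule F (S → F)),
            Dist0 CB δB → AgrL (thC (CA b) (ck b) θ) CB κ

end Vale.Agent.P330Q
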