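import Vale.Agent.P330Q.LcD
import Vale.Agent.P330Q.KExt
import Vale.Agent.P330.TanMix

/-! The left-right test: assembly from the pieces. -/

namespace Vale.Agent.P330Q

open Vale.Agent.Lib.PolyTime Vale.Agent.P330 Finset
open scoped Classical BigOperators

theorem ltc_ext {k F S : Type} [Field k] [Field F] [Algebra k F] [Fintype S]
    {C : Submodule k (S → k)} {δ : ℝ} (h : Dist0 C δ) : Dist0 (extC F C) δ := by
  intro c hc h0
  refine (s_ext k F S C).1 δ h (fun _ => 1) (fun _ => one_ne_zero) c ?_ h0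
  show (fun s => 1 * c s) ∈ extC F C
  simpa only [one_mul] using hc

theorem ltc_of (hD : DellmThm) (hA : L_agr) (hT : L_tr) (hS : L_sys) (hd : L_dim)
    (hE : L_exp) : LtcThm := by
  intro δ0 h0 _
  obtain ⟨t, lam1, hg, hE⟩ := hE (1 / 6) (by norm_num) (by norm_num)
  obtain ⟨κ, hκ, hA⟩ := hA (1 / 6) δ0 (Fintype.card (Fin t → Fin 8)) (by norm_num) h0
  obtain ⟨lam, hl, hD⟩ := hD ((1 / 6) ^ 2 / 8) δ0 κ (by norm_num) h0 hκ
  refine ⟨lam, Fintype.card (Fin t → Fin 8), hl, fun l _ hL S' _ _ => ?_⟩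
  have hm : 0 < Fintype.card S' := Fintype.card_pos
  obtain ⟨nb, hnb⟩ := hE _ hm
  have : NeZero l := ⟨(Fact.out : l.Prime).ne_zero⟩
  have : Nonempty (Fin (Fintype.card S' * Fintype.card S')) := ⟨⟨0, Nat.mul_pos hm hm⟩⟩
  have : Nonempty (Fin (Fintype.card S')) := ⟨⟨0, hm⟩⟩
  obtain ⟨C1, hC, hr⟩ := hd.1 (ZMod l) (Fin t → Fin 8) (by rwa [ZMod.card])
  obtain ⟨e, ck, E, a0, h2⟩ := hS (ZMod l) _ _ (hd.2 (ZMod l) _ _ C1 nb hr)
  refine ⟨_, Fin (Fintype.card S') × (Fin t → Fin 8), inferInstance, inferInstance, inferInstance,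
    Fintype.equivOfCardEq (by simp [mul_assoc]), _, ck, E, a0, h2, fun S _ _ => ?_⟩
  obtain ⟨K0, hK, hD⟩ := hD (Fin (Fintype.card S' * Fintype.card S') × (Fin t → Fin 8)) S
  refine ⟨K0, hK, fun F G K _ _ _ _ θ hθ α γ hα hγ CB hB f β => ?_⟩
  have hω : ∀ b a, (if ck b a then (1 : F) else θ) ≠ 0 := fun b a => by
    split_ifs
    exacts [one_ne_zero, hθ]
  obtain ⟨d1, a1⟩ := hA F _ _ (extC F C1) nb lam1 rfl hg (ltc_ext hC) hnb
  refine hD F G α γ (tan_adj (nb := fun a => Equiv.mulLeft (α a)) hα) hγ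
    (fun b => thC (trC (tsb2 C1 C1 nb) (e b)) (ck b) θ) CB (fun b => ?_) hB (fun i j => ?_) a0 K f β
  · rw [thC, hT.2]
    exact (hT.1 F _ _ _ (e b) _ (hω b)).1 _ d1
  · rw [thC, hT.2]
    exact (hT.1 F _ _ _ (e i) _ (hω i)).2 S _ κ (a1 S _ (hB j))

end Vale.Agent.P330Q
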