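import Vale.Agent.P330Q.MemD

/-! The generator of the memory code. -/

namespace Vale.Agent.P330Q

open Vale.Agent.Lib.PolyTime Vale.Agent.P330 Finset
open scoped Classical BigOperators

namespace Mem

/-- The trivial group family. -/
@[reducible] def triv (U : Type) [Enc U] : GF U where
  G _ := Unit
  d_one := D.const ()
  d_mul := D.const ()
  d_inv := D.const ()

variable {U : Type} [Enc U] {l : ℕ} [Fact l.Prime] {S0 Bt : Type} [Fintype S0] [Enc Bt] {lam : ℝ}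
  (Y : GrpD U l S0 Bt lam)

theorem right {u : U} (c g : Y.Γ.G u) : Y.π u (g * c⁻¹) = Y.π u g * (Y.π u c)⁻¹ ∧
    Y.e u (g * c⁻¹) = (Y.e u (Y.s u (Y.π u g * (Y.π u c)⁻¹) * c))⁻¹ * Y.e u g := by
  have h1 : Y.π u (g * c⁻¹) = Y.π u g * (Y.π u c)⁻¹ := by rw [map_mul, map_inv]
  refine ⟨h1, ?_⟩
  have h2 := Y.e_ι_mul u (Y.e u (g * c⁻¹)) (Y.s u (Y.π u (g * c⁻¹)) * c)
  rw [← mul_assoc, Y.dec, inv_mul_cancel_right, h1] at h2
  rw [h2, mul_comm (Y.e u (g * c⁻¹)), inv_mul_cancel_left]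

theorem transport {u : U} {F S : Type} [Field F] (CL CR : Submodule F (S → F)) (γ : S → Y.Γ.G u)
    (x : Y.Κ.G u × S → MonoidAlgebra F (HA l (Y.n u))) :
    (fun z : Y.Γ.G u × S => (x (Y.π u z.1, z.2)).coeff (Y.e u z.1)) ∈
      tcode2 CL CR (fun s => Equiv.mulRight (γ s)) ↔
    (∀ b g, (fun s => (x (b, s)).coeff g) ∈ CL) ∧
      ∀ b g, (fun s => (x ((Equiv.mulRight (Y.π u (γ s)))⁻¹ b, s)).coeff
        ((Y.e u (Y.s u ((Equiv.mulRight (Y.π u (γ s)))⁻¹ b) * γ s))⁻¹ * g)) ∈ CR := by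
  have e1 : ∀ {G : Type} [Group G] (c g : G), (Equiv.mulRight c)⁻¹ g = g * c⁻¹ := fun _ _ => rfl
  simp only [tcode2, Set.mem_ofPred_eq, e1, (right Y _ _).1, (right Y _ _).2]
  refine ⟨fun h => ⟨fun b g => ?_, fun b g => ?_⟩, fun h => ⟨fun g => h.1 _ _, fun g => h.2 _ _⟩⟩
  · simpa only [Y.π_mk, Y.e_mk] using h.1 (Y.ι u g * Y.s u b)
  · simpa only [Y.π_mk, Y.e_mk] using h.2 (Y.ι u g * Y.s u b)

theorem congr {Φ : FF U l} {Γ : GF U} {J I : Fam U} {m m' : MatF Φ Γ J I} (h : Prg Φ Γ J I m)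
    (e : ∀ u, m' u = m u) : Prg Φ Γ J I m' := by
  rwa [show m' = m from funext e]

theorem sol1 {R I O : Type} [Ring R] [Fintype I] {_ : DecidableEq I} {P W : Matrix I I R}
    (h : P * W = 1) (V : Matrix I O R) (q : I) (o : O) : ∑ q', P q q' * (W * V) q' o = V q o := by
  rw [← Matrix.mul_apply, ← Matrix.mul_assoc, h, Matrix.one_mul]

theorem sol2 {R I : Type} [Ring R] [Fintype I] {_ : DecidableEq I} {P W : Matrix I I R}
    (h : W * P = 1) (x y : I → R) (e : ∀ q, ∑ q', P q q' * x q' = y q) (q : I) :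
    x q = ∑ q', W q q' * y q' := by
  have := congrFun (congrArg W.mulVec (show P.mulVec x = y from funext e)) q
  rw [Matrix.mulVec_mulVec, h, Matrix.one_mulVec] at this
  exact this

theorem lanes {R T I : Type} [Ring R] [Fintype T] [Fintype I] (t : T)
    {_ : ∀ b : T × I, Decidable (t = b.1)} (W : I → R) (Z : T × I → R) :
    ∑ q, W q * Z (t, q) = ∑ b : T × I, (if t = b.1 then W b.2 else 0) * Z b := by
  rw [Fintype.sum_prod_type, sum_eq_single t (fun b _ h => by simp [h.symm]) (by simp)]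
  simp

end Mem

open Mem in
theorem memThm (hf : S_ft) (hd : S_der) (h1 : S_p1) (h2 : S_p2) (h4 : S_p4) (ht : S_tan)
    (hx : FixThm) : MemThm := by
  intro U _ l _ S0 Bt _ _ lam Y Φ S _ _ CL CR ckL ckR EL ER hL hR hdis γ dγ hm
  let I : Fam U := Y.KF.prod (.const U S)
  let ν : ∀ u, S → Equiv.Perm (Y.Κ.G u) := fun u s => Equiv.mulRight (Y.π u (γ u s))
  let a : ∀ u, I.T u → HA l (Y.n u) := fun u q => Y.e u (Y.s u q.1 * γ u q.2)
  have dγ' : ∀ {B : Type} [Enc B] {p : B → U} {s : B → S}, PT p → PT s →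
      D fun b => γ (p b) (s b) := fun hp hs =>
    D.cases hs (fun s b => γ _ s) fun s => (dγ s).comp hp
  have da : D2 a := Y.d_e.app pt_sigma_fst (Y.Γ.d_mul.app pt_sigma_fst
    (Y.d_s.app pt_sigma_fst D.sigma_snd.fst) (dγ' pt_sigma_fst D.sigma_snd.snd.pt))
  have dν : D2 fun u (q : I.T u) => ν u q.2 q.1 := Y.Κ.d_mul.app pt_sigma_fst D.sigma_snd.fst
    (Y.d_π.app pt_sigma_fst (dγ' pt_sigma_fst D.sigma_snd.snd.pt))
  have z := D.sigma_snd (X := fun u => I.T u × I.T u)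
  have dM : PT fun z : Σ u, I.T u × I.T u => tM ckL ckR EL ER (ν z.1) z.2.1 z.2.2 :=
    PT.ite (P325.pt_finite z.fst.snd.pt ckL)
      (PT.ite ((D.eq z.snd.fst z.fst.fst).and (P325.pt_finite z.snd.snd.pt ckL).not)
        (pt_fin2 z.fst.snd.pt z.snd.snd.pt EL) (PT.const 0))
      (PT.ite (P325.pt_finite z.fst.snd.pt ckR)
        (PT.ite ((D.eq (dν.app pt_sigma_fst z.snd) (dν.app pt_sigma_fst z.fst)).and
          (P325.pt_finite z.snd.snd.pt ckR).not)
          (pt_fin2 z.fst.snd.pt z.snd.snd.pt ER) (PT.const 0)) (PT.const 0))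
  have dg : DM fun u (q q' : I.T u) => tG ckL (a u) q q' :=
    D.ite (P325.pt_finite z.fst.snd.pt ckL) (Y.HF.d_one.comp pt_sigma_fst)
      (Y.HF.d_mul.app pt_sigma_fst (Y.HF.d_inv.app pt_sigma_fst (da.app pt_sigma_fst z.fst))
        (da.app pt_sigma_fst z.snd))
  obtain ⟨-, W, pW, hW⟩ := hx U l Φ Y.HF (triv U) (PFam.const Unit) (fun _ => 1) (fun _ _ => 1) Y.n
    (fun _ => MonoidHom.id _) (D.const ()) (Y.HF.d_one.comp pt_sigma_fst) (fun _ _ => rfl)
    Y.pt_n Y.pb_n (fun _ g => ⟨fun _ => ⟨g, rfl⟩, fun _ => rfl⟩) I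
    (fun u => tM ckL ckR EL ER (ν u)) (fun u => tG ckL (a u)) dM dg fun u => by
      have := hm u
      rwa [← Fintype.card_prod, ← mul_one (Fintype.card _)] at this
  let V : ∀ u, I.T u → Unit → Φ.F u := fun u q _ => if ckL q.2 ∨ ckR q.2 then 0 else 1
  have dV : DM V := by
    obtain ⟨d0, d1, -⟩ := hf _ l (Φ.comap (fun z : Σ u, I.T u × Unit => z.1) pt_sigma_fst)
    exact D.ite (P325.pt_finite D.sigma_snd.fst.snd.pt fun s => ckL s ∨ ckR s) d0 d1
  have pc := (h2 U l Φ Y.HF).1 I I (.const U Unit) _ _ pW ((h1 U l Φ Y.HF).1 I (.const U Unit) V dV)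
  let c : ∀ u, I.T u → MonoidAlgebra (Φ.F u) (HA l (Y.n u)) :=
    fun u q => (W u * cst (HA l (Y.n u)) (V u)) q ()
  have hc : ∀ u q, ∑ q', fixM (Φ.θ u) (tM ckL ckR EL ER (ν u)) (tG ckL (a u)) q q' * c u q' =
      MonoidAlgebra.single 1 (V u q ()) := fun u q => sol1 (hW u).2 _ q ()
  have solve : ∀ u (x y : I.T u → MonoidAlgebra (Φ.F u) (HA l (Y.n u))),
      (∀ q, ∑ q', fixM (Φ.θ u) (tM ckL ckR EL ER (ν u)) (tG ckL (a u)) q q' * x q' = y q) →
      ∀ q, x q = ∑ q', W u q q' * y q' := fun u => sol2 (hW u).1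
  refine ⟨c, congr pc fun u => rfl, ?_, fun u => ⟨fun k s n1 n2 => ?_, fun w => ?_, ?_⟩⟩
  · let J : Fam U := Y.Co.prod I
    have y := D.sigma_snd (X := fun u => J.T u × I.T u)
    have y' : PT fun z : Σ u, J.T u × I.T u => (⟨z.1, z.2.1.2, z.2.2⟩ : Σ u, I.T u × I.T u) :=
      pt_sigma_mk (X := fun u => I.T u × I.T u) pt_sigma_fst (y.fst.snd.pair y.snd)
    obtain ⟨-, -, dm, -, dc, -⟩ :=
      hf _ l (Φ.comap (fun z : Σ u, J.T u × I.T u => z.1) pt_sigma_fst)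
    have pD := (h4 U l Φ Y.HF).1 J I (fun u j q => tG ckL (a u) j.2 q)
      (fun u j q => algebraMap (ZMod l) (Φ.F u) ((tG ckL (a u) j.2 q).toAdd j.1) *
        (Φ.θ u * algebraMap (ZMod l) (Φ.F u) (tM ckL ckR EL ER (ν u) j.2 q))) (dg.comp y')
      (dm _ _ (dc _ (d_ha_app (r := fun z : Σ u, J.T u × I.T u => Y.n z.1) (dg.comp y') y.fst.fst))
        (dm _ _ (Φ.d_θ.comp pt_sigma_fst) (dc _ (dM.comp y'))).2.2).2.2
    refine congr ((h2 U l Φ Y.HF).1 J J (.const U Unit) _ _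
      ((h1 U l Φ Y.HF).2.2.1 Y.Co I I _ pW) ((h2 U l Φ Y.HF).1 J I (.const U Unit) _ _ pD pc))
      fun u => ?_
    funext j o
    obtain ⟨δ, e1, e2, -, e4, -⟩ := hd.2 l (Y.n u) (Φ.F u) j.1
    have z0 : ∀ t, δ (MonoidAlgebra.single 1 t) = 0 := fun t => by simp [e2]
    rw [e1, solve u (fun q => δ (c u q)) (fun q => ∑ q', MonoidAlgebra.single (tG ckL (a u) q q')
      (algebraMap (ZMod l) (Φ.F u) ((tG ckL (a u) q q').toAdd j.1) *
        (Φ.θ u * algebraMap (ZMod l) (Φ.F u) (tM ckL ckR EL ER (ν u) q q'))) * c u q')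
      (fun q => ?_) j.2]
    · exact lanes j.1 (W u j.2) fun b => ∑ q', MonoidAlgebra.single (tG ckL (a u) b.2 q')
        (algebraMap (ZMod l) (Φ.F u) ((tG ckL (a u) b.2 q').toAdd b.1) *
          (Φ.θ u * algebraMap (ZMod l) (Φ.F u) (tM ckL ckR EL ER (ν u) b.2 q'))) * c u q'
    · have := congrArg δ (hc u q)
      rw [z0, map_sum] at this
      simp only [e4, sum_add_distrib] at this
      rw [eq_neg_of_add_eq_zero_right this, ← sum_neg_distrib]
      refine sum_congr rfl fun q' _ => ?_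
      rw [fixM, map_sub, e2, ← neg_mul, neg_sub]
      congr 1
      split_ifs
      · rw [MonoidAlgebra.one_def, z0, sub_zero]
      · rw [map_zero, sub_zero]
  · have := ((ht _ _ _ _ _ CL CR ckL ckR EL ER hL hR hdis (Φ.θ u) (ν u) (a u) (c u)).2 (k, s) n1
      n2).symm.trans (hc u (k, s))
    rw [this]
    simp only [V, n1, n2, or_self, if_false]
    rfl
  · refine (transport Y _ _ (γ u) fun q => w * c u q).2 ((ht _ _ _ _ _ CL CR ckL ckR EL ER hL hR hdis
      (Φ.θ u) (ν u) (a u) fun q => w * c u q).1.1 fun q hq => ?_)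
    simp only [mul_left_comm _ w]
    rw [← mul_sum, hc]
    simp only [V, hq, if_true, MonoidAlgebra.single_zero, mul_zero]
  · intro t tT t0
    let x : I.T u → MonoidAlgebra (Φ.F u) (HA l (Y.n u)) := fun q => MonoidAlgebra.ofCoeff
      (Finsupp.equivFunOnFinite.symm fun h => t (Y.ι u h * Y.s u q.1, q.2))
    have e : t = fun z => (x (Y.π u z.1, z.2)).coeff (Y.e u z.1) := funext fun z => by
      simp only [x, Finsupp.equivFunOnFinite_symm_apply_apply, Y.dec]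
    have H := ht _ _ _ _ _ CL CR ckL ckR EL ER hL hR hdis (Φ.θ u) (ν u) (a u) x
    have k1 := H.1.2 ((transport Y _ _ (γ u) x).1 (e ▸ tT))
    have k2 := solve u x (fun _ => 0) fun q => by
      by_cases hq : ckL q.2 ∨ ckR q.2
      · exact k1 q hq
      · rw [not_or] at hq
        rw [H.2 q hq.1 hq.2]
        ext h
        simp only [x, Finsupp.equivFunOnFinite_symm_apply_apply, t0 _ _ hq.1 hq.2]
        rfl
    rw [e]
    funext z
    rw [k2]
    simp

end Vale.Agent.P330Q
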