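import Vale.Agent.P330Q.KFld
import Vale.Agent.P330Q.KFt
import Vale.Agent.P330Q.KMinv
import Vale.Agent.P330Q.KNil
import Vale.Agent.P330Q.KEig
import Vale.Agent.P330Q.KExt
import Vale.Agent.P330Q.KSss
import Vale.Agent.P330Q.KAct
import Vale.Agent.P330Q.KDer
import Vale.Agent.P330Q.KP1
import Vale.Agent.P330Q.KP2
import Vale.Agent.P330Q.KP3
import Vale.Agent.P330Q.KP4
import Vale.Agent.P330Q.KP5
import Vale.Agent.P330Q.KP6
import Vale.Agent.P330Q.KP7
import Vale.Agent.P330Q.KFix
import Vale.Agent.P330Q.KTan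
import Vale.Agent.P330Q.KEnc
import Vale.Agent.P330Q.KKap
import Vale.Agent.P330Q.Mem

/-! The program kit and the memory code, without hypotheses. -/

namespace Vale.Agent.P330Q

theorem minv_all : S_minv := s_minv s_ft
theorem p1_all : S_p1 := s_p1 s_ft
theorem p2_all : S_p2 := s_p2 s_ft
theorem p3_all : S_p3 := s_p3 s_ft
theorem p4_all : S_p4 := s_p4 s_ft p1_all p2_all p3_all
theorem p5_all : S_p5 := s_p5 s_ft
theorem p6_all : S_p6 := s_p6 s_ft s_act
theorem p7_all : S_p7 := s_p7 minv_all s_nil p4_all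
theorem fix_all : FixThm := fixThm s_ft s_eig p4_all p7_all
theorem tan_all : S_tan := s_tan s_ext
theorem enc_all : S_enc := s_enc s_act s_der
theorem kap_all : KapThm := kapThm s_ft p2_all p4_all tan_all fix_all
theorem mem_all : MemThm := memThm s_ft s_der p1_all p2_all p4_all tan_all fix_all

end Vale.Agent.P330Q
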