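import Vale.Agent.P330Q.KitD
import Vale.Agent.P330.MachC

/-! Cells as numbers. -/

namespace Vale.Agent.P330Q.Mq

open Vale.Agent.Lib.PolyTime Vale.Agent.P330 Finset
open scoped Classical BigOperators

variable {l n : ℕ} [Fact l.Prime]

/-- The number of a cell. -/
def idx (h : Fin n → ZMod l) : ℕ := ∑ i, (h i).val * l ^ (i : ℕ)

/-- The cell with a given number. -/
def dig (l n g : ℕ) : Fin n → ZMod l := fun i => ((g / l ^ (i : ℕ) : ℕ) : ZMod l)

theorem l_one : 1 < l := (Fact.out : l.Prime).one_lt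

theorem idx_eq (h : Fin n → ZMod l) :
    idx h = finFunctionFinEquiv fun i => (⟨(h i).val, ZMod.val_lt _⟩ : Fin l) := by
  rw [finFunctionFinEquiv_apply]; rfl

theorem idx_lt (h : Fin n → ZMod l) : idx h < l ^ n := by
  rw [idx_eq]; exact Fin.is_lt _

theorem val_eq (h : Fin n → ZMod l) (i : Fin n) : (h i).val = idx h / l ^ (i : ℕ) % l := by
  rw [idx_eq, ← finFunctionFinEquiv_symm_apply_val, Equiv.symm_apply_apply]

omit [Fact l.Prime] in
theorem val_dig (g : ℕ) (i : Fin n) : (dig l n g i).val = g / l ^ (i : ℕ) % l := ZMod.val_natCast _ _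

theorem dig_idx (h : Fin n → ZMod l) : dig l n (idx h) = h :=
  funext fun i => ZMod.val_injective l (by rw [val_dig, val_eq])

theorem idx_inj {h h' : Fin n → ZMod l} (e : idx h = idx h') : h = h' := by
  rw [← dig_idx h, e, dig_idx]

theorem idx_dig {g : ℕ} (hg : g < l ^ n) : idx (dig l n g) = g := by
  have := finFunctionFinEquiv_apply (finFunctionFinEquiv.symm (⟨g, hg⟩ : Fin (l ^ n)))
  rw [Equiv.apply_symm_apply] at this
  refine Eq.trans (sum_congr rfl fun i _ => ?_) this.symm
  rw [val_dig, finFunctionFinEquiv_symm_apply_val]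

theorem inH_iff {k : ℕ} {h : Fin n → ZMod l} : InH k h ↔ idx h < l ^ k := by
  constructor
  · intro hh
    by_contra hc
    have h0 : idx h ≠ 0 := by have := Nat.pow_pos (n := k) (l_one (l := l)).le; omega
    have h1 : k ≤ Nat.log l (idx h) := (Nat.le_log_iff_pow_le l_one h0).2 (not_lt.1 hc)
    have h2 : Nat.log l (idx h) < n := Nat.log_lt_of_lt_pow h0 (idx_lt h)
    have h3 := val_eq h ⟨_, h2⟩
    rw [hh _ h1, ZMod.val_zero, Nat.mod_eq_of_lt] at h3
    · exact (Nat.div_pos (Nat.pow_log_le_self l h0) (Nat.pow_pos l_one.le)).ne h3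
    · rw [Nat.div_lt_iff_lt_mul (Nat.pow_pos l_one.le), ← pow_succ']
      exact Nat.lt_pow_succ_log_self l_one _
  · intro hh i hi
    rw [← dig_idx h, dig, Nat.div_eq_of_lt (hh.trans_le (Nat.pow_le_pow_right l_one.le hi)),
      Nat.cast_zero]

theorem idx_add {h : Fin n → ZMod l} {i : Fin n} {a : ZMod l} (ha : (h i).val + a.val < l) :
    idx (h + a • ee i) = idx h + a.val * l ^ (i : ℕ) := by
  unfold idx
  rw [← add_sum_erase _ _ (mem_univ i), ← add_sum_erase _ _ (mem_univ i)]
  have e : ∀ j ∈ univ.erase i, ((h + a • ee (i : ℕ) : Fin n → ZMod l) j).val * l ^ (j : ℕ) = (h j).val * l ^ (j : ℕ) :=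
    fun j hj => by simp [ee, Fin.val_inj, ne_of_mem_erase hj]
  rw [sum_congr rfl e]
  simp only [Pi.add_apply, Pi.smul_apply, ee, if_true, smul_eq_mul, mul_one, ZMod.val_add_of_lt ha]
  ring

theorem div_eq_of {h s : Fin n → ZMod l} (k : ℕ) :
    ∀ j, j + k = n → (∀ i : Fin n, j ≤ i → h i = s i) → idx h / l ^ j = idx s / l ^ j := by
  induction k with
  | zero =>
    intro j hj _
    obtain rfl : j = n := hj
    rw [Nat.div_eq_of_lt (idx_lt h), Nat.div_eq_of_lt (idx_lt s)]
  | succ k ih =>
    intro j hj e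
    have h1 := ih (j + 1) (by omega) fun i hi => e i (by omega)
    have h2 := congrArg ZMod.val (e ⟨j, by omega⟩ le_rfl)
    rw [val_eq, val_eq] at h2
    rw [pow_succ, ← Nat.div_div_eq_div_mul, ← Nat.div_div_eq_div_mul] at h1
    rw [← Nat.div_add_mod (idx h / l ^ j) l, ← Nat.div_add_mod (idx s / l ^ j) l, h1]
    exact congrArg _ h2

theorem lt_of_lex {h s : Fin n → ZMod l} {i : Fin n} (h1 : (h i).val < (s i).val)
    (h2 : ∀ j, i < j → h j = s j) : idx h < idx s := by
  have h3 := div_eq_of (h := h) (s := s) (n - (i + 1)) (i + 1) (by omega) fun j hj => h2 j hj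
  rw [val_eq, val_eq] at h1
  rw [pow_succ, ← Nat.div_div_eq_div_mul, ← Nat.div_div_eq_div_mul] at h3
  refine Nat.lt_of_div_lt_div (c := l ^ (i : ℕ)) ?_
  rw [← Nat.div_add_mod (idx h / l ^ (i : ℕ)) l, ← Nat.div_add_mod (idx s / l ^ (i : ℕ)) l, h3]
  omega

theorem lex_sum {R : Type} [CommRing R] (h s : Fin n → ZMod l) :
    ∑ i, ∏ j, (if j = i then (if (h j).val < (s j).val then (1 : R) else 0)
      else if i < j then (if h j = s j then 1 else 0) else 1) = if idx h < idx s then 1 else 0 := by
  have e : ∀ i, ∏ j, (if j = i then (if (h j).val < (s j).val then (1 : R) else 0)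
      else if i < j then (if h j = s j then 1 else 0) else 1) =
      if (h i).val < (s i).val ∧ ∀ j, i < j → h j = s j then 1 else 0 := fun i => by
    split_ifs with hi
    · refine prod_eq_one fun j _ => ?_
      split_ifs with a b c d
      · rfl
      · exact absurd (a ▸ hi.1) b
      · rfl
      · exact absurd (hi.2 j c) d
      · rfl
    · by_cases a : (h i).val < (s i).val
      · obtain ⟨j, b, c⟩ : ∃ j, i < j ∧ h j ≠ s j := by
          by_contra hc
          exact hi ⟨a, fun j hj => by_contra fun e => hc ⟨j, hj, e⟩⟩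
        exact prod_eq_zero (mem_univ j) (by simp [b.ne', b, c])
      · exact prod_eq_zero (mem_univ i) (by simp [a])
  simp only [e]
  split_ifs with hl
  · have hne : (univ.filter fun i => h i ≠ s i).Nonempty := by
      by_contra hc
      have : h = s := funext fun i => by_contra fun e => hc ⟨i, by simpa using e⟩
      simp [this] at hl
    obtain ⟨i, hi, hm⟩ := exists_max_image _ id hne
    have h2 : ∀ j, i < j → h j = s j := fun j hj => by_contra fun e =>
      absurd (hm j (by simpa using e)) (not_le.2 hj)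
    have h1 : (h i).val < (s i).val := by
      rcases lt_trichotomy (h i).val (s i).val with a | a | a
      · exact a
      · exact absurd (ZMod.val_injective l a) (by simpa using hi)
      · exact absurd (lt_of_lex a fun j hj => (h2 j hj).symm) hl.not_gt
    rw [sum_eq_single i (fun j _ hj => if_neg fun a => ?_) (by simp), if_pos ⟨h1, h2⟩]
    rcases lt_or_gt_of_ne hj with b | b
    · rw [a.2 i b] at h1; exact lt_irrefl _ h1
    · have := a.1; rw [h2 j b] at this; exact lt_irrefl _ this
  · exact sum_eq_zero fun i _ => if_neg fun a => hl (lt_of_lex a.1 a.2)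

end Vale.Agent.P330Q.Mq
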