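import Vale.Agent.P330Q.MqA

/-! The layout of the joint circuit on numbered cells. -/

namespace Vale.Agent.P330Q.Mq

open Vale.Agent.Lib.PolyTime Vale.Agent.P330 Vale.Agent.P330.Mach Finset
open scoped Classical BigOperators

section Defs
variable (c : VI) (l P : ℕ)

/-- The slot of a cell inside its section. -/
def sl (g : ℕ) : ℕ := g % (l * P) / l
/-- Active copy cells. -/
def act (g : ℕ) : Prop :=
  g % l < 2 ∧ (g / (l * P) = 1 ∧ sl l P g < mm c ∨ g / (l * P) = 2 ∧ sl l P g < nn c)
/-- The wire read by a copy cell. -/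
def rw (g : ℕ) : ℕ :=
  if g / (l * P) = 1 then
    (if g % l = 0 ∨ 2 ≤ (gate c (nn c + sl l P g)).1 then (gate c (nn c + sl l P g)).2.1
      else (gate c (nn c + sl l P g)).2.2)
  else outw c (decide (g % l = 0)) (sl l P g)
/-- The copy cell holds the negated wire. -/
def nu (g : ℕ) : Bool := decide (g / (l * P) = 1 ∧ (gate c (nn c + sl l P g)).1 = 1)
/-- The cell of a wire. -/
def base (w : ℕ) : ℕ := if w < nn c then l * w else l * P + (l * (w - nn c) + 2)
/-- The cell of the wire holds the negated wire. -/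
def sg (w : ℕ) : Bool := decide (nn c ≤ w ∧ (gate c w).1 ≠ 0)
/-- Earlier copies of the same wire. -/
noncomputable def ear (g : ℕ) : List ℕ :=
  (List.range g).filter fun g' => decide (act c l P g' ∧ rw c l P g' = rw c l P g)
/-- The source of a copy cell. -/
noncomputable def src (g : ℕ) : ℕ :=
  if ear c l P g = [] then base c l P (rw c l P g) else lmax (ear c l P g)
/-- The copy negates its source. -/
noncomputable def ng (g : ℕ) : Bool :=
  nu c l P g != if ear c l P g = [] then sg c (rw c l P g) else nu c l P (lmax (ear c l P g))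
/-- The values of all cells. -/
noncomputable def vl (x : List Bool) (g : ℕ) : Bool :=
  if g / (l * P) = 0 then decide (g % l = 0 ∧ sl l P g < nn c) && x.getD (sl l P g) false
  else if act c l P g then nu c l P g != val c x (rw c l P g)
  else if g / (l * P) = 1 ∧ g % l = 2 ∧ sl l P g < mm c then
    sg c (nn c + sl l P g) != val c x (nn c + sl l P g)
  else false

end Defs

variable {c : VI} {l P g : ℕ} {x : List Bool}

theorem cell (hl : 0 < l) {a q d : ℕ} (hq : q < P) (hd : d < l) :
    (l * P * a + (l * q + d)) / (l * P) = a ∧ sl l P (l * P * a + (l * q + d)) = q ∧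
      (l * P * a + (l * q + d)) % l = d := by
  have h1 : l * q + d < l * P := by nlinarith
  refine ⟨?_, ?_, ?_⟩
  · rw [Nat.mul_add_div (by omega), Nat.div_eq_of_lt h1, add_zero]
  · rw [sl, Nat.mul_add_mod, Nat.mod_eq_of_lt h1, Nat.mul_add_div hl, Nat.div_eq_of_lt hd, add_zero]
  · rw [mul_assoc, Nat.mul_add_mod, Nat.mul_add_mod, Nat.mod_eq_of_lt hd]

theorem cell_eq (l P g : ℕ) : g = l * P * (g / (l * P)) + (l * sl l P g + g % l) := by
  rw [sl, ← Nat.mod_mod_of_dvd g (Dvd.intro P rfl : l ∣ l * P), Nat.div_add_mod, Nat.div_add_mod]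

theorem sl_lt (hl : 0 < l) (hP : 0 < P) (g : ℕ) : sl l P g < P :=
  Nat.div_lt_of_lt_mul (Nat.mod_lt _ (Nat.mul_pos hl hP))

theorem mem_ear {g' : ℕ} :
    g' ∈ ear c l P g ↔ g' < g ∧ act c l P g' ∧ rw c l P g' = rw c l P g := by
  simp [ear]

theorem lmax_mem {L : List ℕ} (h : L ≠ []) : lmax L ∈ L := by
  by_contra hc
  obtain ⟨a, ha⟩ := List.exists_mem_of_ne_nil L h
  have h1 : ∀ x ∈ L, x ≤ lmax L - 1 := fun x hx => by
    have := le_lmax hx
    have : x ≠ lmax L := fun e => hc (e ▸ hx)
    omega
  have h2 := (lmax_le L _).2 h1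
  have h3 := le_lmax ha
  have : a ≠ lmax L := fun e => hc (e ▸ ha)
  omega

theorem rw_lt (h : act c l P g) : rw c l P g < nn c + mm c ∧
    (g / (l * P) = 1 → rw c l P g < nn c + sl l P g) := by
  unfold rw
  rcases h.2 with ⟨h1, h2⟩ | ⟨h1, h2⟩
  · have := gate_lt (c := c) (w := nn c + sl l P g) (by omega) (by omega)
    rw [if_pos h1]
    split_ifs <;> omega
  · rw [if_neg (by omega)]
    exact ⟨outw_lt _ h2, by omega⟩

variable (hl : 3 ≤ l) (hn : nn c ≤ P) (hm : mm c ≤ P)
include hl hn hm

theorem base_cell {w : ℕ} (hw : w < nn c + mm c) :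
    (w < nn c ∧ base c l P w / (l * P) = 0 ∧ sl l P (base c l P w) = w ∧ base c l P w % l = 0) ∨
    (nn c ≤ w ∧ base c l P w / (l * P) = 1 ∧ sl l P (base c l P w) = w - nn c ∧
      base c l P w % l = 2) := by
  unfold base
  split_ifs with h
  · simpa [h] using cell (l := l) (P := P) (a := 0) (q := w) (d := 0) (by omega) (by omega) (by omega)
  · simpa [not_lt.1 h, h] using
      cell (l := l) (P := P) (a := 1) (q := w - nn c) (d := 2) (by omega) (by omega) (by omega)

theorem src_lt (h : act c l P g) : src c l P g < g := by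
  unfold src
  split_ifs with e
  · have h1 := rw_lt h
    have h2 := cell_eq l P g
    have h3 := cell_eq l P (base c l P (rw c l P g))
    rcases base_cell hl hn hm h1.1 with ⟨a, b, d, f⟩ | ⟨a, b, d, f⟩ <;> rw [b, d, f] at h3 <;>
      rcases h.2 with ⟨u, v⟩ | ⟨u, v⟩ <;> rw [u] at h2
    · have := Nat.mul_le_mul_left l (show rw c l P g + 1 ≤ P by omega)
      rw [mul_add] at this; omega
    · have := Nat.mul_le_mul_left l (show rw c l P g + 1 ≤ P by omega)
      rw [mul_add] at this; omega
    · have := Nat.mul_le_mul_left l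
        (show rw c l P g - nn c + 1 ≤ sl l P g by have := h1.2 u; omega)
      rw [mul_add] at this; omega
    · have := Nat.mul_le_mul_left l (show rw c l P g - nn c + 1 ≤ P by omega)
      rw [mul_add] at this; omega
  · exact (mem_ear.1 (lmax_mem e)).1

theorem vl_base (hx : x.length = nn c) {w : ℕ} (hw : w < nn c + mm c) :
    vl c l P x (base c l P w) = (sg c w != val c x w) := by
  unfold vl
  rcases base_cell hl hn hm hw with ⟨a, b, d, f⟩ | ⟨a, b, d, f⟩
  · rw [if_pos b, d, f, val_in hx a]
    simp [sg, a, a.not_ge]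
  · rw [if_neg (by omega), if_neg (fun e => by have := e.1; omega), d, Nat.add_sub_cancel' a,
      if_pos ⟨b, f, by omega⟩]

omit hl hn hm in
theorem vl_act (h : act c l P g) : vl c l P x g = (nu c l P g != val c x (rw c l P g)) := by
  rw [vl, if_neg (by have := h.2; omega), if_pos h]

theorem vl_copy (hx : x.length = nn c) (h : act c l P g) :
    vl c l P x g = (ng c l P g != vl c l P x (src c l P g)) := by
  rw [vl_act h, ng, src]
  split_ifs with e
  · rw [vl_base hl hn hm hx (rw_lt h).1]
    cases nu c l P g <;> cases sg c (rw c l P g) <;> simp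
  · have h1 := mem_ear.1 (lmax_mem e)
    rw [vl_act h1.2.1, h1.2.2]
    cases nu c l P g <;> cases nu c l P (lmax (ear c l P g)) <;> simp

theorem src_inj {g' : ℕ} (h : act c l P g) (h' : act c l P g') (e : src c l P g = src c l P g') :
    g = g' := by
  have key : ∀ g, act c l P g → ear c l P g = [] → ¬ act c l P (base c l P (rw c l P g)) :=
    fun g h _ a => by
      have := a.1
      have := a.2
      rcases base_cell hl hn hm (rw_lt h).1 with b | b <;> omega
  have hr : rw c l P g = rw c l P g' := by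
    unfold src at e
    split_ifs at e with a b b
    · rcases base_cell hl hn hm (rw_lt h).1 with u | u <;>
        rcases base_cell hl hn hm (rw_lt h').1 with v | v <;> rw [e] at u <;> omega
    · exact absurd (e ▸ (mem_ear.1 (lmax_mem b)).2.1) (key g h a)
    · exact absurd (e ▸ (mem_ear.1 (lmax_mem a)).2.1) (key g' h' b)
    · rw [← (mem_ear.1 (lmax_mem a)).2.2, e, (mem_ear.1 (lmax_mem b)).2.2]
  have key2 : ∀ g g', act c l P g → rw c l P g = rw c l P g' → g < g' →
      src c l P g ≠ src c l P g' := fun g g' h hr hg e => by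
    have h1 : g ∈ ear c l P g' := mem_ear.2 ⟨hg, h, hr⟩
    have h2 := src_lt hl hn hm h
    rw [e, src, if_neg (List.ne_nil_of_mem h1)] at h2
    exact absurd (le_lmax h1) h2.not_ge
  rcases lt_trichotomy g g' with a | a | a
  exacts [absurd e (key2 g g' h hr a), a, absurd e.symm (key2 g' g h' hr.symm a)]

omit hn hm in
theorem vl_gate (hP : 0 < P) (hx : x.length = nn c) (h1 : g / (l * P) = 1) (h2 : g % l = 2) :
    vl c l P x g = (vl c l P x (g - 2) && vl c l P x (g - 1)) := by
  have e := cell_eq l P g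
  rw [h1, h2] at e
  have a0 := cell (a := 1) (d := 0) (by omega : 0 < l) (sl_lt (by omega : 0 < l) hP g) (by omega)
  have a1 := cell (a := 1) (d := 1) (by omega : 0 < l) (sl_lt (by omega : 0 < l) hP g) (by omega)
  rw [show l * P * 1 + (l * sl l P g + 0) = g - 2 by omega] at a0
  rw [show l * P * 1 + (l * sl l P g + 1) = g - 1 by omega] at a1
  by_cases hq : sl l P g < mm c
  · rw [vl_act (g := g - 2) ⟨by omega, .inl ⟨a0.1, a0.2.1 ▸ hq⟩⟩,
      vl_act (g := g - 1) ⟨by omega, .inl ⟨a1.1, a1.2.1 ▸ hq⟩⟩, vl, if_neg (by omega),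
      if_neg (fun e => by have := e.1; omega), if_pos ⟨h1, h2, hq⟩,
      val_gate hx (by omega) (by omega)]
    simp only [rw, nu, sg, a0.1, a0.2.1, a0.2.2, a1.1, a1.2.1, a1.2.2, gv]
    generalize (gate c (nn c + sl l P g)).1 = k
    rcases k with _ | _ | k <;> simp
  · have b : ∀ g', g' / (l * P) = 1 → sl l P g' = sl l P g → vl c l P x g' = false := fun g' a b => by
      rw [vl, if_neg (by omega), if_neg (fun e => by have := e.2; omega), if_neg (by omega)]
    rw [b g h1 rfl, b _ a0.1 a0.2.1, Bool.false_and]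

omit hl hn hm in
theorem vl_idle (h0 : g / (l * P) ≠ 0) (h1 : ¬ (g / (l * P) = 1 ∧ g % l = 2)) (h : ¬ act c l P g) :
    vl c l P x g = false := by
  rw [vl, if_neg h0, if_neg h, if_neg fun e => h1 ⟨e.1, e.2.1⟩]

omit hn hm in
theorem vl_in (hP : 0 < P) (hx : x.length = nn c) (r : Bool) (h0 : g / (l * P) = 0)
    (h1 : g % l = 0) :
    vl c l P (fn c r x) g = vl c l P x (g + 2 * (l * P) + if r = true then 0 else 1) := by
  have e := cell_eq l P g
  rw [h0, h1] at e
  have a := cell (a := 2) (d := if r = true then 0 else 1) (by omega : 0 < l)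
    (sl_lt (by omega : 0 < l) hP g) (by split_ifs <;> omega)
  rw [show l * P * 2 + (l * sl l P g + if r = true then 0 else 1) =
    g + 2 * (l * P) + if r = true then 0 else 1 by omega] at a
  rw [vl, if_pos h0]
  by_cases hq : sl l P g < nn c
  · rw [vl_act ⟨by rw [a.2.2]; split_ifs <;> omega, .inr ⟨a.1, a.2.1 ▸ hq⟩⟩, fn_getD hx r hq]
    simp only [rw, nu, a.1, a.2.1, a.2.2, h1, hq]
    cases r <;> simp
  · rw [vl_idle (by omega) (by omega) fun e => by have := e.2; omega]
    simp [hq]

section PT
omit hl hn hm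
variable {α : Type} [Enc α] {c : α → VI} {P g : α → ℕ}

@[fun_prop] theorem pt_sl (hP : PT P) (hg : PT g) : PT fun a => sl l (P a) (g a) := by
  unfold sl; fun_prop
@[fun_prop] theorem pt_act (hc : PT c) (hP : PT P) (hg : PT g) :
    PT fun a => act (c a) l (P a) (g a) := by unfold act; fun_prop
@[fun_prop] theorem pt_rw (hc : PT c) (hP : PT P) (hg : PT g) :
    PT fun a => rw (c a) l (P a) (g a) := by unfold rw; fun_prop
@[fun_prop] theorem pt_nu (hc : PT c) (hP : PT P) (hg : PT g) :
    PT fun a => nu (c a) l (P a) (g a) := by unfold nu; fun_prop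
@[fun_prop] theorem pt_base (hc : PT c) (hP : PT P) (hg : PT g) :
    PT fun a => base (c a) l (P a) (g a) := by unfold base; fun_prop
@[fun_prop] theorem pt_sg (hc : PT c) (hg : PT g) : PT fun a => sg (c a) (g a) := by
  unfold sg; fun_prop
@[fun_prop] theorem pt_bne {u v : α → Bool} (hu : PT u) (hv : PT v) : PT fun a => (u a != v a) := by
  have : PT fun a => decide (u a ≠ v a) := by fun_prop
  exact this.congr fun a => by cases u a <;> cases v a <;> rfl
@[fun_prop] theorem pt_vl {x : α → List Bool} (hc : PT c) (hP : PT P) (hx : PT x) (hg : PT g) :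
    PT fun a => vl (c a) l (P a) (x a) (g a) := by unfold vl; fun_prop

theorem pt_ear (hc : PT c) (hP : PT P) (hg : PT g) (hb : PB g) :
    PT fun a => ear (c a) l (P a) (g a) := by
  have := PT.range hg hb
  unfold ear; fun_prop
theorem pt_src (hc : PT c) (hP : PT P) (hg : PT g) (hb : PB g) :
    PT fun a => src (c a) l (P a) (g a) := by
  have := pt_ear (l := l) hc hP hg hb
  unfold src; fun_prop
theorem pt_ng (hc : PT c) (hP : PT P) (hg : PT g) (hb : PB g) :
    PT fun a => ng (c a) l (P a) (g a) := by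
  have := pt_ear (l := l) hc hP hg hb
  unfold ng; fun_prop

end PT

end Vale.Agent.P330Q.Mq
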