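import Vale.Agent.P330Q.PPD
import Vale.Agent.P330Q.FinS

/-! End-of-Line as a reversible machine on tables with plain programs: the interface. -/

namespace Vale.Agent.P330Q

open Vale.Agent.Lib.PolyTime Vale.Agent.P330 Finset
open scoped Classical BigOperators

variable {l : ℕ} [Fact l.Prime]

/-- The data of a machine on tables: registers `I`, zero tests `Z`, exposed tables `O`, pointwise
quadratic tests `E`. -/
structure PMachD (Y : PS VI l) : Type 1 where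
  I : SF Y.lg
  Z : SF Y.lg
  O : SF Y.lg
  E : SF Y.lg
  S : ∀ c, I.T c → (I.T c → Y.Tab c) → Y.Tab c
  P : ∀ c, I.T c → (I.T c → Y.Tab c) → Y.Tab c
  tz : ∀ c, Z.T c → (I.T c → Y.Tab c) → Y.Tab c
  ty : ∀ c, O.T c → (I.T c → Y.Tab c) → Y.Tab c
  φ : ∀ c, E.T c → Y.H c → Option (O.T c) → Option (O.T c) → Y.F c
  w0 : ∀ c, I.T c → Y.Tab c
  sol : ∀ c, (I.T c → Y.Tab c) → List Bool

/-- The pointwise tests fail at the cell `h`. -/
def PMachD.Bad {Y : PS VI l} (M : PMachD Y) (c : VI) (w : M.I.T c → Y.Tab c) (h : Y.H c) : Prop :=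
  ∃ e, qf (M.φ c e h) (fun o => M.ty c o w h) ≠ 0

/-- Valid states. -/
def PMachD.Val {Y : PS VI l} (M : PMachD Y) (c : VI) (w : M.I.T c → Y.Tab c) : Prop :=
  (∀ z, M.tz c z w = 0) ∧ ∀ h, ¬ M.Bad c w h

/-- The promises on a machine on tables. -/
structure PMachD.OK {Y : PS VI l} (M : PMachD Y) : Prop where
  pp_S : PP Y M.I M.I M.S
  pp_P : PP Y M.I M.I M.P
  pp_tz : PP Y M.I M.Z M.tz
  pp_ty : PP Y M.I M.O M.ty
  d_φ : D3 fun c (z : M.E.T c × Y.H c) (u : Option (M.O.T c) × Option (M.O.T c)) =>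
    M.φ c z.1 z.2 u.1 u.2
  d_w0 : D3 M.w0
  pt_sol : ∀ (B : Type) [Enc B] (p : B → VI) (v : ∀ b, M.I.T (p b) → Y.Tab (p b)), PT p → D3 v →
    PT fun b => M.sol (p b) (v b)
  gap : ∀ c w, (∀ z, M.tz c z w = 0) → (∃ h, M.Bad c w h) → 1 / 3 ≤ fr (Y.H c) (M.Bad c w)
  val0 : ∀ c, M.Val c (M.w0 c)
  fwd : ∀ c u, M.Val c u → EoLSol c.1 (M.sol c u) ∨
    (M.Val c (fun i => M.S c i u) ∧ (fun i => M.S c i u) ≠ M.w0 c ∧
      (fun j => M.P c j fun i => M.S c i u) = u)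
  bwd : ∀ c v, M.Val c v → v ≠ M.w0 c → EoLSol c.1 (M.sol c v) ∨
    (M.Val c (fun i => M.P c i v) ∧ (fun j => M.S c j fun i => M.P c i v) = v)

/-- End-of-Line as a machine on tables of quasi-linear size. -/
def PMachThm : Prop :=
  ∀ (l : ℕ) [Fact l.Prime], 3 ≤ l → ∃ n0 : VI → ℕ, PT n0 ∧ Sz NI LI (fun c => l ^ n0 c) ∧
    ∀ Y : PS VI l, Pl Y.lg LI → (∀ c, n0 c ≤ Y.n c) → ∃ M : PMachD Y, M.OK

end Vale.Agent.P330Q
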