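import Vale.Agent.P330Q.MqB
import Vale.Agent.P330Q.PMachD

/-! The machine on tables: definitions. -/

namespace Vale.Agent.P330Q.Mq

open Vale.Agent.Lib.PolyTime Vale.Agent.P330 Vale.Agent.P330.Mach Finset
open scoped Classical BigOperators

variable {l : ℕ} [Fact l.Prime]

section Base
variable (Y : PS VI l) (c : VI)

/-- The rank of the working cube. -/
def ro : ℕ := Y.n c - 2
/-- The number of slots of a section. -/
def ps : ℕ := l ^ (ro Y c - 2)
/-- Active copy cells. -/
def actH (h : Y.H c) : Prop := InH (ro Y c) h ∧ act c l (ps Y c) (idx h)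
/-- Sources of copy cells. -/
noncomputable def srcH (h : Y.H c) : Y.H c := dig l _ (src c l (ps Y c) (idx h))

theorem pt_ro : PT (ro Y) := PT.sub Y.pt_n (PT.const 2)
theorem pl_ro : Pl Y.lg (ro Y) := Y.pl_n.of_le fun _ => Nat.sub_le _ _

/-- Rounds and colours. -/
@[reducible] def JK : SF Y.lg :=
  (Y.fin (fun c => 2 * ro Y c) (PT.mul (PT.const 2) (pt_ro Y)) ((pl_ro Y).cmul 2)).prod
    (Y.fin (fun c => 2 * ro Y c + 2) (PT.add (PT.mul (PT.const 2) (pt_ro Y)) (PT.const 2))
      (((pl_ro Y).cmul 2).add (Sz.const 2)))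
/-- Two copies. -/
@[reducible] def BB : SF Y.lg := SF.const Y.lg Bool
/-- One point. -/
@[reducible] def UU : SF Y.lg := SF.const Y.lg Unit
/-- The digits. -/
@[reducible] noncomputable def ZZ : SF Y.lg := SF.const Y.lg (ZMod l)
/-- Product lanes. -/
@[reducible] def TT : SF Y.lg := (JK Y).sum (BB Y)
/-- The lanes of one copy. -/
@[reducible] def LL : SF Y.lg := (UU Y).sum (TT Y)
/-- Control registers. -/
@[reducible] def CT : SF Y.lg := (UU Y).sum Y.co
/-- All registers. -/
@[reducible] def II : SF Y.lg := ((BB Y).prod (LL Y)).sum (CT Y)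
/-- Zero tests. -/
@[reducible] def ZT : SF Y.lg := (((BB Y).sum (BB Y)).sum ((BB Y).prod (TT Y))).sum (CT Y)
/-- Pointwise tests. -/
@[reducible] def EE : SF Y.lg := (BB Y).prod (TT Y)
/-- Exposed tables. -/
@[reducible] noncomputable def OO : SF Y.lg := (EE Y).sum ((EE Y).prod ((ZZ Y).prod (BB Y)))

variable {Y c} (hl : 3 ≤ l) (hn : nn c ≤ ps Y c) (hm : mm c ≤ ps Y c)
include hl hn hm

theorem idx_srcH {g : Y.H c} (h : actH Y c g) : idx (srcH Y c g) = src c l (ps Y c) (idx g) :=
  idx_dig ((src_lt hl hn hm h.2).trans (idx_lt g))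

theorem srcH_lt {g : Y.H c} (h : actH Y c g) : idx (srcH Y c g) < idx g :=
  (idx_srcH hl hn hm h).trans_lt (src_lt hl hn hm h.2)

theorem srcH_inH {g : Y.H c} (h : actH Y c g) : InH (ro Y c) (srcH Y c g) :=
  inH_iff.2 ((srcH_lt hl hn hm h).trans (inH_iff.1 h.1))

theorem srcH_inj {g g' : Y.H c} (h : actH Y c g) (h' : actH Y c g') (e : srcH Y c g = srcH Y c g') :
    g = g' :=
  idx_inj (src_inj hl hn hm h.2 h'.2 (by rw [← idx_srcH hl hn hm h, e, idx_srcH hl hn hm h']))

end Base

/-- The context of the machine: low degree extensions and routing. -/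
structure Cx (Y : PS VI l) : Type 1 where
  K : Kit Y
  pos : ∀ c, Y.H c → ℕ → Y.H c
  col : ∀ c, Y.H c → ℕ
  d_pos : D3 (X' := fun _ => ℕ) pos
  pt_col : PT fun z : Σ c, Y.H c => col z.1 z.2
  rt : ∀ c, Routes (ro Y c) (actH Y c) (srcH Y c) (pos c) (col c)
  hl : 3 ≤ l
  h4 : ∀ c, 4 ≤ Y.n c
  hn : ∀ c, nn c ≤ ps Y c
  hm : ∀ c, mm c ≤ ps Y c

variable {Y : PS VI l} (A : Cx Y) (c : VI)

include A in
theorem Cx.n_eq : Y.n c = ro Y c + 2 := by have := A.h4 c; unfold ro; omega

include A in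
theorem Cx.two_le : 2 ≤ ro Y c := by have := A.h4 c; unfold ro; omega

include A in
theorem Cx.l_ps : l * ps Y c = l ^ (ro Y c - 1) := by
  rw [ps, ← pow_succ']
  congr 1
  have := A.two_le c
  omega

/-- Bits in a field. -/
def bf {F : Type} [Field F] (b : Bool) : F := if b = true then 1 else 0
/-- Digits in the field. -/
noncomputable abbrev am (Y : PS VI l) (c : VI) (a : ZMod l) : Y.F c := algebraMap (ZMod l) (Y.F c) a
/-- Low degree extension. -/
noncomputable abbrev Cx.ld (k : ℕ) (u : Y.Tab c) : Y.Tab c := (A.K.rk c).lde k u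

/-- The sign of a copy. -/
noncomputable def ep (Y : PS VI l) (c : VI) (g : Y.H c) : Y.F c :=
  if ng c l (ps Y c) (idx g) = true then -1 else 1
/-- The constant of a copy. -/
noncomputable def ngT (Y : PS VI l) (c : VI) (g : Y.H c) : Y.F c :=
  if actH Y c g ∧ ng c l (ps Y c) (idx g) = true then 1 else 0
/-- The point mass at zero. -/
noncomputable def d0 (Y : PS VI l) (c : VI) (h : Y.H c) : Y.F c := if h = 0 then 1 else 0

/-- The lanes that are linear in the values `X`. -/
noncomputable def Cx.lin (X : Y.Tab c) (t : (LL Y).T c) : Y.Tab c :=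
  Sum.elim (fun _ => X) (Sum.elim (fun z h => ∑ g, if actH Y c g ∧ A.col c g = z.2 ∧
    A.pos c g (z.1 + 1) = h then ep Y c g * X (srcH Y c g) else 0) fun _ => 0) t
/-- Selectors of the routing network. -/
noncomputable def Cx.sel (z : (JK Y).T c) (a : ZMod l) (h : Y.H c) : Y.F c :=
  ∑ g, if actH Y c g ∧ A.col c g = z.2 ∧ A.pos c g (z.1 + 1) = h ∧
    A.pos c g z.1 = h + a • ee (z.1 % ro Y c) then (if (z.1 : ℕ) = 0 then ep Y c g else 1) else 0
/-- The lane read in a round. -/
def pv (Y : PS VI l) (c : VI) (z : (JK Y).T c) : (LL Y).T c :=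
  if (z.1 : ℕ) = 0 then .inl () else .inr (.inl (⟨z.1 - 1, (Nat.sub_le _ _).trans_lt z.1.2⟩, z.2))
/-- The shifts of the two products. -/
def sv (Y : PS VI l) (c : VI) (b β : Bool) : Y.H c :=
  (if b = true then 0 else if β = true then -1 else -2 : ZMod l) • ee 0
/-- Coefficients of the pointwise tests. -/
noncomputable def Cx.cf (t : (TT Y).T c) (a : ZMod l) (h : Y.H c) : Y.F c :=
  Sum.elim (fun z => A.ld c (ro Y c) (A.sel c z a) h) (fun _ => if a = 0 then 1 else 0) t
/-- Factors of the pointwise tests. -/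
noncomputable def Cx.fa (t : (TT Y).T c) (a : ZMod l) (β : Bool) (v : (LL Y).T c → Y.Tab c) :
    Y.Tab c :=
  Sum.elim (fun z => if β = true then fun _ => 1 else
      fun h => A.ld c (ro Y c) (v (pv Y c z)) (h + a • ee (z.1 % ro Y c)))
    (fun b h => A.ld c (ro Y c) (v (.inl ())) (h + sv Y c b β)) t
/-- The value of a product lane. -/
noncomputable def Cx.rhs (v : (LL Y).T c → Y.Tab c) (t : (TT Y).T c) : Y.Tab c :=
  fun h => ∑ a, A.cf c t a h * A.fa c t a false v h * A.fa c t a true v h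
/-- All lanes of one copy with values `X`. -/
noncomputable def Cx.grp (X : Y.Tab c) (t : (LL Y).T c) : Y.Tab c :=
  Sum.elim (fun _ => A.ld c (ro Y c) X) (A.rhs c (A.lin c X)) t

/-- The indicator of `u = v` for digits. -/
noncomputable def eqF (l : ℕ) {F : Type} [Field F] (u v : F) : F := 1 - (u - v) ^ (l - 1)
/-- The indicator of a digit. -/
noncomputable def ind (Y : PS VI l) (c : VI) (k : ℕ) (a : ZMod l) (h : Y.H c) : Y.F c :=
  eqF l (am Y c (cd k h)) (am Y c a)
/-- The indicator of the cells before the cell with digits `t`. -/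
noncomputable def mu (Y : PS VI l) (c : VI) (t : Fin (Y.n c) → Y.F c) (h : Y.H c) : Y.F c :=
  ∑ i : Fin (Y.n c), ∏ j : Fin (Y.n c), if j = i then
      ∑ a : ZMod l × ZMod l, (if a.1.val < a.2.val then 1 else 0) *
        (ind Y c j a.1 h * eqF l (t j) (am Y c a.2))
    else if i < j then eqF l (am Y c (cd j h)) (t j) else 1
/-- The indicator of the input cells. -/
noncomputable def inm (Y : PS VI l) (c : VI) (h : Y.H c) : Y.F c :=
  mu Y c (fun i => am Y c (dig l _ (l * nn c) i)) h * ind Y c 0 0 h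
/-- The value of a gate or copy cell, read from the lanes. -/
noncomputable def nvc (Y : PS VI l) (c : VI) (v : (LL Y).T c → Y.Tab c) (h : Y.H c) : Y.F c :=
  ngT Y c h + ind Y c (ro Y c - 1) 1 h * ind Y c 0 2 h * v (.inr (.inr false)) h +
    ∑ z : (JK Y).T c, (if (z.1 : ℕ) + 1 = 2 * ro Y c then 1 else 0) * v (.inr (.inl z)) h

variable (w : (II Y).T c → Y.Tab c)

/-- The flag. -/
noncomputable def fl (Y : PS VI l) (c : VI) (w : (II Y).T c → Y.Tab c) : Y.F c :=
  ∑ x, w (.inr (.inl ())) x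
/-- The digits of the counter. -/
noncomputable def dg (Y : PS VI l) (c : VI) (w : (II Y).T c → Y.Tab c) (i : Fin (Y.n c)) : Y.F c :=
  ∑ x, w (.inr (.inr i)) x
/-- The next value of a cell of the active copy. -/
noncomputable def nva (Y : PS VI l) (c : VI) (w : (II Y).T c → Y.Tab c) (h : Y.H c) : Y.F c :=
  nvc Y c (fun t => w (.inl (true, t))) h + inm Y c h *
    (fl Y c w * w (.inl (false, .inl ())) (h + (2 : ZMod l) • ee (ro Y c - 1)) +
      (1 - fl Y c w) * w (.inl (false, .inl ())) (h + ((2 : ZMod l) • ee (ro Y c - 1) + ee 0)))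
/-- The required values of the cells. -/
noncomputable def tgt (Y : PS VI l) (c : VI) (r : Bool) (w : (II Y).T c → Y.Tab c) : Y.Tab c :=
  if r = true then fun h => mu Y c (dg Y c w) h * nva Y c w h
  else fun h => nvc Y c (fun t => w (.inl (false, t))) h + inm Y c h * w (.inl (false, .inl ())) h
/-- The zero tests. -/
noncomputable def Cx.tz (z : (ZT Y).T c) (w : (II Y).T c → Y.Tab c) : Y.Tab c :=
  Sum.elim (Sum.elim (Sum.elim
      (fun r h => w (.inl (r, .inl ())) h - A.ld c (ro Y c) (tgt Y c r w) h)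
      fun r => A.ld c (ro Y c) fun h => w (.inl (r, .inr (.inr true))) h - w (.inl (r, .inl ())) h)
      fun e h => w (.inl (e.1, .inr e.2)) h - A.ld c (ro Y c + 1) (w (.inl (e.1, .inr e.2))) h)
    (Sum.elim (fun _ h => w (.inr (.inl ())) h - fl Y c w ^ 2 * d0 Y c h)
      fun i h => w (.inr (.inr i)) h -
        (if (i : ℕ) < ro Y c then 1 else 0) * (dg Y c w i ^ l * d0 Y c h)) z
/-- The exposed tables. -/
noncomputable def Cx.ty (o : (OO Y).T c) (w : (II Y).T c → Y.Tab c) : Y.Tab c :=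
  Sum.elim (fun e => w (.inl (e.1, .inr e.2)))
    (fun o => A.fa c o.1.2 o.2.1 o.2.2 fun t => w (.inl (o.1.1, t))) o
/-- The coefficients of the pointwise tests. -/
noncomputable def Cx.phi (e : (EE Y).T c) (h : Y.H c) (o o' : Option ((OO Y).T c)) : Y.F c :=
  (if o = some (.inl e) ∧ o' = none then 1 else 0) -
    ∑ a, if o = some (.inr (e, a, false)) ∧ o' = some (.inr (e, a, true)) then A.cf c e.2 a h else 0

/-- Reading a table `f` at the cell with digits `∑ t i`. -/
noncomputable def Cx.rd (t : Fin (Y.n c) → Y.F c) (f : Y.Tab c) : Y.F c :=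
  ∑ x, (A.K.mL c (Y.n c) t * f) x
/-- Reading a fixed table at the flag and the counter. -/
noncomputable def Cx.rv (T : Bool → Y.Tab c) (w : (II Y).T c → Y.Tab c) : Y.F c :=
  A.rd c (dg Y c w) fun x => fl Y c w * T true x + (1 - fl Y c w) * T false x

/-- The next flag. -/
def nfl (M : ℕ) (d φ : Bool) (s : ℕ) : Bool :=
  if (d = φ ∧ s + 1 = M) ∨ (d ≠ φ ∧ s = 0) then !φ else φ
/-- The next counter. -/
def nct (M : ℕ) (d φ : Bool) (s : ℕ) : ℕ := if d = φ then (if s + 1 = M then s else s + 1) else s - 1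
/-- The cell that changes. -/
def pc (Y : PS VI l) (c : VI) (d φ : Bool) (x : Y.H c) : Y.H c :=
  if d = φ then x else dig l _ (idx x - 1)
/-- The address of the change in a round. -/
noncomputable def Cx.ad (z : (JK Y).T c) (p : Y.H c) (i : Fin (Y.n c)) : Y.F c :=
  if (z.1 : ℕ) = 0 then am Y c (p i)
  else ∑ g, if actH Y c g ∧ srcH Y c g = p then am Y c (A.pos c g z.1 i) else 0
/-- The coefficient of the change in a round. -/
noncomputable def Cx.ce (z : (JK Y).T c) (p : Y.H c) : Y.F c :=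
  if (z.1 : ℕ) = 0 then 1
  else ∑ g, if actH Y c g ∧ srcH Y c g = p ∧ A.col c g = z.2 then ep Y c g else 0
/-- The change of the lanes when `α` is added at a cell with digits `p`. -/
noncomputable def Cx.dl (α : Y.F c) (p : Fin (Y.n c) → Y.F c)
    (ad : (JK Y).T c → Fin (Y.n c) → Y.F c) (ce : (JK Y).T c → Y.F c) (X : Y.Tab c)
    (t : (LL Y).T c) : Y.Tab c :=
  Sum.elim (fun _ => A.K.mL c (ro Y c) p) (Sum.elim
    (fun z h => ce z * ∑ a, A.K.mL c (ro Y c) (ad z) (h + a • ee (z.1 % ro Y c)) *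
      A.cf c (.inl z) a h)
    fun b h => A.K.mL c (ro Y c) p (h + sv Y c b false) * X (h + sv Y c b true) +
      A.K.mL c (ro Y c) p (h + sv Y c b true) *
        (X (h + sv Y c b false) + α * A.K.mL c (ro Y c) p (h + sv Y c b false))) t
/-- The digits of the cell that changes. -/
noncomputable def Cx.pd (d : Bool) (w : (II Y).T c → Y.Tab c) (i : Fin (Y.n c)) : Y.F c :=
  A.rv c (fun φ x => am Y c (pc Y c d φ x i)) w
/-- The amount of the change. -/
noncomputable def Cx.al (d : Bool) (w : (II Y).T c → Y.Tab c) : Y.F c :=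
  A.rd c (A.pd c d w) fun x =>
    A.rv c (fun φ x => if d = φ ∧ idx x + 1 ≠ l ^ ro Y c then 1 else 0) w * nva Y c w x -
      A.rv c (fun φ x => if d ≠ φ ∧ idx x ≠ 0 then 1 else 0) w * w (.inl (true, .inl ())) x
/-- The copies are exchanged. -/
noncomputable def Cx.sw (d : Bool) (w : (II Y).T c → Y.Tab c) : Y.F c :=
  A.rv c (fun φ x => if d = φ ∧ idx x + 1 = l ^ ro Y c then 1 else 0) w
/-- The change of the active copy. -/
noncomputable def Cx.dw (d : Bool) (t : (LL Y).T c) (w : (II Y).T c → Y.Tab c) : Y.Tab c :=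
  A.dl c (A.al c d w) (A.pd c d w) (fun z i => A.rv c (fun φ x => A.ad c z (pc Y c d φ x) i) w)
    (fun z => A.rv c (fun φ x => A.ce c z (pc Y c d φ x)) w) (w (.inl (true, .inl ()))) t
/-- The new control values. -/
noncomputable def ctl (Y : PS VI l) (c : VI) (φ : Bool) (s : ℕ) (k : (CT Y).T c) : Y.F c :=
  Sum.elim (fun _ => bf φ) (fun i => am Y c (dig l _ s i)) k
/-- One step in the direction `d`. -/
noncomputable def Cx.stp (d : Bool) (i : (II Y).T c) (w : (II Y).T c → Y.Tab c) : Y.Tab c :=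
  Sum.elim (fun e h => A.sw c d w * w (.inl (!e.1, e.2)) h + (1 - A.sw c d w) * w (.inl e) h +
      (if e.1 = true then 1 else 0) * (A.al c d w * A.dw c d e.2 w h))
    (fun k h => A.rv c (fun φ x => ctl Y c (nfl (l ^ ro Y c) d φ (idx x))
      (nct (l ^ ro Y c) d φ (idx x)) k) w * d0 Y c h) i

/-- The values of the cells before `s`. -/
noncomputable def tr (Y : PS VI l) (c : VI) (s : ℕ) (x : List Bool) (h : Y.H c) : Y.F c :=
  bf (decide (idx h < s) && vl c l (ps Y c) x (idx h))
/-- The states of the machine. -/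
noncomputable def Cx.st (φ : Bool) (s : ℕ) (x y : List Bool) (i : (II Y).T c) : Y.Tab c :=
  Sum.elim (fun e => A.grp c (if e.1 = true then tr Y c s y else tr Y c (l ^ ro Y c) x) e.2)
    (fun k h => ctl Y c φ s k * d0 Y c h) i
/-- The string of a state. -/
noncomputable def sol (Y : PS VI l) (c : VI) (w : (II Y).T c → Y.Tab c) : List Bool :=
  (List.range (nn c)).map fun i => decide (w (.inl (false, .inl ())) (dig l _ (l * i)) = 1)

/-- The machine. -/
noncomputable def Cx.mach : PMachD Y where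
  I := II Y
  Z := ZT Y
  O := OO Y
  E := EE Y
  S c := A.stp c true
  P c := A.stp c false
  tz := A.tz
  ty := A.ty
  φ := A.phi
  w0 c := A.st c false (l ^ ro Y c - 1) (zz c) (zz c)
  sol := sol Y

end Vale.Agent.P330Q.Mq
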