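import Vale.Agent.P330Q.MqD

/-! The machine on tables: indicators, reading and control. -/

namespace Vale.Agent.P330Q.Mq

open Vale.Agent.Lib.PolyTime Vale.Agent.P330 Vale.Agent.P330.Mach Finset
open scoped Classical BigOperators

variable {l : ℕ} [Fact l.Prime] {Y : PS VI l} (A : Cx Y) {c : VI}

theorem eqF_am (a b : ZMod l) : eqF l (am Y c a) (am Y c b) = if a = b then 1 else 0 := by
  rw [eqF, ← map_sub, ← map_pow]
  split_ifs with h
  · rw [h, sub_self, zero_pow (Nat.sub_ne_zero_of_lt l_one), map_zero, sub_zero]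
  · rw [ZMod.pow_card_sub_one_eq_one (sub_ne_zero.2 h), map_one, sub_self]

theorem ind_eq (k : ℕ) (a : ZMod l) (h : Y.H c) :
    ind Y c k a h = if cd k h = a then 1 else 0 := eqF_am _ _

theorem mu_eq (s h : Y.H c) :
    mu Y c (fun i => am Y c (s i)) h = if idx h < idx s then 1 else 0 := by
  rw [← lex_sum (R := Y.F c) h s, mu]
  refine sum_congr rfl fun i _ => prod_congr rfl fun j _ => ?_
  have e : cd (j : ℕ) h = h j := dif_pos j.2
  simp only [ind_eq, eqF_am, e]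
  rw [sum_eq_single (h j, s j) (fun a _ ha => ?_) fun k => absurd (mem_univ _) k]
  · simp only [if_true, mul_one]
  · by_cases h1 : h j = a.1
    · rw [if_neg (show ¬ s j = a.2 from fun h2 => ha (Prod.ext h1.symm h2.symm)), mul_zero, mul_zero]
    · rw [if_neg h1, zero_mul, mul_zero]

theorem Cx.rd_eq (p : Y.H c) (f : Y.Tab c) : A.rd c (fun i => am Y c (p i)) f = f p := by
  have h0 : ∀ x : Y.H c, InH (Y.n c) x := fun x i hi => absurd i.2 (not_lt.2 hi)
  rw [Cx.rd, A.K.mL_eq c _ p le_rfl (h0 p), sum_eq_single p (fun x _ hx => ?_)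
    fun k => absurd (mem_univ _) k]
  · rw [Pi.mul_apply, (A.K.rk c).lde_eq _ _ _ le_rfl (h0 p), Pi.single_eq_same, one_mul]
  · rw [Pi.mul_apply, (A.K.rk c).lde_eq _ _ _ le_rfl (h0 x), Pi.single_eq_of_ne hx, zero_mul]

theorem Cx.ld_congr {k : ℕ} (hk : k ≤ Y.n c) {u v : Y.Tab c} (e : ∀ h, InH k h → u h = v h) :
    A.ld c k u = A.ld c k v := by
  rw [← sub_eq_zero, ← map_sub]
  exact (A.K.rk c).uniq k _ hk ((A.K.rk c).isP_lde k _ hk) fun h hh => by
    rw [(A.K.rk c).lde_eq k _ h hk hh, Pi.sub_apply, e h hh, sub_self]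

theorem Cx.ld_of_isP {k : ℕ} (hk : k ≤ Y.n c) {u : Y.Tab c} (hu : (A.K.rk c).IsP (l ^ k) u) :
    A.ld c k u = u := by
  rw [← sub_eq_zero, sub_eq_add_neg]
  exact (A.K.rk c).uniq k _ hk
    ((A.K.rk c).add _ _ _ ((A.K.rk c).isP_lde k _ hk) ((A.K.rk c).neg _ _ hu)) fun h hh => by
    rw [Pi.add_apply, Cx.ld, (A.K.rk c).lde_eq k _ h hk hh, Pi.neg_apply, add_neg_cancel]

theorem sum_d0 (t : Y.F c) : ∑ x, t * d0 Y c x = t := by
  simp only [d0, mul_ite, mul_one, mul_zero, sum_ite_eq', mem_univ, if_true]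

theorem fl_of {w : (II Y).T c → Y.Tab c} {φ : Bool} {s : ℕ}
    (e : ∀ k, w (.inr k) = fun h => ctl Y c φ s k * d0 Y c h) : fl Y c w = bf φ := by
  rw [fl, e]
  exact sum_d0 _

theorem dg_of {w : (II Y).T c → Y.Tab c} {φ : Bool} {s : ℕ}
    (e : ∀ k, w (.inr k) = fun h => ctl Y c φ s k * d0 Y c h) :
    dg Y c w = fun i => am Y c (dig l _ s i) := funext fun i => by
  rw [dg, e]
  exact sum_d0 _

theorem Cx.rv_st (T : Bool → Y.Tab c) (φ : Bool) (s : ℕ) (x y : List Bool) :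
    A.rv c T (A.st c φ s x y) = T φ (dig l _ s) := by
  have e : ∀ k, A.st c φ s x y (.inr k) = fun h => ctl Y c φ s k * d0 Y c h := fun _ => rfl
  rw [Cx.rv, dg_of e, fl_of e, A.rd_eq]
  cases φ <;> simp [bf]

theorem am_of_pow {t : Y.F c} (h : t ^ l = t) : ∃ a, am Y c a = t := by
  have : CharP (Y.F c) l := charP_of_injective_algebraMap (algebraMap (ZMod l) (Y.F c)).injective l
  obtain ⟨n, hn⟩ := (mem_bot_iff_intCast l (Y.F c)).1
    ((Subfield.mem_bot_iff_pow_eq_self (Y.F c) l).2 h)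
  exact ⟨n, (map_intCast _ n).trans hn⟩

theorem Cx.of_ctl {w : (II Y).T c → Y.Tab c} (h : ∀ k, A.tz c (.inr k) w = 0) :
    ∃ φ s, s < l ^ ro Y c ∧ ∀ k, w (.inr k) = fun h => ctl Y c φ s k * d0 Y c h := by
  have h1 : ∀ x, w (.inr (.inl ())) x = fl Y c w ^ 2 * d0 Y c x := fun x =>
    sub_eq_zero.1 (congrFun (h (.inl ())) x)
  have h2 : ∀ (i : Fin (Y.n c)) x, w (.inr (.inr i)) x =
      (if (i : ℕ) < ro Y c then 1 else 0) * dg Y c w i ^ l * d0 Y c x := fun i x =>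
    (sub_eq_zero.1 (congrFun (h (.inr i)) x)).trans (mul_assoc _ _ _).symm
  have e1 : fl Y c w = fl Y c w ^ 2 := (sum_congr rfl fun x _ => h1 x).trans (sum_d0 _)
  have e2 : ∀ i, dg Y c w i = (if (i : ℕ) < ro Y c then 1 else 0) * dg Y c w i ^ l := fun i =>
    (sum_congr rfl fun x _ => h2 i x).trans (sum_d0 _)
  obtain ⟨φ, hφ⟩ : ∃ φ, fl Y c w = bf φ := by
    by_cases e : fl Y c w = 0
    · exact ⟨false, e⟩
    · exact ⟨true, mul_left_cancel₀ e (by rw [← sq, ← e1]; exact (mul_one _).symm)⟩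
  have e3 : ∀ i : Fin (Y.n c), ∃ a, am Y c a = dg Y c w i ∧ (ro Y c ≤ i → a = 0) := fun i => by
    have e := e2 i
    split_ifs at e with hi
    · rw [one_mul] at e
      obtain ⟨a, ha⟩ := am_of_pow e.symm
      exact ⟨a, ha, fun k => absurd hi (not_lt.2 k)⟩
    · exact ⟨0, by rw [e, zero_mul]; exact map_zero _, fun _ => rfl⟩
  choose a ha ha' using e3
  refine ⟨φ, idx a, inH_iff.1 ha', ?_⟩
  rintro (k | i)
  · exact funext fun x => by rw [h1, ← e1, hφ]; rfl
  · exact funext fun x => by rw [h2, ← e2, ← ha, ctl, dig_idx]; rfl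

theorem Cx.ctl_st {s : ℕ} (hs : s < l ^ ro Y c) (φ : Bool) (x y : List Bool) (k : (CT Y).T c) :
    A.tz c (.inr k) (A.st c φ s x y) = 0 := by
  have e : ∀ k, A.st c φ s x y (.inr k) = fun h => ctl Y c φ s k * d0 Y c h := fun _ => rfl
  funext h
  rcases k with k | i
  · show bf φ * d0 Y c h - fl Y c (A.st c φ s x y) ^ 2 * d0 Y c h = 0
    rw [fl_of e]
    cases φ <;> simp [bf]
  · show am Y c (dig l _ s i) * d0 Y c h - (if (i : ℕ) < ro Y c then 1 else 0) *
      (dg Y c (A.st c φ s x y) i ^ l * d0 Y c h) = 0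
    rw [dg_of e, ← map_pow, ZMod.pow_card]
    split_ifs with hi
    · rw [one_mul, sub_self]
    · rw [dig, Nat.div_eq_of_lt (hs.trans_le (Nat.pow_le_pow_right l_one.le (not_lt.1 hi))),
        Nat.cast_zero, zero_mul, sub_zero, am, map_zero, zero_mul]

theorem Cx.st_ctl_inj {φ φ' : Bool} {s s' : ℕ} {x y x' y' : List Bool} (hs : s < l ^ ro Y c)
    (hs' : s' < l ^ ro Y c) (e : A.st c φ s x y = A.st c φ' s' x' y') : φ = φ' ∧ s = s' := by
  have e1 : ∀ k, A.st c φ s x y (.inr k) = fun h => ctl Y c φ s k * d0 Y c h := fun _ => rfl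
  have e2 : ∀ k, A.st c φ s x y (.inr k) = fun h => ctl Y c φ' s' k * d0 Y c h := fun _ => e ▸ rfl
  have hl : l ^ ro Y c ≤ l ^ Y.n c := Nat.pow_le_pow_right l_one.le (Nat.sub_le _ _)
  constructor
  · have := (fl_of e1).symm.trans (fl_of e2)
    revert this
    cases φ <;> cases φ' <;> simp [bf]
  · have h1 : dig l (Y.n c) s = dig l (Y.n c) s' := funext fun i =>
      (algebraMap (ZMod l) (Y.F c)).injective (congrFun ((dg_of e1).symm.trans (dg_of e2)) i)
    rw [← idx_dig (hs.trans_le hl), h1, idx_dig (hs'.trans_le hl)]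

end Vale.Agent.P330Q.Mq
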