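import Vale.Agent.P330Q.MqE

/-! The machine on tables: the routing lanes. -/

namespace Vale.Agent.P330Q.Mq

open Vale.Agent.Lib.PolyTime Vale.Agent.P330 Vale.Agent.P330.Mach Finset
open scoped Classical BigOperators

variable {l : ℕ} [Fact l.Prime] {Y : PS VI l} (A : Cx Y) {c : VI}

include A in
theorem Cx.F_ro : ro Y c ≤ Y.n c := by
  have := A.n_eq c
  omega

include A in
theorem Cx.F_mod (j : ℕ) : j % ro Y c < ro Y c :=
  Nat.mod_lt _ (lt_of_lt_of_le two_pos (A.two_le c))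

theorem Cx.F_eq (u : Y.Tab c) {h : Y.H c} (hh : InH (ro Y c) h) : A.ld c (ro Y c) u h = u h :=
  (A.K.rk c).lde_eq _ _ _ A.F_ro hh

theorem F_inH {n k i : ℕ} {h : Fin n → ZMod l} (hh : InH k h) (hi : i < k) (a : ZMod l) :
    InH k (h + a • ee i) := fun j hj => by
  have : (j : ℕ) ≠ i := by omega
  simp [hh j hj, ee, this]

theorem F_uniq {n i : ℕ} (hi : i < n) {p h : Fin n → ZMod l}
    (e : ∀ k : Fin n, (k : ℕ) ≠ i → h k = p k) : ∃ a0 : ZMod l, ∀ a, p = h + a • ee i ↔ a = a0 := by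
  refine ⟨p ⟨i, hi⟩ - h ⟨i, hi⟩, fun a => ⟨fun k => ?_, fun k => funext fun j => ?_⟩⟩
  · rw [k]
    simp [ee]
  · by_cases hj : (j : ℕ) = i
    · obtain rfl : j = ⟨i, hi⟩ := Fin.ext hj
      simp [ee, k]
    · simp [ee, hj, e j hj]

theorem Cx.F_val (X : Y.Tab c) (z : (JK Y).T c) {g : Y.H c} (hg : actH Y c g)
    (hc : A.col c g = z.2) :
    (if (z.1 : ℕ) = 0 then ep Y c g else 1) * A.lin c X (pv Y c z) (A.pos c g z.1) =
      ep Y c g * X (srcH Y c g) := by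
  obtain ⟨-, r0, -, -, -, r1⟩ := A.rt c g hg
  unfold pv
  by_cases h0 : (z.1 : ℕ) = 0
  · rw [if_pos h0, if_pos h0, h0, r0]
    rfl
  · rw [if_neg h0, if_neg h0, one_mul]
    change (∑ g', if actH Y c g' ∧ A.col c g' = z.2 ∧ A.pos c g' (z.1 - 1 + 1) = A.pos c g z.1
      then ep Y c g' * X (srcH Y c g') else 0) = _
    rw [Nat.sub_add_cancel (Nat.pos_of_ne_zero h0), sum_eq_single g, if_pos ⟨hg, hc, rfl⟩]
    · exact fun g' _ hne => if_neg fun k =>
        hne (r1 g' k.1 (hc.trans k.2.1.symm) _ z.1.2.le k.2.2.symm).symm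
    · exact fun k => absurd (mem_univ g) k

theorem Cx.rhs_lin (X : Y.Tab c) (z : (JK Y).T c) {h : Y.H c} (hh : InH (ro Y c) h) :
    A.rhs c (A.lin c X) (.inl z) h = A.lin c X (.inr (.inl z)) h := by
  change (∑ a, A.ld c (ro Y c) (A.sel c z a) h *
      A.ld c (ro Y c) (A.lin c X (pv Y c z)) (h + a • ee (z.1 % ro Y c)) * 1) =
    ∑ g, if actH Y c g ∧ A.col c g = z.2 ∧ A.pos c g (z.1 + 1) = h
      then ep Y c g * X (srcH Y c g) else 0
  have e : ∀ a : ZMod l, A.ld c (ro Y c) (A.sel c z a) h *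
      A.ld c (ro Y c) (A.lin c X (pv Y c z)) (h + a • ee (z.1 % ro Y c)) * 1 =
      ∑ g, if actH Y c g ∧ A.col c g = z.2 ∧ A.pos c g (z.1 + 1) = h ∧
        A.pos c g z.1 = h + a • ee (z.1 % ro Y c) then ep Y c g * X (srcH Y c g) else 0 := by
    intro a
    rw [mul_one, A.F_eq _ hh, A.F_eq _ (F_inH hh (A.F_mod _) a), Cx.sel, sum_mul]
    refine sum_congr rfl fun g _ => ?_
    split_ifs with k k'
    · rw [← k.2.2.2, ← A.F_val X z k.1 k.2.1, if_pos k']
    · rw [← k.2.2.2, ← A.F_val X z k.1 k.2.1, if_neg k']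
    · exact zero_mul _
  rw [sum_congr rfl fun a _ => e a, sum_comm]
  refine sum_congr rfl fun g _ => ?_
  split_ifs with k
  · obtain ⟨a0, h0⟩ := F_uniq ((A.F_mod z.1).trans_le A.F_ro) (p := A.pos c g z.1) (h := h)
      fun i hi => k.2.2 ▸ (A.rt c g k.1).2.2.2.2.1 z.1 z.1.2 i hi
    rw [sum_eq_single a0, if_pos ⟨k.1, k.2.1, k.2.2, (h0 a0).2 rfl⟩]
    · exact fun a _ hne => if_neg fun k' => hne ((h0 a).1 k'.2.2.2)
    · exact fun k' => absurd (mem_univ a0) k'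
  · exact sum_eq_zero fun a _ => if_neg fun k' => k ⟨k'.1, k'.2.1, k'.2.2.1⟩

theorem Cx.F_rhs {v v' : (LL Y).T c → Y.Tab c} (t : (TT Y).T c)
    (h0 : A.ld c (ro Y c) (v (.inl ())) = A.ld c (ro Y c) (v' (.inl ())))
    (h1 : ∀ z, t = .inl z →
      A.ld c (ro Y c) (v (pv Y c z)) = A.ld c (ro Y c) (v' (pv Y c z))) :
    A.rhs c v t = A.rhs c v' t := by
  have e : ∀ a β, A.fa c t a β v = A.fa c t a β v' := fun a β => by
    rcases t with z | b
    · simp only [Cx.fa, Sum.elim_inl, h1 z rfl]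
    · simp only [Cx.fa, Sum.elim_inr, h0]
  funext h
  simp only [Cx.rhs, e]

theorem Cx.F_ld (X : Y.Tab c) :
    A.ld c (ro Y c) (A.ld c (ro Y c) X) = A.ld c (ro Y c) X :=
  A.ld_of_isP A.F_ro ((A.K.rk c).isP_lde _ _ A.F_ro)

theorem F_pv {P : (LL Y).T c → Prop} (z : (JK Y).T c) (h0 : P (.inl ()))
    (h1 : ∀ z' : (JK Y).T c, (z'.1 : ℕ) < z.1 → P (.inr (.inl z'))) : P (pv Y c z) := by
  unfold pv
  split_ifs with k
  · exact h0
  · exact h1 _ (Nat.sub_one_lt k)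

theorem Cx.rhs_grp (X : Y.Tab c) (t : (TT Y).T c) :
    A.rhs c (A.grp c X) t = A.grp c X (.inr t) :=
  A.F_rhs t (A.F_ld X) fun z _ => F_pv
    (P := fun t => A.ld c (ro Y c) (A.grp c X t) = A.ld c (ro Y c) (A.lin c X t)) z (A.F_ld X)
    fun z' _ => A.ld_congr A.F_ro fun _ hh => A.rhs_lin X z' hh

theorem Cx.eq_grp {v : (LL Y).T c → Y.Tab c} (h0 : v (.inl ()) = A.ld c (ro Y c) (v (.inl ())))
    (h : ∀ t, v (.inr t) = A.rhs c v t) : v = A.grp c (v (.inl ())) := by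
  have k : ∀ (m : ℕ) (z : (JK Y).T c), (z.1 : ℕ) = m → A.ld c (ro Y c) (v (pv Y c z)) =
      A.ld c (ro Y c) (A.lin c (v (.inl ())) (pv Y c z)) := by
    intro m
    induction m using Nat.strong_induction_on with
    | _ m ih =>
      intro z hz
      refine F_pv (P := fun t => A.ld c (ro Y c) (v t) =
        A.ld c (ro Y c) (A.lin c (v (.inl ())) t)) z rfl fun z' hz' => ?_
      rw [h, A.F_rhs (v := v) (v' := A.lin c (v (.inl ()))) (.inl z') rfl fun y hy => by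
        obtain rfl := Sum.inl_injective hy
        exact ih _ (hz ▸ hz') _ rfl]
      exact A.ld_congr A.F_ro fun _ hh => A.rhs_lin _ z' hh
  funext t
  rcases t with t | t
  · exact h0
  · exact (h t).trans (A.F_rhs t rfl fun z _ => k _ z rfl)

theorem Cx.grp_congr {X X' : Y.Tab c} (e : ∀ h, InH (ro Y c) h → X h = X' h) :
    A.grp c X = A.grp c X' := by
  have e0 := A.ld_congr A.F_ro e
  funext t
  rcases t with t | t
  · exact e0
  · refine A.F_rhs t e0 fun z _ => F_pv (P := fun t => A.ld c (ro Y c) (A.lin c X t) =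
      A.ld c (ro Y c) (A.lin c X' t)) z e0 fun z' _ => congrArg _ (funext fun h => ?_)
    refine sum_congr rfl fun g _ => ?_
    split_ifs with k
    · rw [e _ (srcH_inH A.hl (A.hn c) (A.hm c) k.1)]
    · rfl

end Vale.Agent.P330Q.Mq
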