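import Vale.Agent.P330Q.MqF

/-! The machine on tables: the values of the cells. -/

namespace Vale.Agent.P330Q.Mq

open Vale.Agent.Lib.PolyTime Vale.Agent.P330 Vale.Agent.P330.Mach Finset
open scoped Classical BigOperators

variable {l : ℕ} [Fact l.Prime] {Y : PS VI l} (A : Cx Y) {c : VI}

theorem MqG_cd {n k a : ℕ} (hk : k < n) (ha : a < l) (h : Fin n → ZMod l) :
    cd k h = (a : ZMod l) ↔ idx h / l ^ k % l = a := by
  rw [cd, dif_pos hk, ← val_eq h ⟨k, hk⟩, ← (ZMod.val_injective l).eq_iff, ZMod.val_cast_of_lt ha]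

include A in
theorem Cx.MqG_P : 0 < ps Y c := Nat.pow_pos (by have := A.hl; omega)

include A in
theorem Cx.MqG_pow : l ^ ro Y c = l * ps Y c * l := by
  rw [A.l_ps, ← pow_succ]
  congr 1
  have := A.two_le c
  omega

include A in
theorem Cx.MqG_le : l ^ ro Y c ≤ l ^ Y.n c :=
  Nat.pow_le_pow_right (by have := A.hl; omega) (by rw [A.n_eq]; omega)

include A in
theorem Cx.MqG_d0 {a : ℕ} (ha : a < l) (h : Y.H c) : cd 0 h = (a : ZMod l) ↔ idx h % l = a := by
  rw [MqG_cd (by have := A.h4 c; omega) ha, pow_zero, Nat.div_one]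

include A in
theorem Cx.MqG_sec {h : Y.H c} (hh : InH (ro Y c) h) : idx h / (l * ps Y c) < l :=
  Nat.div_lt_of_lt_mul (A.MqG_pow ▸ inH_iff.1 hh)

include A in
theorem Cx.MqG_dr {a : ℕ} (ha : a < l) {h : Y.H c} (hh : InH (ro Y c) h) :
    cd (ro Y c - 1) h = (a : ZMod l) ↔ idx h / (l * ps Y c) = a := by
  rw [MqG_cd (by rw [A.n_eq]; omega) ha, ← A.l_ps, Nat.mod_eq_of_lt (A.MqG_sec hh)]

theorem Cx.MqG_ld (u : Y.Tab c) {h : Y.H c} (hh : idx h < l ^ ro Y c) :
    A.ld c (ro Y c) u h = u h :=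
  (A.K.rk c).lde_eq _ _ _ (by rw [A.n_eq]; omega) (inH_iff.2 hh)

include A in
theorem Cx.inm_eq (h : Y.H c) :
    inm Y c h = if idx h < l * nn c ∧ idx h % l = 0 then 1 else 0 := by
  have hl := A.hl
  have h1 : l * nn c < l ^ Y.n c := by
    refine lt_of_lt_of_le ?_ A.MqG_le
    rw [A.MqG_pow]
    have := Nat.mul_le_mul_left l (A.hn c)
    have := Nat.mul_pos (by omega : 0 < l) (A.MqG_P (c := c))
    nlinarith
  have h2 := A.MqG_d0 (by omega : 0 < l) h
  rw [Nat.cast_zero] at h2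
  rw [inm, mu_eq, ind_eq, idx_dig h1, if_congr h2 rfl rfl, ite_zero_mul_ite_zero, mul_one]

theorem Cx.MqG_lanes (X : Y.Tab c) {h : Y.H c} (hh : InH (ro Y c) h) :
    ∑ z : (JK Y).T c, (if (z.1 : ℕ) + 1 = 2 * ro Y c then 1 else 0) *
      A.grp c X (.inr (.inl z)) h = if actH Y c h then ep Y c h * X (srcH Y c h) else 0 := by
  have h2 := A.two_le c
  have e : ∀ z : (JK Y).T c, (if (z.1 : ℕ) + 1 = 2 * ro Y c then 1 else 0) *
      A.grp c X (.inr (.inl z)) h = if (z.1 : ℕ) + 1 = 2 * ro Y c ∧ actH Y c h ∧ A.col c h = z.2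
        then ep Y c h * X (srcH Y c h) else 0 := fun z => by
    by_cases hz : (z.1 : ℕ) + 1 = 2 * ro Y c
    · rw [if_pos hz, one_mul]
      refine (A.rhs_lin X z hh).trans ?_
      simp only [Cx.lin, Sum.elim_inr, Sum.elim_inl, hz, true_and]
      rw [sum_eq_single h]
      · by_cases k : actH Y c h
        · simp only [k, (A.rt c h k).2.2.1, true_and, and_true]
        · simp only [k, false_and]
      · exact fun g _ hg => if_neg fun k => hg ((A.rt c g k.1).2.2.1.symm.trans k.2.2)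
      · exact fun k => absurd (mem_univ _) k
    · rw [if_neg hz, zero_mul, if_neg fun k => hz k.1]
  rw [sum_congr rfl fun z _ => e z]
  split_ifs with k
  · rw [sum_eq_single (⟨⟨2 * ro Y c - 1, show _ < 2 * ro Y c by omega⟩, ⟨A.col c h, (A.rt c h k).1⟩⟩ : (JK Y).T c)]
    · exact if_pos ⟨show 2 * ro Y c - 1 + 1 = _ by omega, k, rfl⟩
    · refine fun z _ hz => if_neg fun q => hz (Prod.ext (Fin.ext ?_) (Fin.ext q.2.2.symm))
      have := q.1
      simp only
      omega
    · exact fun k => absurd (mem_univ _) k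
  · exact sum_eq_zero fun z _ => if_neg fun q => k q.2.1

include A in
theorem Cx.MqG_back {h : Y.H c} (h2 : idx h % l = 2) {a : ℕ} (ha : a ≤ 2) :
    idx (h + (-(a : ZMod l)) • ee 0 : Y.H c) = idx h - a := by
  have hl := A.hl
  have h0 : 0 < Y.n c := by have := A.h4 c; omega
  have e : h ⟨0, h0⟩ = ((2 : ℕ) : ZMod l) := by
    have := (A.MqG_d0 (by omega : 2 < l) h).2 h2
    rwa [cd, dif_pos h0] at this
  have v : ((h + (-(a : ZMod l)) • ee 0 : Y.H c) ⟨0, h0⟩).val = 2 - a := by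
    simp only [Pi.add_apply, Pi.smul_apply, ee, if_true, smul_eq_mul, mul_one, e]
    rw [← sub_eq_add_neg, ← Nat.cast_sub ha, ZMod.val_cast_of_lt (by omega)]
  have k := idx_add (h := (h + (-(a : ZMod l)) • ee 0 : Y.H c)) (i := ⟨0, h0⟩) (a := (a : ZMod l))
    (by rw [v, ZMod.val_cast_of_lt (by omega)]; omega)
  rw [ZMod.val_cast_of_lt (by omega)] at k
  simp only [neg_smul, neg_add_cancel_right, pow_zero, mul_one] at k ⊢
  omega

theorem MqG_bf {F : Type} [Field F] (a b : Bool) : (bf (a && b) : F) = bf a * bf b := by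
  cases a <;> cases b <;> simp [bf]

theorem Cx.nv_eq {X : Y.Tab c} {y : List Bool} (hy : y.length = nn c) {h : Y.H c}
    (hh : InH (ro Y c) h)
    (hX : ∀ g, idx g < idx h → X g = bf (vl c l (ps Y c) y (idx g))) :
    nvc Y c (A.grp c X) h + inm Y c h * bf (vl c l (ps Y c) y (idx h)) =
      bf (vl c l (ps Y c) y (idx h)) := by
  have hl := A.hl
  have hP := A.MqG_P (c := c)
  have d1 := A.MqG_dr (by omega : 1 < l) hh
  have d2 := A.MqG_d0 (by omega : 2 < l) h
  rw [Nat.cast_one] at d1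
  rw [Nat.cast_ofNat] at d2
  have ce := cell_eq l (ps Y c) (idx h)
  have hn := Nat.mul_le_mul_left l (A.hn c)
  rw [nvc, A.MqG_lanes X hh, ind_eq, ind_eq, A.inm_eq, if_congr d1 rfl rfl,
    if_congr d2 rfl rfl, ngT]
  by_cases k : actH Y c h
  · have k2 := k.2
    have k3 : ¬ (idx h < l * nn c ∧ idx h % l = 0) := fun q => by
      rcases k2.2 with ⟨u, -⟩ | ⟨u, -⟩ <;> rw [u] at ce <;> omega
    rw [if_pos k, if_neg k3, if_neg (show ¬ idx h % l = 2 by have := k2.1; omega),
      hX _ (srcH_lt hl (A.hn c) (A.hm c) k), idx_srcH hl (A.hn c) (A.hm c) k,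
      vl_copy hl (A.hn c) (A.hm c) hy k2, ep]
    simp only [k, true_and]
    cases ng c l (ps Y c) (idx h) <;> cases vl c l (ps Y c) y (src c l (ps Y c) (idx h)) <;>
      simp [bf]
  rw [if_neg k, if_neg fun q => k q.1, zero_add, add_zero]
  by_cases g : idx h / (l * ps Y c) = 1 ∧ idx h % l = 2
  · have b1 := A.MqG_back g.2 (a := 1) (by omega)
    have b2 := A.MqG_back g.2 (a := 2) le_rfl
    rw [Nat.cast_one] at b1
    rw [Nat.cast_ofNat] at b2
    have hi := inH_iff.1 hh
    have p2 : 2 ≤ idx h := by have := Nat.mod_le (idx h) l; omega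
    rw [if_pos g.1, if_pos g.2, if_neg (by omega), vl_gate hl hP hy g.1 g.2, MqG_bf, ← b1, ← b2,
      ← hX _ (by omega), ← hX _ (by omega)]
    simp only [Cx.grp, Cx.rhs, Cx.cf, Cx.fa, Cx.lin, sv, Sum.elim_inr, Sum.elim_inl, ite_mul,
      one_mul, zero_mul, sum_ite_eq', mem_univ, if_true, Bool.false_eq_true, if_false, add_zero]
    rw [A.MqG_ld _ (by omega), A.MqG_ld _ (by omega)]
  rw [ite_zero_mul_ite_zero, if_neg g, zero_mul, zero_add]
  by_cases s : idx h / (l * ps Y c) = 0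
  · split_ifs with q
    · rw [one_mul]
    · rw [zero_mul, vl, if_pos s, decide_eq_false, Bool.false_and, bf, if_neg (by simp)]
      rintro ⟨u, v⟩
      have := Nat.mul_lt_mul_of_pos_left v (by omega : 0 < l)
      rw [s, u] at ce
      exact q ⟨by omega, u⟩
  · rw [vl_idle s g fun q => k ⟨hh, q⟩]
    simp [bf]

theorem Cx.nva_eq {w : (II Y).T c → Y.Tab c} {X : Y.Tab c} {φ : Bool} {x : List Bool}
    (hx : x.length = nn c) (hf : fl Y c w = bf φ)
    (h0 : w (.inl (false, .inl ())) = A.ld c (ro Y c) (tr Y c (l ^ ro Y c) x))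
    (h1 : ∀ t, w (.inl (true, t)) = A.grp c X t) {h : Y.H c} (hh : InH (ro Y c) h)
    (hX : ∀ g, idx g < idx h → X g = bf (vl c l (ps Y c) (fn c φ x) (idx g))) :
    nva Y c w h = bf (vl c l (ps Y c) (fn c φ x) (idx h)) := by
  have hl := A.hl
  have hP := A.MqG_P (c := c)
  rw [← A.nv_eq (fn_len φ x) hh hX, nva, funext h1, A.inm_eq]
  split_ifs with q
  swap
  · rw [zero_mul, zero_mul]
  congr 2
  have hn := Nat.mul_le_mul_left l (A.hn c)
  have s : idx h / (l * ps Y c) = 0 := Nat.div_eq_of_lt (by omega)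
  have n1 : ro Y c - 1 < Y.n c := by rw [A.n_eq]; omega
  have n0 : 0 < Y.n c := by omega
  have v2 : (2 : ZMod l).val = 2 := by
    have := ZMod.val_cast_of_lt (by omega : 2 < l)
    rwa [Nat.cast_ofNat] at this
  have e1 := idx_add (h := h) (i := ⟨_, n1⟩) (a := 2) (by
    rw [val_eq, v2, ← A.l_ps, s, Nat.zero_mod]; omega)
  simp only [v2, ← A.l_ps] at e1
  have e2 := idx_add (h := h + (2 : ZMod l) • ee (ro Y c - 1)) (i := ⟨0, n0⟩) (a := 1) (by
    rw [val_eq, ZMod.val_one, e1, pow_zero, Nat.div_one, mul_left_comm, Nat.add_mul_mod_self_left,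
      q.2]
    omega)
  simp only [ZMod.val_one, one_smul, pow_zero, mul_one, add_assoc, e1] at e2
  have hp := A.MqG_pow (c := c)
  have h3 := Nat.mul_le_mul_left (l * ps Y c) hl
  have ce := Nat.div_add_mod (idx h) l
  have h4 : idx h + 1 < l * ps Y c := by
    have : idx h / l < ps Y c := Nat.div_lt_of_lt_mul (by omega)
    have := Nat.mul_le_mul_left l (Nat.succ_le_of_lt this)
    rw [Nat.mul_succ] at this
    omega
  rw [hf, h0, vl_in hl hP hx φ s q.2, A.MqG_ld _ (by omega),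
    A.MqG_ld _ (by omega), tr, tr, e1, e2, decide_eq_true (by omega),
    decide_eq_true (by omega)]
  cases φ <;> simp [bf, add_assoc]

include A in
theorem Cx.tr_last (x : List Bool) : tr Y c (l ^ ro Y c - 1) x = tr Y c (l ^ ro Y c) x := by
  have hl := A.hl
  have hP := A.MqG_P (c := c)
  funext h
  by_cases e : idx h = l ^ ro Y c - 1
  · obtain ⟨m, rfl⟩ : ∃ m, l = m + 1 := ⟨l - 1, by omega⟩
    obtain ⟨p, hp⟩ : ∃ p, ps Y c = p + 1 := ⟨ps Y c - 1, by omega⟩
    have k := cell (l := m + 1) (P := ps Y c) (a := m) (q := p) (d := m) (by omega) (by omega)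
      (by omega)
    rw [show (m + 1) * ps Y c * m + ((m + 1) * p + m) = idx h by
      rw [e, A.MqG_pow, hp]; apply Nat.eq_sub_of_add_eq; ring] at k
    rw [tr, tr, vl_idle (by omega) (by omega) fun q => by have := q.1; omega, Bool.and_false,
      Bool.and_false]
  · rw [tr, tr, decide_eq_decide.2 (show idx h < l ^ ro Y c - 1 ↔ idx h < l ^ ro Y c by omega)]

theorem Cx.sol_of {w : (II Y).T c → Y.Tab c} {x : List Bool} (hx : x.length = nn c)
    (h0 : w (.inl (false, .inl ())) = A.ld c (ro Y c) (tr Y c (l ^ ro Y c) x)) :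
    sol Y c w = x := by
  have hl := A.hl
  refine List.ext_getElem (by simp [sol, hx]) fun i _ hi => ?_
  have h1 : i < ps Y c := by have := A.hn c; omega
  have k := cell (l := l) (a := 0) (d := 0) (by omega) h1 (by omega)
  simp only [mul_zero, zero_add, add_zero] at k
  have h2 : l * i < l ^ ro Y c := by
    rw [A.MqG_pow]
    have := Nat.mul_lt_mul_of_pos_left h1 (by omega : 0 < l)
    have := Nat.mul_le_mul_left (l * ps Y c) hl
    omega
  have h3 : idx (dig l (Y.n c) (l * i)) = l * i := idx_dig (h2.trans_le A.MqG_le)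
  simp only [sol, List.getElem_map, List.getElem_range, h0]
  have h4 : tr Y c (l ^ ro Y c) x (dig l (Y.n c) (l * i)) = bf x[i] := by
    rw [tr, h3, decide_eq_true h2, vl, if_pos k.1, k.2.1, k.2.2, List.getD_eq_getElem _ _ hi]
    simp [hx ▸ hi]
  simp only [A.MqG_ld _ (h3.trans_lt h2), h4]
  cases x[i] <;> simp [bf]

end Vale.Agent.P330Q.Mq
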