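import Vale.Agent.P330Q.MqE

/-! The machine on tables: the pointwise tests. -/

namespace Vale.Agent.P330Q.Mq

open Vale.Agent.Lib.PolyTime Vale.Agent.P330 Vale.Agent.P330.Mach Finset
open scoped Classical BigOperators

variable {l : ℕ} [Fact l.Prime] {Y : PS VI l} (A : Cx Y) {c : VI}

theorem MqQ_pt {F I : Type} [Field F] [Fintype I] (u : I → F) (p q : I) (t : F)
    {_ : ∀ i i', Decidable (i = p ∧ i' = q)} :
    ∑ i, ∑ i', (if i = p ∧ i' = q then t else 0) * u i * u i' = t * u p * u q := by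
  rw [sum_eq_single p (fun i _ h => by simp [h]) (by simp),
    sum_eq_single q (fun i _ h => by simp [h]) (by simp), if_pos ⟨rfl, rfl⟩]

theorem MqQ_sum {n : ℕ} {F J : Type} [Field F] (K : RK l n F) {D : ℕ} (s : Finset J)
    (f : J → (Fin n → ZMod l) → F) (h : ∀ a, K.IsP D (f a)) : K.IsP D fun x => ∑ a ∈ s, f a x := by
  rw [← Finset.sum_fn]
  exact sum_induction f _ (K.add D) (K.zero D) fun a _ => h a

theorem Cx.qf_phi (e : (EE Y).T c) (w : (II Y).T c → Y.Tab c) (h : Y.H c) :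
    qf (A.phi c e h) (fun o => A.ty c o w h) =
      w (.inl (e.1, .inr e.2)) h - A.rhs c (fun t => w (.inl (e.1, t))) e.2 h := by
  simp only [qf, Cx.phi, sub_mul, sum_sub_distrib, sum_mul]
  rw [sum_congr rfl fun i _ => sum_comm, sum_comm (t := univ (α := ZMod l))]
  exact congrArg₂ _ ((MqQ_pt _ _ _ _).trans ((mul_one _).trans (one_mul _)))
    (sum_congr rfl fun a _ => MqQ_pt _ _ _ _)

theorem Cx.isP_rhs (v : (LL Y).T c → Y.Tab c) (t : (TT Y).T c) :
    (A.K.rk c).IsP (l ^ (ro Y c + 1)) (A.rhs c v t) := by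
  have k := fun u => (A.K.rk c).isP_lde (ro Y c) u (Nat.sub_le _ _)
  have m : l ^ ro Y c + l ^ ro Y c ≤ l ^ (ro Y c + 1) := by
    rw [← mul_two, pow_succ]
    exact Nat.mul_le_mul_left _ (le_of_lt A.hl)
  refine (A.K.rk c).mono _ _ _ ?_ m
  rcases t with z | b
  · refine MqQ_sum _ _ _ fun a => ?_
    simp only [Cx.cf, Cx.fa, Sum.elim_inl, Bool.false_eq_true, if_true, if_false, mul_one]
    exact (A.K.rk c).mul _ _ _ _ (k _) ((A.K.rk c).shift _ _ _ (k _))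
  · unfold Cx.rhs
    simp only [Cx.cf, Cx.fa, Sum.elim_inr, ite_mul, one_mul, zero_mul, sum_ite_eq', mem_univ,
      if_true]
    exact (A.K.rk c).mul _ _ _ _ ((A.K.rk c).shift _ _ _ (k _)) ((A.K.rk c).shift _ _ _ (k _))

theorem Cx.gap (c : VI) (w : (II Y).T c → Y.Tab c) (hz : ∀ z, A.mach.tz c z w = 0)
    (hb : ∃ h, A.mach.Bad c w h) : 1 / 3 ≤ fr (Y.H c) (A.mach.Bad c w) := by
  obtain ⟨h, e, he⟩ := hb
  have h1 : w (.inl (e.1, .inr e.2)) = A.ld c (ro Y c + 1) (w (.inl (e.1, .inr e.2))) :=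
    sub_eq_zero.1 (hz (.inl (.inr e)))
  have h2 := (A.K.rk c).isP_lde (ro Y c + 1) (w (.inl (e.1, .inr e.2))) (by have := A.n_eq c; omega)
  have h3 : ∀ x, (w (.inl (e.1, .inr e.2)) + -A.rhs c (fun t => w (.inl (e.1, t))) e.2) x =
      qf (A.phi c e x) (fun o => A.ty c o w x) := fun x =>
    ((A.qf_phi e w x).trans (sub_eq_add_neg _ _)).symm
  have h4 := (A.K.rk c).dist _ _ ((A.K.rk c).add _ _ _ (h1 ▸ h2) ((A.K.rk c).neg _ _
    (A.isP_rhs (fun t => w (.inl (e.1, t))) e.2))) fun k => he ((h3 h).symm.trans (congrFun k h))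
  have h5 : (3 : ℝ) ≤ l := by exact_mod_cast A.hl
  have h6 : ((l ^ (ro Y c + 1) : ℕ) : ℝ) / (l : ℝ) ^ Y.n c ≤ 1 / 3 := by
    rw [A.n_eq c, Nat.cast_pow, pow_succ _ (ro Y c + 1), div_mul_cancel_left₀ (by positivity),
      ← one_div]
    exact one_div_le_one_div_of_le (by norm_num) h5
  refine le_trans ?_ (fr_mono fun x (hx : ¬ _ = 0) => ⟨e, fun k => hx ((h3 x).trans k)⟩)
  rw [fr_not]
  linarith

end Vale.Agent.P330Q.Mq
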