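import Vale.Agent.P330Q.MqG
import Vale.Agent.P330Q.MqQ

/-! The machine on tables: valid states. -/

namespace Vale.Agent.P330Q.Mq

open Vale.Agent.Lib.PolyTime Vale.Agent.P330 Vale.Agent.P330.Mach Finset
open scoped Classical BigOperators

variable {l : ℕ} [Fact l.Prime] {Y : PS VI l} (A : Cx Y) {c : VI}

include A in
theorem Cx.mqh_le : ro Y c ≤ Y.n c := by have := A.n_eq c; omega

theorem Cx.mqh_ld {u : Y.Tab c} {h : Y.H c} (hh : InH (ro Y c) h) :
    A.ld c (ro Y c) u h = u h := (A.K.rk c).lde_eq _ u h A.mqh_le hh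

theorem Cx.mqh_sq (v : (LL Y).T c → Y.Tab c) (h : Y.H c) :
    A.rhs c v (.inr true) h =
      A.ld c (ro Y c) (v (.inl ())) h * A.ld c (ro Y c) (v (.inl ())) h := by
  simp [Cx.rhs, Cx.cf, Cx.fa, sv]

theorem mqh_tr {s : ℕ} (x : List Bool) {g : Y.H c} (hg : idx g < s) :
    tr Y c s x g = bf (vl c l (ps Y c) x (idx g)) := by simp [tr, hg]

theorem mqh_tr0 {s : ℕ} (x : List Bool) {g : Y.H c} (hg : ¬ idx g < s) :
    tr Y c s x g = 0 := by simp [tr, hg, bf]

theorem mqh_bf {F : Type} [Field F] (b : Bool) : (bf b : F) * bf b = bf b := by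
  cases b <;> simp [bf]

include A in
theorem Cx.mqh_mu {w : (II Y).T c → Y.Tab c} {φ : Bool} {s : ℕ} (hs : s < l ^ ro Y c)
    (e : ∀ k, w (.inr k) = fun h => ctl Y c φ s k * d0 Y c h) (h : Y.H c) :
    mu Y c (dg Y c w) h = if idx h < s then 1 else 0 := by
  rw [dg_of e, mu_eq, idx_dig (hs.trans_le (Nat.pow_le_pow_right l_one.le A.mqh_le))]

theorem Cx.val_st {s : ℕ} (hs : s < l ^ ro Y c) (φ : Bool) {x : List Bool} (hx : x.length = nn c) :
    A.mach.Val c (A.st c φ s x (fn c φ x)) := by
  have hk : ∀ k, A.st c φ s x (fn c φ x) (.inr k) = fun h => ctl Y c φ s k * d0 Y c h :=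
    fun _ => rfl
  refine ⟨fun z => ?_, fun h ⟨e, he⟩ => he ?_⟩
  · rcases z with ((r | r) | e) | k
    · funext h
      show A.ld c (ro Y c) (if r = true then tr Y c s (fn c φ x) else tr Y c (l ^ ro Y c) x) h -
        A.ld c (ro Y c) (tgt Y c r (A.st c φ s x (fn c φ x))) h = 0
      rw [sub_eq_zero]
      refine congrFun (A.ld_congr A.mqh_le fun g hg => ?_) h
      have hg' := inH_iff.1 hg
      cases r
      · show tr Y c (l ^ ro Y c) x g = nvc Y c (A.grp c (tr Y c (l ^ ro Y c) x)) g +
          inm Y c g * A.ld c (ro Y c) (tr Y c (l ^ ro Y c) x) g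
        rw [A.mqh_ld hg, mqh_tr x hg']
        exact (A.nv_eq hx hg fun g' h' => mqh_tr x (h'.trans hg')).symm
      · show tr Y c s (fn c φ x) g = mu Y c (dg Y c (A.st c φ s x (fn c φ x))) g *
          nva Y c (A.st c φ s x (fn c φ x)) g
        rw [A.mqh_mu hs hk]
        split_ifs with h1
        · rw [one_mul, mqh_tr _ h1]
          exact (A.nva_eq (X := tr Y c s (fn c φ x)) hx (fl_of hk) rfl (fun _ => rfl) hg
            fun g' h' => mqh_tr _ (h'.trans h1)).symm
        · rw [zero_mul, mqh_tr0 _ h1]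
    · show A.ld c (ro Y c) (fun h => A.rhs c (A.lin c
        (if r = true then tr Y c s (fn c φ x) else tr Y c (l ^ ro Y c) x)) (.inr true) h -
        A.ld c (ro Y c) (if r = true then tr Y c s (fn c φ x) else tr Y c (l ^ ro Y c) x) h) = 0
      rw [A.ld_congr (v := 0) A.mqh_le fun g hg => ?_]
      · exact map_zero _
      · rw [A.mqh_sq]
        show A.ld c (ro Y c) (if r = true then tr Y c s (fn c φ x) else tr Y c (l ^ ro Y c) x) g *
          A.ld c (ro Y c) (if r = true then tr Y c s (fn c φ x) else tr Y c (l ^ ro Y c) x) g -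
          _ = 0
        rw [A.mqh_ld hg, sub_eq_zero]
        cases r <;> exact mqh_bf _
    · funext h
      show A.rhs c (A.lin c
        (if e.1 = true then tr Y c s (fn c φ x) else tr Y c (l ^ ro Y c) x)) e.2 h -
        A.ld c (ro Y c + 1) (A.rhs c (A.lin c
        (if e.1 = true then tr Y c s (fn c φ x) else tr Y c (l ^ ro Y c) x)) e.2) h = 0
      rw [A.ld_of_isP (by have := A.n_eq c; omega) (A.isP_rhs _ _), sub_self]
    · exact A.ctl_st hs φ x _ k
  · refine (A.qf_phi e _ h).trans ?_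
    show A.grp c (if e.1 = true then tr Y c s (fn c φ x) else tr Y c (l ^ ro Y c) x)
      (.inr e.2) h - A.rhs c (A.grp c
        (if e.1 = true then tr Y c s (fn c φ x) else tr Y c (l ^ ro Y c) x)) e.2 h = 0
    rw [A.rhs_grp, sub_self]

include A in
theorem Cx.mqh_in {w : (II Y).T c → Y.Tab c} {h : Y.H c} (h1 : idx h < l * nn c)
    (h2 : idx h % l = 0) :
    vl c l (ps Y c) (sol Y c w) (idx h) = decide (w (.inl (false, .inl ())) h = 1) := by
  have hl : 0 < l := l_one.le
  have hn := A.hn c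
  obtain ⟨i, hi⟩ := Nat.dvd_of_mod_eq_zero h2
  have hi' : i < nn c := by rw [hi] at h1; exact Nat.lt_of_mul_lt_mul_left h1
  have hc := cell (P := ps Y c) (a := 0) (q := i) (d := 0) hl (by omega) hl
  rw [mul_zero, zero_add, add_zero, ← hi] at hc
  have hd : dig l _ (l * i) = h := by rw [← hi, dig_idx]
  rw [vl, if_pos hc.1, hc.2.1]
  simp [sol, hi', h2, hd]

theorem Cx.of_val {w : (II Y).T c → Y.Tab c} (h : A.mach.Val c w) :
    ∃ φ s x, s < l ^ ro Y c ∧ x.length = nn c ∧ w = A.st c φ s x (fn c φ x) := by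
  obtain ⟨hz, hb⟩ := h
  obtain ⟨φ, s, hs, hk⟩ := A.of_ctl (w := w) fun k => hz (.inr k)
  have hx : (sol Y c w).length = nn c := by simp [sol]
  have h0 : ∀ r, w (.inl (r, .inl ())) = A.ld c (ro Y c) (tgt Y c r w) := fun r =>
    funext fun g => sub_eq_zero.1 (congrFun (hz (.inl (.inl (.inl r)))) g)
  have h0' : ∀ r, w (.inl (r, .inl ())) = A.ld c (ro Y c) (w (.inl (r, .inl ()))) := fun r => by
    rw [h0 r]
    exact (A.ld_of_isP A.mqh_le ((A.K.rk c).isP_lde _ _ A.mqh_le)).symm
  have hr : ∀ r t, w (.inl (r, .inr t)) = A.rhs c (fun t => w (.inl (r, t))) t := fun r t =>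
    funext fun g => by
      have h1 : qf (A.phi c (r, t) g) (fun o => A.ty c o w g) = 0 := by
        by_contra hne
        exact hb g ⟨(r, t), hne⟩
      rw [A.qf_phi] at h1
      exact sub_eq_zero.1 h1
  have hg : ∀ r, (fun t => w (.inl (r, t))) = A.grp c (w (.inl (r, .inl ()))) := fun r =>
    A.eq_grp (v := fun t => w (.inl (r, t))) (h0' r) (hr r)
  have hB : ∀ g, InH (ro Y c) g →
      w (.inl (false, .inl ())) g = bf (decide (w (.inl (false, .inl ())) g = 1)) := fun g hg' => by
    have h1 : A.ld c (ro Y c) (fun h => w (.inl (false, .inr (.inr true))) h -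
      w (.inl (false, .inl ())) h) g = 0 := congrFun (hz (.inl (.inl (.inr false)))) g
    rw [A.mqh_ld hg', hr, A.mqh_sq, A.mqh_ld hg'] at h1
    by_cases e : w (.inl (false, .inl ())) g = 1
    · simp [bf, e]
    · have : w (.inl (false, .inl ())) g * (w (.inl (false, .inl ())) g - 1) = 0 := by
        rw [← h1]; ring
      rcases mul_eq_zero.1 this with a | a
      · simp [bf, a]
      · exact absurd (sub_eq_zero.1 a) e
  have hF : ∀ n, ∀ g : Y.H c, idx g = n → InH (ro Y c) g →
      w (.inl (false, .inl ())) g = bf (vl c l (ps Y c) (sol Y c w) (idx g)) := fun n => by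
    induction n using Nat.strong_induction_on with
    | _ n ih =>
      intro g e hg'
      by_cases hi : idx g < l * nn c ∧ idx g % l = 0
      · rw [A.mqh_in hi.1 hi.2]
        exact hB g hg'
      · have h1 := A.nv_eq (X := w (.inl (false, .inl ()))) hx hg' fun g' h' =>
          ih _ (e ▸ h') g' rfl (inH_iff.2 (h'.trans (inH_iff.1 hg')))
        have h2 : w (.inl (false, .inl ())) g = nvc Y c (fun t => w (.inl (false, t))) g +
            inm Y c g * w (.inl (false, .inl ())) g := by
          conv_lhs => rw [h0 false, A.mqh_ld hg']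
          rfl
        rw [A.inm_eq, if_neg hi, zero_mul] at h1 h2
        rw [h2, hg false, h1]
  have hF' : ∀ g, InH (ro Y c) g →
      w (.inl (false, .inl ())) g = tr Y c (l ^ ro Y c) (sol Y c w) g := fun g hg' => by
    rw [mqh_tr _ (inH_iff.1 hg')]
    exact hF _ g rfl hg'
  have hF0 : w (.inl (false, .inl ())) = A.ld c (ro Y c) (tr Y c (l ^ ro Y c) (sol Y c w)) :=
    (h0' false).trans (A.ld_congr A.mqh_le hF')
  have hT : ∀ n, ∀ g : Y.H c, idx g = n → InH (ro Y c) g →
      w (.inl (true, .inl ())) g = tr Y c s (fn c φ (sol Y c w)) g := fun n => by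
    induction n using Nat.strong_induction_on with
    | _ n ih =>
      intro g e hg'
      have h2 : w (.inl (true, .inl ())) g = mu Y c (dg Y c w) g * nva Y c w g := by
        conv_lhs => rw [h0 true, A.mqh_ld hg']
        rfl
      rw [h2, A.mqh_mu hs hk]
      split_ifs with h1
      · rw [one_mul, mqh_tr _ h1]
        refine A.nva_eq (X := w (.inl (true, .inl ()))) hx (fl_of hk) hF0
          (fun t => congrFun (hg true) t) hg' fun g' h' => ?_
        rw [ih _ (e ▸ h') g' rfl (inH_iff.2 (h'.trans (inH_iff.1 hg'))), mqh_tr _ (h'.trans h1)]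
      · rw [zero_mul, mqh_tr0 _ h1]
  refine ⟨φ, s, sol Y c w, hs, hx, funext fun i => ?_⟩
  rcases i with ⟨r, t⟩ | k
  · refine (congrFun (hg r) t).trans ?_
    cases r
    · exact congrFun (A.grp_congr hF') t
    · exact congrFun (A.grp_congr fun g hg' => hT _ g rfl hg') t
  · exact hk k

end Vale.Agent.P330Q.Mq
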