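import Vale.Agent.P330Q.MqD
import Vale.Agent.P330Q.PPF

/-! The machine on tables: fixed tables are computable. -/

namespace Vale.Agent.P330Q.Mq

open Vale.Agent.Lib.PolyTime Vale.Agent.P330 Vale.Agent.P330.Mach Finset
open scoped Classical BigOperators

variable {l : ℕ} [Fact l.Prime] {Y : PS VI l} (A : Cx Y) {c : VI}

theorem MqR.pb_n {B : Type} [Enc B] {p : B → VI} (hp : PT p) : PB fun b => Y.n (p b) :=
  (Y.pl_n.pb Y.pb_lg).comp hp

theorem MqR.pt_cast {B : Type} [Enc B] {g : B → ℕ} (hg : PT g) : PT fun b => (g b : ZMod l) := by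
  obtain ⟨k, hk⟩ := dt_sz_fin (ZMod l)
  exact PT.of_enc (hg.mod (PT.const l)) (fun _ => ZMod.val_natCast _ _)
    ((PB.const k).of_le fun _ => hk _)

theorem MqR.pt_i {B : Type} [Enc B] {p : B → VI} :
    PT fun z : Σ b, Fin (Y.n (p b)) => (z.2 : ℕ) := D.fin_iff.1 D.sigma_snd

theorem MqR.pt_pw {B : Type} [Enc B] {p : B → VI} (hp : PT p) :
    PT fun z : Σ b, Fin (Y.n (p b)) => l ^ (z.2 : ℕ) :=
  P325.pt_pow (PT.const l) MqR.pt_i
    ((MqR.pb_n (Y := Y) (hp.comp pt_sigma_fst)).of_le fun z => z.2.2.le)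

theorem MqR.pt_ap {B : Type} [Enc B] {p : B → VI} {h : ∀ b, Y.H (p b)} (hh : D h) :
    PT fun z : Σ b, Fin (Y.n (p b)) => h z.1 z.2 :=
  (D.fn_app (n := fun z : Σ b, Fin (Y.n (p b)) => Y.n (p z.1)) (X := fun _ => ZMod l)
    (hh.comp pt_sigma_fst) D.sigma_snd).pt

theorem MqR.d_mk {B : Type} [Enc B] {p : B → VI} (hp : PT p) {h : ∀ b, Y.H (p b)}
    (hh : PT fun z : Σ b, Fin (Y.n (p b)) => h z.1 z.2) : D h :=
  D.fn_mk (n := fun b => Y.n (p b)) (X := fun _ => ZMod l) (Y.pt_n.comp hp) (MqR.pb_n hp)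
    (D.of_pt hh)

theorem pt_idx {B : Type} [Enc B] {p : B → VI} (hp : PT p) {h : ∀ b, Y.H (p b)} (hh : D h) :
    PT fun b => idx (h b) :=
  (PFam.fin (Y.pt_n.comp hp) (MqR.pb_n hp)).pt_sumN
    (f := fun b i => (h b i).val * l ^ (i : ℕ))
    (PT.mul (P325.pt_finite (MqR.pt_ap hh) ZMod.val) (MqR.pt_pw hp))

theorem pb_idx {B : Type} [Enc B] {p : B → VI} (hp : PT p) (h : ∀ b, Y.H (p b)) :
    PB fun b => idx (h b) := (Y.pb_H.comp hp).of_le fun b => (idx_lt (h b)).le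

theorem d_dig {B : Type} [Enc B] {p : B → VI} (hp : PT p) {g : B → ℕ} (hg : PT g) :
    D fun b => (dig l (Y.n (p b)) (g b) : Y.H (p b)) :=
  MqR.d_mk hp (MqR.pt_cast (P325.pt_div (hg.comp pt_sigma_fst) (MqR.pt_pw hp)))

theorem pt_pow_ro : PT fun c => l ^ ro Y c :=
  P325.pt_pow (PT.const l) (pt_ro Y) ((pl_ro Y).pb Y.pb_lg)

theorem pt_ps : PT (ps Y) :=
  P325.pt_pow (PT.const l) ((pt_ro Y).sub (PT.const 2))
    (((pl_ro Y).pb Y.pb_lg).of_le fun _ => Nat.sub_le _ _)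

theorem pt_inH {B : Type} [Enc B] {p : B → VI} (hp : PT p) {k : B → ℕ} (hk : PT k)
    {h : ∀ b, Y.H (p b)} (hh : D h) : PT fun b => InH (k b) (h b) :=
  (PFam.fin (Y.pt_n.comp hp) (MqR.pb_n hp)).pt_forall
    (p := fun b i => k b ≤ i → h b i = 0)
    ((((hk.comp pt_sigma_fst).le MqR.pt_i).not.or ((MqR.pt_ap hh).eq (PT.const 0))).congr
      fun _ => propext imp_iff_not_or)

theorem d_addH {B : Type} [Enc B] {p : B → VI} (hp : PT p) {g h : ∀ b, Y.H (p b)} (hg : D g)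
    (hh : D h) : D fun b => g b + h b := MqR.d_mk hp (pt_addZ (MqR.pt_ap hg) (MqR.pt_ap hh))

theorem d_see {B : Type} [Enc B] {p : B → VI} (hp : PT p) {a : B → ZMod l} (ha : PT a)
    {k : B → ℕ} (hk : PT k) : D fun b => (a b • ee (k b) : Y.H (p b)) :=
  MqR.d_mk hp (pt_mulZ (ha.comp pt_sigma_fst)
    (PT.ite (MqR.pt_i.eq (hk.comp pt_sigma_fst)) (PT.const 1) (PT.const 0)))

theorem MqR.pt_ix : PT fun z : Σ c, Y.H c => idx z.2 := pt_idx pt_sigma_fst D.sigma_snd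

theorem MqR.pb_ix : PB fun z : Σ c, Y.H c => idx z.2 := pb_idx pt_sigma_fst fun z => z.2

theorem pt_actH : PT fun z : Σ c, Y.H c => actH Y z.1 z.2 :=
  (pt_inH pt_sigma_fst ((pt_ro Y).comp pt_sigma_fst) D.sigma_snd).and
    (pt_act pt_sigma_fst (pt_ps.comp pt_sigma_fst) MqR.pt_ix)

theorem d_srcH : D2 (srcH Y) :=
  d_dig pt_sigma_fst (pt_src pt_sigma_fst (pt_ps.comp pt_sigma_fst) MqR.pt_ix MqR.pb_ix)

theorem MqR.pt_ng : PT fun z : Σ c, Y.H c => ng z.1 l (ps Y z.1) (idx z.2) = true :=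
  (Mq.pt_ng pt_sigma_fst (pt_ps.comp pt_sigma_fst) MqR.pt_ix MqR.pb_ix).eq (PT.const true)

theorem d_ep : D2 (ep Y) :=
  D.ite MqR.pt_ng (PS.dNeg pt_sigma_fst (PS.dOne pt_sigma_fst)) (PS.dOne pt_sigma_fst)

theorem d_ngT : D2 (ngT Y) :=
  D.ite (pt_actH.and MqR.pt_ng) (PS.dOne pt_sigma_fst) (PS.dZero pt_sigma_fst)

theorem d_d0 : D2 (d0 Y) :=
  D.ite (D.eq D.sigma_snd (MqR.d_mk pt_sigma_fst (h := fun _ => 0) (PT.const 0)))
    (PS.dOne pt_sigma_fst) (PS.dZero pt_sigma_fst)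

theorem d_pv : D2 (pv Y) := by
  have h : PT fun z : Σ c, (JK Y).T c => (z.2.1 : ℕ) := D.fin_iff.1 D.sigma_snd.fst
  exact D.ite (h.eq (PT.const 0)) (D.const ()).inl
    (D.pair (D.fin_iff.2 (h.sub (PT.const 1))) D.sigma_snd.snd).inl.inr

theorem d_sv {B : Type} [Enc B] {p : B → VI} (hp : PT p) {b β : B → Bool} (hb : PT b)
    (hβ : PT β) : D fun z => sv Y (p z) (b z) (β z) :=
  d_see hp (pt_fin2 hb hβ fun b β => if b = true then 0 else if β = true then -1 else -2)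
    (PT.const 0)

theorem d_pc (d φ : Bool) : D2 fun c (x : Y.H c) => pc Y c d φ x :=
  D.ite (PT.const (d = φ)) D.sigma_snd (d_dig pt_sigma_fst (MqR.pt_ix.sub (PT.const 1)))

theorem d_ctl {B : Type} [Enc B] {p : B → VI} (hp : PT p) {φ : B → Bool} (hφ : PT φ) {s : B → ℕ}
    (hs : PT s) {k : ∀ b, (CT Y).T (p b)} (hk : D k) :
    D fun b => ctl Y (p b) (φ b) (s b) (k b) :=
  D.sum_elim hk (D.comp (f := fun b => (bf (φ b) : Y.F (p b)))
      (D.ite (hφ.eq (PT.const true)) (PS.dOne hp) (PS.dZero hp)) pt_sigma_fst)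
    (PS.dCast (hp.comp pt_sigma_fst) (MqR.pt_ap (d_dig hp hs)))

end Vale.Agent.P330Q.Mq
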