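import Vale.Agent.P330Q.MqR

/-! The machine on tables: the routing tables are computable. -/

namespace Vale.Agent.P330Q.Mq

open Vale.Agent.Lib.PolyTime Vale.Agent.P330 Vale.Agent.P330.Mach Finset
open scoped Classical BigOperators

variable {l : ℕ} [Fact l.Prime] {Y : PS VI l} (A : Cx Y) {c : VI}

section Gen

variable {B : Type} [Enc B] {p : B → VI} (hp : PT p)
include hp

theorem mqs_act {g : ∀ b, Y.H (p b)} (hg : D g) : PT fun b => actH Y (p b) (g b) :=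
  PT.comp (g := fun z : Σ c, Y.H c => actH Y z.1 z.2) pt_actH (pt_sigma_mk hp hg)

theorem mqs_col {g : ∀ b, Y.H (p b)} (hg : D g) {k : B → ℕ} (hk : PT k) :
    PT fun b => A.col (p b) (g b) = k b :=
  PT.eq (PT.comp (g := fun z : Σ c, Y.H c => A.col z.1 z.2) A.pt_col (pt_sigma_mk hp hg)) hk

theorem mqs_pos {g : ∀ b, Y.H (p b)} (hg : D g) {k : B → ℕ} (hk : PT k) :
    D fun b => A.pos (p b) (g b) (k b) :=
  D3.app (Y := fun _ => ℕ) A.d_pos hp hg (D.of_pt hk)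

theorem mqs_selT {j k : B → ℕ} (hj : PT j) (hk : PT k) {a : B → ZMod l} (ha : PT a)
    {h g : ∀ b, Y.H (p b)} (hh : D h) (hg : D g) :
    D fun b => if actH Y (p b) (g b) ∧ A.col (p b) (g b) = k b ∧
      A.pos (p b) (g b) (j b + 1) = h b ∧
      A.pos (p b) (g b) (j b) = h b + a b • ee (j b % ro Y (p b)) then
        (if j b = 0 then ep Y (p b) (g b) else 1) else 0 :=
  D.ite ((mqs_act hp hg).and ((mqs_col A hp hg hk).and
      ((D.eq (mqs_pos A hp hg (hj.add (PT.const 1))) hh).and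
        (D.eq (mqs_pos A hp hg hj)
          (d_addH hp hh (d_see hp ha (hj.mod ((pt_ro Y).comp hp))))))))
    (D.ite (hj.eq (PT.const 0)) (d_ep.app hp hg) (PS.dOne hp)) (PS.dZero hp)

theorem mqs_sel {z : ∀ b, (JK Y).T (p b)} (hz : D z) {a : B → ZMod l} (ha : PT a)
    {h : ∀ b, Y.H (p b)} (hh : D h) : D fun b => A.sel (p b) (z b) (a b) (h b) :=
  PS.dSum hp (Y.Hf.pf.comap hp)
    (mqs_selT A (hp.comp pt_sigma_fst) ((D.fin_iff.1 hz.fst).comp pt_sigma_fst)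
      ((D.fin_iff.1 hz.snd).comp pt_sigma_fst) (ha.comp pt_sigma_fst) (hh.comp pt_sigma_fst)
      D.sigma_snd)

theorem mqs_ld {z : ∀ b, (JK Y).T (p b)} (hz : D z) {a : B → ZMod l} (ha : PT a) :
    D2 fun b (h : Y.H (p b)) => A.ld (p b) (ro Y (p b)) (A.sel (p b) (z b) (a b)) h :=
  A.K.d_lde B p (fun b => A.sel (p b) (z b) (a b)) (fun b => ro Y (p b)) hp ((pt_ro Y).comp hp)
    (mqs_sel A (hp.comp pt_sigma_fst) (hz.comp pt_sigma_fst) (ha.comp pt_sigma_fst) D.sigma_snd)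

theorem mqs_ld' {z : ∀ b, (JK Y).T (p b)} (hz : D z) {a : B → ZMod l} (ha : PT a)
    {h : ∀ b, Y.H (p b)} (hh : D h) :
    D fun b => A.ld (p b) (ro Y (p b)) (A.sel (p b) (z b) (a b)) (h b) :=
  (mqs_ld A hp hz ha).app PT.id hh

theorem mqs_cf {t : ∀ b, (TT Y).T (p b)} (ht : D t) {a : B → ZMod l} (ha : PT a)
    {h : ∀ b, Y.H (p b)} (hh : D h) : D fun b => A.cf (p b) (t b) (a b) (h b) :=
  D.sum_elim (f := fun b z => A.ld (p b) (ro Y (p b)) (A.sel (p b) z (a b)) (h b))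
    (g := fun b _ => if a b = 0 then 1 else 0) ht
    (mqs_ld' A (hp.comp pt_sigma_fst) D.sigma_snd (ha.comp pt_sigma_fst) (hh.comp pt_sigma_fst))
    ((D.ite (ha.eq (PT.const 0)) (PS.dOne hp) (PS.dZero hp)).comp pt_sigma_fst)

theorem mqs_am {h : ∀ b, Y.H (p b)} (hh : D h) {i : ∀ b, Fin (Y.n (p b))} (hi : D i) :
    D fun b => am Y (p b) (h b (i b)) :=
  PS.dCast hp (D.fn_app (X := fun _ => ZMod l) hh hi).pt

theorem mqs_adT {j : B → ℕ} (hj : PT j) {h g : ∀ b, Y.H (p b)} (hh : D h) (hg : D g)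
    {i : ∀ b, Fin (Y.n (p b))} (hi : D i) :
    D fun b => if actH Y (p b) (g b) ∧ srcH Y (p b) (g b) = h b then
      am Y (p b) (A.pos (p b) (g b) (j b) (i b)) else 0 :=
  D.ite ((mqs_act hp hg).and (D.eq (d_srcH.app hp hg) hh)) (mqs_am hp (mqs_pos A hp hg hj) hi)
    (PS.dZero hp)

theorem mqs_ad {z : ∀ b, (JK Y).T (p b)} (hz : D z) {h : ∀ b, Y.H (p b)} (hh : D h)
    {i : ∀ b, Fin (Y.n (p b))} (hi : D i) : D fun b => A.ad (p b) (z b) (h b) (i b) :=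
  D.ite ((D.fin_iff.1 hz.fst).eq (PT.const 0)) (mqs_am hp hh hi)
    (PS.dSum hp (Y.Hf.pf.comap hp)
      (mqs_adT A (hp.comp pt_sigma_fst) ((D.fin_iff.1 hz.fst).comp pt_sigma_fst)
        (hh.comp pt_sigma_fst) D.sigma_snd (hi.comp pt_sigma_fst)))

theorem mqs_ceT {k : B → ℕ} (hk : PT k) {h g : ∀ b, Y.H (p b)} (hh : D h) (hg : D g) :
    D fun b => if actH Y (p b) (g b) ∧ srcH Y (p b) (g b) = h b ∧ A.col (p b) (g b) = k b then
      ep Y (p b) (g b) else 0 :=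
  D.ite ((mqs_act hp hg).and ((D.eq (d_srcH.app hp hg) hh).and (mqs_col A hp hg hk)))
    (d_ep.app hp hg) (PS.dZero hp)

theorem mqs_ce {z : ∀ b, (JK Y).T (p b)} (hz : D z) {h : ∀ b, Y.H (p b)} (hh : D h) :
    D fun b => A.ce (p b) (z b) (h b) :=
  D.ite ((D.fin_iff.1 hz.fst).eq (PT.const 0)) (PS.dOne hp)
    (PS.dSum hp (Y.Hf.pf.comap hp)
      (mqs_ceT A (hp.comp pt_sigma_fst) ((D.fin_iff.1 hz.snd).comp pt_sigma_fst)
        (hh.comp pt_sigma_fst) D.sigma_snd))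

theorem mqs_phiT {e : ∀ b, (EE Y).T (p b)} (he : D e) {h : ∀ b, Y.H (p b)} (hh : D h)
    {o o' : ∀ b, Option ((OO Y).T (p b))} (ho : D o) (ho' : D o') {a : B → ZMod l} (ha : PT a) :
    D fun b => if o b = some (.inr (e b, a b, false)) ∧ o' b = some (.inr (e b, a b, true)) then
      A.cf (p b) (e b).2 (a b) (h b) else 0 :=
  D.ite ((D.eq ho (he.pair ((D.of_pt ha).pair (D.const false))).inr.some).and
      (D.eq ho' (he.pair ((D.of_pt ha).pair (D.const true))).inr.some))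
    (mqs_cf A hp he.snd ha hh) (PS.dZero hp)

theorem mqs_phi {e : ∀ b, (EE Y).T (p b)} (he : D e) {h : ∀ b, Y.H (p b)} (hh : D h)
    {o o' : ∀ b, Option ((OO Y).T (p b))} (ho : D o) (ho' : D o') :
    D fun b => A.phi (p b) (e b) (h b) (o b) (o' b) :=
  PS.dSub hp (D.ite ((D.eq ho he.inl.some).and (D.eq ho' D.none)) (PS.dOne hp) (PS.dZero hp))
    (PS.dSum hp (PFam.const (ZMod l))
      (mqs_phiT A (hp.comp pt_sigma_fst) (he.comp pt_sigma_fst) (hh.comp pt_sigma_fst)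
        (ho.comp pt_sigma_fst) (ho'.comp pt_sigma_fst) (D.sigma_snd (X := fun _ => ZMod l)).pt))

end Gen

theorem Cx.d_cf : D3 fun c (z : (TT Y).T c × ZMod l) (h : Y.H c) => A.cf c z.1 z.2 h :=
  mqs_cf A pt_sigma_fst D.sigma_snd.fst.fst (D.sigma_snd.fst.snd).pt D.sigma_snd.snd

theorem Cx.d_ad : D3 fun c (z : (JK Y).T c × Fin (Y.n c)) (p : Y.H c) => A.ad c z.1 p z.2 :=
  mqs_ad A pt_sigma_fst D.sigma_snd.fst.fst D.sigma_snd.snd D.sigma_snd.fst.snd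

theorem Cx.d_ce : D3 A.ce :=
  mqs_ce A pt_sigma_fst D.sigma_snd.fst D.sigma_snd.snd

theorem Cx.d_phi : D3 fun c (z : (EE Y).T c × Y.H c) (u : Option ((OO Y).T c) × Option ((OO Y).T c)) =>
    A.phi c z.1 z.2 u.1 u.2 :=
  mqs_phi A pt_sigma_fst D.sigma_snd.fst.fst D.sigma_snd.fst.snd D.sigma_snd.snd.fst
    D.sigma_snd.snd.snd

end Vale.Agent.P330Q.Mq
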