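import Vale.Agent.P330Q.PPS

/-! Plain programs: iteration. -/

namespace Vale.Agent.P330Q

open Vale.Agent.Lib.PolyTime Vale.Agent.P330 Finset
open scoped Classical BigOperators

/-- The wire that carries the input `i` of the step number `s`. -/
def PPB_inp {A : Type} (J : Type) (t s : ℕ) (i : A) : A ⊕ (Fin t × (J ⊕ A)) :=
  if h : 0 < s ∧ s - 1 < t then .inr (⟨s - 1, h.2⟩, .inr i) else .inl i

/-- The wires of the step number `s`. -/
def PPB_phi {A J : Type} {t : ℕ} (s : Fin t) (u : A ⊕ J) : A ⊕ (Fin t × (J ⊕ A)) :=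
  Sum.elim (fun i => PPB_inp J t s i) (fun j => .inr (s, .inl j)) u

/-- Coefficients pushed forward. -/
noncomputable def PPB_push {F A A' : Type} [Field F] [Fintype A] (φ : A → A') (a : A → F)
    (u : A') : F := ∑ i, if φ i = u then a i else 0

/-- Coefficients of a copy node. -/
noncomputable def PPB_cp {F A : Type} [Field F] (o : A) (m : Fin 5) (u : A) : F :=
  if m = 0 ∧ o = u then 1 else 0

theorem PPB_copy {l : ℕ} [Fact l.Prime] {F A : Type} [Field F] [Algebra (ZMod l) F]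
    [Fintype A] {n : ℕ} (o : A) (v : A → (Fin n → ZMod l) → F) :
    nodeVal 0 (fun _ => 0) (PPB_cp o) v = v o := by
  funext h
  simp [nodeVal, PPB_cp]

theorem PPB_key {A J X : Type} {t : ℕ} (x : ℕ → A → X) (val : Fin t × (J ⊕ A) → X)
    (hv : ∀ s i, val (s, .inr i) = x (s + 1) i) {s : ℕ} (hs : s ≤ t) (i : A) :
    Sum.elim (x 0) val (PPB_inp J t s i) = x s i := by
  cases s with
  | zero => simp [PPB_inp]
  | succ s =>
    rw [PPB_inp, dif_pos ⟨Nat.succ_pos s, hs⟩, Sum.elim_inr, hv]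
    rfl

theorem PPB_rank {F A J : Type} [Field F] [Fintype A] [Fintype J] {t : ℕ} (rk : J → ℕ)
    (a : J → A ⊕ J → F) (b : A → A ⊕ J → F) (hr : ∀ j j', a j (.inr j') ≠ 0 → rk j' < rk j)
    (z z' : Fin t × (J ⊕ A))
    (h : PPB_push (PPB_phi z.1) (fun u => Sum.elim (fun j => a j u) (fun i => b i u) z.2)
      (.inr z') ≠ 0) :
    z'.1 * (∑ j, rk j + 2) + Sum.elim rk (fun _ => ∑ j, rk j + 1) z'.2 <
      z.1 * (∑ j, rk j + 2) + Sum.elim rk (fun _ => ∑ j, rk j + 1) z.2 := by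
  obtain ⟨u, -, hu⟩ := Finset.exists_ne_zero_of_sum_ne_zero h
  have h1 : PPB_phi z.1 u = .inr z' := by
    by_contra e
    exact hu (if_neg e)
  rw [if_pos h1] at hu
  obtain ⟨s, x⟩ := z
  rcases u with i | j'
  · simp only [PPB_phi, Sum.elim_inl, PPB_inp] at h1
    split_ifs at h1 with e
    obtain rfl := Sum.inr.inj h1
    obtain ⟨s', hs'⟩ := Nat.exists_eq_add_one_of_ne_zero e.1.ne'
    simp only [Sum.elim_inr, hs', Nat.add_sub_cancel, add_mul, one_mul]
    omega
  · simp only [PPB_phi, Sum.elim_inr] at h1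
    obtain rfl := Sum.inr.inj h1
    simp only [Sum.elim_inl, add_lt_add_iff_left]
    rcases x with j | i
    · exact hr j j' hu
    · exact Nat.lt_succ_of_le
        (Finset.single_le_sum (fun _ _ => Nat.zero_le _) (Finset.mem_univ j'))

section comp

variable {B C : Type} [Enc B] [Enc C] {X Z : C → Type} [∀ c, Enc (X c)] [∀ c, Enc (Z c)]
  {t : C → ℕ}

theorem PPB_s2 {W : (Σ c, X c) → Type} [∀ z, Enc (W z)] :
    D (Y := fun y : Σ z : (Σ c, X c), W z => X y.1.1) fun y => y.1.2 :=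
  D.comp (X := fun z : Σ c, X c => X z.1) (f := fun z => z.2) D.sigma_snd pt_sigma_fst

theorem PPB_d_inp (ht : PT t) {p : B → C} (hp : PT p) {s : B → ℕ} (hs : PT s)
    {i : ∀ b, X (p b)} (hi : D i) : D fun b => PPB_inp (Z (p b)) (t (p b)) (s b) (i b) := by
  refine D.dite (X := fun b => X (p b) ⊕ (Fin (t (p b)) × (Z (p b) ⊕ X (p b))))
    (p := fun b => 0 < s b ∧ s b - 1 < t (p b))
    (f := fun b h => .inr (⟨s b - 1, h.2⟩, .inr (i b))) (g := fun b _ => .inl (i b))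
    (((PT.const 0).lt hs).and ((hs.sub (PT.const 1)).lt (ht.comp hp))) ?_ ?_
  · exact D.inr (D.pair (D.fin_iff.2 ((hs.sub (PT.const 1)).comp pt_val)) (D.inr (hi.comp pt_val)))
  · exact D.inl (hi.comp pt_val)

theorem PPB_d_phi (ht : PT t) :
    D3 fun c (s : Fin (t c)) (u : X c ⊕ Z c) => PPB_phi s u := by
  refine D.sum_elim (X := fun z : Σ c, Fin (t c) × (X c ⊕ Z c) => X z.1) (Y := fun z => Z z.1)
    (Z := fun z => X z.1 ⊕ (Fin (t z.1) × (Z z.1 ⊕ X z.1)))
    (f := fun z i => PPB_inp (Z z.1) (t z.1) z.2.1 i) (g := fun z j => .inr (z.2.1, .inl j))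
    D.sigma_snd.snd ?_ ?_
  · exact PPB_d_inp ht (pt_sigma_fst.comp pt_sigma_fst)
      ((D.fin_iff.1 D.sigma_snd.fst).comp pt_sigma_fst) D.sigma_snd
  · exact D.inr (D.pair PPB_s2.fst (D.inl D.sigma_snd))

end comp

variable {C : Type} [Enc C] {l : ℕ} [Fact l.Prime] {Y : PS C l} {I J : SF Y.lg}

theorem PPB_d_push {X A A' : C → Type} [∀ c, Enc (X c)] [∀ c, Enc (A c)] [∀ c, Enc (A' c)]
    [∀ c, Fintype (A c)] (hA : PFam A) {φ : ∀ c, X c → A c → A' c} {a : ∀ c, X c → A c → Y.F c}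
    (hφ : D3 φ) (ha : D3 a) : D3 fun c x u => PPB_push (φ c x) (a c x) u := by
  refine PS.dSum (p := fun z : Σ c, X c × A' c => z.1) pt_sigma_fst (X := fun z => A z.1)
    (hA.comap pt_sigma_fst) (f := fun z i => if φ z.1 z.2.1 i = z.2.2 then a z.1 z.2.1 i else 0) ?_
  have hp : PT fun y : Σ z : Σ c, X c × A' c, A z.1 => y.1.1 := pt_sigma_fst.comp pt_sigma_fst
  have hx : D fun y : Σ z : Σ c, X c × A' c, A z.1 => y.1.2.1 := PPB_s2.fst
  exact D.ite (D.eq (hφ.app hp hx D.sigma_snd) PPB_s2.snd)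
    (ha.app hp hx D.sigma_snd) (PS.dZero hp)

theorem PPB_d_cp {B : Type} [Enc B] {A : C → Type} [∀ c, Enc (A c)] {p : B → C} (hp : PT p)
    {o u : ∀ b, A (p b)} (ho : D o) (hu : D u) (m : Fin 5) :
    D fun b => (PPB_cp (o b) m (u b) : Y.F (p b)) :=
  D.ite ((PT.const (m = 0)).and (D.eq ho hu)) (PS.dOne hp) (PS.dZero hp)

theorem PP.iter {t : C → ℕ} (ht : PT t) (hl : Pl Y.lg t)
    (f : ∀ c, ℕ → I.T c → (I.T c → Y.Tab c) → Y.Tab c)
    (h : PP Y I ((Y.fin t ht hl).prod I) fun c z w => f c z.1 z.2 w) :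
    PP Y I I fun c i w => itr (fun s u i => f c s i u) w (t c) i := by
  obtain ⟨J, rk, k, cs, a, out, h1, h2, h3, h4, h5, h6, h7⟩ := h
  have hR : PT fun c => ∑ j, rk c j := J.pf.pt_sumN h1
  refine ⟨(Y.fin t ht hl).prod (J.sum I),
    fun c z => z.1 * (∑ j, rk c j + 2) + Sum.elim (rk c) (fun _ => ∑ j, rk c j + 1) z.2,
    fun c z => Sum.elim (k c) (fun _ => 0) z.2,
    fun c z x => Sum.elim (fun j => cs c j x) (fun _ => 0) z.2,
    fun c z m => PPB_push (PPB_phi z.1)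
      fun u => Sum.elim (fun j => a c j m u) (fun i => PPB_cp (out c (z.1, i)) m u) z.2,
    fun c i => PPB_inp (J.T c) (t c) (t c) i, ?_, ?_, ?_, fun m => ?_, ?_, fun c z m z' e => ?_,
    fun c w => ?_⟩
  · refine ((D.fin_iff.1 D.sigma_snd.fst).mul ((hR.comp pt_sigma_fst).add (PT.const 2))).add ?_
    refine (D.sum_elim (X := fun z : Σ c, Fin (t c) × (J.T c ⊕ I.T c) => J.T z.1)
      (Y := fun z => I.T z.1) (Z := fun _ => ℕ) (f := fun z j => rk z.1 j)
      (g := fun z _ => ∑ j, rk z.1 j + 1) D.sigma_snd.snd ?_ ?_).pt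
    · exact D2.app (Y := fun _ => ℕ) (D.of_pt h1) (pt_sigma_fst.comp pt_sigma_fst) D.sigma_snd
    · exact D.of_pt ((hR.comp (pt_sigma_fst.comp pt_sigma_fst)).add (PT.const 1))
  · refine (D.sum_elim (X := fun z : Σ c, Fin (t c) × (J.T c ⊕ I.T c) => J.T z.1)
      (Y := fun z => I.T z.1) (Z := fun _ => ℕ) (f := fun z j => k z.1 j)
      (g := fun _ _ => 0) D.sigma_snd.snd ?_ (D.const 0)).pt
    exact D2.app (Y := fun _ => ℕ) (D.of_pt h2) (pt_sigma_fst.comp pt_sigma_fst) D.sigma_snd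
  · refine D.sum_elim (X := fun z : Σ c, (Fin (t c) × (J.T c ⊕ I.T c)) × Y.H c => J.T z.1)
      (Y := fun z => I.T z.1) (Z := fun z => Y.F z.1) (f := fun z j => cs z.1 j z.2.2)
      (g := fun _ _ => 0) D.sigma_snd.fst.snd ?_ (PS.dZero (pt_sigma_fst.comp pt_sigma_fst))
    exact h3.app (pt_sigma_fst.comp pt_sigma_fst) D.sigma_snd PPB_s2.snd
  · refine PPB_d_push (X := fun c => Fin (t c) × (J.T c ⊕ I.T c)) (A := fun c => I.T c ⊕ J.T c)
      (φ := fun c z u => PPB_phi z.1 u) (I.pf.sum J.pf)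
      ((PPB_d_phi ht).app pt_sigma_fst D.sigma_snd.fst.fst D.sigma_snd.snd) ?_
    refine D.sum_elim
      (X := fun z : Σ c, (Fin (t c) × (J.T c ⊕ I.T c)) × (I.T c ⊕ J.T c) => J.T z.1)
      (Y := fun z => I.T z.1) (Z := fun z => Y.F z.1) (f := fun z j => a z.1 j m z.2.2)
      (g := fun z i => PPB_cp (out z.1 (z.2.1.1, i)) m z.2.2) D.sigma_snd.fst.snd ?_ ?_
    · exact (h4 m).app (pt_sigma_fst.comp pt_sigma_fst) D.sigma_snd
        PPB_s2.snd
    · exact PPB_d_cp (A := fun c => I.T c ⊕ J.T c) (pt_sigma_fst.comp pt_sigma_fst)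
        (h5.app (pt_sigma_fst.comp pt_sigma_fst)
          (D.pair PPB_s2.fst.fst D.sigma_snd))
        PPB_s2.snd m
  · exact PPB_d_inp ht pt_sigma_fst (ht.comp pt_sigma_fst) D.sigma_snd
  · exact PPB_rank (rk c) (fun j u => a c j m u) (fun i u => PPB_cp (out c (z.1, i)) m u)
      (fun j j' => h6 c j m j') z z' e
  · choose val0 hv ho using h7 c
    set x : ℕ → I.T c → Y.Tab c := itr (fun s u i => f c s i u) w with hx
    let val : Fin (t c) × (J.T c ⊕ I.T c) → Y.Tab c := fun z =>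
      Sum.elim (val0 (x z.1)) (x (z.1 + 1)) z.2
    have key : ∀ s ≤ t c, ∀ i, Sum.elim w val (PPB_inp (J.T c) (t c) s i) = x s i :=
      fun s hs i => PPB_key x val (fun _ _ => rfl) hs i
    refine ⟨val, fun z => ?_, fun i => (key _ le_rfl i).symm⟩
    obtain ⟨s, y⟩ := z
    have e : (fun u => Sum.elim w val (PPB_phi s u)) = Sum.elim (x s) (val0 (x s)) := by
      funext u
      rcases u with i | j
      · exact key s s.2.le i
      · rfl
    refine Eq.trans ?_ (nodeVal_push _ _ (fun m u => Sum.elim (fun j => a c j m u)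
      (fun i => PPB_cp (out c (s, i)) m u) y) (PPB_phi s) (Sum.elim w val)).symm
    rw [e]
    rcases y with j | i
    · exact hv (x s) j
    · exact (ho (x s) (s, i)).trans (PPB_copy _ _).symm

theorem PPB_itr {A B X : Type} (f : ℕ → B → (A → X) → (B → X) → X) (w : A → X) (v : B → X)
    (s : ℕ) :
    itr (fun s u z => Sum.elim (fun i => u (.inl i))
      (fun j => f s j (fun i => u (.inl i)) fun j => u (.inr j)) z) (Sum.elim w v) s =
      Sum.elim w (itr (fun s u j => f s j w u) v s) := by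
  induction s with
  | zero => rfl
  | succ s ih =>
    rw [itr, ih]
    funext z
    rcases z with i | j <;> rfl

/-- Iteration with parameters. -/
theorem PP.iterP {t : C → ℕ} (ht : PT t) (hl : Pl Y.lg t)
    {g : ∀ c, J.T c → (I.T c → Y.Tab c) → Y.Tab c} (hg : PP Y I J g)
    (f : ∀ c, ℕ → J.T c → (I.T c → Y.Tab c) → (J.T c → Y.Tab c) → Y.Tab c)
    (h : PP Y (I.sum J) ((Y.fin t ht hl).prod J)
      fun c z w => f c z.1 z.2 (fun i => w (.inl i)) fun j => w (.inr j)) :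
    PP Y I J fun c j w => itr (fun s u j => f c s j w u) (fun j => g c j w) (t c) j := by
  have v1 : PP Y (I.sum J) I fun c i w => w (.inl i) :=
    PP.var (I := I.sum J) (J := I) (x := fun c i => Sum.inl i) (D.inl D.sigma_snd)
  have v2 : PP Y I I fun c i w => w i := PP.var (I := I) (J := I) (x := fun c i => i) D.sigma_snd
  have hx : D2 fun c (z : Fin (t c) × (I.T c ⊕ J.T c)) =>
      (Sum.elim (fun i => .inl i) (fun j => .inr (z.1, j)) z.2 : I.T c ⊕ (Fin (t c) × J.T c)) :=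
    D.sum_elim (X := fun z : Σ c, Fin (t c) × (I.T c ⊕ J.T c) => I.T z.1) (Y := fun z => J.T z.1)
      (Z := fun z => I.T z.1 ⊕ (Fin (t z.1) × J.T z.1)) (f := fun z i => .inl i)
      (g := fun z j => .inr (z.2.1, j)) D.sigma_snd.snd (D.inl D.sigma_snd)
      (D.inr (D.pair PPB_s2.fst D.sigma_snd))
  have s1 := (v1.sum_elim h).reindex (K := (Y.fin t ht hl).prod (I.sum J)) hx
  have s2 := PP.iter (I := I.sum J) ht hl (fun c s z u => Sum.elim (fun i => u (.inl i))
    (fun j => f c s j (fun i => u (.inl i)) fun j => u (.inr j)) z)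
    (s1.congr fun c z w => by rcases z with ⟨s, i | j⟩ <;> rfl)
  have s3 := ((v2.sum_elim hg).subst s2).reindex (K := J) (x := fun c j => Sum.inr j)
    (D.inr D.sigma_snd)
  refine s3.congr fun c j w => ?_
  exact (congrFun (PPB_itr (f c) w (fun j => g c j w) (t c)) (.inr j)).symm

end Vale.Agent.P330Q
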