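import Vale.Agent.P330Q.PPM
import Vale.Agent.P330Q.PPB

/-! Plain programs: long products and shifts by vectors. -/

namespace Vale.Agent.P330Q

open Vale.Agent.Lib.PolyTime Vale.Agent.P330 Finset
open scoped Classical BigOperators

theorem ppn_itr_mul {A H F : Type} [CommMonoid F] (a : ℕ → A → H → F) (w : A → H → F) (t : ℕ)
    (j : A) (h : H) :
    itr (fun s u j h => a s j h * u j h) w t j h = (∏ s ∈ range t, a s j h) * w j h := by
  induction t with
  | zero => simp [itr]
  | succ t ih => rw [itr, ih, prod_range_succ_comm, mul_assoc]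

theorem ppn_itr_sh {l n : ℕ} [Fact l.Prime] {A F : Type} (v : A → Fin n → ZMod l)
    (w : A → (Fin n → ZMod l) → F) (t : ℕ) (j : A) (h : Fin n → ZMod l) :
    itr (fun s u j h => u j (h + cd s (v j) • ee s)) w t j h =
      w j (h + fun i : Fin n => if (i : ℕ) < t then v j i else 0) := by
  induction t generalizing h with
  | zero =>
    simp only [itr, Nat.not_lt_zero, if_false]
    exact congrArg _ (add_zero h).symm
  | succ t ih =>
    rw [itr, ih]
    refine congrArg _ (funext fun i => ?_)
    simp only [Pi.add_apply, Pi.smul_apply, ee, smul_eq_mul]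
    rcases lt_trichotomy (i : ℕ) t with e | e | e
    · simp [e, e.ne, e.le]
    · subst e
      simp [cd]
    · simp [e.ne', e.not_gt, e.not_ge]

variable {C : Type} [Enc C] {l : ℕ} [Fact l.Prime] {Y : PS C l} {I J K M : SF Y.lg}
  {f g : ∀ c, J.T c → (I.T c → Y.Tab c) → Y.Tab c}

theorem PM.prod {f : ∀ c, J.T c → K.T c → (I.T c → Y.Tab c) → Y.Tab c}
    (h : PM Y I (J.prod K) fun c z => f c z.1 z.2) :
    PM Y I J fun c j w h => ∏ k, f c j k w h := by
  obtain ⟨e, -, he⟩ := K.pf.equiv
  have ht := K.pf.pt_card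
  have h1 : PM Y I ((Y.fin _ ht K.pl).prod J) fun c z => f c z.2 ((e c).symm z.1) :=
    h.reindex (K := (Y.fin _ ht K.pl).prod J) (x := fun c z => (z.2, (e c).symm z.1))
      (D.pair D.sigma_snd.snd (he.app pt_sigma_fst D.sigma_snd.fst))
  have h2 := PM.app (PM.subst (PP.var (I := (I.sum J).sum J) (J := I)
      (x := fun _ i => .inl (.inl i)) D.sigma_snd.inl.inl) h1)
    (PP.var (I := (I.sum J).sum J) (J := (Y.fin _ ht K.pl).prod J) (x := fun _ z => .inr z.2)
      D.sigma_snd.snd.inr)
  have h3 := PP.iterP (I := I.sum J) (J := J) ht K.pl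
    (PP.var (I := I.sum J) (J := J) (x := fun _ j => .inr j) D.sigma_snd.inr)
    (fun c s j w u h => (if hs : s < Fintype.card (K.T c) then
      f c j ((e c).symm ⟨s, hs⟩) (fun i => w (.inl i)) h else 1) * u j h)
    (h2.congr fun c z w => funext fun x => by simp only [dif_pos z.1.2])
  refine h3.congr fun c j w => funext fun x => ?_
  rw [ppn_itr_mul (fun s j h => if hs : s < Fintype.card (K.T c) then
    f c j ((e c).symm ⟨s, hs⟩) (fun i => w (.inl i)) h else 1), prod_range]
  simp only [dif_pos (Fin.is_lt _)]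
  rw [(e c).symm.prod_comp fun k => f c j k (fun i => w (.inl i)) x]

theorem PP.shv {v : ∀ c, J.T c → Y.H c} (hv : D2 v) (hf : PP Y I J f) :
    PP Y I J fun c j w h => f c j w (h + v c j) := by
  have hk : PT fun z : Σ c, (Y.co.prod J).T c => (z.2.1 : ℕ) := D.fin_iff.1 D.sigma_snd.fst
  have hc : PT fun z : Σ c, (Y.co.prod J).T c => cd z.2.1 (v z.1 z.2.2) :=
    PS.pt_cd pt_sigma_fst hk (hv.app pt_sigma_fst D.sigma_snd.snd)
  have h1 := PP.fsum (I := I.sum J) (J := Y.co.prod J) (univ : Finset (ZMod l)) fun t _ =>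
    PP.ite (I := I.sum J) (J := Y.co.prod J) (p := fun c z => cd z.1 (v c z.2) = t)
      (D.eq (X := fun _ => ZMod l) (D.of_pt hc) (D.const t))
      (PP.shiftZ (I := I.sum J) (J := Y.co.prod J) (k := fun _ z => z.1) hk t
        (PP.var (I := I.sum J) (J := Y.co.prod J) (x := fun _ z => .inr z.2)
          D.sigma_snd.snd.inr)) PP.zero
  have h2 := PP.iterP Y.pt_n Y.pl_n hf (fun c s j _ u h => u j (h + cd s (v c j) • ee s))
    (h1.congr fun c z w => funext fun x => by simp [ite_apply])
  refine h2.congr fun c j w => funext fun x => ?_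
  rw [ppn_itr_sh (v c)]
  simp only [Fin.is_lt, if_true]

end Vale.Agent.P330Q
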