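import Vale.Agent.P330Q.MqS
import Vale.Agent.P330Q.PPN

/-! The machine on tables: the tests are plain programs. -/

namespace Vale.Agent.P330Q.Mq

open Vale.Agent.Lib.PolyTime Vale.Agent.P330 Vale.Agent.P330.Mach Finset
open scoped Classical BigOperators

variable {l : ℕ} [Fact l.Prime] {Y : PS VI l} (A : Cx Y) {c : VI}

variable {I J : SF Y.lg}

theorem pm_eqF {f g : ∀ c, J.T c → (I.T c → Y.Tab c) → Y.Tab c} (hf : PM Y I J f)
    (hg : PM Y I J g) : PM Y I J fun c j w h => eqF l (f c j w h) (g c j w h) :=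
  PM.one.sub ((hf.sub hg).pow (l - 1))

theorem pm_ind {k : ∀ c, J.T c → ℕ} (hk : PT fun z : Σ c, J.T c => k z.1 z.2)
    {a : ∀ c, J.T c → ZMod l} (ha : PT fun z : Σ c, J.T c => a z.1 z.2) :
    PM Y I J fun c j _ h => ind Y c (k c j) (a c j) h :=
  pm_eqF (PM.coord hk) (PM.const (a := fun c j => am Y c (a c j)) (PS.dCast pt_sigma_fst ha))

theorem pm_fsum {B : Type} (s : Finset B) {f : B → ∀ c, J.T c → (I.T c → Y.Tab c) → Y.Tab c}
    (h : ∀ a ∈ s, PM Y I J (f a)) : PM Y I J fun c j w h => ∑ a ∈ s, f a c j w h :=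
  (PP.fsum s h).congr fun _ _ _ => funext fun _ => sum_mul _ _ _

theorem pm_mu {t : ∀ c, J.T c → (I.T c → Y.Tab c) → Fin (Y.n c) → Y.F c}
    (ht : PM Y I (J.prod Y.co) fun c z w _ => t c z.1 w z.2) :
    PM Y I J fun c j w h => mu Y c (t c j w) h := by
  have hj : D fun z : Σ c, ((J.prod Y.co).prod Y.co).T c => z.2.2 := D.sigma_snd.snd
  have hi : D fun z : Σ c, ((J.prod Y.co).prod Y.co).T c => z.2.1.2 := D.sigma_snd.fst.snd
  have h0 : D fun z : Σ c, ((J.prod Y.co).prod Y.co).T c => z.2.1.1 := D.sigma_snd.fst.fst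
  have h1 : PM Y I ((J.prod Y.co).prod Y.co) fun c z w _ => t c z.1.1 w z.2 :=
    ht.reindex (K := (J.prod Y.co).prod Y.co) (x := fun _ z => (z.1.1, z.2)) (D.pair h0 hj)
  have h2 := pm_fsum (univ : Finset (ZMod l × ZMod l)) fun a _ =>
    (PM.const (I := I) (J := (J.prod Y.co).prod Y.co)
      (a := fun c _ => if a.1.val < a.2.val then (1 : Y.F c) else 0)
      (D.ite (PT.const _) (PS.dOne pt_sigma_fst) (PS.dZero pt_sigma_fst))).mul
      ((pm_ind (J := (J.prod Y.co).prod Y.co) (k := fun _ z => z.2) (D.fin_iff.1 hj)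
        (a := fun _ _ => a.1) (PT.const _)).mul (pm_eqF h1 (PM.const (a := fun c _ => am Y c a.2) (PS.dCast pt_sigma_fst (PT.const _)))))
  have h3 := PM.ite (J := (J.prod Y.co).prod Y.co) (p := fun _ z => z.2 = z.1.2) (D.eq hj hi) h2
    (PM.ite (J := (J.prod Y.co).prod Y.co) (p := fun _ z => z.1.2 < z.2)
      (PT.lt (D.fin_iff.1 hi) (D.fin_iff.1 hj))
      (pm_eqF (PM.coord (J := (J.prod Y.co).prod Y.co) (k := fun _ z => z.2) (D.fin_iff.1 hj)) h1)
      PM.one)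
  refine PM.sum (K := Y.co) (PM.prod (K := Y.co) (h3.congr fun c z w => funext fun h => ?_))
  simp only [ite_apply]

theorem pm_inm : PM Y I J fun c _ _ h => inm Y c h := by
  have h1 : PT fun z : Σ c, (J.prod Y.co).T c => dig l (Y.n z.1) (l * nn z.1) z.2.2 :=
    (D.fn_app (n := fun z : Σ c, (J.prod Y.co).T c => Y.n z.1) (X := fun _ => ZMod l)
      (d_dig pt_sigma_fst (PT.mul (PT.const l) (pt_nn pt_sigma_fst))) D.sigma_snd.snd).pt
  have h2 : PM Y I (J.prod Y.co) fun c z _ _ => am Y c (dig l (Y.n c) (l * nn c) z.2) :=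
    PM.const (PS.dCast pt_sigma_fst h1)
  exact (pm_mu (t := fun c _ _ i => am Y c (dig l _ (l * nn c) i)) h2).mul
    (pm_ind (k := fun _ _ => 0) (PT.const 0) (a := fun _ _ => 0) (PT.const 0))

theorem pm_fl : PM Y (II Y) J fun c _ w _ => fl Y c w :=
  PM.scal (PP.var (I := II Y) (x := fun _ _ => .inr (.inl ())) (D.inr (D.inl (D.const ()))))

theorem pm_dg {i : ∀ c, J.T c → Fin (Y.n c)} (hi : D2 i) :
    PM Y (II Y) J fun c j w _ => dg Y c w (i c j) :=
  PM.scal (PP.var (I := II Y) (x := fun c j => .inr (.inr (i c j))) (D.inr (D.inr hi)))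

theorem pp_x0 {r : ∀ c, J.T c → Bool} (hr : D2 r) :
    PP Y (II Y) J fun c j w => w (.inl (r c j, .inl ())) :=
  PP.var (I := II Y) (x := fun c j => .inl (r c j, .inl ())) (D.inl (D.pair hr (D.inl (D.const ()))))

theorem pp_ln {r : ∀ c, J.T c → Bool} (hr : D2 r) {t : ∀ c, J.T c → (TT Y).T c} (ht : D2 t) :
    PP Y (II Y) J fun c j w => w (.inl (r c j, .inr (t c j))) :=
  PP.var (I := II Y) (x := fun c j => .inl (r c j, .inr (t c j))) (D.inl (D.pair hr (D.inr ht)))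

theorem pt_ro1 : PT fun z : Σ c, J.T c => ro Y z.1 - 1 :=
  PT.sub ((pt_ro Y).comp pt_sigma_fst) (PT.const 1)

theorem pp_nvc : PP Y (II Y) (BB Y) fun c r w => nvc Y c fun t => w (.inl (r, t)) := by
  have h1 : PP Y (II Y) (BB Y) fun c _ _ => ngT Y c :=
    PP.cst (u := fun c _ => ngT Y c) (d_ngT.app pt_sigma_fst D.sigma_snd.snd)
  have h2 := PM.app ((pm_ind (I := II Y) (J := BB Y) (k := fun c _ => ro Y c - 1) pt_ro1
    (a := fun _ _ => 1) (PT.const 1)).mul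
    (pm_ind (k := fun _ _ => 0) (PT.const 0) (a := fun _ _ => 2) (PT.const 2)))
    (pp_ln (r := fun _ r => r) D.sigma_snd (t := fun _ _ => .inr false) (D.inr (D.const false)))
  have hz : D fun z : Σ c, ((BB Y).prod (JK Y)).T c => z.2.2 := D.sigma_snd.snd
  have h3 := PP.cmul (J := (BB Y).prod (JK Y))
    (a := fun c z => if (z.2.1 : ℕ) + 1 = 2 * ro Y c then (1 : Y.F c) else 0)
    (D.ite (PT.eq (PT.add (D.fin_iff.1 hz.fst) (PT.const 1))
      (PT.mul (PT.const 2) ((pt_ro Y).comp pt_sigma_fst))) (PS.dOne pt_sigma_fst)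
      (PS.dZero pt_sigma_fst))
    (pp_ln (J := (BB Y).prod (JK Y)) (r := fun _ z => z.1) D.sigma_snd.fst
      (t := fun _ z => .inl z.2) (D.inl hz))
  exact (h1.add h2).add (PP.sum (K := JK Y) h3)

theorem pp_nva : PP Y (II Y) J fun c _ w => nva Y c w := by
  have h0 := pp_x0 (Y := Y) (J := J) (r := fun _ _ => false) (D.const false)
  have h1 := PP.shiftZ (k := fun c _ => ro Y c - 1) pt_ro1 2 h0
  have h2 := PP.shiftZ (k := fun c _ => ro Y c - 1) pt_ro1 2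
    (PP.shift (k := fun _ _ => 0) (PT.const 0) h0)
  refine ((pp_nvc.reindex (x := fun _ _ => true) (D.const true)).add (PM.app pm_inm
    ((PM.app pm_fl h1).add (PM.app (PM.one.sub pm_fl) h2)))).congr fun c j w => funext fun h => ?_
  simp only [nva, add_assoc h]

theorem pp_tgt : PP Y (II Y) (BB Y) fun c r w => tgt Y c r w :=
  PP.ite (J := BB Y) (p := fun _ r => r = true)
    (D.eq (X := fun _ => Bool) D.sigma_snd (D.const true))
    (PM.app (pm_mu (t := fun c _ w => dg Y c w)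
      (pm_dg (J := (BB Y).prod Y.co) (i := fun _ z => z.2) D.sigma_snd.snd)) pp_nva)
    ((pp_nvc.reindex (x := fun _ _ => false) (D.const false)).add
      (PM.app pm_inm (pp_x0 (r := fun _ _ => false) (D.const false))))

theorem pp_d0 : PP Y I J fun c _ _ => d0 Y c :=
  PP.cst (u := fun c _ => d0 Y c) (d_d0.app pt_sigma_fst D.sigma_snd.snd)

theorem Cx.pp_tz : PP Y (II Y) (ZT Y) A.tz := by
  have h0 := pp_x0 (Y := Y) (J := BB Y) (r := fun _ r => r) D.sigma_snd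
  have h1 := h0.sub (A.K.pp_lde _ _ _ _ (pt_ro Y) pp_tgt)
  have h2 := A.K.pp_lde _ _ _ _ (pt_ro Y) ((pp_ln (r := fun _ r => r) D.sigma_snd
    (t := fun _ _ => .inr true) (D.inr (D.const true))).sub h0)
  have h3 := pp_ln (Y := Y) (J := (BB Y).prod (TT Y)) (r := fun _ e => e.1) D.sigma_snd.fst
    (t := fun _ e => e.2) D.sigma_snd.snd
  have h4 := h3.sub (A.K.pp_lde _ _ _ _ (PT.add (pt_ro Y) (PT.const 1)) h3)
  have h5 := (PP.var (I := II Y) (J := UU Y) (x := fun _ _ => .inr (.inl ()))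
    (D.inr (D.inl (D.const ())))).sub (PM.app (pm_fl.pow 2) pp_d0)
  have hi : D fun z : Σ c, Y.co.T c => z.2 := D.sigma_snd
  have h6 := (PP.var (I := II Y) (J := Y.co) (x := fun _ i => .inr (.inr i))
    (D.inr (D.inr D.sigma_snd))).sub (PP.cmul (J := Y.co)
      (a := fun c i => if (i : ℕ) < ro Y c then (1 : Y.F c) else 0)
      (D.ite (PT.lt (D.fin_iff.1 hi) ((pt_ro Y).comp pt_sigma_fst)) (PS.dOne pt_sigma_fst)
        (PS.dZero pt_sigma_fst))
      (PM.app ((pm_dg (i := fun _ i => i) D.sigma_snd).pow l) pp_d0))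
  exact ((h1.sum_elim h2).sum_elim h4).sum_elim (h5.sum_elim h6)

/-- Copies, digits and sides. -/
@[reducible] noncomputable def WW (Y : PS VI l) : SF Y.lg := (BB Y).prod ((ZZ Y).prod (BB Y))

theorem Cx.pp_fa1 : PP Y (II Y) ((WW Y).prod (JK Y)) fun c z w =>
    A.fa c (.inl z.2) z.1.2.1 z.1.2.2 fun t => w (.inl (z.1.1, t)) := by
  have u0 : D fun z : Σ c, ((WW Y).prod (JK Y)).T c => z.2.1.1 := D.sigma_snd.fst.fst
  have u1 : D fun z : Σ c, ((WW Y).prod (JK Y)).T c => z.2.1.2 := D.sigma_snd.fst.snd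
  have u2 : D fun z : Σ c, ((WW Y).prod (JK Y)).T c => z.2.2 := D.sigma_snd.snd
  have u3 := D.pt (β := ZMod l) u1.fst
  have u4 : PT fun z : Σ c, ((WW Y).prod (JK Y)).T c => (z.2.2.1 : ℕ) % ro Y z.1 :=
    PT.mod (D.fin_iff.1 u2.fst) ((pt_ro Y).comp pt_sigma_fst)
  have h0 : PP Y (II Y) ((WW Y).prod (JK Y)) fun c z w => w (.inl (z.1.1, pv Y c z.2)) :=
    PP.var (I := II Y) (J := (WW Y).prod (JK Y)) (x := fun c z => .inl (z.1.1, pv Y c z.2))
      (D.inl (D.pair u0 (d_pv.app pt_sigma_fst u2)))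
  exact PP.ite (J := (WW Y).prod (JK Y)) (p := fun _ z => z.1.2.2 = true)
    (D.eq (X := fun _ => Bool) u1.snd (D.const true)) PP.one
    (PP.shv (J := (WW Y).prod (JK Y)) (v := fun c z => z.1.2.1 • ee (z.2.1 % ro Y c))
      (d_see pt_sigma_fst u3 u4) (A.K.pp_lde _ _ _ _ (pt_ro Y) h0))

theorem Cx.pp_fa2 : PP Y (II Y) ((WW Y).prod (BB Y)) fun c z w =>
    A.fa c (.inr z.2) z.1.2.1 z.1.2.2 fun t => w (.inl (z.1.1, t)) := by
  have u0 : D fun z : Σ c, ((WW Y).prod (BB Y)).T c => z.2.1.1 := D.sigma_snd.fst.fst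
  have u1 : D fun z : Σ c, ((WW Y).prod (BB Y)).T c => z.2.1.2.2 := D.sigma_snd.fst.snd.snd
  have u2 : D fun z : Σ c, ((WW Y).prod (BB Y)).T c => z.2.2 := D.sigma_snd.snd
  exact PP.shv (J := (WW Y).prod (BB Y)) (v := fun c z => sv Y c z.2 z.1.2.2)
    (d_sv pt_sigma_fst (D.pt (β := Bool) u2) (D.pt (β := Bool) u1))
    (A.K.pp_lde _ _ _ _ (pt_ro Y) (pp_x0 (J := (WW Y).prod (BB Y)) (r := fun _ z => z.1.1) u0))

theorem Cx.pp_ty : PP Y (II Y) (OO Y) A.ty := by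
  have e1 : D fun z : Σ c, ((EE Y).prod ((ZZ Y).prod (BB Y))).T c => (z.2.1.1, z.2.2) :=
    D.pair D.sigma_snd.fst.fst D.sigma_snd.snd
  have e2 : D fun z : Σ c, ((EE Y).prod ((ZZ Y).prod (BB Y))).T c => z.2.1.2 :=
    D.sigma_snd.fst.snd
  have e3 : D2 fun c (o : ((EE Y).prod ((ZZ Y).prod (BB Y))).T c) =>
      (Sum.elim (fun z => Sum.inl ((o.1.1, o.2), z)) (fun b => Sum.inr ((o.1.1, o.2), b)) o.1.2 :
        (((WW Y).prod (JK Y)).sum ((WW Y).prod (BB Y))).T c) :=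
    D.sum_elim e2 (D.inl (D.pair (e1.comp pt_sigma_fst) D.sigma_snd))
      (D.inr (D.pair (e1.comp pt_sigma_fst) D.sigma_snd))
  have h3 : PP Y (II Y) ((EE Y).prod ((ZZ Y).prod (BB Y))) fun c o w =>
      A.fa c o.1.2 o.2.1 o.2.2 fun t => w (.inl (o.1.1, t)) :=
    ((A.pp_fa1.sum_elim A.pp_fa2).reindex e3).congr fun c o w => by
      rcases o with ⟨⟨r, t | t⟩, a, b⟩ <;> rfl
  exact (pp_ln (J := EE Y) (r := fun _ e => e.1) D.sigma_snd.fst (t := fun _ e => e.2)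
    D.sigma_snd.snd).sum_elim h3

end Vale.Agent.P330Q.Mq
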