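import Vale.Agent.P330Q.PPF

/-! Plain programs: basic closure properties. -/

namespace Vale.Agent.P330Q

open Vale.Agent.Lib.PolyTime Vale.Agent.P330 Finset
open scoped Classical BigOperators

/-- Coefficients pushed forward. -/
noncomputable def PPA.push {F A A' : Type} [Field F] [Fintype A] (φ : A → A') (a : A → F)
    (u : A') : F := ∑ i, if φ i = u then a i else 0

theorem PPA.sum_push {F A A' : Type} [Field F] [Fintype A] [Fintype A'] (φ : A → A') (a : A → F)
    (v : A' → F) : ∑ u, PPA.push φ a u * v u = ∑ i, a i * v (φ i) := by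
  simp only [PPA.push, sum_mul, ite_mul, zero_mul]
  rw [sum_comm]
  simp only [sum_ite_eq, mem_univ, if_true]

theorem PPA.of_push {F A A' : Type} [Field F] [Fintype A] {φ : A → A'} {a : A → F} {u : A'}
    (h : PPA.push φ a u ≠ 0) : ∃ i, φ i = u ∧ a i ≠ 0 := by
  obtain ⟨i, -, hi⟩ := exists_ne_zero_of_sum_ne_zero h
  by_cases e : φ i = u
  · exact ⟨i, e, by rwa [if_pos e] at hi⟩
  · exact absurd (if_neg e) hi

theorem PPA.nodeVal_push {l : ℕ} [Fact l.Prime] {F A A' : Type} [Field F] [Algebra (ZMod l) F]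
    [Fintype A] [Fintype A'] {n : ℕ} (k : ℕ) (cs : (Fin n → ZMod l) → F) (a : Fin 5 → A → F)
    (φ : A → A') (v : A' → (Fin n → ZMod l) → F) :
    nodeVal k cs (fun m => PPA.push φ (a m)) v = nodeVal k cs a fun i => v (φ i) := by
  funext h
  simp only [nodeVal, PPA.sum_push φ _ fun u => v u _]

/-- Coefficients pushed forward along a map of the arguments. -/
theorem nodeVal_push {l : ℕ} [Fact l.Prime] {F A A' : Type} [Field F] [Algebra (ZMod l) F]
    [Fintype A] [Fintype A'] {n : ℕ} (k : ℕ) (cs : (Fin n → ZMod l) → F) (a : Fin 5 → A → F)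
    (φ : A → A') (v : A' → (Fin n → ZMod l) → F) :
    nodeVal k cs (fun m u => ∑ i, if φ i = u then a m i else 0) v =
      nodeVal k cs a fun i => v (φ i) := PPA.nodeVal_push k cs a φ v

variable {C : Type} [Enc C] {l : ℕ} [Fact l.Prime] {Y : PS C l} {I J K M : SF Y.lg}
  {f g : ∀ c, J.T c → (I.T c → Y.Tab c) → Y.Tab c}

section
variable {X X' W Z : C → Type} [∀ c, Enc (X c)] [∀ c, Enc (X' c)] [∀ c, Enc (W c)] [∀ c, Enc (Z c)]

theorem PPA.d2_elim {f : ∀ c, X c → Z c} {g : ∀ c, X' c → Z c} (hf : D2 f) (hg : D2 g) :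
    D2 fun c (z : X c ⊕ X' c) => Sum.elim (f c) (g c) z :=
  D.sum_elim (X := fun z : Σ c, X c ⊕ X' c => X z.1) (Y := fun z => X' z.1) (Z := fun z => Z z.1)
    D.sigma_snd (hf.app (pt_sigma_fst.comp pt_sigma_fst) D.sigma_snd)
    (hg.app (pt_sigma_fst.comp pt_sigma_fst) D.sigma_snd)

theorem PPA.d3_elim {f : ∀ c, X c → W c → Z c} {g : ∀ c, X' c → W c → Z c} (hf : D3 f)
    (hg : D3 g) : D3 fun c (z : X c ⊕ X' c) y => Sum.elim (fun x => f c x y) (fun x => g c x y) z :=
  D.sum_elim (X := fun z : Σ c, (X c ⊕ X' c) × W c => X z.1) (Y := fun z => X' z.1)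
    (Z := fun z => Z z.1) D.sigma_snd.fst
    (hf.app (pt_sigma_fst.comp pt_sigma_fst) D.sigma_snd (D.sigma_snd.comp pt_sigma_fst).snd)
    (hg.app (pt_sigma_fst.comp pt_sigma_fst) D.sigma_snd (D.sigma_snd.comp pt_sigma_fst).snd)

theorem PPA.d2_comp {f : ∀ c, W c → Z c} {g : ∀ c, X c → W c} (hf : D2 f) (hg : D2 g) :
    D2 fun c x => f c (g c x) := hf.app pt_sigma_fst hg

theorem PPA.d3_push [∀ c, Fintype (W c)] (hW : PFam W) {φ : ∀ c, W c → Z c} (hφ : D2 φ)
    {a : ∀ c, X c → W c → Y.F c} (ha : D3 a) : D3 fun c j u => PPA.push (φ c) (a c j) u :=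
  PS.dSum (p := fun z : Σ c, X c × Z c => z.1) pt_sigma_fst (hW.comap pt_sigma_fst)
    (f := fun z i => if φ z.1 i = z.2.2 then a z.1 z.2.1 i else 0)
    (D.ite (D.eq (X := fun z : Σ z : Σ c, X c × Z c, W z.1 => Z z.1.1)
      (hφ.app (pt_sigma_fst.comp pt_sigma_fst) D.sigma_snd) (D.sigma_snd.comp pt_sigma_fst).snd)
      (ha.app (pt_sigma_fst.comp pt_sigma_fst) (D.sigma_snd.comp pt_sigma_fst).fst D.sigma_snd)
      (PS.dZero (pt_sigma_fst.comp pt_sigma_fst)))

end

theorem PP.congr (h : PP Y I J f) (e : ∀ c j w, g c j w = f c j w) : PP Y I J g := by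
  rwa [show g = f from funext fun c => funext fun j => funext (e c j)]

theorem PP.var {x : ∀ c, J.T c → I.T c} (hx : D2 x) : PP Y I J fun c j w => w (x c j) :=
  ⟨J, fun _ _ => 0, fun _ _ => 0, fun _ _ _ => 0, fun _ _ _ _ => 0, fun c j => .inl (x c j),
    PT.const 0, PT.const 0, PS.dZero pt_sigma_fst, fun _ => PS.dZero pt_sigma_fst, D.inl hx,
    fun _ _ _ _ h => absurd rfl h,
    fun _ _ => ⟨fun _ _ => 0, fun _ => funext fun _ => by simp [nodeVal], fun _ => rfl⟩⟩

theorem PP.reindex (h : PP Y I J f) {x : ∀ c, K.T c → J.T c} (hx : D2 x) :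
    PP Y I K fun c k => f c (x c k) := by
  obtain ⟨N, rk, k, cs, a, out, h1, h2, h3, h4, h5, h6, h7⟩ := h
  exact ⟨N, rk, k, cs, a, fun c o => out c (x c o), h1, h2, h3, h4, PPA.d2_comp h5 hx, h6,
    fun c w => (h7 c w).imp fun val h => ⟨h.1, fun o => h.2 _⟩⟩

/-- One layer of nodes. -/
theorem PP.node (k : ∀ c, J.T c → ℕ) (cs : ∀ c, J.T c → Y.Tab c)
    (a : ∀ c, J.T c → Fin 5 → I.T c → Y.F c) (hk : PT fun z : Σ c, J.T c => k z.1 z.2)
    (hc : D3 cs) (ha : ∀ m, D3 fun c j i => a c j m i) :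
    PP Y I J fun c j w => nodeVal (k c j) (cs c j) (a c j) w := by
  refine ⟨J, fun _ _ => 0, k, cs, fun c j m => PPA.push Sum.inl (a c j m), fun c j => .inr j,
    PT.const 0, hk, hc, fun m => PPA.d3_push I.pf (D.inl D.sigma_snd) (ha m), D.inr D.sigma_snd,
    fun c j m j' h => ?_, fun c w => ⟨fun j => nodeVal (k c j) (cs c j) (a c j) w,
      fun j => (PPA.nodeVal_push _ _ (a c j) Sum.inl (Sum.elim w _)).symm, fun _ => rfl⟩⟩
  obtain ⟨i, e, -⟩ := PPA.of_push h
  cases e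

/-- Gluing of two programs. -/
theorem PP.glue {g : ∀ c, K.T c → (I.T c → Y.Tab c) → Y.Tab c} (hg : PP Y I K g)
    {x : ∀ c, M.T c → I.T c ⊕ K.T c} (hx : D2 x)
    {f : ∀ c, J.T c → (M.T c → Y.Tab c) → Y.Tab c} (hf : PP Y M J f) :
    PP Y I (K.sum J) fun c z w => Sum.elim (fun k => g c k w)
      (fun j => f c j fun m => Sum.elim w (fun k => g c k w) (x c m)) z := by
  obtain ⟨N, rk, k, cs, a, out, h1, h2, h3, h4, h5, h6, h7⟩ := hg
  obtain ⟨N', rk', k', cs', a', out', g1, g2, g3, g4, g5, g6, g7⟩ := hf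
  let φ : ∀ c, I.T c ⊕ N.T c → I.T c ⊕ (N.T c ⊕ N'.T c) := fun c =>
    Sum.elim .inl fun j => .inr (.inl j)
  let ψ : ∀ c, M.T c ⊕ N'.T c → I.T c ⊕ (N.T c ⊕ N'.T c) := fun c =>
    Sum.elim (fun m => φ c (Sum.elim .inl (out c) (x c m))) fun j => .inr (.inr j)
  have hφ : D2 φ := PPA.d2_elim (D.inl D.sigma_snd) (D.inr (D.inl D.sigma_snd))
  have hψ : D2 ψ := PPA.d2_elim
    (PPA.d2_comp hφ (PPA.d2_comp (PPA.d2_elim (D.inl D.sigma_snd) h5) hx))
    (D.inr (D.inr D.sigma_snd))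
  have hR : PT fun z : Σ c, N'.T c => (∑ j, rk z.1 j) + 1 + rk' z.1 z.2 :=
    PT.add (PT.add ((N.pf.pt_sumN h1).comp pt_sigma_fst) (PT.const 1)) g1
  refine ⟨N.sum N', fun c => Sum.elim (rk c) fun j => (∑ j, rk c j) + 1 + rk' c j,
    fun c => Sum.elim (k c) (k' c),
    fun c z h => Sum.elim (fun j => cs c j h) (fun j => cs' c j h) z,
    fun c z m u => Sum.elim (fun j => PPA.push (φ c) (a c j m) u)
      (fun j => PPA.push (ψ c) (a' c j m) u) z,
    fun c => Sum.elim (fun o => φ c (out c o)) fun o => ψ c (out' c o),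
    (PPA.d2_elim (Z := fun _ => ℕ) (g := fun c j => (∑ j, rk c j) + 1 + rk' c j) (D.of_pt h1)
      (D.of_pt hR)).pt,
    (PPA.d2_elim (Z := fun _ => ℕ) (D.of_pt h2) (D.of_pt g2)).pt, PPA.d3_elim h3 g3,
    fun m => PPA.d3_elim (PPA.d3_push (I.pf.sum N.pf) hφ (h4 m))
      (PPA.d3_push (M.pf.sum N'.pf) hψ (g4 m)),
    PPA.d2_elim (PPA.d2_comp hφ h5) (PPA.d2_comp hψ g5), fun c z m z' h => ?_, fun c w => ?_⟩
  · rcases z with j | j
    · obtain ⟨_ | i, e, hi⟩ := PPA.of_push h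
      · cases e
      · cases e; exact h6 c j m i hi
    · obtain ⟨i | i, e, hi⟩ := PPA.of_push h
      · rcases z' with j' | j'
        · exact (single_le_sum (f := rk c) (fun _ _ => Nat.zero_le _) (mem_univ j')).trans_lt
            ((Nat.lt_succ_self _).trans_le (Nat.le_add_right _ _))
        · simp only [ψ, Sum.elim_inl] at e
          generalize Sum.elim Sum.inl (out c) (x c i) = u at e
          rcases u with u | u <;> cases e
      · cases e; exact Nat.add_lt_add_left (g6 c j m i hi) _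
  · obtain ⟨val, v1, v2⟩ := h7 c w
    obtain ⟨val', u1, u2⟩ := g7 c fun m => Sum.elim w (fun k => g c k w) (x c m)
    have e1 : ∀ u, Sum.elim w (Sum.elim val val') (φ c u) = Sum.elim w val u := by
      rintro (u | u) <;> rfl
    have e2 : ∀ u, Sum.elim w (Sum.elim val val') (ψ c u) =
        Sum.elim (fun m => Sum.elim w (fun k => g c k w) (x c m)) val' u := by
      rintro (u | u)
      · refine (e1 _).trans ?_
        simp only [Sum.elim_inl]
        rcases x c u with i | o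
        · rfl
        · exact (v2 o).symm
      · rfl
    refine ⟨Sum.elim val val', ?_, ?_⟩
    · rintro (j | j)
      · exact (v1 j).trans ((congrArg _ (funext e1).symm).trans
          (PPA.nodeVal_push _ _ (a c j) (φ c) _).symm)
      · exact (u1 j).trans ((congrArg _ (funext e2).symm).trans
          (PPA.nodeVal_push _ _ (a' c j) (ψ c) _).symm)
    · rintro (o | o)
      · exact (v2 o).trans (e1 _).symm
      · exact (u2 o).trans (e2 _).symm

theorem PP.sum_elim {g : ∀ c, K.T c → (I.T c → Y.Tab c) → Y.Tab c} (hf : PP Y I J f)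
    (hg : PP Y I K g) :
    PP Y I (J.sum K) fun c z w => Sum.elim (fun j => f c j w) (fun k => g c k w) z :=
  hf.glue (x := fun _ => .inl) (D.inl D.sigma_snd) hg

end Vale.Agent.P330Q
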