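import Vale.Agent.P330Q.PPS

/-! Plain programs: the primitive operations. -/

namespace Vale.Agent.P330Q

open Vale.Agent.Lib.PolyTime Vale.Agent.P330 Finset
open scoped Classical BigOperators

variable {C : Type} [Enc C] {l : ℕ} [Fact l.Prime] {Y : PS C l} {I J K M : SF Y.lg}
  {f g : ∀ c, J.T c → (I.T c → Y.Tab c) → Y.Tab c}

theorem PPC_zero {X X' : C → Type} [∀ c, Enc (X c)] [∀ c, Enc (X' c)] :
    D3 fun c (_ : X c) (_ : X' c) => (0 : Y.F c) := PS.dZero pt_sigma_fst

theorem PPC_slot {a : ∀ c, J.T c → K.T c → Y.F c} (ha : D3 a) (m0 m : Fin 5) :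
    D3 fun c j i => if m = m0 then a c j i else 0 := by
  by_cases h : m = m0
  · simpa only [if_pos h] using ha
  · simpa only [if_neg h] using PPC_zero

theorem PPC_id : D3 fun c (j i : J.T c) => if i = j then (1 : Y.F c) else 0 :=
  D.ite (D.eq (X := fun z : Σ c, J.T c × J.T c => J.T z.1) D.sigma_snd.snd D.sigma_snd.fst)
    (PS.dOne pt_sigma_fst) (PS.dZero pt_sigma_fst)

theorem PPC_eq (x : ∀ c, J.T c → K.T c) [∀ c j i, Decidable (i = x c j)] (hx : D2 x) :
    D3 fun c (j : J.T c) (i : K.T c) => if i = x c j then (1 : Y.F c) else 0 :=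
  D.ite (D.eq (X := fun z : Σ c, J.T c × K.T c => K.T z.1) D.sigma_snd.snd
    (hx.app pt_sigma_fst D.sigma_snd.fst)) (PS.dOne pt_sigma_fst) (PS.dZero pt_sigma_fst)

theorem PP.cst {u : ∀ c, J.T c → Y.Tab c} (hu : D3 u) : PP Y I J fun c j _ => u c j :=
  (PP.node (fun _ _ => 0) u (fun _ _ _ _ => 0) (PT.const 0) hu fun _ => PPC_zero).congr
    fun c j w => funext fun h => by simp [nodeVal]

theorem PP.zero : PP Y I J fun _ _ _ _ => 0 := PP.cst (u := fun _ _ _ => 0) PPC_zero

theorem PP.one : PP Y I J fun _ _ _ _ => 1 := PP.cst (u := fun _ _ _ => 1) (PS.dOne pt_sigma_fst)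

/-- Linear combinations with computable coefficients. -/
theorem PP.comb {g : ∀ c, K.T c → (I.T c → Y.Tab c) → Y.Tab c} {a : ∀ c, J.T c → K.T c → Y.F c}
    (ha : D3 a) (hg : PP Y I K g) : PP Y I J fun c j w h => ∑ k, a c j k * g c k w h :=
  (hg.subst (PP.node (fun _ _ => 0) (fun _ _ _ => 0) (fun c j m i => if m = 0 then a c j i else 0)
    (PT.const 0) PPC_zero (PPC_slot ha 0))).congr fun c j w => funext fun h => by simp [nodeVal]

theorem PP.add (hf : PP Y I J f) (hg : PP Y I J g) :
    PP Y I J fun c j w h => f c j w h + g c j w h :=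
  (PP.comb (J := J) (K := J.sum J)
    (a := fun c j z => (if z = Sum.inl j then 1 else 0) + if z = Sum.inr j then 1 else 0)
    (PS.dAdd pt_sigma_fst (PPC_eq (K := J.sum J) (fun _ j => Sum.inl j) D.sigma_snd.inl)
      (PPC_eq (K := J.sum J) (fun _ j => Sum.inr j) D.sigma_snd.inr)) (hf.sum_elim hg)).congr
    fun c j w => funext fun h => by simp [add_mul, sum_add_distrib]

theorem PP.cmul {a : ∀ c, J.T c → Y.F c} (ha : D2 a) (hf : PP Y I J f) :
    PP Y I J fun c j w h => a c j * f c j w h :=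
  (PP.comb (J := J) (a := fun c j i => (if i = j then 1 else 0) * a c j)
    (PS.dMul pt_sigma_fst PPC_id (ha.app pt_sigma_fst D.sigma_snd.fst)) hf).congr
    fun c j w => funext fun h => by simp

theorem PP.neg (hf : PP Y I J f) : PP Y I J fun c j w h => - f c j w h :=
  (hf.cmul (a := fun _ _ => -1) (PS.dNeg pt_sigma_fst (PS.dOne pt_sigma_fst))).congr
    fun c j w => funext fun h => by simp

theorem PP.sub (hf : PP Y I J f) (hg : PP Y I J g) :
    PP Y I J fun c j w h => f c j w h - g c j w h :=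
  (hf.add hg.neg).congr fun c j w => funext fun h => sub_eq_add_neg _ _

theorem PP.shift {k : ∀ c, J.T c → ℕ} (hk : PT fun z : Σ c, J.T c => k z.1 z.2)
    (hf : PP Y I J f) : PP Y I J fun c j w h => f c j w (h + ee (k c j)) :=
  (hf.subst (PP.node k (fun _ _ _ => 0)
    (fun c j m i => if m = 1 then (if i = j then 1 else 0) else 0) hk PPC_zero
    (PPC_slot PPC_id 1))).congr fun c j w => funext fun h => by simp [nodeVal]

theorem PP.mx {k : ∀ c, J.T c → ℕ} (hk : PT fun z : Σ c, J.T c => k z.1 z.2) (hf : PP Y I J f) :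
    PP Y I J fun c j w h => algebraMap (ZMod l) (Y.F c) (cd (k c j) h) * f c j w h :=
  (hf.subst (PP.node k (fun _ _ _ => 0)
    (fun c j m i => if m = 2 then (if i = j then 1 else 0) else 0) hk PPC_zero
    (PPC_slot PPC_id 2))).congr fun c j w => funext fun h => by simp [nodeVal]

theorem PP.nsmul (hg : PP Y I J g) (hf : PP Y I J f) :
    PP Y I J fun c j w h => (∑ x, g c j w x) * f c j w h :=
  ((hg.sum_elim hf).subst (PP.node (J := J) (I := J.sum J) (fun _ _ => 0) (fun _ _ _ => 0)
    (fun c j m z => (if m = 3 then (if z = Sum.inl j then 1 else 0) else 0) +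
      if m = 4 then (if z = Sum.inr j then 1 else 0) else 0) (PT.const 0) PPC_zero fun m =>
    PS.dAdd pt_sigma_fst
      (PPC_slot (PPC_eq (K := J.sum J) (fun _ j => Sum.inl j) D.sigma_snd.inl) 3 m)
      (PPC_slot (PPC_eq (K := J.sum J) (fun _ j => Sum.inr j) D.sigma_snd.inr) 4 m))).congr
    fun c j w => funext fun h => by simp [nodeVal]

theorem PP.sum {f : ∀ c, J.T c → K.T c → (I.T c → Y.Tab c) → Y.Tab c}
    (h : PP Y I (J.prod K) fun c z => f c z.1 z.2) :
    PP Y I J fun c j w h => ∑ k, f c j k w h :=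
  (PP.comb (J := J) (K := J.prod K) (a := fun c j z => if z.1 = j then 1 else 0)
    (D.ite (D.eq (X := fun z : Σ c, J.T c × (J.T c × K.T c) => J.T z.1) D.sigma_snd.snd.fst
      D.sigma_snd.fst) (PS.dOne pt_sigma_fst) (PS.dZero pt_sigma_fst)) h).congr
    fun c j w => funext fun h => by simp [Fintype.sum_prod_type, sum_ite_irrel]

theorem PP.ite {p : ∀ c, J.T c → Prop} [∀ c j, Decidable (p c j)]
    (hp : PT fun z : Σ c, J.T c => p z.1 z.2) (hf : PP Y I J f) (hg : PP Y I J g) :
    PP Y I J fun c j w => if p c j then f c j w else g c j w :=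
  ((hf.cmul (a := fun c j => if p c j then 1 else 0)
    (D.ite hp (PS.dOne pt_sigma_fst) (PS.dZero pt_sigma_fst))).add
    (hg.cmul (a := fun c j => if p c j then 0 else 1)
      (D.ite hp (PS.dZero pt_sigma_fst) (PS.dOne pt_sigma_fst)))).congr
    fun c j w => funext fun h => by split_ifs <;> simp

theorem PP.fsum {A : Type} (s : Finset A) {f : A → ∀ c, J.T c → (I.T c → Y.Tab c) → Y.Tab c}
    (h : ∀ a ∈ s, PP Y I J (f a)) : PP Y I J fun c j w h => ∑ a ∈ s, f a c j w h := by
  induction s using Finset.induction_on with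
  | empty => exact PP.zero.congr fun c j w => funext fun _ => sum_empty
  | insert a s ha ih =>
    exact ((h a (mem_insert_self _ _)).add (ih fun b hb => h b (mem_insert_of_mem hb))).congr
      fun c j w => funext fun _ => sum_insert ha

theorem PP.shiftZ {k : ∀ c, J.T c → ℕ} (hk : PT fun z : Σ c, J.T c => k z.1 z.2) (t : ZMod l)
    (hf : PP Y I J f) : PP Y I J fun c j w h => f c j w (h + t • ee (k c j)) := by
  have key : ∀ n : ℕ, PP Y I J fun c j w h => f c j w (h + n • ee (k c j)) := fun n => by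
    induction n with
    | zero => exact hf.congr fun c j w => funext fun h => by rw [zero_nsmul, add_zero]
    | succ n ih =>
      exact (ih.shift hk).congr fun c j w => funext fun h => by rw [succ_nsmul', add_assoc]
  haveI : NeZero l := ⟨(Fact.out : l.Prime).ne_zero⟩
  refine (key t.val).congr fun c j w => funext fun h => ?_
  rw [← Nat.cast_smul_eq_nsmul (ZMod l), ZMod.natCast_zmod_val]

end Vale.Agent.P330Q
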