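import Vale.Agent.P330Q.PPF
import Vale.Agent.P330Q.KFt
import Vale.Agent.P330Q.KMinv

/-! Products, inverses and powers in the field of a setting of plain programs. -/

namespace Vale.Agent.P330Q

open Vale.Agent.Lib.PolyTime Vale.Agent.P330 Finset Polynomial
open scoped Classical BigOperators

variable {B C : Type} [Enc B] [Enc C] {l : ℕ} [Fact l.Prime] {Y : PS C l} {p : B → C}

theorem PS.dProd (hp : PT p) {X : B → Type} [∀ b, Enc (X b)] [∀ b, Fintype (X b)] (hX : PFam X)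
    {f : ∀ b, X b → Y.F (p b)} (hf : D2 f) : D fun b => ∏ x, f b x :=
  ((s_ft B l (Y.Φ.comap p hp)).2.2.2.2.2.2.1 X hX f hf).2

theorem PS.dPowN (hp : PT p) {f : ∀ b, Y.F (p b)} (hf : D f) {k : B → ℕ} (hk : PT k)
    (hk' : PB k) : D fun b => f b ^ k b :=
  (s_ft B l (Y.Φ.comap p hp)).2.2.2.2.2.2.2.1 f k hf hk hk'

theorem PS.dInv (hp : PT p) {f : ∀ b, Y.F (p b)} (hf : D f) : D fun b => (f b)⁻¹ :=
  (s_minv s_ft B l (Y.Φ.comap p hp)).2 f hf

end Vale.Agent.P330Q
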