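import Vale.Agent.P330Q.PPC

/-! Plain programs: multipliers. -/

namespace Vale.Agent.P330Q

open Vale.Agent.Lib.PolyTime Vale.Agent.P330 Finset
open scoped Classical BigOperators

variable {C : Type} [Enc C] {l : ℕ} [Fact l.Prime] {Y : PS C l} {I J K M : SF Y.lg}
  {f g : ∀ c, J.T c → (I.T c → Y.Tab c) → Y.Tab c}

theorem ppm_map {B : Type} [Enc B] {X U V : B → Type} [∀ b, Enc (X b)] [∀ b, Enc (U b)]
    [∀ b, Enc (V b)] {x : ∀ b, X b} {u : ∀ b, U b ⊕ V b} (hx : D x) (hu : D u) :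
    D fun b => (Sum.map (Prod.mk (x b)) (Prod.mk (x b)) (u b) : (X b × U b) ⊕ (X b × V b)) :=
  (D.sum_elim (f := fun b i => (Sum.inl (x b, i) : (X b × U b) ⊕ (X b × V b)))
    (g := fun b i => Sum.inr (x b, i)) hu
    (D.inl (D.pair (hx.comp pt_sigma_fst) D.sigma_snd))
    (D.inr (D.pair (hx.comp pt_sigma_fst) D.sigma_snd))).congr fun b => by cases u b <;> rfl

/-- Independent copies of a program. -/
theorem PP.par (h : PP Y I J f) :
    PP Y (K.prod I) (K.prod J) fun c z w => f c z.2 fun i => w (z.1, i) := by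
  obtain ⟨N, rk, k, cs, a, out, hrk, hk, hcs, ha, hout, hlt, hv⟩ := h
  refine ⟨K.prod N, fun c z => rk c z.2, fun c z => k c z.2, fun c z => cs c z.2,
    fun c z m u => ∑ i, if Sum.map (Prod.mk z.1) (Prod.mk z.1) i = u then a c z.2 m i else 0,
    fun c z => Sum.map (Prod.mk z.1) (Prod.mk z.1) (out c z.2),
    hrk.comp (pt_sigma_mk pt_sigma_fst D.sigma_snd.snd),
    hk.comp (pt_sigma_mk pt_sigma_fst D.sigma_snd.snd),
    hcs.app pt_sigma_fst D.sigma_snd.fst.snd D.sigma_snd.snd, fun m => ?_,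
    ppm_map D.sigma_snd.fst (hout.app pt_sigma_fst D.sigma_snd.snd), ?_, fun c w => ?_⟩
  · have hs := D.sigma_snd (X := fun c => (K.T c × N.T c) ×
      ((K.T c × I.T c) ⊕ (K.T c × N.T c)))
    have h1 := hs.fst.fst
    have h2 := hs.fst.snd
    have h3 := hs.snd
    refine PS.dSum pt_sigma_fst ((I.sum N).pf.comap pt_sigma_fst) (D.ite ?_ ?_ ?_)
    · exact D.eq (ppm_map (h1.comp pt_sigma_fst) D.sigma_snd) (h3.comp pt_sigma_fst)
    · exact (ha m).app (pt_sigma_fst.comp pt_sigma_fst) (h2.comp pt_sigma_fst) D.sigma_snd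
    · exact PS.dZero (pt_sigma_fst.comp pt_sigma_fst)
  · intro c z m z' hne
    obtain ⟨i, -, hi⟩ := Finset.exists_ne_zero_of_sum_ne_zero hne
    have h1 : Sum.map (Prod.mk z.1) (Prod.mk z.1) i = Sum.inr z' := by
      by_contra h0
      exact hi (if_neg h0)
    rw [if_pos h1] at hi
    rcases i with i | i
    · cases h1
    · cases h1
      exact hlt c _ m _ hi
  · choose val h1 h2 using fun κ : K.T c => hv c fun i => w (κ, i)
    have e : ∀ κ : K.T c, (fun i => Sum.elim w (fun z : K.T c × N.T c => val z.1 z.2)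
        (Sum.map (Prod.mk κ) (Prod.mk κ) i)) = Sum.elim (fun i => w (κ, i)) (val κ) :=
      fun κ => funext fun i => by cases i <;> rfl
    refine ⟨fun z => val z.1 z.2, fun z => ?_, fun z => (h2 z.1 z.2).trans (congrFun (e z.1) _).symm⟩
    refine (h1 z.1 z.2).trans ?_
    rw [← e z.1]
    refine (nodeVal_push (k c z.2) (cs c z.2) (a c z.2) (Sum.map (Prod.mk z.1) (Prod.mk z.1))
      (Sum.elim w fun z : K.T c × N.T c => val z.1 z.2)).symm.trans
      (congrArg (fun b => nodeVal _ _ b _) (funext fun m => funext fun u => ?_))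
    exact Finset.sum_congr rfl fun _ _ => by congr

theorem PP.vinr : PP Y (I.sum J) J fun _ j w => w (.inr j) := PP.var (D.inr D.sigma_snd)

theorem PP.linl (hf : PP Y I J f) : PP Y (I.sum K) J fun c j w => f c j fun i => w (.inl i) :=
  PP.wire (I := I.sum K) (x := fun _ i => Sum.inl i) (D.inl D.sigma_snd) hf

theorem PM.app (hg : PM Y I J g) (hf : PP Y I J f) :
    PP Y I J fun c j w h => g c j w h * f c j w h :=
  (((PP.var (x := fun _ i => i) D.sigma_snd).sum_elim hf).subst hg).congr fun _ _ _ => rfl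

theorem PM.pp (hg : PM Y I J g) : PP Y I J g :=
  (hg.app PP.one).congr fun _ _ _ => funext fun _ => (mul_one _).symm

theorem PM.congr (h : PM Y I J f) (e : ∀ c j w, g c j w = f c j w) : PM Y I J g :=
  PP.congr h fun c j w => by rw [e]

theorem PM.const {a : ∀ c, J.T c → Y.F c} (ha : D2 a) : PM Y I J fun c j _ _ => a c j :=
  PP.cmul ha PP.vinr

theorem PM.one : PM Y I J fun _ _ _ _ => 1 := PM.const (PS.dOne pt_sigma_fst)

theorem PM.zero : PM Y I J fun _ _ _ _ => 0 := PM.const (PS.dZero pt_sigma_fst)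

theorem PM.coord {k : ∀ c, J.T c → ℕ} (hk : PT fun z : Σ c, J.T c => k z.1 z.2) :
    PM Y I J fun c j _ h => algebraMap (ZMod l) (Y.F c) (cd (k c j) h) := PP.mx hk PP.vinr

theorem PM.scal (hf : PP Y I J f) : PM Y I J fun c j w _ => ∑ x, f c j w x :=
  PP.nsmul hf.linl PP.vinr

theorem PM.add (hf : PM Y I J f) (hg : PM Y I J g) :
    PM Y I J fun c j w h => f c j w h + g c j w h :=
  (PP.add hf hg).congr fun _ _ _ => funext fun _ => add_mul _ _ _

theorem PM.neg (hf : PM Y I J f) : PM Y I J fun c j w h => - f c j w h :=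
  (PP.neg hf).congr fun _ _ _ => funext fun _ => neg_mul _ _

theorem PM.sub (hf : PM Y I J f) (hg : PM Y I J g) :
    PM Y I J fun c j w h => f c j w h - g c j w h :=
  (PP.sub hf hg).congr fun _ _ _ => funext fun _ => sub_mul _ _ _

theorem PM.subst {g : ∀ c, M.T c → (I.T c → Y.Tab c) → Y.Tab c}
    {f : ∀ c, J.T c → (M.T c → Y.Tab c) → Y.Tab c} (hg : PP Y I M g) (hf : PM Y M J f) :
    PM Y I J fun c j w => f c j fun m => g c m w :=
  ((hg.linl.sum_elim PP.vinr).subst hf).congr fun _ _ _ => rfl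

theorem PM.linl (hf : PM Y I J f) : PM Y (I.sum K) J fun c j w => f c j fun i => w (.inl i) :=
  PM.subst (PP.var (I := I.sum K) (x := fun _ i => Sum.inl i) (D.inl D.sigma_snd)) hf

theorem PM.mul (hf : PM Y I J f) (hg : PM Y I J g) :
    PM Y I J fun c j w h => f c j w h * g c j w h :=
  (PM.app hf.linl hg).congr fun _ _ _ => funext fun _ => mul_assoc _ _ _

theorem PM.pow (hf : PM Y I J f) (t : ℕ) : PM Y I J fun c j w h => f c j w h ^ t := by
  induction t with
  | zero => exact PM.one.congr fun _ _ _ => funext fun _ => pow_zero _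
  | succ t ih => exact (ih.mul hf).congr fun _ _ _ => funext fun _ => pow_succ _ _

theorem PM.reindex (h : PM Y I J f) {x : ∀ c, K.T c → J.T c} (hx : D2 x) :
    PM Y I K fun c k => f c (x c k) := by
  have h1 := PP.wire (I := I.sum K) (x := fun c (z : K.T c × (I.T c ⊕ J.T c)) =>
    Sum.elim (fun i => (Sum.inl i : I.T c ⊕ K.T c)) (fun _ => Sum.inr z.1) z.2)
    (D.sum_elim D.sigma_snd.snd (D.inl D.sigma_snd) (D.inr (D.sigma_snd.fst.comp pt_sigma_fst)))
    (PP.par (K := K) h)
  exact (h1.reindex (x := fun c k => (k, x c k)) (D.pair D.sigma_snd hx)).congr fun _ _ _ => rfl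

theorem PM.sum {f : ∀ c, J.T c → K.T c → (I.T c → Y.Tab c) → Y.Tab c}
    (h : PM Y I (J.prod K) fun c z => f c z.1 z.2) :
    PM Y I J fun c j w h => ∑ k, f c j k w h := by
  have h1 := PP.wire (I := I.sum J) (x := fun c (z : I.T c ⊕ (J.T c × K.T c)) =>
    Sum.elim (fun i => (Sum.inl i : I.T c ⊕ J.T c)) (fun y => Sum.inr y.1) z)
    (D.sum_elim D.sigma_snd (D.inl D.sigma_snd) (D.inr D.sigma_snd.fst)) h
  exact (PP.sum (I := I.sum J) (f := fun c j k w h => f c j k (fun i => w (.inl i)) h * w (.inr j) h) h1).congr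
    fun _ _ _ => funext fun _ => Finset.sum_mul _ _ _

theorem PM.ite {p : ∀ c, J.T c → Prop} [∀ c j, Decidable (p c j)]
    (hp : PT fun z : Σ c, J.T c => p z.1 z.2) (hf : PM Y I J f) (hg : PM Y I J g) :
    PM Y I J fun c j w => if p c j then f c j w else g c j w :=
  (PP.ite hp hf hg).congr fun c j w => by by_cases h : p c j <;> simp only [h, if_true, if_false]

end Vale.Agent.P330Q
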