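import Vale.Agent.P330Q.PPA

/-! Plain programs: substitution. -/

namespace Vale.Agent.P330Q

open Vale.Agent.Lib.PolyTime Vale.Agent.P330 Finset
open scoped Classical BigOperators

variable {C : Type} [Enc C] {l : ℕ} [Fact l.Prime] {Y : PS C l} {I J K M : SF Y.lg}
  {f g : ∀ c, J.T c → (I.T c → Y.Tab c) → Y.Tab c}

theorem PP.subst {g : ∀ c, M.T c → (I.T c → Y.Tab c) → Y.Tab c}
    {f : ∀ c, J.T c → (M.T c → Y.Tab c) → Y.Tab c} (hg : PP Y I M g) (hf : PP Y M J f) :
    PP Y I J fun c j w => f c j fun m => g c m w :=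
  (hg.glue (x := fun _ => .inr) (D.inr D.sigma_snd) hf).reindex (x := fun _ => .inr)
    (D.inr D.sigma_snd)

theorem PP.wire {f : ∀ c, J.T c → (M.T c → Y.Tab c) → Y.Tab c} {x : ∀ c, M.T c → I.T c}
    (hx : D2 x) (hf : PP Y M J f) : PP Y I J fun c j w => f c j fun m => w (x c m) :=
  (PP.var hx).subst hf

end Vale.Agent.P330Q
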