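import Vale.Agent.P330.Ifc

/-! Field families, group families and linear programs over group algebras: definitions. -/

namespace Vale.Agent.P330Q

open Vale.Agent.Lib.PolyTime Vale.Agent.P330 Finset
open scoped Classical BigOperators

/-- A computable family of finite fields of characteristic `l` with a power basis. -/
structure FF (U : Type) [Enc U] (l : ℕ) [Fact l.Prime] : Type 1 where
  F : U → Type
  [fld : ∀ u, Field (F u)]
  [alg : ∀ u, Algebra (ZMod l) (F u)]
  [cod : ∀ u, Enc (F u)]
  m : U → ℕ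
  co : ∀ u, F u ≃ₗ[ZMod l] (Fin (m u) → ZMod l)
  θ : ∀ u, F u
  pt_m : PT m
  pb_m : PB m
  d_co : D2 fun u (x : F u) => (co u x : Fin (m u) → ZMod l)
  d_co' : D2 fun u (x : Fin (m u) → ZMod l) => ((co u).symm x : F u)
  d_mul : D3 fun u (x y : F u) => x * y
  d_θ : D θ
  co_θ : ∀ u (i : Fin (m u)), co u (θ u ^ (i : ℕ)) = Pi.single i 1

attribute [instance] FF.fld FF.alg FF.cod

noncomputable instance FF.fin {U : Type} [Enc U] {l : ℕ} [Fact l.Prime] (Φ : FF U l) (u : U) :
    Fintype (Φ.F u) := Fintype.ofEquiv _ (Φ.co u).toEquiv.symm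

/-- A family of groups with computable operations (the groups may be large). -/
structure GF (U : Type) [Enc U] : Type 1 where
  G : U → Type
  [grp : ∀ u, Group (G u)]
  [cod : ∀ u, Enc (G u)]
  d_one : D fun u => (1 : G u)
  d_mul : D3 fun u (x y : G u) => x * y
  d_inv : D2 fun u (x : G u) => x⁻¹

attribute [instance] GF.grp GF.cod

variable {U : Type} [Enc U] {l : ℕ} [Fact l.Prime]

/-- Change of the base. -/
@[reducible] def FF.comap {B : Type} [Enc B] (Φ : FF U l) (p : B → U) (hp : PT p) : FF B l where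
  F b := Φ.F (p b)
  m b := Φ.m (p b)
  co b := Φ.co (p b)
  θ b := Φ.θ (p b)
  pt_m := Φ.pt_m.comp hp
  pb_m := Φ.pb_m.comp hp
  d_co := Φ.d_co.app (hp.comp pt_sigma_fst) D.sigma_snd
  d_co' := Φ.d_co'.app (hp.comp pt_sigma_fst) D.sigma_snd
  d_mul := Φ.d_mul.app (hp.comp pt_sigma_fst) D.sigma_snd.fst D.sigma_snd.snd
  d_θ := Φ.d_θ.comp hp
  co_θ b := Φ.co_θ (p b)

/-- Change of the base. -/
@[reducible] def GF.comap {B : Type} [Enc B] (Γ : GF U) (p : B → U) (hp : PT p) : GF B where
  G b := Γ.G (p b)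
  d_one := Γ.d_one.comp hp
  d_mul := Γ.d_mul.app (hp.comp pt_sigma_fst) D.sigma_snd.fst D.sigma_snd.snd
  d_inv := Γ.d_inv.app (hp.comp pt_sigma_fst) D.sigma_snd

/-- Computable matrices. -/
abbrev DM {X Y Z : U → Type} [∀ u, Enc (X u)] [∀ u, Enc (Y u)] [∀ u, Enc (Z u)]
    (M : ∀ u, X u → Y u → Z u) : Prop := D3 M

/-- A scalar matrix as a matrix over the group algebra. -/
noncomputable def cst {F J I : Type} [Field F] (G : Type) [Group G] (M : J → I → F) :
    Matrix J I (MonoidAlgebra F G) := fun j i => MonoidAlgebra.single 1 (M j i)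

/-- Linear programs: registers `K`, at time `j` the step `X ↦ A X + B (g X)`. -/
structure Prog (Φ : FF U l) (Γ : GF U) : Type 1 where
  K : Fam U
  L : U → ℕ
  g : ∀ u, ℕ → Γ.G u
  A : ∀ u, ℕ → K.T u → K.T u → Φ.F u
  B : ∀ u, ℕ → K.T u → K.T u → Φ.F u
  pt_L : PT L
  pb_L : PB L
  d_g : D2 (X := fun _ => ℕ) g
  d_A : D2 fun u (z : ℕ × K.T u × K.T u) => A u z.1 z.2.1 z.2.2
  d_B : D2 fun u (z : ℕ × K.T u × K.T u) => B u z.1 z.2.1 z.2.2

variable {Φ : FF U l} {Γ : GF U}

/-- The matrix of one step. -/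
noncomputable def Prog.step (P : Prog Φ Γ) (u : U) (j : ℕ) :
    Matrix (P.K.T u) (P.K.T u) (MonoidAlgebra (Φ.F u) (Γ.G u)) := fun k k' =>
  MonoidAlgebra.single 1 (P.A u j k k') + MonoidAlgebra.single (P.g u j) (P.B u j k k')

/-- The matrix of the first `j` steps. -/
noncomputable def Prog.mat (P : Prog Φ Γ) (u : U) :
    ℕ → Matrix (P.K.T u) (P.K.T u) (MonoidAlgebra (Φ.F u) (Γ.G u))
  | 0 => 1
  | j + 1 => P.step u j * P.mat u j

/-- The program computes the matrices `m`. -/
def Prog.Comp (P : Prog Φ Γ) (J I : Fam U)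
    (m : ∀ u, Matrix (J.T u) (I.T u) (MonoidAlgebra (Φ.F u) (Γ.G u))) : Prop :=
  ∃ (Out : ∀ u, J.T u → P.K.T u → Φ.F u) (In : ∀ u, P.K.T u → I.T u → Φ.F u), DM Out ∧ DM In ∧
    ∀ u, m u = cst (Γ.G u) (Out u) * P.mat u (P.L u) * cst (Γ.G u) (In u)

/-- All steps of the program use the generators `gen`. -/
def Prog.Gen (P : Prog Φ Γ) {Bt : Type} [Enc Bt] (gen : ∀ u, Bt → Γ.G u) : Prop :=
  ∃ b : U → ℕ → Bt, PT (fun z : U × ℕ => b z.1 z.2) ∧ ∀ u j, P.g u j = gen u (b u j)

/-- Matrices over the group algebra that have a linear program. -/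
def Prg (Φ : FF U l) (Γ : GF U) (J I : Fam U)
    (m : ∀ u, Matrix (J.T u) (I.T u) (MonoidAlgebra (Φ.F u) (Γ.G u))) : Prop :=
  ∃ P : Prog Φ Γ, P.Comp J I m

/-- The group algebra acts on words: `(g w)(x) = w (g⁻¹ x)`. -/
noncomputable def act {F G X : Type} [Field F] [Group G] [MulAction G X]
    (a : MonoidAlgebra F G) (w : X → F) (x : X) : F := a.coeff.sum fun g t => t * w (g⁻¹ • x)

/-- A matrix over the group algebra acts on tuples of words. -/
noncomputable def actM {F G X J I : Type} [Field F] [Group G] [MulAction G X] [Fintype I]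
    (m : Matrix J I (MonoidAlgebra F G)) (w : I → X → F) (j : J) (x : X) : F :=
  ∑ i, act (m j i) (w i) x

/-- Extension of scalars of a code. -/
def extC {k S : Type} [Field k] (F : Type) [Field F] [Algebra k F] (C0 : Submodule k (S → k)) :
    Submodule F (S → F) where
  carrier := {v | ∀ φ : F →ₗ[k] k, (fun s => φ (v s)) ∈ C0}
  add_mem' {a b} ha hb φ := by
    simp only [Pi.add_apply, map_add]
    exact C0.add_mem (ha φ) (hb φ)
  zero_mem' φ := by
    simp only [Pi.zero_apply, map_zero]
    exact C0.zero_mem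
  smul_mem' t v hv φ := hv (φ.comp (LinearMap.mulLeft k t))

/-- A code with scaled coordinates. -/
def twC {F S : Type} [Field F] (C : Submodule F (S → F)) (ω : S → F) : Submodule F (S → F) where
  carrier := {v | (fun s => ω s * v s) ∈ C}
  add_mem' {a b} ha hb := by
    simp only [Set.mem_ofPred_eq, Pi.add_apply, mul_add]
    exact C.add_mem ha hb
  zero_mem' := by
    simp only [Set.mem_ofPred_eq, Pi.zero_apply, mul_zero]
    exact C.zero_mem
  smul_mem' t v hv := by
    simp only [Set.mem_ofPred_eq, Pi.smul_apply, smul_eq_mul, mul_left_comm (ω _) t]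
    exact C.smul_mem t hv

/-- Tanner codes with different codes on the two sides. -/
def tcode2 {F S G : Type} [Field F] (CL CR : Submodule F (S → F)) (nb : S → Equiv.Perm G) :
    Set (G × S → F) :=
  {y | (∀ g, (fun s => y (g, s)) ∈ CL) ∧ ∀ h, (fun s => y ((nb s)⁻¹ h, s)) ∈ CR}

/-- The left local code. -/
noncomputable def codeL {k F S : Type} [Field k] [Field F] [Algebra k F]
    (C0 : Submodule k (S → k)) (sd : S → Bool) (θ : F) : Submodule F (S → F) :=
  twC (extC F C0) fun s => if sd s then θ else 1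

/-- The right local code. -/
noncomputable def codeR {k F S : Type} [Field k] [Field F] [Algebra k F]
    (C0 : Submodule k (S → k)) (sd : S → Bool) (θ : F) : Submodule F (S → F) :=
  twC (extC F C0) fun s => if sd s then 1 else θ

/-- Both halves of the ports are almost information sets: `E b` completes a word given on the
half `b`, and `ζ` restricted to the other half is a codeword. -/
def Halves {k S : Type} [Field k] [Fintype S] (C0 : Submodule k (S → k)) (sd : S → Bool)
    (E : Bool → S → S → k) (ζ : S → k) : Prop :=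
  (∀ s, ζ s ≠ 0) ∧ ∀ b, (fun s => if sd s = b then 0 else ζ s) ∈ C0 ∧
    ∀ t, sd t = b → (fun s => if sd s = b then (if s = t then 1 else 0) else E b s t) ∈ C0

/-- The elementary abelian group of rank `r`. -/
abbrev HA (l r : ℕ) : Type := Multiplicative (Fin r → ZMod l)

instance encHA {r : ℕ} : Enc (HA l r) := Enc.pull Multiplicative.toAdd Multiplicative.toAdd.injective

/-- Multiplication by the coordinate `i`, a derivation of the group algebra. -/
noncomputable def der {F : Type} [Field F] [Algebra (ZMod l) F] {r : ℕ} (i : Fin r)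
    (a : MonoidAlgebra F (HA l r)) : MonoidAlgebra F (HA l r) :=
  a.coeff.sum fun h t => MonoidAlgebra.single h (algebraMap (ZMod l) F (h.toAdd i) * t)

/-- The sum of the coefficients. -/
noncomputable def aug {F G : Type} [Field F] [Group G] (a : MonoidAlgebra F G) : F :=
  a.coeff.sum fun _ t => t

/-- A lift of a graph on `Ty` with voltages in a commutative group. -/
def liftP {H Ty S : Type} [CommGroup H] (a : Ty → S → H) (ν : S → Equiv.Perm Ty) (s : S) :
    Equiv.Perm (H × Ty) where
  toFun x := (x.1 * a x.2 s, ν s x.2)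
  invFun x := (x.1 * (a ((ν s)⁻¹ x.2) s)⁻¹, (ν s)⁻¹ x.2)
  left_inv x := by simp
  right_inv x := by simp

/-- The word `w * c`. -/
noncomputable def encW {F H Ty S : Type} [Field F] [Group H] (c : Ty × S → MonoidAlgebra F H)
    (w : MonoidAlgebra F H) (x : (H × Ty) × S) : F := (w * c (x.1.2, x.2)).coeff x.1.1

end Vale.Agent.P330Q
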