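import Vale.Agent.P330Q.BcDefs
import Vale.Agent.P330Q.PPD
import Vale.Agent.P330Q.PrgS

/-! Worlds, block programs and cell encodings: definitions and interfaces. -/

namespace Vale.Agent.P330Q

open Vale.Agent.Lib.PolyTime Vale.Agent.P330 Finset
open scoped Classical BigOperators

variable {C : Type} [Enc C] {l : ℕ} [Fact l.Prime]

/-- Initial segments over the unary context. -/
@[reducible] def FinU : Fam (List Unit) :=
  Fam.ofFin List.length (PT.length PT.id) (PT.pb_length PT.id)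

/-- A numbering of a small family. -/
structure Ix (lg : C → ℕ) (V : Fam C) : Type where
  p : C → List Unit
  hp : PT p
  pl : Pl lg fun c => sz (p c)
  e : ∀ c, V.T c ≃ Fin (p c).length
  d_e : D2 (Y := fun c => Fin (p c).length) fun c v => e c v
  d_e' : D2 (X := fun c => Fin (p c).length) fun c i => (e c).symm i

/-- The positions of the cell code of a numbered family. -/
@[reducible] def Ix.X {lg : C → ℕ} {V : Fam C} {δ : ℝ} (N : Ix lg V) (Z : Cell l δ FinU) : Fam C :=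
  Z.X.comap N.p N.hp

/-- The generator matrix of the cell code of a numbered family. -/
def Ix.gen {lg : C → ℕ} {V : Fam C} {δ : ℝ} (N : Ix lg V) (Z : Cell l δ FinU) (c : C)
    (x : (N.X Z).T c) (v : V.T c) : ZMod l := Z.gen (N.p c) x (N.e c v)

/-- Owner h45: numberings exist, cells are small and have distance `4 δ`. -/
def IxS (l : ℕ) [Fact l.Prime] (δ : ℝ) : Prop :=
  ∀ (C : Type) [Enc C] (lg : C → ℕ) (V : Fam C),
    (PB lg → Pl lg (fun c => Fintype.card (V.T c)) → Nonempty (Ix lg V)) ∧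
    ∀ (N : Ix lg V) (Z : Cell l δ FinU), Pl lg (fun c => Fintype.card ((N.X Z).T c)) ∧
      PT (fun z : Σ c, (N.X Z).T c × V.T c => N.gen Z z.1 z.2.1 z.2.2) ∧
      ∀ c w w', w ≠ w' → 4 * δ ≤ hd (cw (N.gen Z c) w) (cw (N.gen Z c) w')

/-- Owner h45: polynomial maps of tuples of cells, families over `C`. -/
def CMapS (l : ℕ) [Fact l.Prime] (δ : ℝ) : Prop :=
  ∀ (d : ℕ) (C : Type) [Enc C] (a lg : C → ℕ), PB lg → ∀ (V : Fam C) (J : SF lg) (N : Ix lg V)
    (Z : Cell l δ FinU) (A : Type) [Fintype A] [Enc A] [Nonempty A] (I : Reg C) (O : Fam C)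
    (R : Arr l a lg N.p Z A I O)
    (f : ∀ c, O.T c → J.T c → (A × V.T c → ZMod l) → ZMod l), (∀ c, Nonempty (J.T c)) →
    Pol d ((Fam.const C A).prod V) (O.prod J.toFam) (fun c z => f c z.1 z.2) → ∀ η : ℝ, 0 < η →
    ImplS (ZMod l) a lg I (.of (O.prod J.toFam)) fun c x y =>
      ∀ w : O.T c → A × V.T c → ZMod l,
        du y (fun z => f c z.1 z.2 (w z.1)) ≤ η + fr (O.T c) fun o =>
          ∃ i, δ < du (fun ξ => x (R.sl c o i ξ)) (cw (N.gen Z c) fun v => w o (i, v))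

/-- Owner h45: tests of polynomial relations between tuples of cells, families over `C`. -/
def CTestS (l : ℕ) [Fact l.Prime] (δ : ℝ) : Prop :=
  ∀ (d : ℕ) (C : Type) [Enc C] (a lg : C → ℕ), PB lg → ∀ (V : Fam C) (E : SF lg) (N : Ix lg V)
    (Z : Cell l δ FinU) (A : Type) [Fintype A] [Enc A] [Nonempty A] (I : Reg C) (O : Fam C)
    (R : Arr l a lg N.p Z A I O)
    (f : ∀ c, O.T c → E.T c → (A × V.T c → ZMod l) → ZMod l),
    Pol d ((Fam.const C A).prod V) (O.prod E.toFam) (fun c z => f c z.1 z.2) →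
    ∀ δ' β : ℝ, 0 < δ' → 0 < β →
    ∃ v1 : ℝ, 0 < v1 ∧ ∀ v0 : ℝ, 0 < v0 → ∃ η : ℝ, 0 < η ∧ ImplRS (ZMod l) a lg I fun c x T =>
      (T < v1 → fr (O.T c) (fun o => ∀ w : A × V.T c → ZMod l, (∀ e, f c o e w = 0) →
        ∃ i, δ' < du (fun ξ => x (R.sl c o i ξ)) (cw (N.gen Z c) fun v => w (i, v))) ≤ β) ∧
      ∀ w : O.T c → A × V.T c → ZMod l, (∀ o e, f c o e (w o) = 0) →
        fr (O.T c) (fun o =>
          ∃ i, η < du (fun ξ => x (R.sl c o i ξ)) (cw (N.gen Z c) fun v => w o (i, v))) ≤ η →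
        T ≤ v0

/-- Quadratic polynomials over a field family with computable coefficients. -/
def QF (Φ : FF C l) (V J : Fam C) (f : ∀ c, J.T c → (V.T c → Φ.F c) → Φ.F c) : Prop :=
  ∃ φ : ∀ c, J.T c → Option (V.T c) → Option (V.T c) → Φ.F c,
    D3 (fun c j (m : Option (V.T c) × Option (V.T c)) => φ c j m.1 m.2) ∧
    ∀ c j w, f c j w = qf (φ c j) w

/-- The coordinates of the field. -/
@[reducible] def FF.Co (Φ : FF C l) : Fam C := Fam.ofFin Φ.m Φ.pt_m Φ.pb_m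

/-- Owner h45: quadratic polynomials in coordinates. -/
def QFS (l : ℕ) [Fact l.Prime] : Prop :=
  ∀ (C : Type) [Enc C] (Φ : FF C l) (V J : Fam C) (f : ∀ c, J.T c → (V.T c → Φ.F c) → Φ.F c),
    QF Φ V J f → Pol 2 (V.prod Φ.Co) (J.prod Φ.Co) fun c z w =>
      Φ.co c (f c z.1 fun v => (Φ.co c).symm fun t => w (v, t)) z.2

/-- A world: fields and tables `P`, an expander family with ports `S`, moves `π` of the positions
and two systematic local codes. -/
structure World (C : Type) [Enc C] (l : ℕ) [Fact l.Prime] (a : C → ℕ) (S B : Type) [Fintype S]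
    [Enc S] (δ0 lam : ℝ) : Type 1 where
  P : PS C l
  Y : TSys C S lam
  π : ∀ c, B → Equiv.Perm (Y.G.T c × S)
  C0 : Bool → Submodule (ZMod l) (S → ZMod l)
  ck : Bool → S → Prop
  good : TanGood δ0 lam S
  dist : ∀ b, Dist0 (C0 b) δ0
  d_π : ∀ i, D2 fun c x => π c i x
  szG : Sz a P.lg fun c => Fintype.card (Y.G.T c)
  plm : Pl P.lg P.Φ.m
  θ0 : ∀ c, P.Φ.θ c ≠ 0

namespace World
variable {a : C → ℕ} {S B : Type} [Fintype S] [Enc S] [Fintype B] [Enc B] {δ0 lam : ℝ}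
  (W : World C l a S B δ0 lam)

/-- Positions. -/
abbrev Ps (c : C) : Type := W.Y.G.T c × S

/-- Words. -/
abbrev Wd (c : C) : Type := W.Ps c → W.P.F c

/-- The local codes over the big field. -/
noncomputable def loc (c : C) (b : Bool) : Submodule (W.P.F c) (S → W.P.F c) :=
  thC (W.C0 b) (W.ck b) (W.P.Φ.θ c)

/-- The outer code. -/
def T (c : C) : Set (W.Wd c) := tcode2 (W.loc c false) (W.loc c true) (W.Y.nb c)

/-- The variables of a cell with lanes `K`. -/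
@[reducible] def CV (K : SF W.P.lg) : Fam C := K.toFam.prod W.P.Φ.Co

/-- The content of the cell at the position `x`. -/
def cell {K : Type} {c : C} (y : K → W.Wd c) (x : W.Ps c) (v : K × Fin (W.P.Φ.m c)) : ZMod l :=
  W.P.Φ.co c (y v.1 x) v.2

/-- The cell encoding of a tuple of words. -/
noncomputable def benc {δ : ℝ} {K : SF W.P.lg} (N : Ix W.P.lg (W.CV K)) (Z : Cell l δ FinU)
    {c : C} (y : K.T c → W.Wd c) : W.Ps c × (N.X Z).T c → ZMod l :=
  cells (N.gen Z c) (W.cell y)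

/-- The run of a block program. -/
noncomputable def brun {V : Type} [Fintype V] {c : C}
    (φ : ℕ → W.Ps c → V → Option (B × V) → Option (B × V) → W.P.F c) (y : V → W.Wd c) :
    ℕ → V → W.Wd c
  | 0 => y
  | t + 1 => fun v x => qf (φ t x v) fun z => brun φ y t z.2 (W.π c z.1 x)

/-- Block programs: local quadratic steps between tuples of codewords that lead from the input
`i c s` to the output `o c s`. -/
def BP (I O : SF W.P.lg) (A : C → Type) (i : ∀ c, A c → I.T c → W.Wd c)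
    (o : ∀ c, A c → O.T c → W.Wd c) : Prop :=
  ∃ (V : SF W.P.lg) (r : C → ℕ)
    (φ : ∀ c, ℕ → W.Ps c → V.T c → Option (B × V.T c) → Option (B × V.T c) → W.P.F c)
    (inn : ∀ c, V.T c → Option (I.T c)) (out : ∀ c, O.T c → V.T c),
    PT r ∧ Pl W.P.lg r ∧
    D3 (fun c (z : ℕ × W.Ps c × V.T c) (m : Option (B × V.T c) × Option (B × V.T c)) =>
      φ c z.1 z.2.1 z.2.2 m.1 m.2) ∧ D2 inn ∧ D2 out ∧
    ∀ c s, (∀ t ≤ r c, ∀ v, W.brun (φ c) (fun v => (inn c v).elim 0 (i c s)) t v ∈ W.T c) ∧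
      ∀ k, o c s k = W.brun (φ c) (fun v => (inn c v).elim 0 (i c s)) (r c) (out c k)

/-- Linear programs: at time `t` all registers use the move `b t`, which preserves the code. -/
def LP (I O : SF W.P.lg) (m : ∀ c, (I.T c → W.Wd c) → O.T c → W.Wd c) : Prop :=
  ∃ (K : SF W.P.lg) (L : C → ℕ) (b : C → ℕ → B) (A₀ A₁ : ∀ c, ℕ → K.T c → K.T c → W.P.F c)
    (In : ∀ c, K.T c → I.T c → W.P.F c) (Out : ∀ c, O.T c → K.T c → W.P.F c),
    PT L ∧ Pl W.P.lg L ∧ PT (fun z : C × ℕ => b z.1 z.2) ∧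
    D2 (fun c (z : ℕ × K.T c × K.T c) => A₀ c z.1 z.2.1 z.2.2) ∧
    D2 (fun c (z : ℕ × K.T c × K.T c) => A₁ c z.1 z.2.1 z.2.2) ∧ D3 In ∧ D3 Out ∧
    (∀ c t, ∀ y ∈ W.T c, (fun x => y (W.π c (b c t) x)) ∈ W.T c) ∧
    ∀ c y o x, m c y o x = ∑ k, Out c o k * itr (fun t (X : K.T c → W.Wd c) k x =>
      ∑ k', (A₀ c t k k' * X k' x + A₁ c t k k' * X k' (W.π c (b c t) x)))
        (fun k x => ∑ i, In c k i * y i x) (L c) k x

end World

/-- Owner h45 (from `BigChainThm`, `CellMapThm`): block programs are implemented. -/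
def ChainS (l : ℕ) [Fact l.Prime] (δ : ℝ) : Prop :=
  ∀ (d : ℕ) (C S B : Type) [Enc C] [Fintype S] [Enc S] [Fintype B] [Enc B] (δ0 lam : ℝ) (a : C → ℕ)
    (W : World C l a S B δ0 lam) (I O J : SF W.P.lg) (N : Ix W.P.lg (W.CV I)) (Z : Cell l δ FinU)
    (A : C → Type) (i : ∀ c, A c → I.T c → W.Wd c) (o : ∀ c, A c → O.T c → W.Wd c)
    (f : ∀ c, W.Ps c × J.T c → ((W.CV O).T c → ZMod l) → ZMod l),
    W.BP I O A i o → (∀ c, Nonempty (J.T c)) → Pol d (W.CV O) (W.Y.Pos.prod J.toFam) f →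
    ∀ η : ℝ, 0 < η →
    ImplS (ZMod l) a W.P.lg (.of (W.Y.Pos.prod (N.X Z))) (.of (W.Y.Pos.prod J.toFam)) fun c x y =>
      ∀ s, du x (W.benc N Z (i c s)) ≤ δ ^ 2 * δ0 ^ 2 / 256 →
        du y (fun z => f c z (W.cell (o c s) z.1)) ≤ η

/-- Owner h77 (from `TwDecThm`, `SSS2`): distance and decoding of cell encodings. -/
def DecS (l : ℕ) [Fact l.Prime] (δ : ℝ) : Prop :=
  ∀ (C S B : Type) [Enc C] [Fintype S] [Enc S] (δ0 lam : ℝ) (a : C → ℕ)
    (W : World C l a S B δ0 lam),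
    (∀ c, ∀ y ∈ W.T c, y ≠ 0 → δ0 ^ 2 / 8 ≤ fr (W.Ps c) fun x => y x ≠ 0) ∧
    ∀ (K : SF W.P.lg) (N : Ix W.P.lg (W.CV K)) (Z : Cell l δ FinU),
    (∀ c (y y' : K.T c → W.Wd c), (∀ k, y k ∈ W.T c) → (∀ k, y' k ∈ W.T c) → y ≠ y' →
      δ * δ0 ^ 2 / 2 ≤ hd (W.benc N Z y) (W.benc N Z y')) ∧
    ∀ (B' : Type) [Enc B'] (q : B' → C) (u : ∀ b, W.Ps (q b) × (N.X Z).T (q b) → ZMod l), PT q →
      PT (fun z : Σ b, W.Ps (q b) × (N.X Z).T (q b) => u z.1 z.2) →
      ∃ v : ∀ b, K.T (q b) → W.Wd (q b), D3 v ∧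
        ∀ b (y : K.T (q b) → W.Wd (q b)), (∀ k, y k ∈ W.T (q b)) →
          hd (u b) (W.benc N Z y) ≤ δ * δ0 ^ 2 / 128 → v b = y

/-- The memory structure of a world: tables are encoded by `E`, positions are pairs of a cell
and a type, and the basic operations have linear programs. -/
structure Mem {a : C → ℕ} {S B : Type} [Fintype S] [Enc S] [Fintype B] [Enc B] {δ0 lam : ℝ}
    (W : World C l a S B δ0 lam) : Type 1 where
  Ty : SF W.P.lg
  e : ∀ c, W.Y.G.T c ≃ W.P.H c × Ty.T c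
  d_e : D2 fun c g => e c g
  d_e' : D2 fun c z => (e c).symm z
  /-- a free port -/
  s0 : S
  /-- the move that reads the port `s0` from the port `s` -/
  rd : S → B
  rd_eq : ∀ c g s, W.π c (rd s) (g, s) = (g, s0)
  b1 : B
  b1_eq : ∀ c x, W.π c b1 x = x
  E : ∀ c, W.P.Tab c →ₗ[W.P.F c] W.Wd c
  E_mem : ∀ c u, E c u ∈ W.T c
  E_free : ∀ c u g, E c u (g, s0) = u (e c g).1
  d_E : ∀ (B' : Type) [Enc B'] (q : B' → C) (u : ∀ b, W.P.Tab (q b)), PT q → D2 u →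
    D2 fun b => E (q b) (u b)
  ε : ∀ c, Ty.T c × S → W.P.F c
  d_ε : D2 ε
  E_const : ∀ c t g s, E c (fun _ => t) (g, s) = t * ε c ((e c g).2, s)
  /-- translation, norm, derivation lanes and multiplication by the entries of `c` -/
  sh : ∀ c, W.Wd c → Fin (W.P.n c) → W.Wd c
  nm : ∀ c, W.Wd c → W.Wd c
  dl : ∀ c, W.Wd c → Fin (W.P.n c) × Ty.T c × S → W.Wd c
  cq : ∀ c, W.Wd c → Ty.T c × S → W.Wd c
  lp_sh : W.LP (.const _ Unit) W.P.co fun c y => sh c (y ())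
  lp_nm : W.LP (.const _ Unit) (.const _ Unit) fun c y _ => nm c (y ())
  lp_dl : W.LP (.const _ Unit) (W.P.co.prod (Ty.prod (.const _ S))) fun c y => dl c (y ())
  lp_cq : W.LP (.const _ Unit) (Ty.prod (.const _ S)) fun c y => cq c (y ())
  sh_E : ∀ c u k, sh c (E c u) k = E c fun h => u (h + ee k)
  nm_E : ∀ c u, nm c (E c u) = E c fun _ => ∑ h, u h
  dl_E : ∀ c u (k : Fin (W.P.n c)) g s,
    E c (fun h => algebraMap (ZMod l) _ (h k) * u h) (g, s) =
      algebraMap (ZMod l) _ ((e c g).1 k) * E c u (g, s) - dl c (E c u) (k, (e c g).2, s) (g, s0)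
  /-- the rank one test -/
  cq_eq : ∀ c y h k s k', cq c y (k, s) ((e c).symm (h, k'), s0) =
    E c (fun h' => y ((e c).symm (h', k'), s0)) ((e c).symm (h, k), s)

/-- The left-right structure of a world: every codeword `y` is the slice `a0` of a word
`κ y` of a locally testable code with column checks `chk`. -/
structure Lr {a : C → ℕ} {S B : Type} [Fintype S] [Enc S] [Fintype B] [Enc B] {δ0 lam : ℝ}
    (W : World C l a S B δ0 lam) (A R : Type) [Fintype A] [Enc A] : Type 1 where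
  a0 : A
  lf : ∀ c, A → Equiv.Perm (W.Y.G.T c)
  d_lf : ∀ i, D2 fun c g => lf c i g
  chk : ∀ c, Bool → R → A → W.P.F c
  d_chk : ∀ b r i, D fun c => chk c b r i
  κ : ∀ c, W.Wd c → A → W.Wd c
  lp_κ : W.LP (.const _ Unit) (.const _ A) fun c y => κ c (y ())
  κ0 : ∀ c y, κ c y a0 = y
  col0 : ∀ c y r x, ∑ i, chk c false r i * κ c y i x = 0
  col1 : ∀ c y r g s, ∑ i, chk c true r i * κ c y i (lf c i g, s) = 0
  K0 : ℝ
  K0_pos : 0 < K0
  sound : ∀ c (K : Type) (f : K → A → W.Wd c) (β : ℝ),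
    fr (W.Y.G.T c) (fun g => ∃ k i, (fun s => f k i (g, s)) ∉ W.loc c false) ≤ β →
    fr (W.Y.G.T c) (fun g => ∃ k i, (fun s => f k i ((W.Y.nb c s)⁻¹ g, s)) ∉ W.loc c true) ≤ β →
    fr (W.Ps c) (fun x => ∃ k r, ∑ i, chk c false r i * f k i x ≠ 0) ≤ β →
    fr (W.Ps c) (fun x => ∃ k r, ∑ i, chk c true r i * f k i (lf c i x.1, x.2) ≠ 0) ≤ β →
    ∃ y : K → W.Wd c, (∀ k, y k ∈ W.T c) ∧ fr (W.Ps c) (fun x => ∃ k, f k a0 x ≠ y k x) ≤ K0 * β

/-- Owners h52 (assembly, `Mem`, `κ`), h88 (group), h42 (local code), h20 (`Lr.sound`). -/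
def WorldThm : Prop :=
  ∀ l0 : ℕ, ∃ (l : ℕ) (_ : Fact l.Prime), l0 ≤ l ∧
    ∃ (S B A R : Type) (_ : Fintype S) (_ : Enc S) (_ : Fintype B) (_ : Enc B) (_ : Fintype A)
      (_ : Enc A) (_ : Fintype R) (_ : Enc R) (δ0 lam : ℝ),
    ∀ (C : Type) [Enc C] (a lg n0 : C → ℕ), PT n0 → PB (fun c => l ^ n0 c) → PB lg →
      Sz a lg (fun c => l ^ n0 c) → Pl lg n0 → ∃ W : World C l a S B δ0 lam, W.P.lg = lg ∧ (∀ c, n0 c ≤ W.P.n c) ∧
        Nonempty (Mem W) ∧ Nonempty (Lr W A R)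

/-- Owner h55: linear programs (tensored with a family of lanes) are block programs. -/
def LPBP (l : ℕ) [Fact l.Prime] : Prop :=
  ∀ (C S B : Type) [Enc C] [Fintype S] [Enc S] [Fintype B] [Enc B] (δ0 lam : ℝ) (a : C → ℕ)
    (W : World C l a S B δ0 lam) (b1 : B), (∀ c x, W.π c b1 x = x) →
    ∀ (L I O : SF W.P.lg) (m : ∀ c, (I.T c → W.Wd c) → O.T c → W.Wd c), W.LP I O m →
      (∀ c y, (∀ i, y i ∈ W.T c) → ∀ o, m c y o ∈ W.T c) ∧
      W.BP (L.prod I) (L.prod O) (fun c => {y : L.T c × I.T c → W.Wd c // ∀ k, y k ∈ W.T c})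
        (fun _ y => y.1) fun c y z => m c (fun i => y.1 (z.1, i)) z.2

/-- Owner h55: plain programs are block programs. -/
def PPBP (l : ℕ) [Fact l.Prime] : Prop :=
  ∀ (C S B : Type) [Enc C] [Fintype S] [Enc S] [Fintype B] [Enc B] (δ0 lam : ℝ) (a : C → ℕ)
    (W : World C l a S B δ0 lam) (M : Mem W) (I O : SF W.P.lg)
    (f : ∀ c, O.T c → (I.T c → W.P.Tab c) → W.P.Tab c), PP W.P I O f →
    W.BP I O (fun c => I.T c → W.P.Tab c) (fun c w i => M.E c (w i)) fun c w o => M.E c (f c o w)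

end Vale.Agent.P330Q
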