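import Vale.Agent.P330Q.QD
import Vale.Agent.P330Q.PPF

/-! Affine and quadratic forms over a field family with computable coefficients. -/

namespace Vale.Agent.P330Q

open Vale.Agent.Lib.PolyTime Vale.Agent.P330 Finset
open scoped Classical BigOperators

variable {C : Type} [Enc C] {l : ℕ} [Fact l.Prime]

/-- Affine forms with computable coefficients. -/
def AG (Y : PS C l) (V : Fam C) {J : C → Type} [∀ c, Enc (J c)]
    (f : ∀ c, J c → (V.T c → Y.F c) → Y.F c) : Prop :=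
  ∃ a : ∀ c, J c → Option (V.T c) → Y.F c, D3 a ∧ ∀ c j w, f c j w = ∑ o, a c j o * ev w o

/-- Quadratic forms with computable coefficients. -/
def QG (Y : PS C l) (V : Fam C) {J : C → Type} [∀ c, Enc (J c)]
    (f : ∀ c, J c → (V.T c → Y.F c) → Y.F c) : Prop :=
  ∃ φ : ∀ c, J c → Option (V.T c) → Option (V.T c) → Y.F c,
    D3 (fun c j (m : Option (V.T c) × Option (V.T c)) => φ c j m.1 m.2) ∧
    ∀ c j w, f c j w = qf (φ c j) w

variable {Y : PS C l} {V V' : Fam C} {J K : C → Type} [∀ c, Enc (J c)] [∀ c, Enc (K c)]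
  {f g : ∀ c, J c → (V.T c → Y.F c) → Y.F c}

theorem AG.congr (h : AG Y V f) (e : ∀ c j w, g c j w = f c j w) : AG Y V g := by
  obtain ⟨a, h1, h2⟩ := h
  exact ⟨a, h1, fun c j w => (e c j w).trans (h2 c j w)⟩

theorem AG.ev {x : ∀ c, J c → Option (V.T c)} (hx : D2 x) :
    AG Y V fun c j w => ev w (x c j) :=
  ⟨fun c j o => if o = x c j then 1 else 0,
    D.ite (D.eq D.s2 (hx.app pt_sigma_fst D.s1)) (PS.dOne pt_sigma_fst) (PS.dZero pt_sigma_fst),
    fun c j w => by simp⟩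

theorem AG.var {x : ∀ c, J c → V.T c} (hx : D2 x) : AG Y V fun c j w => w (x c j) :=
  (AG.ev (x := fun c j => some (x c j)) (D.some hx)).congr fun _ _ _ => rfl

theorem AG.add (h : AG Y V f) (h' : AG Y V g) : AG Y V fun c j w => f c j w + g c j w := by
  obtain ⟨a, h1, h2⟩ := h
  obtain ⟨b, h3, h4⟩ := h'
  refine ⟨fun c j o => a c j o + b c j o, PS.dAdd pt_sigma_fst h1 h3, fun c j w => ?_⟩
  simp only [h2, h4, add_mul, sum_add_distrib]

theorem AG.cmul {t : ∀ c, J c → Y.F c} (ht : D2 t) (h : AG Y V f) :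
    AG Y V fun c j w => t c j * f c j w := by
  obtain ⟨a, h1, h2⟩ := h
  refine ⟨fun c j o => t c j * a c j o,
    PS.dMul pt_sigma_fst (ht.app pt_sigma_fst D.s1) h1, fun c j w => ?_⟩
  simp only [h2, mul_sum, mul_assoc]

theorem AG.const {t : ∀ c, J c → Y.F c} (ht : D2 t) : AG Y V fun c j _ => t c j :=
  ((AG.ev (x := fun _ _ => none) D.none).cmul ht).congr fun _ _ _ => (mul_one _).symm

theorem AG.zero : AG Y V fun c (_ : J c) _ => 0 := AG.const (PS.dZero pt_sigma_fst)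

theorem AG.sub (h : AG Y V f) (h' : AG Y V g) : AG Y V fun c j w => f c j w - g c j w :=
  (h.add (h'.cmul (t := fun _ _ => -1) (PS.dNeg pt_sigma_fst (PS.dOne pt_sigma_fst)))).congr
    fun _ _ _ => by ring

theorem AG.comp (h : AG Y V f) {x : ∀ c, K c → J c} (hx : D2 x) :
    AG Y V fun c k w => f c (x c k) w := by
  obtain ⟨a, h1, h2⟩ := h
  exact ⟨fun c k o => a c (x c k) o, h1.app pt_sigma_fst (hx.app pt_sigma_fst D.s1) D.s2,
    fun c k w => h2 c _ w⟩

theorem AG.sum [∀ c, Fintype (K c)] (hK : PFam K) {f : ∀ c, J c → K c → (V.T c → Y.F c) → Y.F c}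
    (h : AG Y V fun c (z : J c × K c) w => f c z.1 z.2 w) :
    AG Y V fun c j w => ∑ k, f c j k w := by
  obtain ⟨a, h1, h2⟩ := h
  refine ⟨fun c j o => ∑ k, a c (j, k) o, ?_, fun c j w => ?_⟩
  · exact PS.dSum pt_sigma_fst (hK.comap (B := Σ c, J c × Option (V.T c)) pt_sigma_fst)
      (f := fun z k => a z.1 (z.2.1, k) z.2.2)
      (h1.app (pt_sigma_fst.comp pt_sigma_fst) (D.pair (D.s1.comp pt_sigma_fst) D.sigma_snd)
        (D.s2.comp pt_sigma_fst))
  · have e : ∀ k, f c j k w = ∑ o, a c (j, k) o * P330.ev w o := fun k => h2 c (j, k) w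
    simp only [e, sum_mul]
    exact sum_comm

/-- A variable or zero. -/
theorem AG.ovar {x : ∀ c, J c → Option (K c)} {y : ∀ c, K c → V.T c} (hx : D2 x) (hy : D2 y) :
    AG Y V fun c j w => (x c j).elim 0 fun k => w (y c k) :=
  ((AG.ev (x := fun c j => (x c j).map (y c))
    (D.f_option_map hx (hy.app (pt_sigma_fst.comp pt_sigma_fst) D.sigma_snd))).cmul
    (t := fun c j => (x c j).elim 0 fun _ => 1)
    (D.option_elim hx (PS.dZero pt_sigma_fst) (PS.dOne (pt_sigma_fst.comp pt_sigma_fst)))).congr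
    fun c j w => by cases x c j <;> simp [P330.ev]

theorem QG.congr (h : QG Y V f) (e : ∀ c j w, g c j w = f c j w) : QG Y V g := by
  obtain ⟨a, h1, h2⟩ := h
  exact ⟨a, h1, fun c j w => (e c j w).trans (h2 c j w)⟩

theorem AG.mul (h : AG Y V f) (h' : AG Y V g) : QG Y V fun c j w => f c j w * g c j w := by
  obtain ⟨a, h1, h2⟩ := h
  obtain ⟨b, h3, h4⟩ := h'
  refine ⟨fun c j o o' => a c j o * b c j o', PS.dMul pt_sigma_fst
    (h1.app pt_sigma_fst D.s1 D.s2.fst) (h3.app pt_sigma_fst D.s1 D.s2.snd), fun c j w => ?_⟩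
  simp only [h2, h4, qf, sum_mul_sum]
  exact sum_congr rfl fun _ _ => sum_congr rfl fun _ _ => by ring

theorem AG.qg (h : AG Y V f) : QG Y V f :=
  (h.mul (AG.const (t := fun _ _ => 1) (PS.dOne pt_sigma_fst))).congr fun _ _ _ => (mul_one _).symm

theorem QG.zero : QG Y V fun c (_ : J c) _ => 0 := AG.zero.qg

theorem QG.add (h : QG Y V f) (h' : QG Y V g) : QG Y V fun c j w => f c j w + g c j w := by
  obtain ⟨a, h1, h2⟩ := h
  obtain ⟨b, h3, h4⟩ := h'
  refine ⟨fun c j o o' => a c j o o' + b c j o o', PS.dAdd pt_sigma_fst h1 h3, fun c j w => ?_⟩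
  simp only [h2, h4, qf, add_mul, sum_add_distrib]

theorem QG.comp (h : QG Y V f) {x : ∀ c, K c → J c} (hx : D2 x) :
    QG Y V fun c k w => f c (x c k) w := by
  obtain ⟨a, h1, h2⟩ := h
  exact ⟨fun c k => a c (x c k), h1.app pt_sigma_fst (hx.app pt_sigma_fst D.s1) D.s2,
    fun c k w => h2 c _ w⟩

theorem QG.ite {p : ∀ c, J c → Prop} [∀ c j, Decidable (p c j)]
    (hp : PT fun z : Σ c, J c => p z.1 z.2) (h : QG Y V f) (h' : QG Y V g) :
    QG Y V fun c j w => if p c j then f c j w else g c j w := by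
  obtain ⟨a, h1, h2⟩ := h
  obtain ⟨b, h3, h4⟩ := h'
  refine ⟨fun c j o o' => if p c j then a c j o o' else b c j o o',
    D.ite (pt_app hp pt_sigma_fst D.s1) h1 h3, fun c j w => ?_⟩
  by_cases e : p c j
  · simp only [if_pos e, h2]
  · simp only [if_neg e, h4]

/-- Case distinction on a sum type. -/
theorem QG.elim {M M' : C → Type} [∀ c, Enc (M c)] [∀ c, Enc (M' c)] {x : ∀ c, J c → M c ⊕ M' c}
    (hx : D2 x) {f : ∀ c, J c → M c → (V.T c → Y.F c) → Y.F c}
    {g : ∀ c, J c → M' c → (V.T c → Y.F c) → Y.F c}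
    (h : QG Y V fun c (z : J c × M c) => f c z.1 z.2)
    (h' : QG Y V fun c (z : J c × M' c) => g c z.1 z.2) :
    QG Y V fun c j w => Sum.elim (fun m => f c j m w) (fun m => g c j m w) (x c j) := by
  obtain ⟨a, h1, h2⟩ := h
  obtain ⟨b, h3, h4⟩ := h'
  refine ⟨fun c j o o' => Sum.elim (fun m => a c (j, m) o o') (fun m => b c (j, m) o o') (x c j),
    D.sum_elim (hx.app pt_sigma_fst D.s1)
      (h1.app (pt_sigma_fst.comp pt_sigma_fst) (D.pair (D.s1.comp pt_sigma_fst) D.sigma_snd)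
        (D.s2.comp pt_sigma_fst))
      (h3.app (pt_sigma_fst.comp pt_sigma_fst) (D.pair (D.s1.comp pt_sigma_fst) D.sigma_snd)
        (D.s2.comp pt_sigma_fst)), fun c j w => ?_⟩
  dsimp only
  rcases x c j with m | m
  · exact h2 c (j, m) w
  · exact h4 c (j, m) w

theorem qf_ren {F A A' : Type} [Field F] [Fintype A] [Fintype A'] (φ : Option A → Option A → F)
    (ρ : A → A') (w : A' → F) :
    qf (fun o o' => ∑ m : Option A × Option A,
      if (m.1.map ρ, m.2.map ρ) = (o, o') then φ m.1 m.2 else 0) w = qf φ fun v => w (ρ v) := by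
  have e : ∀ o : Option A, P330.ev (fun v => w (ρ v)) o = P330.ev w (o.map ρ) := fun o => by
    cases o <;> rfl
  simp only [qf, e, sum_mul]
  rw [← Fintype.sum_prod_type' (f := fun o o' : Option A' => ∑ m : Option A × Option A,
    (if (m.1.map ρ, m.2.map ρ) = (o, o') then φ m.1 m.2 else 0) * P330.ev w o * P330.ev w o'),
    sum_comm, Fintype.sum_prod_type]
  refine sum_congr rfl fun o _ => sum_congr rfl fun o' _ => ?_
  simp [ite_mul]

/-- Renaming of the variables. -/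
theorem QG.ren (h : QG Y V f) {ρ : ∀ c, V.T c → V'.T c} (hρ : D2 ρ) :
    QG Y V' fun c j w => f c j fun v => w (ρ c v) := by
  obtain ⟨a, h1, h2⟩ := h
  refine ⟨fun c j o o' => ∑ m : Option (V.T c) × Option (V.T c),
    if (m.1.map (ρ c), m.2.map (ρ c)) = (o, o') then a c j m.1 m.2 else 0, ?_,
    fun c j w => (h2 c j _).trans (qf_ren _ _ _).symm⟩
  have q : PT fun z : Σ z : Σ c, J c × Option (V'.T c) × Option (V'.T c),
    Option (V.T z.1) × Option (V.T z.1) => z.1.1 := pt_sigma_fst.comp pt_sigma_fst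
  refine PS.dSum pt_sigma_fst ((V.pf.option.prod V.pf.option).comap
    (B := Σ c, J c × Option (V'.T c) × Option (V'.T c)) pt_sigma_fst)
    (f := fun z m => if (m.1.map (ρ z.1), m.2.map (ρ z.1)) = (z.2.2.1, z.2.2.2) then
      a z.1 z.2.1 m.1 m.2 else 0) (D.ite (D.eq (D.pair
        (D.f_option_map D.sigma_snd.fst (hρ.app (q.comp pt_sigma_fst) D.sigma_snd))
        (D.f_option_map D.sigma_snd.snd (hρ.app (q.comp pt_sigma_fst) D.sigma_snd)))
        (D.s2.comp pt_sigma_fst))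
      (h1.app q (D.s1.comp pt_sigma_fst) D.sigma_snd) (PS.dZero q))

end Vale.Agent.P330Q
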