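import Vale.Agent.P330Q.QD
import Vale.Agent.P330Q.FPol

/-! Numberings, cell maps and cell tests for families over the big context. -/

namespace Vale.Agent.P330Q

open Vale.Agent.Lib.PolyTime Vale.Agent.P330 Finset
open scoped Classical BigOperators

variable {C : Type} [Enc C] {l : ℕ} [Fact l.Prime] {δ : ℝ}

theorem sz_rep (n : ℕ) : sz (List.replicate n ()) ≤ 2 * n + sz ([] : List Unit) := by
  induction n with
  | zero => simp
  | succ n ih => rw [List.replicate_succ, sz_cons, sz_unit]; omega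

theorem pl_rep {lg n : C → ℕ} (h : Pl lg n) : Pl lg fun c => sz (List.replicate (n c) ()) :=
  ((h.cmul 2).add (Sz.const _)).of_le fun _ => sz_rep _

theorem pl_pair {U U' : Type} [Enc U] [Enc U'] {lg : C → ℕ} {p : C → U} {q : C → U'}
    (h : Pl lg fun c => sz (p c)) (h' : Pl lg fun c => sz (q c)) :
    Pl lg fun c => sz (p c, q c) :=
  (((h.cmul 2).add h').succ).of_le fun _ => by rw [sz_pair]

theorem ix_exists {lg : C → ℕ} (V : Fam C) (h : Pl lg fun c => Fintype.card (V.T c)) :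
    Nonempty (Ix lg V) := by
  obtain ⟨e, h1, h2⟩ := V.pf.equiv
  refine ⟨⟨fun c => List.replicate (Fintype.card (V.T c)) (),
    PT.replicate V.pf.pt_card V.pf.pb_card (PT.const ()), pl_rep h,
    fun c => (e c).trans (finCongr List.length_replicate.symm), D.fin_iff.2 (D.fin_iff.1 h1), ?_⟩⟩
  exact h2.app pt_sigma_fst (D.fin_iff.2 (D.fin_iff.1 (D.sigma_snd
    (X := fun c => Fin (List.replicate (Fintype.card (V.T c)) ()).length))))

theorem Ix.cw_eq {lg : C → ℕ} {V : Fam C} (N : Ix lg V) (Z : Cell l δ FinU) (c : C)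
    (w : V.T c → ZMod l) : cw (N.gen Z c) w = cw (Z.gen (N.p c)) fun n => w ((N.e c).symm n) :=
  funext fun _ => Fintype.sum_equiv (N.e c) _ _ fun v => by simp [Ix.gen]

theorem Ix.cw_eq' {lg : C → ℕ} {V : Fam C} (N : Ix lg V) (Z : Cell l δ FinU) (c : C)
    (w : Fin (N.p c).length → ZMod l) : cw (N.gen Z c) (fun v => w (N.e c v)) = cw (Z.gen (N.p c)) w := by
  rw [N.cw_eq]
  simp

theorem Ix.pt_gen {lg : C → ℕ} {V : Fam C} (N : Ix lg V) (Z : Cell l δ FinU) :
    PT fun z : Σ c, (N.X Z).T c × V.T c => N.gen Z z.1 z.2.1 z.2.2 :=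
  pt_app2 Z.pt (N.hp.comp pt_sigma_fst) D.s1 (N.d_e.app pt_sigma_fst D.s2)

theorem ixS : IxS l δ := fun _ _ _ V =>
  ⟨fun _ => ix_exists V, fun N Z => ⟨Sz.card_comap Z.X N.pl, N.pt_gen Z, fun c w w' h => by
    rw [N.cw_eq, N.cw_eq]
    exact Z.dist _ _ _ fun e => h (funext fun v => by simpa using congrFun e (N.e c v))⟩⟩

theorem qfS : QFS l := by
  rintro C _ Φ V J f ⟨φ, h1, h2⟩
  exact ((FPol.qf (Φ := Φ) h1).congr h2).pol

/-- Change of the context of a cell code. -/
@[reducible] def Cell.comap {U U' : Type} [Enc U] [Enc U'] {V : Fam U} (Z : Cell l δ V) (q : U' → U)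
    (hq : PT q) : Cell l δ (V.comap q hq) where
  X := Z.X.comap q hq
  gen u := Z.gen (q u)
  ne u := Z.ne (q u)
  pt := pt_app2 Z.pt (hq.comp pt_sigma_fst) D.s1 D.s2
  dist u := Z.dist (q u)
  rd d B _ p hp := Z.rd d B (fun b => q (p b)) (hq.comp hp)
  dec B _ p u hp hu := Z.dec B (fun b => q (p b)) u (hq.comp hp) hu

/-- Change of the context of an array of cells. -/
@[reducible] def Arr.lift {U U' : Type} [Enc U] [Enc U'] {a lg : C → ℕ} {V : Fam U} {Z : Cell l δ V}
    {A : Type} {I : Reg C} {O : Fam C} (p : C → U') (q : U' → U) (hq : PT q)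
    (R : Arr l a lg (fun c => q (p c)) Z A I O) : Arr l a lg p (Z.comap q hq) A I O :=
  ⟨R.sl, R.κ, R.ne, R.size, R.d_sl, R.dens⟩

/-- Nonempty unary words. -/
abbrev UN : Type := {u : List Unit // 0 < u.length}

theorem cMapS (hM : CellMapThm l δ) : CMapS l δ := by
  intro d C _ a lg _ V J N Z A _ _ _ I O R f hJ hf η hη
  obtain ⟨M⟩ := ix_exists J.toFam J.pl
  have h0 : ∀ c, 0 < (M.p c).length := fun c => (hJ c).elim fun j => (M.e c j).pos
  let p : C → List Unit × UN := fun c => (N.p c, ⟨M.p c, h0 c⟩)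
  have hp : PT p := PT.mk N.hp (D.sub_mk (D.of_pt M.hp) h0).pt
  have q1 : PT fun u : List Unit × UN => u.1 := PT.fst PT.id
  have q2 : PT fun u : List Unit × UN => u.2.1 := pt_val.comp (PT.snd PT.id)
  have h := hM d C (List Unit × UN) a lg p hp (pl_pair N.pl M.pl) (FinU.comap _ q1)
    (FinU.comap _ q2) (Z.comap _ q1) A I O (R.lift p _ q1)
    (fun c o j w => f c o ((M.e c).symm j) fun z => w (z.1, N.e c z.2)) (fun u => ⟨⟨0, u.2.2⟩⟩)
    (pol_ren (V' := (Fam.const C A).prod ((FinU.comap _ q1).comap p hp)) (hf.comp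
      (K := O.prod ((FinU.comap _ q2).comap p hp))
      (x := fun c z => (z.1, (M.e c).symm z.2)) (D.pair D.s1 (M.d_e'.app pt_sigma_fst D.s2)))
      (ρ := fun c _ z => (z.1, N.e c z.2)) (D.pair D.s2.fst (N.d_e.app pt_sigma_fst D.s2.snd))) η hη
  let g : ∀ c, O.T c × J.T c ≃ O.T c × Fin (M.p c).length := fun c => (Equiv.refl _).prodCongr (M.e c)
  refine (h.wireOut (O' := .of (O.prod J.toFam)) (fun c z => g c z)
    (D.pair D.s1 (M.d_e.app pt_sigma_fst D.s2)) (fun c => (g c).injective)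
    fun c _ => le_of_eq ?_).mono ?_
  · exact congrArg (fun n : ℕ => (n : ℝ)⁻¹) (Fintype.card_congr (g c))
  · rintro c x _ _ _ ⟨y, _, hy, rfl⟩ w
    refine le_trans (le_of_eq ?_) ((hy fun o z => w o (z.1, (N.e c).symm z.2)).trans (le_of_eq ?_))
    · unfold du
      refine Fintype.expect_equiv (g c) _ _ fun z => ?_
      simp [g]
    · congr 1
      refine fr_congr fun o => exists_congr fun i => ?_
      rw [N.cw_eq]

theorem cTestS (hT : CellTestThm l δ) : CTestS l δ := by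
  intro d C _ a lg _ V E N Z A _ _ _ I O R f hf δ' β hδ hβ
  obtain ⟨M⟩ := ix_exists E.toFam E.pl
  let p : C → List Unit × List Unit := fun c => (N.p c, M.p c)
  have hp : PT p := PT.mk N.hp M.hp
  have q1 : PT fun u : List Unit × List Unit => u.1 := PT.fst PT.id
  have q2 : PT fun u : List Unit × List Unit => u.2 := PT.snd PT.id
  obtain ⟨v1, h1, h⟩ := hT d C (List Unit × List Unit) a lg p hp (pl_pair N.pl M.pl)
    (FinU.comap _ q1) (FinU.comap _ q2) (Z.comap _ q1) A I O (R.lift p _ q1)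
    (fun c o j w => f c o ((M.e c).symm j) fun z => w (z.1, N.e c z.2))
    (pol_ren (V' := (Fam.const C A).prod ((FinU.comap _ q1).comap p hp)) (hf.comp
      (K := O.prod ((FinU.comap _ q2).comap p hp))
      (x := fun c z => (z.1, (M.e c).symm z.2)) (D.pair D.s1 (M.d_e'.app pt_sigma_fst D.s2)))
      (ρ := fun c _ z => (z.1, N.e c z.2)) (D.pair D.s2.fst (N.d_e.app pt_sigma_fst D.s2.snd)))
    δ' β hδ hβ
  refine ⟨v1, h1, fun v0 h0 => ?_⟩
  obtain ⟨η, hη, h⟩ := h v0 h0
  refine ⟨η, hη, ImplS.mono h fun c x y _ _ ⟨k1, k2⟩ => ⟨fun hT => ?_, fun w hw hf => ?_⟩⟩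
  · refine le_trans (fr_mono fun o ho w hw => ?_) (k1 hT)
    obtain ⟨i, hi⟩ := ho (fun z => w (z.1, N.e c z.2)) fun e => by simpa using hw (M.e c e)
    exact ⟨i, hi.trans_eq (congrArg _ (N.cw_eq' Z c fun n => w (i, n)))⟩
  · refine k2 (fun o z => w o (z.1, (N.e c).symm z.2)) (fun o e => by simpa using hw o _)
      (le_trans (le_of_eq (fr_congr fun o => exists_congr fun i => ?_)) hf)
    rw [N.cw_eq]

end Vale.Agent.P330Q
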