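import Vale.Agent.P330Q.QD
import Vale.Agent.P330Q.FPol
import Vale.Agent.P330Q.BT

/-! Cells of numbered families. -/

namespace Vale.Agent.P330Q

open Vale.Agent.Lib.PolyTime Vale.Agent.P330 Finset
open scoped Classical BigOperators

variable {l : ℕ} [Fact l.Prime] {δ : ℝ}

theorem qm_sz (n : ℕ) : sz (List.replicate n ()) ≤ (2 * sz () + 2) * n := by
  induction n with
  | zero => simp
  | succ n ih =>
    rw [List.replicate_succ, sz_cons, Nat.mul_succ]
    omega

theorem exists_ix {C : Type} [Enc C] {lg : C → ℕ} (V : Fam C)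
    (h : Pl lg fun c => Fintype.card (V.T c)) : Nonempty (Ix lg V) := by
  obtain ⟨e, h1, h2⟩ := V.pf.equiv
  refine ⟨⟨fun c => List.replicate (Fintype.card (V.T c)) (),
    PT.replicate V.pf.pt_card V.pf.pb_card (PT.const _), (h.cmul _).of_le fun c => qm_sz _,
    fun c => (e c).trans (finCongr List.length_replicate.symm), D.fin_iff.2 (D.fin_iff.1 h1), ?_⟩⟩
  exact h2.app pt_sigma_fst (D.fin_iff.2 (D.fin_iff.1 D.sigma_snd))

theorem Ix.cw_eq {C : Type} [Enc C] {lg : C → ℕ} {V : Fam C} (N : Ix lg V) (Z : Cell l δ FinU)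
    (c : C) (w : V.T c → ZMod l) :
    cw (N.gen Z c) w = cw (Z.gen (N.p c)) fun i => w ((N.e c).symm i) :=
  funext fun _ => Fintype.sum_equiv (N.e c) _ _ fun v => by simp [Ix.gen]

theorem ixS : IxS l δ := by
  intro C _ lg V
  refine ⟨fun _ => exists_ix V, fun N Z => ⟨Sz.card_comap Z.X N.pl,
    pt_app2 Z.pt (N.hp.comp pt_sigma_fst) D.s1 (N.d_e.app pt_sigma_fst D.s2), fun c w w' e => ?_⟩⟩
  rw [N.cw_eq, N.cw_eq]
  exact Z.dist _ _ _ fun k => e (funext fun v => by simpa using congrFun k (N.e c v))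

theorem qfS : QFS l := by
  rintro C _ Φ V J f ⟨φ, h1, h2⟩
  exact ((FPol.qf (Φ := Φ) h1).congr h2).pol

/-- Change of the base. -/
@[reducible] def Cell.comap {U U' : Type} [Enc U] [Enc U'] {V : Fam U} (Z : Cell l δ V)
    (q : U' → U) (hq : PT q) : Cell l δ (V.comap q hq) where
  X := Z.X.comap q hq
  gen u := Z.gen (q u)
  ne u := Z.ne (q u)
  pt := pt_app2 Z.pt (hq.comp pt_sigma_fst) D.s1 D.s2
  dist u := Z.dist (q u)
  rd d B _ p hp := Z.rd d B (fun b => q (p b)) (hq.comp hp)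
  dec B _ p u hp hu := Z.dec B (fun b => q (p b)) u (hq.comp hp) hu

section
variable {C : Type} [Enc C] {a lg : C → ℕ} {V J : Fam C} (N : Ix lg V) (N' : Ix lg J)

theorem qm_pl : Pl lg fun c => sz (N.p c, N'.p c) :=
  ((N.pl.cmul 2).add N'.pl).succ.of_le fun c => by rw [sz_pair]

/-- The same array over the context of pairs. -/
def qm_arr {Z : Cell l δ FinU} {A : Type} {I : Reg C} {O : Fam C} (R : Arr l a lg N.p Z A I O) :
    Arr l a lg (fun c => (N.p c, N'.p c)) (Z.comap Prod.fst (PT.fst PT.id)) A I O :=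
  ⟨R.sl, R.κ, R.ne, R.size, R.d_sl, R.dens⟩

theorem qm_pol {d : ℕ} {A : Type} [Fintype A] [Enc A] {O : Fam C}
    {f : ∀ c, O.T c → J.T c → (A × V.T c → ZMod l) → ZMod l}
    (hf : Pol d ((Fam.const C A).prod V) (O.prod J) fun c z => f c z.1 z.2) :
    Pol d ((Fam.const C A).prod (FinU.comap N.p N.hp)) (O.prod (FinU.comap N'.p N'.hp))
      fun c z w => f c z.1 ((N'.e c).symm z.2) fun v => w (v.1, N.e c v.2) :=
  pol_ren (V' := (Fam.const C A).prod (FinU.comap N.p N.hp))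
    (hf.comp (K := O.prod (FinU.comap N'.p N'.hp)) (x := fun c z => (z.1, (N'.e c).symm z.2))
      (D.pair D.s1 (N'.d_e'.app pt_sigma_fst D.s2)))
    (ρ := fun c _ v => (v.1, N.e c v.2)) (D.pair D.s2.fst (N.d_e.app pt_sigma_fst D.s2.snd))

end

theorem cMapS (h : CellAt l δ) : CMapS l δ := by
  intro d C _ a lg _ V J N Z A _ _ _ I O R f hJ hf η hη
  obtain ⟨N'⟩ := exists_ix (lg := lg) J.toFam J.pl
  have hp : PT fun c => (N.p c, N'.p c) := N.hp.mk N'.hp
  let P : Fam (List Unit × List Unit) := Fam.ofFin (fun u => u.2.length - 1 + 1)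
    (((PT.length (PT.snd PT.id)).sub (PT.const 1)).add (PT.const 1))
    (((PT.pb_length (PT.snd PT.id)).add (PB.const 1)).of_le fun _ => by omega)
  have e : ∀ c, (N'.p c).length - 1 + 1 = (N'.p c).length := fun c => by
    have := (N'.e c (hJ c).some).pos
    omega
  have H := cellMap h d C (List Unit × List Unit) a lg _ hp (qm_pl N N') _ P _ A I O
    (qm_arr N N' R) (fun c o j w => f c o ((N'.e c).symm (finCongr (e c) j))
      fun v => w (v.1, N.e c v.2)) (fun _ => ⟨0⟩)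
    ((qm_pol N N' hf).comp (K := O.prod (P.comap _ hp)) (x := fun c z => (z.1, finCongr (e c) z.2))
      (D.pair D.s1 (D.fin_iff.2 (D.fin_iff.1 D.s2)))) η hη
  let g : ∀ c, O.T c × J.T c ≃ O.T c × Fin ((N'.p c).length - 1 + 1) := fun c =>
    (Equiv.refl _).prodCongr ((N'.e c).trans (finCongr (e c).symm))
  refine (H.wireOut (O' := .of (O.prod J.toFam)) (fun c => g c)
    (D.pair D.s1 (D.fin_iff.2 (D.fin_iff.1 (N'.d_e.app pt_sigma_fst D.s2))))
    (fun c => (g c).injective) fun c i => ?_).mono ?_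
  · exact le_of_eq (congrArg (fun n : ℕ => (n : ℝ)⁻¹) (Fintype.card_congr (g c)))
  · rintro c x y - - ⟨y0, -, k, rfl⟩ w
    simp only [N.cw_eq]
    refine le_of_eq_of_le ?_ (k fun o v => w o (v.1, (N.e c).symm v.2))
    exact Fintype.expect_equiv (g c) _ _ fun z => by simp [g]

theorem cTestS (h : CellAt l δ) : CTestS l δ := by
  intro d C _ a lg _ V E N Z A _ _ _ I O R f hf δ' β h' hβ
  obtain ⟨N'⟩ := exists_ix (lg := lg) E.toFam E.pl
  obtain ⟨v1, h1, H⟩ := cellTest h d C (List Unit × List Unit) a lg (fun c => (N.p c, N'.p c))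
    (N.hp.mk N'.hp) (qm_pl N N') _ (FinU.comap Prod.snd (PT.snd PT.id)) _ A I O (qm_arr N N' R)
    (fun c o j w => f c o ((N'.e c).symm j) fun v => w (v.1, N.e c v.2)) (qm_pol N N' hf) δ' β h' hβ
  refine ⟨v1, h1, fun v0 h0 => ?_⟩
  obtain ⟨η, hη, H⟩ := H v0 h0
  refine ⟨η, hη, H.mono fun c x T _ _ _ k => ⟨fun hT => le_trans (fr_mono fun o ho w hw => ?_)
    (k.1 hT), fun w hw hf => k.2 (fun o v => w o (v.1, (N.e c).symm v.2)) (fun o e => ?_) ?_⟩⟩
  · obtain ⟨i, hi⟩ := ho (fun v => w (v.1, N.e c v.2)) fun e => by simpa using hw (N'.e c e)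
    refine ⟨i, ?_⟩
    rw [N.cw_eq] at hi
    simp only [Equiv.apply_symm_apply] at hi
    exact hi
  · simpa using hw o _
  · simp only [N.cw_eq] at hf
    exact hf

end Vale.Agent.P330Q
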