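import Vale.Agent.P330Q.QD
import Vale.Agent.P330Q.TwSSS
import Vale.Agent.P330Q.KExt
import Vale.Agent.P330Q.KFt
import Vale.Agent.P330Q.KMinv

/-! The outer code of a world as a twisted code over the prime field. -/

namespace Vale.Agent.P330Q

open Vale.Agent.Lib.PolyTime Vale.Agent.P330 Finset
open scoped Classical BigOperators

section
variable {k F K : Type} [Field k] [Field F] [Algebra k F] {n : ℕ}

/-- The matrix of the multiplication of all lanes by `ω`. -/
noncomputable def mulM (co : F ≃ₗ[k] (Fin n → k)) (ω : F) (a b : K × Fin n) : k :=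
  if a.1 = b.1 then co (ω * co.symm fun j => if b.2 = j then 1 else 0) a.2 else 0

theorem cw_mulM [Fintype K] (co : F ≃ₗ[k] (Fin n → k)) (ω : F) (w : K × Fin n → k)
    (a : K × Fin n) : cw (mulM co ω) w a = co (ω * co.symm fun t => w (a.1, t)) a.2 := by
  have h := LinearMap.pi_apply_eq_sum_univ
    ((LinearMap.proj a.2 : (Fin n → k) →ₗ[k] k) ∘ₗ co.toLinearMap ∘ₗ LinearMap.mulLeft k ω ∘ₗ
      co.symm.toLinearMap) fun t => w (a.1, t)
  refine Eq.trans ?_ h.symm
  rw [cw, Fintype.sum_prod_type, sum_eq_single a.1 (fun i _ hi => sum_eq_zero fun j _ => by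
    rw [mulM, if_neg hi.symm, zero_mul]) fun h => absurd (mem_univ _) h]
  refine sum_congr rfl fun j _ => ?_
  rw [mulM, if_pos rfl, mul_comm]
  rfl

end

theorem cw_equiv {X V V' F : Type} [Fintype V] [Fintype V'] [CommRing F] (e : V ≃ V')
    (g : X → V → F) (w : V' → F) : cw (fun x v => g x (e.symm v)) w = cw g fun v => w (e v) := by
  funext x
  exact (Fintype.sum_equiv e _ _ fun v => by simp only [e.symm_apply_apply]).symm

variable {C : Type} [Enc C] {l : ℕ} [Fact l.Prime]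

theorem pt_mulM (Φ : FF C l) {K : C → Type} [∀ c, Enc (K c)] {B : Type} [Enc B] {q : B → C}
    (hq : PT q) {ω : ∀ b, Φ.F (q b)} (hω : D ω) {x y : ∀ b, K (q b) × Fin (Φ.m (q b))} (hx : D x)
    (hy : D y) : PT fun b => mulM (Φ.co (q b)) (ω b) (x b) (y b) := by
  have h1 : D fun b => (fun j => if (y b).2 = j then 1 else 0 : Fin (Φ.m (q b)) → ZMod l) :=
    D.fn_mk (Φ.pt_m.comp hq) (Φ.pb_m.comp hq)
      (D.ite (D.eq (hy.comp pt_sigma_fst).snd D.sigma_snd) (D.const 1) (D.const 0))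
  exact D.pt (D.ite (D.eq hx.fst hy.fst)
    (D.fn_app (Φ.d_co.app hq (Φ.d_mul.app hq hω (Φ.d_co'.app hq h1))) hx.snd) (D.const 0))

theorem Ix.cw_gen {lg : C → ℕ} {V : Fam C} {δ : ℝ} (N : Ix lg V) (Z : Cell l δ FinU) (c : C)
    (w : V.T c → ZMod l) :
    cw (N.gen Z c) w = cw (Z.gen (N.p c)) fun j => w ((N.e c).symm j) :=
  cw_equiv (N.e c).symm (Z.gen (N.p c)) w

namespace World
variable {a : C → ℕ} {S B : Type} [Fintype S] [Enc S] {δ0 lam : ℝ} (W : World C l a S B δ0 lam)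

/-- The scaling factors of the ports. -/
noncomputable def ω (c : C) (b : Bool) (s : S) : W.P.F c := if W.ck b s then 1 else W.P.Φ.θ c

theorem ω_ne (c : C) (b : Bool) (s : S) : W.ω c b s ≠ 0 := by
  unfold ω
  split_ifs
  exacts [one_ne_zero, W.θ0 c]

theorem d_ω (b : Bool) (s : S) : D fun c => W.ω c b s :=
  D.ite (PT.const _) (KFt.one W.P.Φ) W.P.Φ.d_θ

theorem mem_T {c : C} {y : W.Wd c} :
    y ∈ W.T c ↔ ∀ b g, (fun s => y (vwp (W.Y.nb c) b g s)) ∈ W.loc c b :=
  ⟨fun h b => by cases b; exacts [h.1, h.2], fun h => ⟨h false, h true⟩⟩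

theorem mem_loc {c : C} {b : Bool} {v : S → W.P.F c} :
    v ∈ W.loc c b ↔ ∀ i, (fun s => W.P.Φ.co c (W.ω c b s * v s) i) ∈ W.C0 b :=
  KExt.coord (W.C0 b) _ (W.P.Φ.co c) fun s => W.ω c b s * v s

theorem dist_loc (c : C) (b : Bool) : Dist0 (W.loc c b) δ0 :=
  KExt.dist _ _ (W.dist b) _ (W.ω_ne c b)

variable {K : SF W.P.lg} (N : Ix W.P.lg (W.CV K))

/-- The message of the cell at a position. -/
def msg {c : C} (y : K.T c → W.Wd c) (x : W.Ps c) (j : Fin (N.p c).length) : ZMod l :=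
  W.cell y x ((N.e c).symm j)

/-- The words given by the messages of the cells. -/
def unmsg {c : C} (u : W.Ps c → Fin (N.p c).length → ZMod l) (k : K.T c) (x : W.Ps c) : W.P.F c :=
  (W.P.Φ.co c).symm fun t => u x (N.e c (k, t))

theorem unmsg_msg {c : C} (y : K.T c → W.Wd c) : W.unmsg N (W.msg N y) = y := by
  funext k x
  simp only [unmsg, msg, cell, Equiv.symm_apply_apply]
  exact (W.P.Φ.co c).symm_apply_apply _

theorem msg_unmsg {c : C} (u : W.Ps c → Fin (N.p c).length → ZMod l) :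
    W.msg N (W.unmsg N u) = u := by
  funext x j
  simp only [unmsg, msg, cell, LinearEquiv.apply_symm_apply, Prod.mk.eta, Equiv.apply_symm_apply]

theorem benc_eq {δ : ℝ} (Z : Cell l δ FinU) {c : C} (y : K.T c → W.Wd c) :
    W.benc N Z y = cells (Z.gen (N.p c)) (W.msg N y) :=
  funext fun z => congrFun (N.cw_gen Z c (W.cell y z.1)) z.2

/-- Multiplication of all lanes by a scalar, in the numbering. -/
noncomputable def mN {c : C} (t : W.P.F c) (i j : Fin (N.p c).length) : ZMod l :=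
  mulM (W.P.Φ.co c) t ((N.e c).symm i) ((N.e c).symm j)

theorem cw_mN {c : C} (t : W.P.F c) (w : Fin (N.p c).length → ZMod l) (i : Fin (N.p c).length) :
    cw (W.mN N t) w i = W.P.Φ.co c (t * (W.P.Φ.co c).symm fun j =>
      w (N.e c (((N.e c).symm i).1, j))) ((N.e c).symm i).2 :=
  (congrFun (cw_equiv (N.e c) (fun i => mulM (W.P.Φ.co c) t ((N.e c).symm i)) w) i).trans
    (cw_mulM _ _ _ _)

theorem pt_mN {t : ∀ c, S → W.P.F c} (ht : ∀ s, D fun c => t c s) :
    PT fun z : Σ c, (W.Y.G.T c × S) × Fin (N.p c).length × Fin (N.p c).length =>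
      W.mN N (t z.1 z.2.1.2) z.2.2.1 z.2.2.2 :=
  pt_mulM W.P.Φ pt_sigma_fst
    (D.cases (X := fun z : Σ c, (W.Y.G.T c × S) × Fin (N.p c).length × Fin (N.p c).length =>
      W.P.F z.1) (D.pt D.sigma_snd.fst.snd) (fun s z => t z.1 s) fun s => (ht s).comp pt_sigma_fst)
    (N.d_e'.app pt_sigma_fst D.sigma_snd.snd.fst) (N.d_e'.app pt_sigma_fst D.sigma_snd.snd.snd)

/-- The twisted system of a world. -/
noncomputable def tw : Tw l S lam N.p FinU where
  Y := W.Y
  m c b x := W.mN N (W.ω c b x.2)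
  m' c b x := W.mN N (W.ω c b x.2)⁻¹
  pm b := W.pt_mN N (W.d_ω b)
  pm' b := W.pt_mN N (t := fun c s => (W.ω c b s)⁻¹) fun s =>
    (s_minv s_ft C l W.P.Φ).2 _ (W.d_ω b s)
  inv c b x w := by
    funext i
    simp only [cw_mN, Equiv.symm_apply_apply, LinearEquiv.symm_apply_apply,
      inv_mul_cancel_left₀ (W.ω_ne c b x.2), LinearEquiv.apply_symm_apply, Prod.mk.eta,
      Equiv.apply_symm_apply]

theorem msg_mem {c : C} {y : K.T c → W.Wd c} :
    W.msg N y ∈ twc W.C0 (W.Y.nb c) ((W.tw N).m c) ↔ ∀ k, y k ∈ W.T c := by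
  have e : ∀ b (g : W.Y.G.T c) i, (fun s => cw ((W.tw N).m c b (vwp (W.Y.nb c) b g s))
      (W.msg N y (vwp (W.Y.nb c) b g s)) i) = fun s => W.P.Φ.co c (W.ω c b s *
        y ((N.e c).symm i).1 (vwp (W.Y.nb c) b g s)) ((N.e c).symm i).2 := fun b g i => by
    funext s
    refine (W.cw_mN N _ _ i).trans ?_
    simp only [msg, cell, Equiv.symm_apply_apply, LinearEquiv.symm_apply_apply]
    exact congrArg (fun t => W.P.Φ.co c (W.ω c b t * _) _) (vwp_snd (W.Y.nb c) b g s)
  refine ⟨fun h k => W.mem_T.2 fun b g => W.mem_loc.2 fun i => ?_, fun h b g v => ?_⟩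
  · have := (e b g _).symm ▸ h b g (N.e c (k, i))
    simpa only [Equiv.symm_apply_apply] using this
  · exact (e b g v).symm ▸ W.mem_loc.1 (W.mem_T.1 (h _) b g) _

end World

end Vale.Agent.P330Q
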