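import Vale.Agent.P330Q.RSD

/-! Reed-Solomon tables: closure, uniqueness and distance. -/

namespace Vale.Agent.P330Q

open Vale.Agent.Lib.PolyTime Vale.Agent.P330 Finset Polynomial
open scoped Classical BigOperators

variable {l : ℕ} [Fact l.Prime] {F : Type} [Field F] [Algebra (ZMod l) F] {n : ℕ} {b : ℕ → F}

theorem xi_add (x y : Fin n → ZMod l) : xi b (x + y) = xi b x + xi b y := by
  simp only [xi, Pi.add_apply, map_add, add_mul, sum_add_distrib]

theorem xi_sub (x y : Fin n → ZMod l) : xi b (x - y) = xi b x - xi b y := by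
  simp only [xi, Pi.sub_apply, map_sub, sub_mul, sum_sub_distrib]

theorem xi_ee {j : ℕ} (hj : j < n) : xi b (ee j : Fin n → ZMod l) = b j := by
  rw [xi, Finset.sum_eq_single ⟨j, hj⟩]
  · simp [ee]
  · intro i _ hi
    have : (i : ℕ) ≠ j := fun h => hi (Fin.ext h)
    simp [ee, this]
  · simp

theorem xi_inj (hb : Ind l n b) : Function.Injective (xi b : (Fin n → ZMod l) → F) := by
  intro x y h
  have h1 : xi b (x - y) = 0 := by rw [xi_sub, h, sub_self]
  simp only [xi, ← Algebra.smul_def] at h1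
  exact sub_eq_zero.1 (funext (Fintype.linearIndependent_iff.1 hb _ h1))

theorem card_low {k : ℕ} (hk : k ≤ n) :
    (univ.filter fun x : Fin n → ZMod l => Low k x).card = l ^ k := by
  have h1 : (univ.filter fun x : Fin n → ZMod l => Low k x) =
      Fintype.piFinset fun i : Fin n => if (i : ℕ) < k then univ else {0} := by
    ext x
    rw [mem_filter_univ, Fintype.mem_piFinset]
    refine forall_congr' fun i => ?_
    split_ifs with h
    · simp [not_le.2 h]
    · simp [not_lt.1 h]
  rw [h1, Fintype.card_piFinset]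
  simp only [apply_ite Finset.card, card_univ, ZMod.card, card_singleton, prod_ite, prod_const,
    one_pow, mul_one]
  rw [Fin.card_filter_val_lt, min_eq_right hk]

variable {d d' : ℕ} {u v : (Fin n → ZMod l) → F}

theorem IsP.mono (h : IsP b d u) (e : d ≤ d') : IsP b d' u :=
  h.imp fun _ k => ⟨k.1.trans_le (by exact_mod_cast e), k.2⟩

theorem IsP.zero : IsP b d fun _ : Fin n → ZMod l => 0 :=
  ⟨0, by simp, fun _ => by simp⟩

theorem IsP.const (hd : 0 < d) (a : F) : IsP b d fun _ : Fin n → ZMod l => a :=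
  ⟨C a, degree_C_le.trans_lt (by exact_mod_cast hd), fun _ => by simp⟩

theorem IsP.add (h : IsP b d u) (h' : IsP b d v) : IsP b d fun x => u x + v x := by
  obtain ⟨p, p1, p2⟩ := h
  obtain ⟨q, q1, q2⟩ := h'
  exact ⟨p + q, (degree_add_le p q).trans_lt (max_lt p1 q1), fun x => by rw [eval_add, ← p2, ← q2]⟩

theorem IsP.cmul (a : F) (h : IsP b d u) : IsP b d fun x => a * u x := by
  obtain ⟨p, p1, p2⟩ := h
  exact ⟨a • p, (degree_smul_le a p).trans_lt p1, fun x => by rw [eval_smul, ← p2, smul_eq_mul]⟩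

theorem IsP.sub (h : IsP b d u) (h' : IsP b d v) : IsP b d fun x => u x - v x := by
  obtain ⟨p, p1, p2⟩ := h
  obtain ⟨q, q1, q2⟩ := h'
  exact ⟨p - q, (degree_sub_le p q).trans_lt (max_lt p1 q1), fun x => by rw [eval_sub, ← p2, ← q2]⟩

theorem IsP.sum {A : Type} (s : Finset A) {f : A → (Fin n → ZMod l) → F}
    (h : ∀ a ∈ s, IsP b d (f a)) : IsP b d fun x => ∑ a ∈ s, f a x := by
  induction s using Finset.induction_on with
  | empty => simpa using IsP.zero
  | insert a s ha ih =>
    simp only [sum_insert ha]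
    exact (h a (mem_insert_self a s)).add (ih fun c hc => h c (mem_insert_of_mem hc))

theorem IsP.mul' (h : IsP b (d + 1) u) (h' : IsP b d' v) : IsP b (d + d') fun x => u x * v x := by
  obtain ⟨p, p1, p2⟩ := h
  obtain ⟨q, q1, q2⟩ := h'
  refine ⟨p * q, ?_, fun x => by rw [eval_mul, ← p2, ← q2]⟩
  by_cases h0 : p * q = 0
  · rw [h0]
    simp
  · have a1 := (natDegree_lt_iff_degree_lt (left_ne_zero_of_mul h0)).2 p1
    have a2 := (natDegree_lt_iff_degree_lt (right_ne_zero_of_mul h0)).2 q1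
    have a3 := natDegree_mul_le (p := p) (q := q)
    exact (natDegree_lt_iff_degree_lt h0).1 (by omega)

theorem IsP.mul (h : IsP b d u) (h' : IsP b d' v) : IsP b (d + d') fun x => u x * v x :=
  (h.mono d.le_succ).mul' h'

theorem IsP.shift (h : IsP b d u) (a : Fin n → ZMod l) : IsP b d fun x => u (x + a) := by
  obtain ⟨p, p1, p2⟩ := h
  exact ⟨taylor (xi b a) p, by rwa [degree_taylor], fun x => by rw [taylor_eval, ← xi_add, ← p2]⟩

theorem IsP.uniq (hb : Ind l n b) {k : ℕ} (hk : k ≤ n) (h : IsP b (l ^ k) u)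
    (h' : IsP b (l ^ k) v) (e : ∀ x, Low k x → u x = v x) : u = v := by
  obtain ⟨p, p1, p2⟩ := h
  obtain ⟨q, q1, q2⟩ := h'
  have h1 : p = q := by
    refine eq_of_degree_sub_lt_of_eval_finset_eq
      ((univ.filter fun x : Fin n → ZMod l => Low k x).image (xi b)) ?_ fun z hz => ?_
    · rw [card_image_of_injective _ (xi_inj hb), card_low hk]
      exact (degree_sub_le p q).trans_lt (max_lt p1 q1)
    · obtain ⟨x, hx, rfl⟩ := mem_image.1 hz
      rw [← p2, ← q2, e x (mem_filter.1 hx).2]
  funext x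
  rw [p2, q2, h1]

theorem IsP.dist (hb : Ind l n b) (h : IsP b d u) (h0 : u ≠ 0) :
    fr (Fin n → ZMod l) (fun x => u x = 0) ≤ (d : ℝ) / (l : ℝ) ^ n := by
  obtain ⟨p, p1, p2⟩ := h
  have h1 : p ≠ 0 := fun k => h0 (funext fun x => by rw [p2, k, eval_zero, Pi.zero_apply])
  have h2 : (univ.filter fun x => u x = 0).card ≤ p.roots.toFinset.card :=
    card_le_card_of_injOn (xi b) (fun x hx => by
      have := (mem_filter.1 hx).2
      rw [p2] at this
      exact Multiset.mem_toFinset.2 ((mem_roots h1).2 this)) (xi_inj hb).injOn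
  have h3 := ((Multiset.toFinset_card_le _).trans (card_roots' p)).trans
    ((natDegree_lt_iff_degree_lt h1).2 p1).le
  rw [fr, Fintype.card_fun, ZMod.card, Fintype.card_fin, Nat.cast_pow]
  exact div_le_div_of_nonneg_right (by exact_mod_cast h2.trans h3) (by positivity)

theorem PS.ind {C : Type} [Enc C] (Y : PS C l) (c : C) : Ind l (Y.n c) (Y.b c) := by
  refine LinearIndependent.of_comp (Y.Φ.co c).toLinearMap ?_
  have h1 := (Pi.linearIndependent_single_one (Fin (Y.Φ.m c)) (ZMod l)).comp _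
    (Fin.castLE_injective (Y.n_le c))
  have h2 : ((Y.Φ.co c).toLinearMap ∘ fun i : Fin (Y.n c) => Y.b c i) =
      (fun i => Pi.single i (1 : ZMod l)) ∘ Fin.castLE (Y.n_le c) :=
    funext fun i => Y.Φ.co_θ c (Fin.castLE (Y.n_le c) i)
  rw [h2]
  exact h1

end Vale.Agent.P330Q
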