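import Vale.Agent.P330Q.RSG

/-! From the grid to the points: the result is a polynomial of small degree. -/

namespace Vale.Agent.P330Q

open Vale.Agent.Lib.PolyTime Vale.Agent.P330 Finset Polynomial
open scoped Classical BigOperators

variable {l : ℕ} [Fact l.Prime] {F : Type} [Field F] [Algebra (ZMod l) F] {n : ℕ} {b : ℕ → F}

theorem rsu_itr {X : Type} (f : ℕ → X → X) (u : X) (k : ℕ) :
    itr f u (k + 1) = itr (fun s => f (s + 1)) (f 0 u) k := by
  induction k with
  | zero => rfl
  | succ k ih => rw [itr, ih, itr]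

theorem upT_succ (k : ℕ) (u : (Fin n → ZMod l) → F) :
    upT b (k + 1) u = upT b k (extr k (zp b k) u) := by
  rw [upT, rsu_itr, upT]
  have e : ∀ s, k + 1 - 1 - (s + 1) = k - 1 - s := fun s => by omega
  simp only [e]
  rfl

theorem rsu_lin {T : Type} [Fintype T] (g : T → (Fin n → ZMod l) → F) (k : ℕ)
    (hg : ∀ t s, s < k → ∀ h (d : ZMod l), g t (h + d • ee s) = g t h)
    (v : T → (Fin n → ZMod l) → F) :
    upT b k (fun h => ∑ t, g t h * v t h) = fun h => ∑ t, g t h * upT b k (v t) h := by
  induction k generalizing v with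
  | zero => rfl
  | succ k ih =>
    have e : extr k (zp b k) (fun h => ∑ t, g t h * v t h) =
        fun h => ∑ t, g t h * extr k (zp b k) (v t) h := by
      funext h
      simp only [extr, mul_sum, hg _ k (Nat.lt_succ_self k)]
      rw [sum_comm]
      exact sum_congr rfl fun t _ => sum_congr rfl fun d _ => mul_left_comm _ _ _
    simp only [upT_succ]
    rw [e, ih fun t s hs => hg t s (Nat.lt_succ_of_lt hs)]

theorem rsu_extr {k : ℕ} (hk : k < n) (u : (Fin n → ZMod l) → F) :
    extr k (zp b k) (fun h => u (cut (k + 1) h)) =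
      fun h => ∑ t : ZMod l, lamb t (wj b k h) * u (cut k h + t • ee k) := by
  funext h
  have e1 : ∀ d : ZMod l, u (cut (k + 1) (h + d • ee k)) = ∑ t : ZMod l,
      lamb t (algebraMap (ZMod l) F (cd k h) + algebraMap (ZMod l) F d) *
        u (cut k h + t • ee k) := by
    intro d
    simp only [← map_add, lamb_cast, ite_mul, one_mul, zero_mul, sum_ite_eq, mem_univ, if_true]
    congr 1
    funext i
    by_cases h1 : (i : ℕ) = k
    · have : i = ⟨k, hk⟩ := Fin.ext h1
      subst this
      simp [cut, ee, cd, hk]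
    · simp only [cut, ee, Pi.add_apply, Pi.smul_apply, if_neg h1, smul_zero, add_zero]
      exact if_congr (by omega) rfl rfl
  simp only [extr, e1, mul_sum, ← mul_assoc]
  rw [sum_comm]
  refine sum_congr rfl fun t _ => ?_
  rw [← sum_mul, sum_lamb_lamb, zp, add_sub_cancel]

theorem isP_upT (hb : Ind l n b) {k : ℕ} (hk : k ≤ n) (u : (Fin n → ZMod l) → F) :
    IsP b (l ^ k) (upT b k fun h => u (cut k h)) := by
  induction k generalizing u with
  | zero =>
    have e : (upT b 0 fun h => u (cut 0 h)) = fun _ => u 0 := by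
      funext h
      exact congrArg u (_root_.funext fun i => by simp [cut])
    rw [e]; exact IsP.const (by simp) _
  | succ k ih =>
    have e : l ^ (k + 1) = (l - 1) * l ^ k + l ^ k := by
      rw [← add_one_mul, Nat.sub_add_cancel (Fact.out : l.Prime).one_le, pow_succ']
    rw [upT_succ, rsu_extr hk, rsu_lin (fun t h => lamb t (wj b k h)) k (fun t s hs h d => by
      rw [wj_add, wj_smul_ee k (hs.trans hk), gam_lt hs (hs.trans hk), mul_zero, add_zero]), e]
    exact IsP.sum _ fun t _ => IsP.mul' (IsP.lamb (isP_wj hb hk) t)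
      (ih (Nat.le_of_succ_le hk) fun x => u (x + t • ee k))

end Vale.Agent.P330Q
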