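import Vale.Agent.P330Q.RSL
import Vale.Agent.P330Q.RSU

/-! The low degree extension as a composition of extrapolations. -/

namespace Vale.Agent.P330Q

open Vale.Agent.Lib.PolyTime Vale.Agent.P330 Finset Polynomial
open scoped Classical BigOperators

variable {l : ℕ} [Fact l.Prime] {F : Type} [Field F] [Algebra (ZMod l) F] {n : ℕ} {b : ℕ → F}

theorem rse_inv {k : ℕ} {z : (Fin n → ZMod l) → F} (hz : ∀ h (d : ZMod l), z (h + d • ee k) = z h)
    (v : (Fin n → ZMod l) → F) : extr k z (extr k (fun h => - z h) v) = v := by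
  funext h
  have h1 : ∀ d : ZMod l, extr k (fun h => - z h) v (h + d • ee k) =
      ∑ t : ZMod l, lamb t (- z h + algebraMap (ZMod l) F d) * v (h + t • ee k) := fun d => by
    rw [extr, hz]
    refine Fintype.sum_equiv (Equiv.addRight d) _ _ fun t => ?_
    simp only [Equiv.coe_addRight]
    rw [lamb_add, add_assoc, ← add_smul, add_comm d]
  rw [extr]
  simp only [h1, mul_sum, ← mul_assoc]
  rw [sum_comm]
  simp only [← sum_mul, sum_lamb_lamb, neg_add_cancel]
  have h2 : ∀ t : ZMod l, lamb t (0 : F) = if 0 = t then 1 else 0 := fun t => by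
    rw [← lamb_cast, map_zero]
  simp [h2]

theorem rse_zp (hb : Ind l n b) {k : ℕ} (hk : k < n) (h : Fin n → ZMod l) (d : ZMod l) :
    zp b k (h + d • ee k) = zp b k h := by
  have : cd k (h + d • ee k) = cd k h + d := by simp [cd, hk, ee]
  rw [zp, zp, wj_add, wj_smul_ee _ hk, gam_self hb hk, this, map_add]
  ring

theorem upT_dnT (hb : Ind l n b) {k : ℕ} (hk : k ≤ n) (u : (Fin n → ZMod l) → F) :
    upT b k (dnT b k u) = u := by
  induction k with
  | zero => rfl
  | succ k ih =>
    rw [upT_succ, show dnT b (k + 1) u = extr k (fun h => - zp b k h) (dnT b k u) from rfl,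
      rse_inv (rse_zp hb hk), ih (by omega)]

theorem rse_low {k j : ℕ} (hj : j ≤ k) {v v' : (Fin n → ZMod l) → F}
    (e : ∀ x, Low k x → v x = v' x) : ∀ x, Low k x → upT b j v x = upT b j v' x := by
  induction j generalizing v v' with
  | zero => exact e
  | succ j ih =>
    rw [upT_succ, upT_succ]
    refine ih (by omega) fun x hx => sum_congr rfl fun t _ => ?_
    rw [e _ fun i hi => ?_]
    have : (i : ℕ) ≠ j := by omega
    simp [hx i hi, ee, this]

theorem lde_eq (hb : Ind l n b) {k : ℕ} (hk : k ≤ n) (u : (Fin n → ZMod l) → F) :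
    lde b k u = upT b k fun h => dnT b k u (cut k h) := by
  refine IsP.uniq hb hk (isP_lde hb hk u) (isP_upT hb hk _) fun x hx => ?_
  rw [lde_low hb u hx, rse_low le_rfl (v' := dnT b k u) (fun y hy => ?_) x hx, upT_dnT hb hk]
  congr 1
  funext i
  by_cases h : (i : ℕ) < k
  · simp [cut, h]
  · simp [cut, h, hy i (not_lt.1 h)]

end Vale.Agent.P330Q
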