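import Vale.Agent.P330Q.RSM
import Vale.Agent.P330Q.RSE

/-! The low degree extension is a plain program. -/

namespace Vale.Agent.P330Q

open Vale.Agent.Lib.PolyTime Vale.Agent.P330 Finset Polynomial
open scoped Classical BigOperators

theorem RSC_apply {A X : Type} (G : ℕ → A → X → X) (u : A → X) (t : ℕ) (j : A) :
    itr (fun s u j => G s j (u j)) u t j = itr (fun s => G s j) (u j) t := by
  induction t with
  | zero => rfl
  | succ t ih => rw [itr, itr, ih]

theorem RSC_guard {X : Type} (G : ℕ → X → X) (u : X) (k t : ℕ) :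
    itr (fun s u => if s < k then G s u else u) u t = itr G u (min t k) := by
  induction t with
  | zero => rw [Nat.zero_min]; rfl
  | succ t ih =>
    rw [itr, ih]
    split_ifs with h
    · rw [min_eq_left h.le, min_eq_left h]
      rfl
    · rw [min_eq_right (by omega), min_eq_right (by omega)]

theorem RSC_cut {l : ℕ} [Fact l.Prime] {F : Type} [Field F] [Algebra (ZMod l) F] {n : ℕ}
    (v : (Fin n → ZMod l) → F) (k t : ℕ) :
    itr (fun s u => if k ≤ s then extr s (fun h => - algebraMap (ZMod l) F (cd s h)) u else u) v t =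
      fun h => v fun i => if k ≤ (i : ℕ) ∧ (i : ℕ) < t then 0 else h i := by
  induction t with
  | zero => simp [itr]
  | succ t ih =>
    rw [itr, ih]
    funext h
    split_ifs with hk
    · simp only [extr, ← map_neg, lamb_cast, ite_mul, one_mul, zero_mul, sum_ite_eq, mem_univ,
        if_true]
      congr 1
      funext i
      by_cases hi : (i : ℕ) = t
      · subst hi
        simp [cd, ee, hk]
      · have e : (i : ℕ) < t + 1 ↔ (i : ℕ) < t := by omega
        simp [ee, hi, e]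
    · exact congrArg v (funext fun i => if_congr (by omega) rfl rfl)

variable {C : Type} [Enc C] {l : ℕ} [Fact l.Prime] {Y : PS C l} {I J : SF Y.lg}
  {f : ∀ c, J.T c → (I.T c → Y.Tab c) → Y.Tab c} {k : ∀ c, J.T c → ℕ}

theorem RSC_iter {p : ∀ c, J.T c → ℕ → Prop} [∀ c j s, Decidable (p c j s)]
    {r : ∀ c, J.T c → ℕ → ℕ} {m : ∀ c, J.T c → ℕ → Y.Tab c}
    (hp : PT fun z : Σ c, Fin (Y.n c) × J.T c => p z.1 z.2.2 z.2.1)
    (hr : PT fun z : Σ c, Fin (Y.n c) × J.T c => r z.1 z.2.2 z.2.1)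
    (hm : PM Y (I.sum J) (Y.co.prod J) fun c z _ => m c z.2 z.1) (hf : PP Y I J f) :
    PP Y I J fun c j w =>
      itr (fun s u => if p c j s then extr (r c j s) (m c j s) u else u) (f c j w) (Y.n c) := by
  have v : PP Y (I.sum J) (Y.co.prod J) fun c z w => w (.inr z.2) :=
    PP.var (I := I.sum J) (J := Y.co.prod J) (x := fun c z => Sum.inr z.2) (D.inr D.sigma_snd.snd)
  exact (PP.iterP Y.pt_n Y.pl_n hf
    (fun c s j _ u => if p c j s then extr (r c j s) (m c j s) (u j) else u j)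
    (PP.ite (J := Y.co.prod J) (p := fun c z => p c z.2 z.1) hp
      (PP.extr (J := Y.co.prod J) (k := fun c z => r c z.2 z.1) hr hm v) v)).congr
    fun c j w => (RSC_apply (fun s j u => if p c j s then extr (r c j s) (m c j s) u else u)
      (fun j => f c j w) (Y.n c) j).symm

theorem RSC_s : PT fun z : Σ c, Fin (Y.n c) × J.T c => (z.2.1 : ℕ) :=
  D.fin_iff.1 D.sigma_snd.fst

theorem RSC_k (hk : PT fun z : Σ c, J.T c => k z.1 z.2) :
    PT fun z : Σ c, Fin (Y.n c) × J.T c => k z.1 z.2.2 :=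
  (D2.app (Y := fun _ => ℕ) (D.of_pt hk) pt_sigma_fst D.sigma_snd.snd).pt

theorem PP.cut (hk : PT fun z : Σ c, J.T c => k z.1 z.2) (hf : PP Y I J f) :
    PP Y I J fun c j w h => f c j w (cut (k c j) h) := by
  refine (RSC_iter (p := fun c j s => k c j ≤ s) (r := fun _ _ s => s)
    (m := fun c _ s h => - algebraMap (ZMod l) (Y.F c) (cd s h)) ((RSC_k hk).le RSC_s) RSC_s
    (PM.coord (J := Y.co.prod J) (k := fun _ z => z.1) RSC_s).neg hf).congr fun c j w => ?_
  rw [RSC_cut]
  funext h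
  congr 1
  funext i
  by_cases hi : (i : ℕ) < k c j
  · rw [P330Q.cut, if_pos hi, if_neg (by omega)]
  · rw [P330Q.cut, if_neg hi, if_pos ⟨by omega, i.2⟩]

theorem PP.dnT (hk : PT fun z : Σ c, J.T c => k z.1 z.2) (hn : ∀ c j, k c j ≤ Y.n c)
    (hf : PP Y I J f) : PP Y I J fun c j w => dnT (Y.b c) (k c j) (f c j w) := by
  refine (RSC_iter (p := fun c j s => s < k c j) (r := fun _ _ s => s)
    (m := fun c _ s h => - zp (Y.b c) s h) (RSC_s.lt (RSC_k hk)) RSC_s
    ((PM.wj (J := Y.co.prod J) (s := fun _ z => z.1) D.sigma_snd.fst).sub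
      (PM.coord (J := Y.co.prod J) (k := fun _ z => z.1) RSC_s)).neg hf).congr fun c j w => ?_
  rw [RSC_guard (fun s => P330Q.extr s fun h => - zp (Y.b c) s h), min_eq_right (hn c j)]
  rfl

theorem PP.upT (hk : PT fun z : Σ c, J.T c => k z.1 z.2) (hn : ∀ c j, k c j ≤ Y.n c)
    (hf : PP Y I J f) : PP Y I J fun c j w => upT (Y.b c) (k c j) (f c j w) := by
  have hr : PT fun z : Σ c, Fin (Y.n c) × J.T c => k z.1 z.2.2 - 1 - z.2.1 :=
    ((RSC_k hk).sub (PT.const 1)).sub RSC_s
  have lt : ∀ c (z : Fin (Y.n c) × J.T c), k c z.2 - 1 - z.1 < Y.n c := fun c z => by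
    have := hn c z.2
    have := z.1.2
    omega
  refine (RSC_iter (p := fun c j s => s < k c j) (r := fun c j s => k c j - 1 - s)
    (m := fun c j s => zp (Y.b c) (k c j - 1 - s)) (RSC_s.lt (RSC_k hk)) hr
    ((PM.wj (J := Y.co.prod J) (s := fun c z => ⟨_, lt c z⟩) (D.fin_iff.2 hr)).sub
      (PM.coord (J := Y.co.prod J) (k := fun c z => k c z.2 - 1 - z.1) hr)) hf).congr
    fun c j w => ?_
  rw [RSC_guard (fun s => P330Q.extr (k c j - 1 - s) (zp (Y.b c) (k c j - 1 - s))),
    min_eq_right (hn c j)]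
  rfl

theorem PP.lde (hk : PT fun z : Σ c, J.T c => k z.1 z.2) (hn : ∀ c j, k c j ≤ Y.n c)
    (hf : PP Y I J f) : PP Y I J fun c j w => lde (Y.b c) (k c j) (f c j w) :=
  (((hf.dnT hk hn).cut hk).upT hk hn).congr fun c j _ => lde_eq (Y.ind c) (hn c j) _

end Vale.Agent.P330Q
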