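import Vale.Agent.P330Q.PPD

/-! Reed-Solomon tables on additive subgroups: definitions. -/

namespace Vale.Agent.P330Q

open Vale.Agent.Lib.PolyTime Vale.Agent.P330 Finset Polynomial
open scoped Classical BigOperators

variable {l : ℕ} [Fact l.Prime] {F : Type} [Field F] [Algebra (ZMod l) F] {n : ℕ}

/-- The first `n` of the elements `b i` are independent over the prime field. -/
def Ind (l : ℕ) [Fact l.Prime] {F : Type} [Field F] [Algebra (ZMod l) F] (n : ℕ) (b : ℕ → F) :
    Prop := LinearIndependent (ZMod l) fun i : Fin n => b i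

/-- The point of the field that belongs to a cell. -/
noncomputable def xi (b : ℕ → F) (h : Fin n → ZMod l) : F :=
  ∑ i, algebraMap (ZMod l) F (h i) * b i

/-- The cell has no digits at the places `≥ k`. -/
def Low (k : ℕ) (h : Fin n → ZMod l) : Prop := ∀ i : Fin n, k ≤ i → h i = 0

/-- The table of values of a polynomial of degree less than `d`. -/
def IsP (b : ℕ → F) (d : ℕ) (u : (Fin n → ZMod l) → F) : Prop :=
  ∃ p : F[X], p.degree < d ∧ ∀ h, u h = p.eval (xi b h)

/-- The vanishing polynomial of the cells with digits below `j`. -/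
noncomputable def zf (l n : ℕ) [Fact l.Prime] [Algebra (ZMod l) F] (b : ℕ → F) (j : ℕ) (z : F) :
    F := ∏ x : Fin n → ZMod l, if Low j x then z - xi b x else 1

/-- The normalised vanishing polynomial at the basis elements. -/
noncomputable def gam (l n : ℕ) [Fact l.Prime] [Algebra (ZMod l) F] (b : ℕ → F) (j i : ℕ) : F :=
  zf l n b j (b i) * (zf l n b j (b j))⁻¹

/-- The normalised vanishing polynomial at a cell. -/
noncomputable def wj (b : ℕ → F) (j : ℕ) (h : Fin n → ZMod l) : F :=
  ∑ i, algebraMap (ZMod l) F (h i) * gam l n b j i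

/-- The Lagrange basis of the prime field. -/
noncomputable def lamb (t : ZMod l) (z : F) : F := 1 - (z - algebraMap (ZMod l) F t) ^ (l - 1)

/-- The Lagrange polynomial of the cell with digits `σ`. -/
noncomputable def lgS (b : ℕ → F) (k : ℕ) (σ : Fin n → F) (h : Fin n → ZMod l) : F :=
  ∏ s : Fin n, if (s : ℕ) < k then lamb (0 : ZMod l) (wj b s h - ∑ i, σ i * gam l n b s i) else 1

/-- The indicator function of the cell with digits `σ`. -/
noncomputable def dlt (σ : Fin n → F) (h : Fin n → ZMod l) : F :=
  ∏ i, lamb (0 : ZMod l) (algebraMap (ZMod l) F (h i) - σ i)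

/-- Low degree extension from the cells with digits below `k`. -/
noncomputable def lde (b : ℕ → F) (k : ℕ) :
    ((Fin n → ZMod l) → F) →ₗ[F] (Fin n → ZMod l) → F where
  toFun u h := ∑ x, if Low k x then u x * lgS b k (fun i => algebraMap (ZMod l) F (x i)) h else 0
  map_add' u v := by
    funext h
    rw [Pi.add_apply, ← sum_add_distrib]
    exact sum_congr rfl fun x _ => by split_ifs <;> simp [add_mul]
  map_smul' a u := by
    funext h
    rw [Pi.smul_apply, RingHom.id_apply, smul_eq_mul, mul_sum]
    exact sum_congr rfl fun x _ => by split_ifs <;> simp [mul_assoc]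

/-- Extrapolation along the lines in the direction `j`. -/
noncomputable def extr (j : ℕ) (z u : (Fin n → ZMod l) → F) (h : Fin n → ZMod l) : F :=
  ∑ t : ZMod l, lamb t (z h) * u (h + t • ee j)

/-- The displacement between the grid and the points. -/
noncomputable def zp (b : ℕ → F) (j : ℕ) (h : Fin n → ZMod l) : F :=
  wj b j h - algebraMap (ZMod l) F (cd j h)

/-- From the grid to the points. -/
noncomputable def upT (b : ℕ → F) (k : ℕ) (u : (Fin n → ZMod l) → F) : (Fin n → ZMod l) → F :=
  itr (fun s => extr (k - 1 - s) (zp b (k - 1 - s))) u k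

/-- From the points to the grid. -/
noncomputable def dnT (b : ℕ → F) (k : ℕ) (u : (Fin n → ZMod l) → F) : (Fin n → ZMod l) → F :=
  itr (fun s => extr s fun h => - zp b s h) u k

/-- Deletion of the digits at the places `≥ k`. -/
def cut (k : ℕ) (h : Fin n → ZMod l) : Fin n → ZMod l := fun i => if (i : ℕ) < k then h i else 0

/-- The basis of the cells. -/
def PS.b {C : Type} [Enc C] (Y : PS C l) (c : C) (i : ℕ) : Y.F c := Y.Φ.θ c ^ i

end Vale.Agent.P330Q
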