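import Vale.Agent.P330Q.RSA

/-! Vanishing polynomials of additive subgroups and the Lagrange basis of the prime field. -/

namespace Vale.Agent.P330Q

open Vale.Agent.Lib.PolyTime Vale.Agent.P330 Finset Polynomial
open scoped Classical BigOperators

variable {l : ℕ} [Fact l.Prime] {F : Type} [Field F] [Algebra (ZMod l) F] {n : ℕ} {b : ℕ → F}

namespace RSG

theorem zf_low {j : ℕ} {x : Fin n → ZMod l} (hx : Low j x) : zf l n b j (xi b x) = 0 :=
  prod_eq_zero (mem_univ x) (by rw [if_pos hx, sub_self])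

theorem zf_shift {j : ℕ} {x : Fin n → ZMod l} (hx : Low j x) (w : F) :
    zf l n b j (xi b x + w) = zf l n b j w :=
  Fintype.prod_equiv (Equiv.subRight x) _ _ fun y => by
    have : Low j (y - x) ↔ Low j y := forall₂_congr fun i hi => by simp [hx i hi]
    simp only [Equiv.subRight_apply, this, xi_sub]
    split_ifs
    · ring
    · rfl

theorem ex_P (b : ℕ → F) {j : ℕ} (hj : j ≤ n) : ∃ P : F[X], P.degree = (l ^ j : ℕ) ∧
    ∀ z, P.eval z = zf l n b j z := by
  refine ⟨∏ x ∈ univ.filter fun x : Fin n → ZMod l => Low j x, (X - C (xi b x)), ?_, fun z => ?_⟩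
  · rw [degree_prod]
    simp [card_low hj]
  · simp [zf, eval_prod, prod_filter, apply_ite]

theorem zf_add (hb : Ind l n b) {j : ℕ} (hj : j ≤ n) (z w : F) :
    zf l n b j (z + w) = zf l n b j z + zf l n b j w := by
  obtain ⟨P, h1, h2⟩ := ex_P (l := l) b hj
  have h3 : (C (zf l n b j w)).degree < P.degree := degree_C_le.trans_lt (by
    rw [h1]; exact_mod_cast pow_pos (Fact.out : l.Prime).pos j)
  have := eq_of_degree_le_of_eval_index_eq (univ.filter fun x : Fin n → ZMod l => Low j x)
    (f := taylor w P) (g := P + C (zf l n b j w)) (xi_inj hb).injOn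
    (by rw [degree_taylor, h1, card_low hj])
    (by rw [degree_taylor, degree_add_eq_left_of_degree_lt h3])
    (by rw [leadingCoeff_taylor, leadingCoeff_add_of_degree_lt' h3]) fun x hx => by
      have hx := (mem_filter.1 hx).2
      rw [taylor_eval, eval_add, eval_C, h2, h2, zf_shift hx, zf_low hx, zero_add]
  simpa [taylor_eval, h2] using congrArg (eval z) this

theorem deg_lamb (t : ZMod l) {d : ℕ} {p : F[X]} (hp : p.natDegree ≤ d) :
    (1 - (p - C (algebraMap (ZMod l) F t)) ^ (l - 1)).natDegree ≤ (l - 1) * d :=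
  (natDegree_sub_le _ _).trans (max_le (by simp)
    (natDegree_pow_le_of_le _ (by rwa [natDegree_sub_C])))

omit [Algebra (ZMod l) F] in
theorem deg_lt {p : F[X]} (hp : p.natDegree ≤ (l - 1) * 1) : p.degree < l := by
  have := (Fact.out : l.Prime).pos
  exact degree_le_natDegree.trans_lt (by exact_mod_cast (show p.natDegree < l by omega))

end RSG

open RSG

theorem gam_lt {j i : ℕ} (hi : i < j) (hn : i < n) : gam l n b j i = 0 := by
  rw [gam, ← xi_ee (l := l) (b := b) hn, zf_low (x := ee i) fun k hk => if_neg (by omega),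
    zero_mul]

theorem gam_self (hb : Ind l n b) {j : ℕ} (hj : j < n) : gam l n b j j = 1 := by
  refine mul_inv_cancel₀ (prod_ne_zero_iff.2 fun x _ => ?_)
  split_ifs with h
  · rw [← xi_ee (l := l) (b := b) hj, sub_ne_zero]
    intro e
    simpa [← xi_inj hb e, ee] using h ⟨j, hj⟩ le_rfl
  · exact one_ne_zero

theorem isP_wj (hb : Ind l n b) {j : ℕ} (hj : j < n) :
    IsP b (l ^ j + 1) (wj b j : (Fin n → ZMod l) → F) := by
  obtain ⟨P, h1, h2⟩ := ex_P (l := l) b hj.le
  let φ := (AddMonoidHom.mk' (zf l n b j) (zf_add hb hj.le)).toZModLinearMap l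
  refine ⟨C (zf l n b j (b j))⁻¹ * P, ?_, fun h => ?_⟩
  · rw [← smul_eq_C_mul]
    refine (degree_smul_le _ _).trans_lt ?_
    rw [h1]
    exact_mod_cast Nat.lt_succ_self _
  · have e : zf l n b j (xi b h) = ∑ i, algebraMap (ZMod l) F (h i) * zf l n b j (b i) := by
      simp only [xi, ← Algebra.smul_def]
      exact (map_sum φ _ _).trans (sum_congr rfl fun i _ => φ.map_smul _ _)
    rw [eval_mul, eval_C, h2, e, mul_comm, sum_mul]
    simp only [wj, gam, mul_assoc]

theorem wj_add (j : ℕ) (x y : Fin n → ZMod l) : wj b j (x + y) = wj b j x + wj b j y := by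
  simp [wj, add_mul, sum_add_distrib]

theorem wj_smul_ee (j : ℕ) {i : ℕ} (hi : i < n) (t : ZMod l) :
    wj b j (t • ee i : Fin n → ZMod l) = algebraMap (ZMod l) F t * gam l n b j i := by
  rw [wj, sum_eq_single ⟨i, hi⟩ (fun k _ hk => by simp [ee, Fin.val_ne_of_ne hk]) (by simp)]
  simp [ee]

theorem lamb_cast (t s : ZMod l) :
    lamb t (algebraMap (ZMod l) F s) = if s = t then 1 else 0 := by
  rw [lamb, ← map_sub, ← map_pow, ZMod.pow_card_sub_one]
  by_cases h : s = t <;> simp [h, sub_eq_zero]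

theorem lamb_add (t s : ZMod l) (z : F) :
    lamb (t + s) (z + algebraMap (ZMod l) F s) = lamb t z := by
  rw [lamb, lamb, map_add, add_sub_add_right_eq_sub]

/-- Interpolation on the prime field. -/
theorem sum_lamb {p : F[X]} (hp : p.degree < l) (z : F) :
    ∑ t : ZMod l, lamb t z * p.eval (algebraMap (ZMod l) F t) = p.eval z := by
  have e : ∀ z, (∑ t : ZMod l, (1 - (X - C (algebraMap (ZMod l) F t)) ^ (l - 1)) *
      C (p.eval (algebraMap (ZMod l) F t))).eval z =
      ∑ t : ZMod l, lamb t z * p.eval (algebraMap (ZMod l) F t) := fun z => by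
    simp only [eval_finsetSum, eval_mul, eval_sub, eval_one, eval_pow, eval_X, eval_C, lamb]
  refine (e z).symm.trans (congrArg _ (eq_of_degrees_lt_of_eval_index_eq univ
    (algebraMap (ZMod l) F).injective.injOn ?_ (by rwa [card_univ, ZMod.card]) fun s _ => ?_))
  · rw [card_univ, ZMod.card]
    exact deg_lt (natDegree_sum_le_of_forall_le _ _ fun t _ =>
      (natDegree_mul_C_le _ _).trans (deg_lamb t natDegree_X_le))
  · rw [e]
    simp [lamb_cast]

theorem sum_lamb_lamb (s : ZMod l) (a z : F) :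
    ∑ t : ZMod l, lamb t z * lamb s (a + algebraMap (ZMod l) F t) = lamb s (a + z) := by
  have := sum_lamb (deg_lt (deg_lamb s (p := C a + X) (by rw [add_comm, natDegree_X_add_C]))) z
  simpa only [eval_add, eval_sub, eval_one, eval_pow, eval_X, eval_C, lamb] using this

theorem IsP.lamb {d : ℕ} {u : (Fin n → ZMod l) → F} (h : IsP b (d + 1) u) (t : ZMod l) :
    IsP b ((l - 1) * d + 1) fun x => lamb t (u x) := by
  obtain ⟨p, h1, h2⟩ := h
  refine ⟨_, degree_le_natDegree.trans_lt (Nat.cast_lt.2 (Nat.lt_succ_of_le (deg_lamb t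
    (natDegree_le_iff_degree_le.2 (Order.le_of_lt_succ h1))))), fun x => ?_⟩
  simp only [eval_sub, eval_one, eval_pow, eval_C, P330Q.lamb, h2]

theorem dlt_cast (a h : Fin n → ZMod l) :
    dlt (fun i => algebraMap (ZMod l) F (a i)) h = if h = a then 1 else 0 := by
  simp only [dlt, ← map_sub, lamb_cast, sub_eq_zero, prod_boole, mem_univ, true_imp_iff, funext_iff]

end Vale.Agent.P330Q
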