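import Vale.Agent.P330Q.RSG

/-! The low degree extension. -/

namespace Vale.Agent.P330Q

open Vale.Agent.Lib.PolyTime Vale.Agent.P330 Finset Polynomial
open scoped Classical BigOperators

variable {l : ℕ} [Fact l.Prime] {F : Type} [Field F] [Algebra (ZMod l) F] {n : ℕ} {b : ℕ → F}

variable {k : ℕ}

theorem rsl_succ (hk : k < n) (σ : Fin n → F) (h : Fin n → ZMod l) :
    lgS b (k + 1) σ h = lamb (0 : ZMod l) (wj b k h - ∑ i, σ i * gam l n b k i) * lgS b k σ h := by
  have e := prod_ite_eq' univ (⟨k, hk⟩ : Fin n)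
    fun s : Fin n => lamb (0 : ZMod l) (wj b s h - ∑ i, σ i * gam l n b s i)
  rw [if_pos (mem_univ _)] at e
  rw [← e, lgS, lgS, ← prod_mul_distrib]
  refine prod_congr rfl fun s _ => ?_
  by_cases h1 : s = ⟨k, hk⟩
  · subst h1; simp
  · have h2 : (s : ℕ) ≠ k := fun e => h1 (Fin.ext e)
    rw [if_neg h1, one_mul]
    exact if_congr (by omega) rfl rfl

theorem rsl_pow (l k : ℕ) [Fact l.Prime] : l ^ (k + 1) = (l - 1) * l ^ k + l ^ k := by
  have h := (Fact.out : l.Prime).one_le
  rw [← add_one_mul, Nat.sub_add_cancel h, pow_succ']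

theorem isP_lgS (hb : Ind l n b) (hk : k ≤ n) (σ : Fin n → F) :
    IsP b (l ^ k) (lgS b k σ : (Fin n → ZMod l) → F) := by
  induction k with
  | zero =>
    have e : (lgS b 0 σ : (Fin n → ZMod l) → F) = fun _ => 1 := by funext h; simp [lgS]
    rw [e]; exact IsP.const (by simp) 1
  | succ k ih =>
    rw [_root_.funext (rsl_succ hk σ), rsl_pow]
    exact IsP.mul' (IsP.lamb ((isP_wj hb hk).sub (IsP.const (Nat.succ_pos _) _)) 0)
      (ih (Nat.le_of_succ_le hk))

theorem lgS_low (hb : Ind l n b) {a x : Fin n → ZMod l} (ha : Low k a) (hx : Low k x) :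
    lgS b k (fun i => algebraMap (ZMod l) F (a i)) x = if x = a then 1 else 0 := by
  by_cases e : x = a
  · subst e
    rw [if_pos rfl]
    refine prod_eq_one fun s _ => ?_
    have h0 := lamb_cast (F := F) (0 : ZMod l) 0
    rw [map_zero, if_pos rfl] at h0
    rw [wj, sub_self, h0, ite_self]
  · rw [if_neg e]
    obtain ⟨s, hs, hm⟩ := exists_max_image (univ.filter fun i => x i ≠ a i) id (by
      obtain ⟨i, hi⟩ := Function.ne_iff.1 e
      exact ⟨i, mem_filter.2 ⟨mem_univ _, hi⟩⟩)
    have hs' : x s ≠ a s := (mem_filter.1 hs).2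
    have hsk : (s : ℕ) < k := by
      by_contra c
      exact hs' ((hx s (not_lt.1 c)).trans (ha s (not_lt.1 c)).symm)
    refine prod_eq_zero (mem_univ s) ?_
    have e2 : wj b s x - ∑ i, algebraMap (ZMod l) F (a i) * gam l n b s i =
        algebraMap (ZMod l) F (x s - a s) := by
      rw [wj, ← sum_sub_distrib, sum_eq_single s, gam_self hb s.2, map_sub, mul_one, mul_one]
      · intro i _ hi
        rcases lt_or_gt_of_ne hi with h | h
        · rw [gam_lt h i.2, mul_zero, mul_zero, sub_self]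
        · have : x i = a i := by
            by_contra c
            exact absurd (hm i (mem_filter.2 ⟨mem_univ _, c⟩)) (not_le.2 h)
          rw [this, sub_self]
      · exact fun c => absurd (mem_univ _) c
    rw [if_pos hsk, e2, lamb_cast, if_neg (sub_ne_zero.2 hs')]

theorem rsl_lde (u : (Fin n → ZMod l) → F) (h : Fin n → ZMod l) : lde b k u h =
    ∑ x, if Low k x then u x * lgS b k (fun i => algebraMap (ZMod l) F (x i)) h else 0 := rfl

theorem isP_lde (hb : Ind l n b) (hk : k ≤ n) (u : (Fin n → ZMod l) → F) :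
    IsP b (l ^ k) (lde b k u) := by
  rw [_root_.funext (rsl_lde u)]
  refine IsP.sum _ fun x _ => ?_
  by_cases hx : Low k x
  · simp only [if_pos hx]; exact IsP.cmul _ (isP_lgS hb hk _)
  · simp only [if_neg hx]; exact IsP.zero

theorem lde_low (hb : Ind l n b) (u : (Fin n → ZMod l) → F) {x : Fin n → ZMod l} (hx : Low k x) :
    lde b k u x = u x := by
  rw [rsl_lde, sum_eq_single x, if_pos hx, lgS_low hb hx hx, if_pos rfl, mul_one]
  · intro y _ hy
    by_cases h : Low k y
    · rw [if_pos h, lgS_low hb h hx, if_neg (Ne.symm hy), mul_zero]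
    · exact if_neg h
  · exact fun c => absurd (mem_univ _) c

theorem lde_congr {u v : (Fin n → ZMod l) → F} (e : ∀ x, Low k x → u x = v x) :
    lde b k u = lde b k v := by
  funext h
  rw [rsl_lde, rsl_lde]
  refine sum_congr rfl fun x _ => ?_
  by_cases hx : Low k x
  · rw [if_pos hx, if_pos hx, e x hx]
  · rw [if_neg hx, if_neg hx]

theorem IsP.lde_eq (hb : Ind l n b) (hk : k ≤ n) {u : (Fin n → ZMod l) → F}
    (h : IsP b (l ^ k) u) : lde b k u = u :=
  IsP.uniq hb hk (isP_lde hb hk u) h fun _ hx => lde_low hb u hx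

theorem lde_single {a : Fin n → ZMod l} (ha : Low k a) :
    lde b k (fun h => if h = a then 1 else 0) = lgS b k fun i => algebraMap (ZMod l) F (a i) := by
  funext h
  rw [rsl_lde, sum_eq_single a, if_pos ha, if_pos rfl, one_mul]
  · intro y _ hy
    rw [if_neg hy, zero_mul, ite_self]
  · exact fun c => absurd (mem_univ _) c

theorem lde_shift (hb : Ind l n b) (hk : k ≤ n) (u : (Fin n → ZMod l) → F) {a : Fin n → ZMod l}
    (ha : Low k a) : lde b k (fun h => u (h + a)) = fun h => lde b k u (h + a) :=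
  IsP.uniq hb hk (isP_lde hb hk _) ((isP_lde hb hk u).shift a) fun x hx => by
    rw [lde_low hb _ hx, lde_low hb u fun i hi => by rw [Pi.add_apply, hx i hi, ha i hi, add_zero]]

end Vale.Agent.P330Q
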