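import Vale.Agent.P330Q.RSD
import Vale.Agent.P330Q.PPG

/-! The Reed-Solomon kit in polynomial time. -/

namespace Vale.Agent.P330Q

open Vale.Agent.Lib.PolyTime Vale.Agent.P330 Finset Polynomial
open scoped Classical BigOperators

variable {B C : Type} [Enc B] [Enc C] {l : ℕ} [Fact l.Prime] {Y : PS C l} {p : B → C}

theorem PS.rsp_co (hp : PT p) : PFam fun b => Fin (Y.n (p b)) := Y.co.pf.comap hp

theorem PS.rsp_H (hp : PT p) : PFam fun b => Y.H (p b) := Y.Hf.pf.comap hp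

theorem PS.rsp_app {h : ∀ b, Y.H (p b)} (hh : D h) :
    PT fun z : Σ b, Fin (Y.n (p b)) => h z.1 z.2 :=
  (D.fn_app (n := fun z : Σ b, Fin (Y.n (p b)) => Y.n (p z.1)) (X := fun _ => ZMod l)
    (hh.comp pt_sigma_fst) D.sigma_snd).pt

theorem PS.d_b (hp : PT p) {i : ∀ b, Fin (Y.n (p b))} (hi : D i) :
    D fun b => Y.b (p b) (i b) :=
  PS.dPowN hp (Y.Φ.d_θ.comp hp) (D.fin_iff.1 hi)
    (((Sz.pb Y.pl_n Y.pb_lg).comp hp).of_le fun b => (i b).2.le)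

theorem PS.d_xi (hp : PT p) {h : ∀ b, Y.H (p b)} (hh : D h) :
    D fun b => xi (Y.b (p b)) (h b) :=
  PS.dSum hp (PS.rsp_co hp) (f := fun b i => algebraMap (ZMod l) _ (h b i) * Y.b (p b) i)
    (PS.dMul (p := fun z : Σ b, Fin (Y.n (p b)) => p z.1) (hp.comp pt_sigma_fst)
      (PS.dCast (hp.comp pt_sigma_fst) (PS.rsp_app hh))
      (PS.d_b (hp.comp pt_sigma_fst) D.sigma_snd))

theorem PS.pt_low (hp : PT p) {k : B → ℕ} (hk : PT k) {h : ∀ b, Y.H (p b)} (hh : D h) :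
    PT fun b => Low (k b) (h b) :=
  (PS.rsp_co hp).pt_forall (p := fun b i => k b ≤ i → h b i = 0)
    (((PT.le (hk.comp pt_sigma_fst) (D.fin_iff.1 D.sigma_snd)).not.or
      (PT.eq (PS.rsp_app hh) (PT.const 0))).congr fun _ => propext imp_iff_not_or)

theorem PS.rsp_zf (hp : PT p) {j : B → ℕ} (hj : PT j) {z : ∀ b, Y.F (p b)} (hz : D z) :
    D fun b => zf l (Y.n (p b)) (Y.b (p b)) (j b) (z b) :=
  PS.dProd hp (PS.rsp_H hp)
    (f := fun b x => if Low (j b) x then z b - xi (Y.b (p b)) x else 1)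
    (D.ite (PS.pt_low (p := fun w : Σ b, Y.H (p b) => p w.1) (hp.comp pt_sigma_fst)
        (hj.comp pt_sigma_fst) D.sigma_snd)
      (PS.dSub (p := fun w : Σ b, Y.H (p b) => p w.1) (hp.comp pt_sigma_fst)
        (hz.comp pt_sigma_fst) (PS.d_xi (hp.comp pt_sigma_fst) D.sigma_snd))
      (PS.dOne (hp.comp pt_sigma_fst)))

theorem PS.d_gam (hp : PT p) {j i : ∀ b, Fin (Y.n (p b))} (hj : D j) (hi : D i) :
    D fun b => gam l (Y.n (p b)) (Y.b (p b)) (j b) (i b) :=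
  PS.dMul hp (PS.rsp_zf hp (D.fin_iff.1 hj) (PS.d_b hp hi))
    (PS.dInv hp (PS.rsp_zf hp (D.fin_iff.1 hj) (PS.d_b hp hj)))

theorem PS.d_lamb (hp : PT p) (t : ZMod l) {z : ∀ b, Y.F (p b)} (hz : D z) :
    D fun b => lamb t (z b) :=
  PS.dSub hp (PS.dOne hp) (PS.dPow hp (PS.dSub hp hz (PS.dCast hp (PT.const t))) (l - 1))

theorem PS.rsp_sum (hp : PT p) {σ : ∀ b, Fin (Y.n (p b)) → Y.F (p b)} (hσ : D2 σ)
    {j : ∀ b, Fin (Y.n (p b))} (hj : D j) :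
    D fun b => ∑ i, σ b i * gam l (Y.n (p b)) (Y.b (p b)) (j b) i :=
  PS.dSum hp (PS.rsp_co hp) (f := fun b i => σ b i * gam l (Y.n (p b)) (Y.b (p b)) (j b) i)
    (PS.dMul (p := fun z : Σ b, Fin (Y.n (p b)) => p z.1) (hp.comp pt_sigma_fst) hσ
      (PS.d_gam (hp.comp pt_sigma_fst) (hj.comp pt_sigma_fst) D.sigma_snd))

theorem PS.rsp_cast (hp : PT p) {h : ∀ b, Y.H (p b)} (hh : D h) :
    D2 fun b (i : Fin (Y.n (p b))) => algebraMap (ZMod l) (Y.F (p b)) (h b i) :=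
  PS.dCast (p := fun z : Σ b, Fin (Y.n (p b)) => p z.1) (hp.comp pt_sigma_fst) (PS.rsp_app hh)

theorem PS.d_lgS (hp : PT p) {k : B → ℕ} (hk : PT k) {σ : ∀ b, Fin (Y.n (p b)) → Y.F (p b)}
    (hσ : D2 σ) {h : ∀ b, Y.H (p b)} (hh : D h) :
    D fun b => lgS (Y.b (p b)) (k b) (σ b) (h b) := by
  have hq : PT fun z : Σ b, Fin (Y.n (p b)) => p z.1 := hp.comp pt_sigma_fst
  exact PS.dProd hp (PS.rsp_co hp) (f := fun b s => if (s : ℕ) < k b then lamb (0 : ZMod l)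
      (wj (Y.b (p b)) s (h b) - ∑ i, σ b i * gam l (Y.n (p b)) (Y.b (p b)) s i) else 1)
    (D.ite (PT.lt (D.fin_iff.1 D.sigma_snd) (hk.comp pt_sigma_fst))
      (PS.d_lamb hq 0 (PS.dSub hq
        (PS.rsp_sum hq (PS.rsp_cast hq (hh.comp pt_sigma_fst)) D.sigma_snd)
        (PS.rsp_sum hq (σ := fun z i => σ z.1 i)
          (hσ.app (pt_sigma_fst.comp pt_sigma_fst) D.sigma_snd) D.sigma_snd)))
      (PS.dOne hq))

theorem PS.d_lde (hp : PT p) {k : B → ℕ} (hk : PT k) {u : ∀ b, Y.Tab (p b)} (hu : D2 u)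
    {h : ∀ b, Y.H (p b)} (hh : D h) : D fun b => lde (Y.b (p b)) (k b) (u b) (h b) := by
  have hq : PT fun z : Σ b, Y.H (p b) => p z.1 := hp.comp pt_sigma_fst
  exact PS.dSum hp (PS.rsp_H hp) (f := fun b x => if Low (k b) x then u b x *
      lgS (Y.b (p b)) (k b) (fun i => algebraMap (ZMod l) (Y.F (p b)) (x i)) (h b) else 0)
    (D.ite (PS.pt_low hq (hk.comp pt_sigma_fst) D.sigma_snd)
      (PS.dMul hq hu (PS.d_lgS hq (hk.comp pt_sigma_fst) (PS.rsp_cast hq D.sigma_snd)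
        (hh.comp pt_sigma_fst)))
      (PS.dZero hq))

end Vale.Agent.P330Q
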