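import Vale.Agent.P330Q.PPN
import Vale.Agent.P330Q.RSP
import Vale.Agent.P330Q.RSG

/-! Lagrange polynomials, indicators and masks as multipliers. -/

namespace Vale.Agent.P330Q

open Vale.Agent.Lib.PolyTime Vale.Agent.P330 Finset Polynomial
open scoped Classical BigOperators

variable {C : Type} [Enc C] {l : ℕ} [Fact l.Prime] {Y : PS C l} {I J : SF Y.lg}
  {f g : ∀ c, J.T c → (I.T c → Y.Tab c) → Y.Tab c}

theorem RSM_cd {n : ℕ} (i : Fin n) (h : Fin n → ZMod l) : cd (i : ℕ) h = h i := dif_pos i.2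

theorem RSM_co : PM Y I (J.prod Y.co) fun c z _ h => algebraMap (ZMod l) (Y.F c) (h z.2) :=
  (PM.coord (J := J.prod Y.co) (k := fun _ z => (z.2 : ℕ)) (D.fin_iff.1 D.sigma_snd.snd)).congr
    fun c j w => funext fun h => by rw [RSM_cd]

theorem RSM_k {K : SF Y.lg} {k : ∀ c, J.T c → ℕ} (hk : PT fun z : Σ c, J.T c => k z.1 z.2) :
    PT fun z : Σ c, (J.prod K).T c => k z.1 z.2.1 :=
  hk.comp (pt_sigma_mk (X := J.T) pt_sigma_fst D.sigma_snd.fst)

theorem PM.lamb (t : ZMod l) (hg : PM Y I J g) :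
    PM Y I J fun c j w h => lamb t (g c j w h) :=
  PM.one.sub ((hg.sub (PM.const (a := fun c _ => algebraMap (ZMod l) (Y.F c) t)
    (PS.dCast pt_sigma_fst (PT.const t)))).pow (l - 1))

theorem PM.wj {s : ∀ c, J.T c → Fin (Y.n c)} (hs : D2 s) :
    PM Y I J fun c j _ h => wj (Y.b c) (s c j) h :=
  PM.sum (K := Y.co)
    (f := fun c j i _ h => algebraMap (ZMod l) (Y.F c) (h i) * gam l (Y.n c) (Y.b c) (s c j) i)
    (RSM_co.mul (PM.const (J := J.prod Y.co)
      (a := fun c z => gam l (Y.n c) (Y.b c) (s c z.1) z.2)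
      (PS.d_gam pt_sigma_fst (hs.app pt_sigma_fst D.sigma_snd.fst) D.sigma_snd.snd)))

/-- The Lagrange polynomial of a cell whose digits are scalars. -/
theorem PM.lgS {k : ∀ c, J.T c → ℕ} (hk : PT fun z : Σ c, J.T c => k z.1 z.2)
    {t : ∀ c, J.T c → Fin (Y.n c) → (I.T c → Y.Tab c) → Y.Tab c}
    (ht : PP Y I (J.prod Y.co) fun c z => t c z.1 z.2) :
    PM Y I J fun c j w => lgS (Y.b c) (k c j) fun i => ∑ x, t c j i w x := by
  have h1 : PP Y I ((J.prod Y.co).prod Y.co) fun c z => t c z.1.1 z.2 :=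
    ht.reindex (K := (J.prod Y.co).prod Y.co) (x := fun _ z => (z.1.1, z.2))
      (D.sigma_snd.fst.fst.pair D.sigma_snd.snd)
  have h2 : PM Y I (J.prod Y.co) fun c z w _ =>
      ∑ i : Fin (Y.n c), (∑ x, t c z.1 i w x) * gam l (Y.n c) (Y.b c) z.2 i :=
    PM.sum (J := J.prod Y.co) (K := Y.co)
      (f := fun c z i w _ => (∑ x, t c z.1 i w x) * gam l (Y.n c) (Y.b c) z.2 i)
      ((PM.scal h1).mul (PM.const (J := (J.prod Y.co).prod Y.co)
        (a := fun c z => gam l (Y.n c) (Y.b c) z.1.2 z.2)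
        (PS.d_gam pt_sigma_fst D.sigma_snd.fst.snd D.sigma_snd.snd)))
  have h3 := ((PM.wj (I := I) (J := J.prod Y.co) (s := fun _ z => z.2) D.sigma_snd.snd).sub
    h2).lamb 0
  have h4 := PM.ite (J := J.prod Y.co) (p := fun c z => (z.2 : ℕ) < k c z.1)
    (PT.lt (D.fin_iff.1 D.sigma_snd.snd) (RSM_k hk)) h3 PM.one
  exact PM.prod (K := Y.co) (f := fun c j s w h => if (s : ℕ) < k c j then
    P330Q.lamb (0 : ZMod l) (P330Q.wj (Y.b c) s h -
      ∑ i : Fin (Y.n c), (∑ x, t c j i w x) * gam l (Y.n c) (Y.b c) s i) else 1)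
    (h4.congr fun c z w => funext fun h => by split_ifs <;> rfl)

/-- The indicator function of a cell whose digits are scalars. -/
theorem PM.dlt {t : ∀ c, J.T c → Fin (Y.n c) → (I.T c → Y.Tab c) → Y.Tab c}
    (ht : PP Y I (J.prod Y.co) fun c z => t c z.1 z.2) :
    PM Y I J fun c j w => dlt fun i => ∑ x, t c j i w x :=
  PM.prod (K := Y.co) (f := fun c j i w h =>
    P330Q.lamb (0 : ZMod l) (algebraMap (ZMod l) (Y.F c) (h i) - ∑ x, t c j i w x))
    ((RSM_co.sub (PM.scal ht)).lamb 0)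

/-- The indicator function of one digit. -/
theorem PM.digit {k : ∀ c, J.T c → ℕ} (hk : PT fun z : Σ c, J.T c => k z.1 z.2)
    {a : ∀ c, J.T c → ZMod l} (ha : PT fun z : Σ c, J.T c => a z.1 z.2) :
    PM Y I J fun c j _ h => if cd (k c j) h = a c j then 1 else 0 :=
  (((PM.coord hk).sub (PM.const (a := fun c j => algebraMap (ZMod l) (Y.F c) (a c j))
    (PS.dCast pt_sigma_fst ha))).lamb 0).congr fun c j w => funext fun h => by
      rw [← map_sub, lamb_cast]
      simp only [sub_eq_zero]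

theorem PM.low {k : ∀ c, J.T c → ℕ} (hk : PT fun z : Σ c, J.T c => k z.1 z.2) :
    PM Y I J fun c j _ h => if Low (k c j) h then 1 else 0 := by
  have h1 := PM.digit (I := I) (J := J.prod Y.co) (k := fun _ z => (z.2 : ℕ))
    (D.fin_iff.1 D.sigma_snd.snd) (a := fun _ _ => 0) (PT.const 0)
  have h2 := PM.ite (J := J.prod Y.co) (p := fun c z => k c z.1 ≤ (z.2 : ℕ))
    (PT.le (RSM_k hk) (D.fin_iff.1 D.sigma_snd.snd)) h1 PM.one
  refine (PM.prod (K := Y.co)
    (f := fun c j i _ h => if (k c j ≤ (i : ℕ) → h i = 0) then (1 : Y.F c) else 0)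
    (h2.congr fun c z w => funext fun h => ?_)).congr fun c j w => funext fun h => ?_
  · by_cases e : k c z.1 ≤ (z.2 : ℕ)
    · simp only [e, if_true, RSM_cd, forall_true_left]
    · simp only [e, if_false, IsEmpty.forall_iff, if_true]
  · by_cases e : Low (k c j) h
    · rw [if_pos e]
      exact (prod_eq_one fun i _ => if_pos (e i)).symm
    · obtain ⟨i, hi⟩ := not_forall.1 e
      rw [if_neg e]
      exact (prod_eq_zero (mem_univ i) (if_neg hi)).symm

theorem PP.extr {k : ∀ c, J.T c → ℕ} (hk : PT fun z : Σ c, J.T c => k z.1 z.2) (hg : PM Y I J g)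
    (hf : PP Y I J f) : PP Y I J fun c j w => extr (k c j) (g c j w) (f c j w) :=
  PP.fsum univ (f := fun t c j w h => lamb t (g c j w h) * f c j w (h + t • ee (k c j)))
    fun t _ => (hg.lamb t).app (hf.shiftZ hk t)

end Vale.Agent.P330Q
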