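import Vale.Agent.P330Q.MemS
import Vale.Agent.P330Q.HPV
import Vale.Agent.P330.MachC

/-! Assembly of the memory and the machine. -/

namespace Vale.Agent.P330Q

open Vale.Agent.Lib.PolyTime Vale.Agent.P330 Finset
open scoped Classical BigOperators

theorem pt_natsI : PT fun c : VI => natsI c.1 := by
  unfold natsI natsC
  fun_prop

theorem pb_NI : PB NI :=
  ((pt_natsI.szb.lin 2 1).mul pt_natsI.pb_length).of_le fun _ =>
    RCompx.len_le _ _ fun _ ha => sz_mem ha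

theorem pb_LI : PB LI := pb_NI.of_le fun _ => Nat.size_le.2 Nat.lt_two_pow_self

theorem Sz.pb' {C : Type} [Enc C] {a lg n : C → ℕ} (h : Sz a lg n) (ha : PB a) (hl : PB lg) :
    PB n := by
  obtain ⟨K, k, h⟩ := h
  exact (((PB.const K).mul (ha.add (PB.const 1))).mul ((hl.add (PB.const 1)).pow k)).of_le h

theorem pp_id {C : Type} [Enc C] {l : ℕ} [Fact l.Prime] (Y : PS C l) (I : SF Y.lg) :
    PP Y I I fun _ i w => w i := by
  refine ⟨SF.const _ Empty, fun _ j => j.elim, fun _ j => j.elim, fun _ j => j.elim,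
    fun _ j => j.elim, fun _ i => .inl i, ?_, ?_, ?_, fun m => ?_, D.inl D.sigma_snd,
    fun _ j => j.elim, fun c w => ⟨fun j => j.elim, fun j => j.elim, fun _ => rfl⟩⟩
  · exact (PT.const 0).congr fun z => z.2.elim
  · exact (PT.const 0).congr fun z => z.2.elim
  · exact D.congr (Y.Φ.d_θ.comp pt_sigma_fst) fun z => z.2.1.elim
  · exact D.congr (Y.Φ.d_θ.comp pt_sigma_fst) fun z => z.2.1.elim

/-- The tuple of tables encoded by a word. -/
noncomputable def msgQ {W X F : Type} [Zero W] (enc : W → X → F) (u : X → F) : W :=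
  if h : ∃ w, enc w = u then h.choose else 0

theorem msgQ_enc {W X F : Type} [Zero W] {enc : W → X → F} (h : Function.Injective enc) (w : W) :
    msgQ enc (enc w) = w := by
  have e : ∃ w', enc w' = enc w := ⟨w, rfl⟩
  rw [msgQ, dif_pos e]
  exact h e.choose_spec

theorem coreThmS (hMem : StoreThm) (hM : PMachThm) : CoreThmS := by
  obtain ⟨l, _, hl, hMem⟩ := hMem
  obtain ⟨n0, pn0, sn0, hM⟩ := hM l hl
  have h01 : (0 : ZMod l) ≠ 1 := zero_ne_one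
  obtain ⟨Y, hlg, hn, δc, Δ, δ0, Δ0, hMem⟩ := hMem VI NI LI n0 pn0 pb_NI pb_LI sn0
    ((sn0.size pl_size_NI).of_le fun c => by
      refine (Nat.lt_size.2 ?_).le
      exact Nat.pow_le_pow_left (by omega) _)
  obtain ⟨M, hM⟩ := hM Y (hlg ▸ Sz.log) hn
  obtain ⟨X, enc, H⟩ := hMem M.I
  obtain ⟨δ, d0, d1, d2⟩ : ∃ δ : ℝ, 0 < δ ∧ δ ≤ δc ∧ 8 * δ ≤ Δ :=
    ⟨min δc (Δ / 8), by positivity, min_le_left _ _, by linarith [min_le_right δc (Δ / 8)]⟩
  obtain ⟨va, a0, hA⟩ := H.near δ d0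
  obtain ⟨vb, b0, hB⟩ := H.zero M.Z M.tz hM.pp_tz
  obtain ⟨vc, c0, hC⟩ := H.point M.O M.E M.ty M.φ hM.pp_ty hM.d_φ
  obtain ⟨v, v0, v1, v2, v3⟩ : ∃ v : ℝ, 0 < v ∧ 5 * v ≤ va ∧ 5 * v ≤ vb ∧ 5 * v ≤ vc := by
    refine ⟨min (va / 5) (min (vb / 5) (vc / 5)), by positivity, ?_, ?_, ?_⟩
    · linarith [min_le_left (va / 5) (min (vb / 5) (vc / 5))]
    · linarith [(min_le_right (va / 5) _).trans (min_le_left (vb / 5) (vc / 5))]
    · linarith [(min_le_right (va / 5) _).trans (min_le_right (vb / 5) (vc / 5))]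
  have v4 : 0 < v / 10 := by positivity
  obtain ⟨ηa, ηa0, tA⟩ := hA (v / 10) v4
  obtain ⟨η, η0, η1, η2⟩ : ∃ η : ℝ, 0 < η ∧ 2 * η ≤ ηa ∧ 4 * η ≤ δ :=
    ⟨min (ηa / 2) (δ / 4), by positivity, by linarith [min_le_left (ηa / 2) (δ / 4)],
      by linarith [min_le_right (ηa / 2) (δ / 4)]⟩
  have inj : ∀ c, Function.Injective (enc c) := fun c w w' h => by
    by_contra hc
    have := H.dist c w w' hc
    rw [h, hd, fr_congr (E' := fun _ => False) (by simp), fr_false] at this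
    linarith
  have gC := H.run _ (pp_id Y M.I) η η0
  have gS := H.run _ hM.pp_S η η0
  have gP := H.run _ hM.pp_P η η0
  have gT := ImplRS.avg h01 (ImplRS.avg h01 tA (hB _ v4) v4) (hC _ v4) v4
  let L : ∀ c, Line (X.T c) (ZMod l) := fun c =>
    ⟨{u | ∃ w, M.Val c w ∧ u = enc c w},
      {u | EoLSol c.1 (M.sol c (msgQ (enc c) u))}, {u | EoLSol c.1 (M.sol c (msgQ (enc c) u))},
      fun u => enc c fun i => M.S c i (msgQ (enc c) u),
      fun u => enc c fun i => M.P c i (msgQ (enc c) u)⟩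
  have main := hpvS h01 (Reg.empty VI) X H.ne H.size (fun c => enc c (M.w0 c)) (H.pt _ hM.d_w0)
    (fun _ _ => True) (fun c _ => L c) η δ Δ (v / 2) v η0 η2 d2 (by linarith)
    (fun c _ _ _ => ⟨⟨M.w0 c, hM.val0 c, rfl⟩, by
      rintro _ ⟨w, -, rfl⟩ _ ⟨w', -, rfl⟩ h
      exact H.dist c w w' fun e => h (e ▸ rfl), by
      rintro _ ⟨w, hw, rfl⟩ h
      simp only [L, Set.mem_ofPred_eq, msgQ_enc (inj c)] at h ⊢
      obtain ⟨h1, h2, h3⟩ := (hM.fwd c w hw).resolve_left h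
      exact ⟨⟨_, h1, rfl⟩, fun e => h2 (inj c e), congrArg _ h3⟩, by
      rintro _ ⟨w, hw, rfl⟩ h0 h
      simp only [L, Set.mem_ofPred_eq, msgQ_enc (inj c)] at h ⊢
      obtain ⟨h1, h2⟩ := (hM.bwd c w hw fun e => h0 (e ▸ rfl)).resolve_left h
      exact ⟨⟨_, h1, rfl⟩, congrArg _ h2⟩⟩)
    ((ImplS.inr (gC.par (gS.par (gP.par gT)))).mono fun c z y hz hy h _ => by
      obtain ⟨hc, hs, hp, s, s3, q1, q2, ⟨s1, s2, p1, p2, ⟨t1, t1'⟩, t2, e12⟩, t3, eT⟩ := h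
      rw [abs_le] at e12 eT
      refine ⟨?_, fun hT => ?_, ?_⟩
      · rintro _ ⟨w, -, rfl⟩ h
        simp only [L, msgQ_enc (inj c)]
        exact ⟨hc w (h.trans d1), fun _ => hs w (h.trans d1), fun _ _ => hp w (h.trans d1)⟩
      · obtain ⟨w, hw⟩ := t1 (by linarith)
        have a1 := (t2 w (hw.trans d1)).1 (by linarith)
        have a2 := (t3 w (hw.trans d1)).1 (by linarith)
        refine ⟨_, ⟨w, ⟨a1, fun h hb => ?_⟩, rfl⟩, hw⟩
        exact absurd (hM.gap c w a1 ⟨h, hb⟩) (not_le.2 a2)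
      · rintro _ ⟨w, hw, rfl⟩ h
        have a0 : du (fun i => z (.inr i)) (enc c w) ≤ δc := by linarith
        have a1 := t1' w (h.trans η1)
        have a2 := (t2 w a0).2 hw.1
        have a3 := (t3 w a0).2 fun h e => not_not.1 fun hne => hw.2 h ⟨e, hne⟩
        linarith)
  obtain ⟨ε, δ', p, R, rd, e0, e1, e2, e3, dR, drd, hsz, hR⟩ := realThmS VI (ZMod l) NI Y.lg
    ((Reg.of X).sum (Reg.of X))
    (fun c y => (∃ w, EoLSol c.1 (M.sol c w) ∧ du (fun i => y (.inl i)) (enc c w) ≤ η) ∨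
      ∃ w, EoLSol c.1 (M.sol c w) ∧ du (fun i => y (.inr i)) (enc c w) ≤ η)
    (hlg ▸ pl_size_NI)
    (main.mono fun c _ y _ _ h => by
      rcases h trivial with ⟨_, ⟨w, -, rfl⟩, h1, h2⟩ | ⟨_, ⟨w, -, rfl⟩, -, h1, h2⟩
      · simp only [L, Set.mem_ofPred_eq, msgQ_enc (inj c)] at h1
        exact .inl ⟨w, h1, h2⟩
      · simp only [L, Set.mem_ofPred_eq, msgQ_enc (inj c)] at h1
        exact .inr ⟨w, h1, h2⟩)
  have pf : PT fun z : VI × List ℚ => z.1 := PT.fst PT.id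
  have q1 : PT fun z : Σ z : VI × List ℚ, X.T z.1 => z.1 := pt_sigma_fst
  have q2 : D fun z : Σ z : VI × List ℚ, X.T z.1 => z.2 := D.sigma_snd
  obtain ⟨u1, du1, hu1⟩ := H.dec (VI × List ℚ) Prod.fst (fun z i => rd z (.inl i)) pf
    (drd.comp (pt_sigma_mk (X := fun z : VI × List ℚ => X.T z.1 ⊕ X.T z.1) q1 (D.inl q2)))
  obtain ⟨u2, du2, hu2⟩ := H.dec (VI × List ℚ) Prod.fst (fun z i => rd z (.inr i)) pf
    (drd.comp (pt_sigma_mk (X := fun z : VI × List ℚ => X.T z.1 ⊕ X.T z.1) q1 (D.inr q2)))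
  have s1 := hM.pt_sol _ _ u1 pf du1
  have s2 := hM.pt_sol _ _ u2 pf du2
  refine ⟨ε, δ', p, R, fun z => if EoLSol z.1.1 (M.sol z.1 (u1 z)) then M.sol z.1 (u1 z)
    else M.sol z.1 (u2 z), e0, e1, e2, e3, dR, PT.ite (Mach.pt_sol pf s1) s1 s2, hlg ▸ hsz,
    fun c => ⟨(hR c).1, (hR c).2.1, fun x hx => ?_⟩⟩
  obtain ⟨y, hy, hS, hpl⟩ := (hR c).2.2 x hx
  dsimp only
  split_ifs with h
  · exact h
  rcases hS with ⟨w, h1, h2⟩ | ⟨w, h1, h2⟩
  · have a := Plur.hd_le (hy.comp Sum.inl) (u := fun i => rd (c, x) (.inl i))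
      (fun i => hpl (.inl i)) (enc c w)
    rw [hu1 (c, x) w (a.trans (by linarith))] at h
    exact absurd h1 h
  · have a := Plur.hd_le (hy.comp Sum.inr) (u := fun i => rd (c, x) (.inr i))
      (fun i => hpl (.inr i)) (enc c w)
    rw [hu2 (c, x) w (a.trans (by linarith))]
    exact h1

end Vale.Agent.P330Q
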