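import Vale.Agent.P330Q.TwSSS
import Vale.Agent.P330Q.CombX

/-! Local linear maps of arrays of cells, with errors only at the far cells. -/

namespace Vale.Agent.P330Q

open Vale.Agent.Lib.PolyTime Vale.Agent.P330 Finset
open scoped Classical BigOperators

/-- The error of one cell. -/
noncomputable def cer {P X V F : Type} [Fintype X] [Fintype V] [CommRing F] [Fintype F]
    (gen : X → V → F) (x : P × X → F → ℝ) (u : P → V → F) (e : P) : ℝ :=
  du (fun ξ => x (e, ξ)) (cw gen (u e))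

section
variable {P X V F : Type} [Fintype X] [Fintype V] [CommRing F] [Fintype F] {gen : X → V → F}
  {x : P × X → F → ℝ}

theorem cer_nonneg (hx : IsDist x) (u : P → V → F) (e : P) : 0 ≤ cer gen x u e :=
  du_nonneg (hx.comp fun ξ => (e, ξ)) _

theorem cer_le_one [Nonempty X] (hx : IsDist x) (u : P → V → F) (e : P) : cer gen x u e ≤ 1 :=
  expect_le univ_nonempty fun _ _ => sub_le_self _ (hx.nonneg _ _)

theorem du_cells [Fintype P] (u : P → V → F) : du x (cells gen u) = 𝔼 e, cer gen x u e :=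
  expect_prod' _

end

theorem tw_dens {P X : Type} [Fintype P] [Fintype X] (u : P × X) :
    𝔼 j : P, ∑ _i ∈ univ.filter fun i : X => (j, i) = u, (Fintype.card X : ℝ)⁻¹ ≤
      1 * (Fintype.card (P × X) : ℝ)⁻¹ := by
  have h : ∀ j : P, ∑ _i ∈ univ.filter fun i : X => (j, i) = u, (Fintype.card X : ℝ)⁻¹ =
      (if j = u.1 then 1 else 0) * (Fintype.card X : ℝ)⁻¹ := fun j => by
    rw [sum_filter]
    simp only [Prod.ext_iff]
    by_cases e : j = u.1 <;> simp [e]
  simp only [h]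
  rw [← expect_mul, tmix_fr' fun j => j = u.1, fr_single, Fintype.card_prod, Nat.cast_mul, mul_inv,
    one_mul]

/-- Iteration of a contraction of a potential. -/
theorem ImplS.iterP {C F : Type} [Enc C] [Enc F] [Fintype F] {a l : C → ℕ} {I : Reg C}
    {K : C → Type} (Q : ∀ c, K c → Prop) (Φ : ∀ c, (I.T c → F → ℝ) → K c → ℝ) {δ : ℝ}
    (hδ : 0 < δ) (h : ∀ η : ℝ, 0 < η → ImplS F a l I I fun c x y =>
      ∀ u, Q c u → Φ c x u ≤ δ → Φ c y u ≤ Φ c x u / 2 + η) {η : ℝ} (hη : 0 < η) :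
    ImplS F a l I I fun c x y => ∀ u, Q c u → Φ c x u ≤ δ → Φ c y u ≤ η := by
  have key : ∀ n : ℕ, ∀ η : ℝ, 0 < η → ImplS F a l I I fun c x y =>
      ∀ u, Q c u → Φ c x u ≤ δ → Φ c y u ≤ δ * (1 / 2) ^ (n + 1) + η := by
    intro n
    induction n with
    | zero =>
      refine fun η hη => (h η hη).mono fun c x y _ _ k u hu e => ?_
      have := k u hu e
      rw [zero_add, pow_one]
      linarith
    | succ n ih =>
      refine fun η hη => ((ih (min η (δ / 2)) (lt_min hη (half_pos hδ))).trans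
        (h (η / 2) (half_pos hη))).mono fun c x z _ _ ⟨y, _, k, k'⟩ u hu e => ?_
      have h1 := k u hu e
      have h2 := min_le_left η (δ / 2)
      have h3 := min_le_right η (δ / 2)
      have h4 : δ * (1 / 2) ^ (n + 1) ≤ δ * (1 / 2) ^ 1 :=
        mul_le_mul_of_nonneg_left (pow_le_pow_of_le_one (by norm_num) (by norm_num) (by omega)) hδ.le
      have h5 := k' u hu (by linarith)
      rw [pow_succ _ (n + 1)]
      linarith
  obtain ⟨n, hn⟩ := exists_pow_lt_of_lt_one (div_pos hη hδ) (by norm_num : (1 / 2 : ℝ) < 1)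
  refine (key n (η / 2) (half_pos hη)).mono fun c x y _ _ k u hu e => (k u hu e).trans ?_
  rw [lt_div_iff₀ hδ] at hn
  rw [pow_succ]
  linarith

variable {l : ℕ} [Fact l.Prime] {δ : ℝ} {C U : Type} [Enc C] [Enc U] {a lg : C → ℕ} {p : C → U}

/-- One cell read as an array. -/
noncomputable def Arr.one (hp : PT p) {V : Fam U} (Z : Cell l δ V) :
    Arr l a lg p Z Unit (.of (Z.X.comap p hp)) (Fam.const C Unit) where
  sl _ _ _ ξ := ξ
  κ := 1
  ne _ := ⟨()⟩
  size := Sz.cardc Unit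
  d_sl _ := D.sigma_snd.snd
  dens _ _ u := ((fr_snd (X := Unit) fun ξ => ξ = u).trans (fr_single u)).trans_le (one_mul _).ge

/-- A linear map of one cell. -/
theorem cell_lin (hM : CellMapThm l δ) (hp : PT p) (hl : Pl lg fun c => sz (p c)) {V : Fam U}
    (Z : Cell l δ V) (L : ∀ c, V.T (p c) → V.T (p c) → ZMod l)
    (hL : PT fun z : Σ c, V.T (p c) × V.T (p c) => L z.1 z.2.1 z.2.2) {η : ℝ} (hη : 0 < η) :
    ImplS (ZMod l) a lg (.of (Z.X.comap p hp)) (.of ((Fam.const C Unit).prod (Z.X.comap p hp)))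
      fun c x y => ∀ w, du x (cw (Z.gen (p c)) w) ≤ δ →
        du (fun ξ => y ((), ξ)) (cw (Z.gen (p c)) (cw (L c) w)) ≤ η := by
  have h1 : PT fun z : Σ c, (Unit × Z.X.T (p c)) × Unit × V.T (p c) =>
      ∑ v, Z.gen (p z.1) z.2.1.2 v * L z.1 v z.2.2.2 := by
    refine (V.pf.comap (hp.comp pt_sigma_fst)).pt_sumZ (P330.pt_mulZ ?_ ?_)
    · exact pt_app2 Z.pt (hp.comp (pt_sigma_fst.comp pt_sigma_fst))
        (D.sigma_snd.comp pt_sigma_fst).fst.snd D.sigma_snd
    · exact pt_app2 hL (pt_sigma_fst.comp pt_sigma_fst) D.sigma_snd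
        (D.sigma_snd.comp pt_sigma_fst).snd.snd
  refine (hM 1 C U a lg p hp hl V Z.X Z Unit _ _ (Arr.one hp Z)
    (fun c _ ξ w => ∑ k : Unit × V.T (p c), (∑ v, Z.gen (p c) ξ v * L c v k.2) * w k) Z.ne
    (Pol.lin (V := (Fam.const C Unit).prod (V.comap p hp))
      (J := (Fam.const C Unit).prod (Z.X.comap p hp)) h1) η hη).mono fun c x y _ _ h w hw => ?_
  have h2 := h fun _ k => w k.2
  have h3 : fr Unit (fun o => (Arr.one (a := a) (lg := lg) hp Z).Far δ x o fun k => w k.2) ≤ 0 :=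
    (fr_mono fun _ ⟨_, k⟩ => k.not_ge hw).trans fr_false.le
  refine le_trans (le_of_eq ?_) (h2.trans (add_le_of_nonpos_right h3))
  rw [du, du, expect_prod']
  simp only [univ_unique, expect_singleton, cw_cw, Fintype.sum_prod_type, sum_singleton]

/-- Linear maps of an array of cells. -/
theorem cells_lin (hM : CellMapThm l δ) (hp : PT p) (hl : Pl lg fun c => sz (p c)) {V : Fam U}
    (Z : Cell l δ V) (P : Fam C) (hP : ∀ c, Nonempty (P.T c))
    (hz : Sz a lg fun c => Fintype.card (P.T c))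
    (L : ∀ c, P.T c → V.T (p c) → V.T (p c) → ZMod l)
    (hL : PT fun z : Σ c, P.T c × V.T (p c) × V.T (p c) => L z.1 z.2.1 z.2.2.1 z.2.2.2) {η : ℝ}
    (hη : 0 < η) :
    ImplS (ZMod l) a lg (.of (P.prod (Z.X.comap p hp))) (.of (P.prod (Z.X.comap p hp)))
      fun c x y => ∀ u, 𝔼 e, (if cer (Z.gen (p c)) x u e ≤ δ then
        cer (Z.gen (p c)) y (fun e => cw (L c e) (u e)) e else 0) ≤ η := by
  have hq : PT fun z : Σ c, P.T c => p z.1 := hp.comp pt_sigma_fst
  have h1 := cell_lin (a := fun _ => 0) (lg := fun z : Σ c, P.T c => lg z.1) hM hq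
    (hl.comp fun z : Σ c, P.T c => z.1) Z (fun z => L z.1 z.2)
    (pt_app2 (f := fun c e (v : V.T (p c) × V.T (p c)) => L c e v.1 v.2) hL
      (pt_sigma_fst.comp pt_sigma_fst) (D.sigma_snd.comp pt_sigma_fst) D.sigma_snd) (half_pos hη)
  have h2 := ImplS.arr0 (I := .of (P.prod (Z.X.comap p hp))) P hP h1 hz (fun z ξ => (z.2, ξ))
    ((D.sigma_snd.comp pt_sigma_fst).pair D.sigma_snd) 1 (fun c u => by convert tw_dens u) (half_pos hη)
  refine (h2.wireOut (O' := .of (P.prod (Z.X.comap p hp))) (fun c o => ⟨o.1, (), o.2⟩)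
    (D.dsig_mk (X := fun z : Σ c, P.T c × Z.X.T (p c) => P.T z.1)
      (W := fun z _ => Unit × Z.X.T (p z.1)) D.sigma_snd.fst ((D.const ()).pair D.sigma_snd.snd))
    (fun c o o' e => ?_) fun c o => le_of_eq ?_).mono ?_
  · obtain ⟨e1, e2⟩ := Sigma.mk.inj e
    exact Prod.ext e1 (Prod.mk.inj (eq_of_heq e2)).2
  · show (Fintype.card (P.T c × Z.X.T (p c)) : ℝ)⁻¹ =
      (Fintype.card (Unit × Z.X.T (p c)) : ℝ)⁻¹ / Fintype.card (P.T c)
    simp only [Fintype.card_prod, Fintype.card_unit, one_mul, Nat.cast_mul, mul_inv,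
      div_eq_inv_mul]
  · rintro c x y - hy ⟨y0, -, k, rfl⟩ u
    have := hP c
    have := Z.ne (p c)
    refine (expect_le_fr (half_pos hη).le (fun e => ?_) fun e he => ?_).trans
      ((add_le_add k le_rfl).trans (add_halves η).le)
    · split_ifs
      exacts [cer_le_one hy _ _, zero_le_one]
    · split_ifs with h
      exacts [not_not.1 he _ h, (half_pos hη).le]

end Vale.Agent.P330Q
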