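import Vale.Agent.P330Q.WorldD

/-! Programs over a group family that maps to the big group are linear programs. -/

namespace Vale.Agent.P330Q

open Vale.Agent.Lib.PolyTime Vale.Agent.P330 Finset
open scoped Classical BigOperators

namespace WLp

variable {U : Type} [Enc U] {l : ℕ} [Fact l.Prime] {Φ : FF U l} {Γ : GF U}

theorem run (ha : S_act) (P : Prog Φ Γ) (u : U) {X : Type} [MulAction (Γ.G u) X]
    (w : P.K.T u → X → Φ.F u) (t : ℕ) :
    actM (P.mat u t) w = itr (fun t (Z : P.K.T u → X → Φ.F u) k x =>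
      ∑ k', (P.A u t k k' * Z k' x + P.B u t k k' * Z k' ((P.g u t)⁻¹ • x))) w t := by
  obtain ⟨-, -, -, -, hm, h1, -, hs, -⟩ := ha (Φ.F u) (Γ.G u) X
  induction t with
  | zero => exact h1 _ w
  | succ t ih =>
    rw [Prog.mat, hm, ih]
    funext k x
    exact hs _ _ (P.A u t) (P.B u t) (P.g u t) _ k x

theorem out (ha : S_act) (P : Prog Φ Γ) (u : U) {X J : Type} [MulAction (Γ.G u) X]
    (Out : J → P.K.T u → Φ.F u) (In : P.K.T u → Unit → Φ.F u) (y : Unit → X → Φ.F u) (j : J)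
    (x : X) : act ((cst (Γ.G u) Out * P.mat u (P.L u) * cst (Γ.G u) In) j ()) (y ()) x =
      ∑ k, Out j k * itr (fun t (Z : P.K.T u → X → Φ.F u) k x =>
        ∑ k', (P.A u t k k' * Z k' x + P.B u t k k' * Z k' ((P.g u t)⁻¹ • x)))
        (fun k x => ∑ i, In k i * y i x) (P.L u) k x := by
  obtain ⟨-, -, -, -, hm, -, hc, -⟩ := ha (Φ.F u) (Γ.G u) X
  have e : actM (cst (Γ.G u) In) y = fun k x => ∑ i, In k i * y i x :=
    funext fun k => funext fun x => hc _ _ In y k x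
  rw [← run ha, ← hc, ← e, ← hm, ← hm, actM, Fintype.sum_unique]

end WLp

theorem s_lp (hf : S_ft) (ha : S_act) (h5 : S_p5) : S_lp := by
  intro C _ l _ a lg S0 Bt S _ _ _ _ _ δ0 lam lam' X Γ ι hι J m hm O f hf'
  have _ := hf
  obtain ⟨P, ⟨b0, hb0, hg⟩, Out, In, hO, hI, hP⟩ := h5 (List Unit) l X.Φ Γ X.Y.Γ ι Bt X.Y.gen
    X.Y.b1 (fun u g => X.Y.wd u (ι u g)) X.Y.d_gen X.Y.gen_b1
    (X.Y.pt_wd.comp (pt_sigma_mk pt_sigma_fst hι)) (fun u g => X.Y.wd_eq u _) J _ m hm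
  refine ⟨X.sf P.K, fun c => P.L (X.p c), fun c t => Sum.inl (b0 (X.p c) t), fun c => P.A (X.p c),
    fun c => P.B (X.p c), fun c => In (X.p c), fun c o => Out (X.p c) (f c o), P.pt_L.comp X.hp,
    Sz.of_pb P.pb_L X.pl,
    P325.pt_finite (hb0.comp (PT.mk (X.hp.comp PT.id.fst) PT.id.snd)) Sum.inl,
    P.d_A.app (X.hp.comp pt_sigma_fst) D.sigma_snd, P.d_B.app (X.hp.comp pt_sigma_fst) D.sigma_snd,
    hI.app (X.hp.comp pt_sigma_fst) D.sigma_snd.fst D.sigma_snd.snd,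
    hO.app (X.hp.comp pt_sigma_fst) (hf'.app pt_sigma_fst D.sigma_snd.fst) D.sigma_snd.snd,
    fun c t y hy => ⟨fun g => hy.1 ((X.Y.gen (X.p c) (b0 (X.p c) t))⁻¹ * g), fun g => ?_⟩,
    fun c y o x => ?_⟩
  · refine (congrArg (· ∈ X.W.loc c true) (funext fun s => ?_)).mp
      (hy.2 ((X.Y.gen (X.p c) (b0 (X.p c) t))⁻¹ * g))
    exact congrArg y (Prod.ext (mul_assoc _ _ _) rfl)
  · let _ := lAct (X.Y.Γ.G (X.p c)) S
    have e := congrFun (congrFun (hP (X.p c)) (f c o)) ()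
    have h := WLp.out ha P (X.p c) (Out (X.p c)) (In (X.p c)) y (f c o) x
    simp only [hg] at h
    exact (congrArg (fun z => actL z (y ()) x) e).trans h

end Vale.Agent.P330Q
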