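import Vale.Agent.P330Q.WorldD
import Vale.Agent.P330Q.MemAll

/-! The memory structure of a world. -/

namespace Vale.Agent.P330Q

open Vale.Agent.Lib.PolyTime Vale.Agent.P330 Finset
open scoped Classical BigOperators

namespace WMem
variable {l n : ℕ} [Fact l.Prime] {F : Type} [Field F]

/-- A table as an element of the group algebra. -/
noncomputable def ofL : ((Fin n → ZMod l) → F) →ₗ[F] MonoidAlgebra F (HA l n) where
  toFun u := MonoidAlgebra.ofCoeff (Finsupp.equivFunOnFinite.symm fun h => u h.toAdd)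
  map_add' _ _ := by ext h; rfl
  map_smul' _ _ := by ext h; rfl

theorem ofL_coeff (u : (Fin n → ZMod l) → F) (h : HA l n) : (ofL u).coeff h = u h.toAdd := rfl

theorem mul_coeff (a : MonoidAlgebra F (HA l n)) (u : (Fin n → ZMod l) → F) (h : HA l n) :
    (ofL u * a).coeff h = a.coeff.sum fun g t => t * u (g⁻¹ * h).toAdd := by
  rw [mul_comm, MonoidAlgebra.coeff_mul_apply_left]
  rfl

theorem act_map {G S : Type} [Group G] (ι : HA l n →* G) (a : MonoidAlgebra F (HA l n))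
    (y : G × S → F) (x : G × S) : actL (MonoidAlgebra.mapDomain ι a) y x =
      a.coeff.sum fun g t => t * y ((ι g)⁻¹ * x.1, x.2) := by
  unfold actL act
  exact Finsupp.sum_mapDomain_index (fun _ => zero_mul _) fun _ _ _ => add_mul _ _ _

theorem sh_eq (u : (Fin n → ZMod l) → F) (k : ℕ) :
    MonoidAlgebra.single (Multiplicative.ofAdd (ee k))⁻¹ 1 * ofL u = ofL fun h => u (h + ee k) := by
  ext h
  rw [MonoidAlgebra.coeff_single_mul_apply, one_mul, inv_inv, ofL_coeff, ofL_coeff, toAdd_mul,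
    add_comm]
  rfl

theorem nm_eq (u : (Fin n → ZMod l) → F) :
    (∑ h : HA l n, MonoidAlgebra.single h 1) * ofL u = ofL fun _ => ∑ h, u h := by
  ext h
  rw [sum_mul, MonoidAlgebra.coeff_sum, Finsupp.finsetSum_apply, ofL_coeff]
  simp only [MonoidAlgebra.coeff_single_mul_apply, one_mul, ofL_coeff]
  exact Fintype.sum_equiv (((Equiv.inv _).trans (Equiv.mulRight h)).trans Multiplicative.toAdd)
    _ _ fun _ => rfl

theorem der_eq [Algebra (ZMod l) F] (u : (Fin n → ZMod l) → F) (k : Fin n) :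
    (ofL fun h => algebraMap (ZMod l) F (h k) * u h) = der k (ofL u) := by
  obtain ⟨δ, e1, -, e2, -⟩ := s_der.2 l n F k
  ext h
  rw [e1, e2]
  rfl

section
variable {C : Type} [Enc C] {a lg : C → ℕ} {S0 Bt S : Type}
  [Fintype S0] [Fintype Bt] [Enc Bt] [Fintype S] [Enc S] {δ0 lam lam' : ℝ}
  (X : WD C l a lg S0 Bt S δ0 lam lam')
  (cc : ∀ u, X.Y.Κ.G u × S → MonoidAlgebra (X.Φ.F u) (HA l (X.Y.n u)))

/-- The encoding of tables. -/
noncomputable def EE (c : C) : X.W.P.Tab c →ₗ[X.W.P.F c] X.W.Wd c where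
  toFun u := X.Y.enc (cc (X.p c)) (ofL u)
  map_add' u v := by
    rw [map_add]
    exact (((enc_all _ l S0 Bt lam' X.Y _ _ S).2 (cc _)).2.1 _ _ 0).1
  map_smul' t u := by
    rw [map_smul]
    exact (((enc_all _ l S0 Bt lam' X.Y _ _ S).2 (cc _)).2.1 _ 0 t).2

/-- Cells and types. -/
def eq (c : C) : X.W.Y.G.T c ≃ X.W.P.H c × X.Y.Κ.G (X.p c) :=
  (X.Y.eqv (X.p c)).trans (Multiplicative.toAdd.prodCongr (Equiv.refl _))

theorem d_eq : D2 fun c g => eq X c g := by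
  have q : PT fun z : Σ c, X.W.Y.G.T c => X.p z.1 := X.hp.comp pt_sigma_fst
  exact (d_ha.1 (X.Y.d_e.app q D.sigma_snd)).pair (X.Y.d_π.app q D.sigma_snd)

theorem d_eq' : D2 fun c z => (eq X c).symm z := by
  have q : PT fun z : Σ c, X.W.P.H c × X.Y.Κ.G (X.p c) => X.p z.1 := X.hp.comp pt_sigma_fst
  exact X.Y.Γ.d_mul.app q (X.Y.d_ι.app q D.sigma_snd.fst) (X.Y.d_s.app q D.sigma_snd.snd)

theorem d_EE (pc : Prg X.Φ X.Y.HF (X.Y.KF.prod (.const _ S)) (.const _ Unit) fun u q _ => cc u q)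
    (B' : Type) [Enc B'] (q : B' → C) (u : ∀ b, X.W.P.Tab (q b)) (hq : PT q) (hu : D2 u) :
    D2 fun b => EE X cc (q b) (u b) := by
  have hp : PT fun b => X.p (q b) := X.hp.comp hq
  let H : Fam B' := ⟨fun b => HA l (X.Y.n (X.p (q b))), fun _ => inferInstance,
    fun _ => inferInstance, PFam.fn (n := fun b => X.Y.n (X.p (q b))) (PFam.const (ZMod l))
      (X.Y.pt_n.comp hp) (X.Y.pb_n.comp hp) (by simpa using X.pb_H.comp hq)⟩
  have k := @p6_all B' _ l _ (X.Φ.comap _ hp) (X.Y.HF.comap _ hp) H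
    (fun b => Monoid.toMulAction _) (X.Y.HF.comap _ hp).d_mul _ _ _
    ((p1_all _ l X.Φ X.Y.HF).2.2.2 B' _ hp _ _ _ pc) (fun b _ h => u b h.toAdd)
    (hu.app pt_sigma_fst D.sigma_snd.snd)
  have z := D.sigma_snd (X := fun b => X.W.Ps (q b))
  have hz : PT fun z : Σ b, X.W.Ps (q b) => X.p (q z.1) := hp.comp pt_sigma_fst
  refine (k.app pt_sigma_fst ((X.Y.d_π.app hz z.fst).pair z.snd) (X.Y.d_e.app hz z.fst)).congr
    fun z => ?_
  refine (mul_coeff _ _ _).trans ?_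
  exact (Fintype.sum_unique fun _ : Unit => _).symm

theorem d_eps (pc : Prg X.Φ X.Y.HF (X.Y.KF.prod (.const _ S)) (.const _ Unit) fun u q _ => cc u q) :
    D2 fun c (q : X.Y.Κ.G (X.p c) × S) =>
      EE X cc c (fun _ => 1) ((eq X c).symm (0, q.1), q.2) := by
  have z := D.sigma_snd (X := fun c => X.Y.Κ.G (X.p c) × S)
  have k := d_EE X cc pc C id (fun _ _ => 1) PT.id
    (s_ft _ l (X.W.P.Φ.comap (fun z : Σ c, X.W.P.H c => z.1) pt_sigma_fst)).2.1
  exact k.app pt_sigma_fst (((d_eq' X).app pt_sigma_fst (D.pair (d_ha.1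
    (X.Y.HF.d_one.comp (X.hp.comp pt_sigma_fst))) z.fst)).pair z.snd)

theorem EE_const (c : C) (t : X.W.P.F c) (g : X.W.Y.G.T c) (s : S) :
    EE X cc c (fun _ => t) (g, s) =
      t * EE X cc c (fun _ => 1) ((eq X c).symm (0, (eq X c g).2), s) := by
  refine (mul_coeff _ _ _).trans (Eq.trans ?_ (congrArg (t * ·) (mul_coeff _ _ _).symm))
  have : X.Y.π _ ((eq X c).symm (0, (eq X c g).2)) = X.Y.π _ g := X.Y.π_mk _ _ _
  simp only [this, mul_one]
  rw [mul_comm t, Finsupp.sum_mul]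

theorem cq_eq (c : C) (y : X.W.Wd c) (h : X.W.P.H c) (k : X.Y.Κ.G (X.p c)) (s s0 : S)
    (k' : X.Y.Κ.G (X.p c)) : actL (MonoidAlgebra.mapDomain (X.Y.ι (X.p c)) (cc _ (k, s))) y
      ((eq X c).symm (h, k'), s0) =
    EE X cc c (fun h' => y ((eq X c).symm (h', k'), s0)) ((eq X c).symm (h, k), s) := by
  refine (act_map _ _ _ _).trans (Eq.trans ?_ (mul_coeff _ _ _).symm)
  have e1 : X.Y.π _ ((eq X c).symm (h, k)) = k := X.Y.π_mk _ _ _
  have e2 : X.Y.e _ ((eq X c).symm (h, k)) = Multiplicative.ofAdd h := X.Y.e_mk _ _ _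
  simp only [e1, e2]
  refine Finsupp.sum_congr fun g _ => congrArg (fun z => _ * y (z, s0)) ?_
  show _ * (X.Y.ι _ _ * _) = X.Y.ι _ (g⁻¹ * Multiplicative.ofAdd h) * _
  rw [map_mul, map_inv, mul_assoc]
  rfl

omit [Fintype Bt] in
theorem p_sh : Prg X.Φ X.Y.HF X.Y.Co (.const _ Unit) fun _ k _ =>
    MonoidAlgebra.single (Multiplicative.ofAdd (ee k))⁻¹ 1 :=
  (p4_all _ l X.Φ X.Y.HF).1 X.Y.Co (.const _ Unit)
    (fun u k _ => (Multiplicative.ofAdd (ee k))⁻¹) (fun _ _ _ => 1)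
    (X.Y.HF.d_inv.app pt_sigma_fst (d_ha_mk (r := fun z : Σ u, X.Y.Co.T u × Unit => X.Y.n z.1)
      (X.Y.pt_n.comp pt_sigma_fst) (X.Y.pb_n.comp pt_sigma_fst)
      (PT.ite (PT.eq (D.fin_iff.1 D.sigma_snd)
        (D.fin_iff.1 (D.sigma_snd.comp pt_sigma_fst).fst)) (PT.const 1) (PT.const 0))))
    (s_ft _ l (X.Φ.comap (fun z : Σ u, X.Y.Co.T u × Unit => z.1) pt_sigma_fst)).2.1

/-- The action of the normal subgroup. -/
noncomputable def ac (c : C) (m : MonoidAlgebra (X.Φ.F (X.p c)) (HA l (X.Y.n (X.p c))))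
    (y : X.W.Wd c) : X.W.Wd c := actL (MonoidAlgebra.mapDomain (X.Y.ι (X.p c)) m) y

theorem ac_EE (c : C) (m : MonoidAlgebra (X.Φ.F (X.p c)) (HA l (X.Y.n (X.p c))))
    (u v : X.W.P.Tab c) (h : m * ofL u = ofL v) : ac X c m (EE X cc c u) = EE X cc c v :=
  (((enc_all _ l S0 Bt lam' X.Y _ _ S).2 (cc _)).1 _ _).trans (congrArg (X.Y.enc _) h)

theorem lp (hl : S_lp) (J : Fam (List Unit)) (m : MatF X.Φ X.Y.HF J (.const _ Unit))
    (hm : Prg X.Φ X.Y.HF J (.const _ Unit) m) (O : SF lg) (f : ∀ c, O.T c → J.T (X.p c))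
    (hf : D2 f) : X.W.LP (.const _ Unit) O fun c y o => ac X c (m (X.p c) (f c o) ()) (y ()) :=
  hl C l a lg S0 Bt S δ0 lam lam' X X.Y.HF X.Y.ι X.Y.d_ι J m hm O f hf

theorem E_free (h0 : ∀ u k, cc u (k, X.s0) = 1) (c : C) (u : X.W.P.Tab c) (g : X.W.Y.G.T c) :
    EE X cc c u (g, X.s0) = u (eq X c g).1 :=
  (((enc_all _ l S0 Bt lam' X.Y _ _ S).2 (cc _)).2.2 _ (h0 _)).1 _ g

theorem dl_E (h0 : ∀ u k, cc u (k, X.s0) = 1) (c : C) (u : X.W.P.Tab c) (k : Fin (X.W.P.n c))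
    (g : X.W.Y.G.T c) (s : S) :
    EE X cc c (fun h => algebraMap (ZMod l) _ (h k) * u h) (g, s) =
      algebraMap (ZMod l) _ ((eq X c g).1 k) * EE X cc c u (g, s) -
        ac X c (der k (cc _ ((eq X c g).2, s))) (EE X cc c u) (g, X.s0) := by
  have R := (enc_all _ l S0 Bt lam' X.Y (X.p c) _ S).2 (cc _)
  have k1 := (R.2.2 _ (h0 _)).2.2 k (ofL u) g s
  rw [← R.1] at k1
  exact (congrFun (congrArg (X.Y.enc _) (der_eq u k)) _).trans k1

theorem b1_eq (c : C) (x : X.W.Ps c) : X.W.π c (.inl X.Y.b1) x = x := by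
  refine Prod.ext ?_ rfl
  show (X.Y.gen _ X.Y.b1)⁻¹ * x.1 = x.1
  rw [X.Y.gen_b1, inv_one, one_mul]

theorem rd_eq (c : C) (g : X.W.Y.G.T c) (s : S) : X.W.π c (.inr s) (g, s) = (g, X.s0) :=
  Prod.ext rfl (Equiv.swap_apply_left s X.s0)

theorem mk (hl : S_lp) (hn : S_norm)
    (pc : Prg X.Φ X.Y.HF (X.Y.KF.prod (.const _ S)) (.const _ Unit) fun u q _ => cc u q)
    (pd : Prg X.Φ X.Y.HF (X.Y.Co.prod (X.Y.KF.prod (.const _ S))) (.const _ Unit)
      fun u q _ => der q.1 (cc u q.2)) (h0 : ∀ u k, cc u (k, X.s0) = 1)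
    (hm : ∀ c u, EE X cc c u ∈ X.W.T c) : Nonempty (Mem X.W) := by
  have l1 := lp X hl _ _ (p_sh X) X.W.P.co (fun _ k => k) D.sigma_snd
  have l2 := lp X hl _ _ (hn _ l X.Φ _ X.Y.pt_n X.Y.pb_n) (.const _ Unit) (fun _ k => k)
    D.sigma_snd
  have l3 := lp X hl _ _ pd (X.W.P.co.prod ((X.sf X.Y.KF).prod (.const _ S))) (fun _ k => k)
    D.sigma_snd
  have l4 := lp X hl _ _ pc ((X.sf X.Y.KF).prod (.const _ S)) (fun _ k => k) D.sigma_snd
  exact ⟨{
    Ty := X.sf X.Y.KF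
    e := eq X
    d_e := d_eq X
    d_e' := d_eq' X
    s0 := X.s0
    rd := Sum.inr
    rd_eq := rd_eq X
    b1 := .inl X.Y.b1
    b1_eq := b1_eq X
    E := EE X cc
    E_mem := hm
    E_free := E_free X cc h0
    d_E := d_EE X cc pc
    ε := fun c q => EE X cc c (fun _ => 1) ((eq X c).symm (0, q.1), q.2)
    d_ε := d_eps X cc pc
    E_const := EE_const X cc
    sh := fun c y k => ac X c (MonoidAlgebra.single (Multiplicative.ofAdd (ee k))⁻¹ 1) y
    nm := fun c y => ac X c (∑ h, MonoidAlgebra.single h 1) y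
    dl := fun c y q => ac X c (der q.1 (cc _ q.2)) y
    cq := fun c y q => ac X c (cc _ q) y
    lp_sh := l1
    lp_nm := l2
    lp_dl := l3
    lp_cq := l4
    sh_E := fun c u k => ac_EE X cc c _ _ _ (sh_eq u k)
    nm_E := fun c u => ac_EE X cc c _ _ _ (nm_eq u)
    dl_E := dl_E X cc h0
    cq_eq := fun c y h k s k' => cq_eq X cc c y h k s X.s0 k' }⟩

end

end WMem

theorem s_wmem (hl : S_lp) (hn : S_norm) : S_wmem := by
  intro C _ l _ a lg S0 Bt S _ _ _ _ _ δ0 lam lam' X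
  obtain ⟨cc, pc, pd, hc⟩ := mem_all (List Unit) l S0 Bt lam' X.Y X.Φ S (X.C0 false) (X.C0 true)
    (X.ck false) (X.ck true) (X.E false) (X.E true) (X.two.1 false).1 (X.two.1 true).1 X.two.2
    X.γ X.d_γ X.hm
  exact WMem.mk X cc hl hn pc pd
    (fun u k => (hc u).1 k X.s0 (X.two.1 false).2 (X.two.1 true).2) fun c u => (hc _).2.1 _

end Vale.Agent.P330Q
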