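import Vale.Agent.P330Q.WorldD

/-! The sum of all elements of an elementary abelian group has a program. -/

namespace Vale.Agent.P330Q

open Vale.Agent.Lib.PolyTime Vale.Agent.P330 Finset
open scoped Classical BigOperators

namespace WNorm

theorem pw {R : Type} [CommSemiring R] {r : ℕ} {_ : DecidableEq (Fin (r + 1))} (s : ℕ → R)
    (M : Matrix (Fin (r + 1)) (Fin (r + 1)) R)
    (hM : ∀ j i, M j i = if (j : ℕ) = i + 1 then s i else 0) (k : ℕ) (hk : k ≤ r)
    (j : Fin (r + 1)) : (M ^ k) j 0 = if (j : ℕ) = k then ∏ i ∈ range k, s i else 0 := by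
  induction k generalizing j with
  | zero => simp [Matrix.one_apply]
  | succ k ih =>
    rw [pow_succ', Matrix.mul_apply, sum_eq_single (⟨k, by omega⟩ : Fin (r + 1))]
    · rw [hM, ih (by omega), prod_range_succ_comm]
      simp
    · intro i _ hi
      rw [ih (by omega), if_neg fun e => hi (Fin.ext e), mul_zero]
    · simp

theorem nm {l : ℕ} [Fact l.Prime] (F : Type) [Field F] (r : ℕ) :
    ∏ i ∈ range r, ∑ t : ZMod l, MonoidAlgebra.single
      (Multiplicative.ofAdd fun k : Fin r => if (k : ℕ) = i then t else 0) (1 : F) =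
      ∑ h : HA l r, MonoidAlgebra.single h 1 := by
  rw [prod_range, prod_univ_sum, Fintype.piFinset_univ]
  refine Fintype.sum_equiv Multiplicative.ofAdd _ _ fun x => ?_
  have e : (Multiplicative.ofAdd x : HA l r) = ∏ i : Fin r,
      Multiplicative.ofAdd fun k : Fin r => if (k : ℕ) = i then x i else 0 := by
    rw [← ofAdd_sum]
    refine congrArg _ (funext fun k => ?_)
    simp [Finset.sum_apply, Fin.val_inj]
  rw [e]
  exact (map_prod (MonoidAlgebra.of F (HA l r)) _ _).symm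

end WNorm

theorem s_norm (hf : S_ft) (h3 : S_p3) (h4 : S_p4) : S_norm := by
  intro U _ l _ Φ r hr hr'
  have p1 : PT fun u => r u + 1 := by fun_prop
  have p2 : PB fun u => r u + 1 := hr'.add (PB.const 1)
  let I : Fam U := Fam.ofFin (fun u => r u + 1) p1 p2
  obtain ⟨-, a2, -, -, a5, -⟩ := h4 U l Φ (HF l r hr hr')
  have q : PT fun z : Σ u, I.T u × I.T u × ZMod l => z.1 := pt_sigma_fst
  obtain ⟨b0, b1, -⟩ := hf _ l (Φ.comap _ q)
  have c1 : PT fun z : Σ u, I.T u × I.T u × ZMod l => (z.2.1 : ℕ) := D.fin_iff.1 D.sigma_snd.fst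
  have c2 : PT fun z : Σ u, I.T u × I.T u × ZMod l => (z.2.2.1 : ℕ) :=
    D.fin_iff.1 D.sigma_snd.snd.fst
  have c3 : PT fun z : Σ u, I.T u × I.T u × ZMod l => z.2.2.2 := D.sigma_snd.snd.snd.pt
  have m1 := a2 (.const U (ZMod l)) I I
    (fun u _ z => Multiplicative.ofAdd fun k : Fin (r u) => if (k : ℕ) = z.1 then z.2 else 0)
    (fun u j z => if (j : ℕ) = z.1 + 1 then 1 else 0)
    (d_ha_mk (r := fun z : Σ u, I.T u × I.T u × ZMod l => r z.1)
      (f := fun z k => if (k : ℕ) = z.2.2.1 then z.2.2.2 else 0) (hr.comp q) (hr'.comp q)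
      (PT.ite (D.eq (X := fun _ => ℕ) (D.of_pt (D.fin_iff.1 D.sigma_snd))
        (D.of_pt (c2.comp pt_sigma_fst))) (c3.comp pt_sigma_fst) (PT.const 0)))
    (D.ite (D.eq (X := fun _ => ℕ) (D.of_pt c1) (D.of_pt (c2.add (PT.const 1)))) b1 b0)
  have m2 := a5 I I (.const U Unit) (.const U Unit) _ (fun u _ => Fin.last (r u)) (fun _ _ => 0)
    (D.fin_iff.2 (hr.comp pt_sigma_fst)) (D.fin_iff.2 (PT.const 0)) (h3 U l Φ _ I _ r m1 hr hr')
  refine Eq.mp (congrArg _ (funext fun u => funext fun _ => funext fun _ => ?_)) m2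
  refine (WNorm.pw (fun i => ∑ t : ZMod l, MonoidAlgebra.single
    (Multiplicative.ofAdd fun k : Fin (r u) => if (k : ℕ) = i then t else 0) (1 : Φ.F u)) _
    (fun j i => ?_) _ le_rfl _).trans ((if_pos (Fin.val_last _)).trans (WNorm.nm _ _))
  split_ifs
  · rfl
  · exact sum_eq_zero fun _ _ => MonoidAlgebra.single_zero _

end Vale.Agent.P330Q
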