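import Vale.Agent.P330Q.QD
import Vale.Agent.P330Q.MemD

/-! Local codes and the left-right test: statements. -/

namespace Vale.Agent.P330Q

open Vale.Agent.Lib.PolyTime Vale.Agent.P330 Finset
open scoped Classical BigOperators

/-- Two systematic codes with disjoint check ports and a common free port. -/
structure Sys2 {k S : Type} [Field k] [Fintype S] (C0 : Bool → Submodule k (S → k))
    (ck : Bool → S → Prop) (E : Bool → S → S → k) (s0 : S) : Prop where
  sys : ∀ b, Sys (C0 b) (ck b) (E b)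
  disj : ∀ s, ck false s → ¬ ck true s
  free : ∀ b, ¬ ck b s0

/-- Owner h20: the left-right test. -/
def LrThm : Prop :=
  ∃ L : ℕ, ∀ (l : ℕ) [Fact l.Prime], L ≤ l → ∀ δB : ℝ, 0 < δB → ∃ lam : ℝ, 0 < lam ∧
    ∀ (S0 : Type) [Fintype S0] [Nonempty S0],
    ∃ (T : Type) (_ : Fintype T) (_ : Nonempty T)
      (CA : Bool → Submodule (ZMod l) (S0 × T → ZMod l)) (ck : Bool → S0 × T → Prop)
      (E : Bool → S0 × T → S0 × T → ZMod l) (a0 : S0 × T), Sys2 CA ck E a0 ∧
      ∀ (S : Type) [Fintype S] [Nonempty S], ∃ K0 : ℝ, 0 < K0 ∧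
        ∀ (F G : Type) [Field F] [Algebra (ZMod l) F] [Group G] [Fintype G] (θ : F), θ ≠ 0 →
        ∀ (α : S0 × T → G) (γ : S → G), P325.Gap (fun a g => (α a)⁻¹ * g) lam →
          P325.Gap (fun s g => g * γ s) lam →
        ∀ CB : Bool → Submodule F (S → F), (∀ b, Dist0 (CB b) δB) →
        ∀ (K : Type) (f : K → S0 × T → G × S → F) (β : ℝ),
          fr G (fun g => ∃ k a, (fun s => f k a (g, s)) ∉ CB false) ≤ β →
          fr G (fun g => ∃ k a, (fun s => f k a (g * (γ s)⁻¹, s)) ∉ CB true) ≤ β →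
          fr (G × S) (fun x => ∃ k, (fun a => f k a x) ∉ thC (CA false) (ck false) θ) ≤ β →
          fr (G × S) (fun x => ∃ k,
            (fun a => f k a ((α a)⁻¹ * x.1, x.2)) ∉ thC (CA true) (ck true) θ) ≤ β →
          ∃ y : K → G × S → F,
            (∀ k, y k ∈ tcode2 (CB false) (CB true) fun s => Equiv.mulRight (γ s)) ∧
            fr (G × S) (fun x => ∃ k, f k a0 x ≠ y k x) ≤ K0 * β

end Vale.Agent.P330Q
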