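import Vale.Agent.P330Q.WMem
import Vale.Agent.P330Q.WLp
import Vale.Agent.P330Q.WNorm
import Vale.Agent.P330Q.QIx

/-! Worlds exist. -/

namespace Vale.Agent.P330Q

open Vale.Agent.Lib.PolyTime Vale.Agent.P330 Finset
open scoped Classical BigOperators

theorem lp_all : S_lp := s_lp s_ft s_act p5_all
theorem wmem_all : S_wmem := s_wmem lp_all (s_norm s_ft p3_all p4_all)

namespace WAsm

theorem gap_mono {P X : Type} [Fintype P] [Fintype X] {π : P → X → X} {x y : ℝ}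
    (h : P325.Gap π x) (h0 : 0 ≤ x) (hxy : x ≤ y) : P325.Gap π y := fun f hf =>
  (h f hf).trans (mul_le_mul_of_nonneg_right (pow_le_pow_left₀ h0 hxy 2)
    (sum_nonneg fun _ _ => sq_nonneg _))

/-- The check matrix of a scaled systematic code. -/
noncomputable def chk {k F A : Type} [Field k] [Field F] [Algebra k F] (ck : A → Prop)
    (E : A → A → k) (θ : F) (r i : A) : F :=
  if ck r then (if r = i then 1 else 0) - if ck i then 0 else θ * algebraMap k F (E r i) else 0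

theorem chk_iff {k F A : Type} [Field k] [Field F] [Algebra k F] [Fintype A]
    {C0 : Submodule k (A → k)} {ck : A → Prop} {E : A → A → k} (h : Sys C0 ck E) (θ : F)
    (v : A → F) : v ∈ thC C0 ck θ ↔ ∀ r, ∑ i, chk ck E θ r i * v i = 0 := by
  rw [(s_ext k F A C0).2.2 ck E h]
  refine forall_congr' fun r => ?_
  by_cases hr : ck r
  · simp only [chk, hr, if_true, true_imp_iff, sub_mul, sum_sub_distrib, ite_mul, one_mul,
      zero_mul, sum_ite_eq, mem_univ, sub_eq_zero]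
  · simp [chk, hr]

theorem d_chk {U A : Type} [Enc U] {l : ℕ} [Fact l.Prime] (Φ : FF U l) (ck : A → Prop)
    (E : A → A → ZMod l) (r i : A) : D fun u => chk ck E (Φ.θ u) r i := by
  obtain ⟨h0, h1, h2, -, h4, -⟩ := s_ft U l Φ
  unfold chk
  refine D.ite (PT.const _) (h2 _ _ (D.ite (PT.const _) h1 h0) (D.ite (PT.const _) h0 ?_)).2.1 h0
  exact (h2 _ _ Φ.d_θ (h4 _ (PT.const _))).2.2

theorem lr {C : Type} [Enc C] {l : ℕ} [Fact l.Prime] {a lg : C → ℕ} {S0 Bt S : Type}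
    [Fintype S0] [Fintype Bt] [Enc Bt] [Fintype S] [Enc S] {δ0 lam lam' : ℝ}
    (X : WD C l a lg S0 Bt S δ0 lam lam') {A : Type} [Fintype A] [Enc A]
    {CA : Bool → Submodule (ZMod l) (A → ZMod l)} {ck : Bool → A → Prop}
    {E : Bool → A → A → ZMod l} {a0 : A} (two : Two CA ck E a0) (α : ∀ u, A → X.Y.Γ.G u)
    (d_α : ∀ i, D fun u => α u i)
    (hm : ∀ u, Fintype.card (X.Y.Κ.G u) * Fintype.card A < X.Φ.m u) (K0 : ℝ) (hK : 0 < K0)
    (sd : ∀ c (K : Type) (f : K → A → X.W.Wd c) (β : ℝ),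
      fr (X.W.Y.G.T c) (fun g => ∃ k i, (fun s => f k i (g, s)) ∉ X.W.loc c false) ≤ β →
      fr (X.W.Y.G.T c)
        (fun g => ∃ k i, (fun s => f k i ((X.W.Y.nb c s)⁻¹ g, s)) ∉ X.W.loc c true) ≤ β →
      fr (X.W.Ps c)
        (fun x => ∃ k, (fun i => f k i x) ∉ thC (CA false) (ck false) (X.W.P.Φ.θ c)) ≤ β →
      fr (X.W.Ps c) (fun x => ∃ k, (fun i => f k i ((α (X.p c) i)⁻¹ * x.1, x.2)) ∉
        thC (CA true) (ck true) (X.W.P.Φ.θ c)) ≤ β →
      ∃ y : K → X.W.Wd c, (∀ k, y k ∈ X.W.T c) ∧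
        fr (X.W.Ps c) (fun x => ∃ k, f k a0 x ≠ y k x) ≤ K0 * β) : Nonempty (Lr X.W A A) := by
  obtain ⟨κ, pκ, hκ⟩ := kap_all (List Unit) l S0 Bt lam' X.Y X.Φ A (CA false) (CA true) (ck false)
    (ck true) (E false) (E true) (two.1 false).1 (two.1 true).1 two.2 a0 (two.1 false).2
    (two.1 true).2 α d_α hm
  have L := lp_all C l a lg S0 Bt S δ0 lam lam' X X.Y.Γ (fun _ => MonoidHom.id _) D.sigma_snd _ _
    pκ (.const _ A) (fun _ k => k) D.sigma_snd
  have e : ∀ c (m : MonoidAlgebra (X.Φ.F (X.p c)) (X.Y.Γ.G (X.p c))),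
      MonoidAlgebra.mapDomain (MonoidHom.id _) m = m := fun c m => by
    ext g
    exact congrFun (congrArg _ Finsupp.mapDomain_id) g
  simp only [e] at L
  have q : PT fun z : Σ c, X.W.Y.G.T c => X.p z.1 := X.hp.comp pt_sigma_fst
  exact ⟨{
    a0 := a0
    lf := fun c i => Equiv.mulLeft (α (X.p c) i)⁻¹
    d_lf := fun i => X.Y.Γ.d_mul.app q (X.Y.Γ.d_inv.app q ((d_α i).comp q)) D.sigma_snd
    chk := fun c b => chk (ck b) (E b) (X.W.P.Φ.θ c)
    d_chk := fun b => d_chk X.W.P.Φ (ck b) (E b)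
    κ := fun c y i => actL (κ (X.p c) i) y
    lp_κ := L
    κ0 := fun c y => by
      rw [(hκ _).1]
      exact ((@s_act _ _ _ _ _ (lAct _ S)).2.2.2.1 y).2
    col0 := fun c y r x =>
      (chk_iff (two.1 false).1 _ _).1 ((hκ _).2.2.2 S y x.1 x.2).1 r
    col1 := fun c y r g s =>
      (chk_iff (two.1 true).1 _ _).1 ((hκ _).2.2.2 S y g s).2 r
    K0 := K0
    K0_pos := hK
    sound := fun c K f β h1 h2 h3 h4 => sd c K f β h1 h2
      (by simpa only [chk_iff (two.1 false).1, not_forall] using h3)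
      (by simp only [chk_iff (two.1 true).1, not_forall]; exact h4) }⟩

theorem good {δ0 x : ℝ} (h0 : 0 < δ0) (h1 : δ0 ≤ 1) (hx : 0 < x) :
    ∃ (lam : ℝ) (n : ℕ), 0 < lam ∧ lam ≤ x ∧ ∀ (S : Type) [Fintype S] [Nonempty S],
      TanGood δ0 lam ((S × Fin (n + 1)) × Fin 3) := by
  obtain ⟨n, hn⟩ := exists_nat_ge (512 / δ0 ^ 3)
  have p : 0 < min x (δ0 ^ 2 / 64) := lt_min hx (by positivity)
  refine ⟨min x (δ0 ^ 2 / 64), n, p, min_le_left _ _, fun S _ _ => ⟨h0, h1, p.le, ?_, ?_⟩⟩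
  · have := pow_le_pow_left₀ p.le (min_le_right x (δ0 ^ 2 / 64)) 2
    have h3 : 0 < δ0 ^ 3 := by positivity
    nlinarith
  · have h3 : 0 < δ0 ^ 3 := by positivity
    rw [div_le_iff₀' h3] at hn
    refine hn.trans (mul_le_mul_of_nonneg_left (Nat.cast_le.2 ?_) h3.le)
    have := Fintype.card_pos (α := S)
    simp only [Fintype.card_prod, Fintype.card_fin]
    nlinarith

end WAsm

open WAsm in
theorem worldThm (hG : GrpThm) (hV : GVThm) (hL : LtcThm) : WorldThm := by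
  intro l0
  obtain ⟨δ0, L1, h0, h1, hV⟩ := hV
  obtain ⟨x, L2, hx, hL⟩ := hL δ0 h0 h1
  obtain ⟨L3, hG⟩ := hG
  obtain ⟨l, pl, gl, ml⟩ := Nat.exists_prime_gt_modEq_one (k := 3) (l0 + L1 + L2 + L3) (by omega)
  have : Fact l.Prime := ⟨pl⟩
  obtain ⟨lam, n, hlam, hle, hg⟩ := good h0 h1 hx
  obtain ⟨S', Bt, _, _, _, _, _, c0, hG⟩ := hG l (by omega) lam hlam
  obtain ⟨A, T, _, _, _, eA, CA, ckA, EA, a0, twoA, hL⟩ := hL l (by omega) S'
  obtain ⟨C0, ck, E, s0, two, dist⟩ := hV l (by omega) (S' × Fin (n + 1))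
  obtain ⟨K0, hK, hL⟩ := hL ((S' × Fin (n + 1)) × Fin 3)
  let _ : Enc A := Enc.fin A
  let _ : Enc ((S' × Fin (n + 1)) × Fin 3) := Enc.fin _
  obtain ⟨Y, hY⟩ := hG (List Unit) List.length (PT.length PT.id) (PT.pb_length PT.id)
  obtain ⟨Φ, hΦ⟩ := s_fld l ml (List Unit) (fun u => Y.n u + 1 + Fintype.card (Y.Κ.G u) *
      (Fintype.card ((S' × Fin (n + 1)) × Fin 3) + Fintype.card A))
    ((Y.pt_n.add (PT.const _)).add (Y.pfK.pt_card.mul (PT.const _)))
    ((Y.pb_n.add (PB.const _)).add (Y.pfK.pb_card.mul (PB.const _)))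
  have θ0 : ∀ u, Φ.θ u ≠ 0 := fun u => by
    have := (s_ft _ l Φ).2.2.2.2.2.2.2.2.1 u Polynomial.X Polynomial.X_ne_zero
      (by rw [Polynomial.natDegree_X]; have := hΦ u; omega)
    rwa [Polynomial.aeval_X] at this
  have gR : ∀ u, P325.Gap (fun (s : (S' × Fin (n + 1)) × Fin 3) g => g * Y.gs u s.1.1) lam :=
    fun u => gap_ports (gap_ports (Y.gapR u) (Equiv.refl (S' × Fin (n + 1)))) (Equiv.refl _)
  refine ⟨l, this, by omega, (S' × Fin (n + 1)) × Fin 3, Bt ⊕ (S' × Fin (n + 1)) × Fin 3, A, A,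
    inferInstance, inferInstance, inferInstance, inferInstance, inferInstance, inferInstance,
    inferInstance, inferInstance, δ0, lam, fun C _ a lg n0 t0 b0 blg z0 p0 => ?_⟩
  have hn : ∀ c, l ^ Y.n (List.replicate (n0 c) ()) ≤ l ^ c0 * l ^ n0 c := fun c => by
    have := (hY (List.replicate (n0 c) ())).2
    rw [List.length_replicate] at this
    rw [← pow_add]
    exact Nat.pow_le_pow_right pl.pos (by omega)
  let X : WD C l a lg S' Bt ((S' × Fin (n + 1)) × Fin 3) δ0 lam lam :=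
    { Y := Y
      Φ := Φ
      p := fun c => List.replicate (n0 c) ()
      hp := PT.replicate t0 (p0.pb blg) (PT.const ())
      pl := pl_rep p0
      pb_lg := blg
      pb_H := ((PB.const _).mul b0).of_le hn
      sz_H := (z0.cmul _).of_le hn
      n_le := fun u => by have := hΦ u; omega
      θ0 := θ0
      γ := fun u s => Y.gs u s.1.1
      d_γ := fun s => Y.d_gs _
      gap := gR
      C0 := C0
      ck := ck
      E := E
      s0 := s0
      two := two
      good := hg S'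
      dist := dist
      hm := fun u => by have := hΦ u; rw [mul_add] at this; omega }
  refine ⟨X.W, rfl, fun c => ?_, wmem_all _ _ _ _ _ _ _ _ _ _ X,
    lr X twoA (fun u i => Y.gs u (eA i).1) (fun i => Y.d_gs _)
      (fun u => lt_of_le_of_lt ((Nat.mul_le_mul_left _ (Nat.le_add_left _ _)).trans
        (Nat.le_add_left _ _)) (hΦ u)) K0 hK
      fun c K f β => ?_⟩
  · have := (hY (List.replicate (n0 c) ())).1
    rwa [List.length_replicate] at this
  · exact hL _ _ K _ (θ0 _) _ _ (gap_mono (gap_ports (Y.gapL _) eA) hlam.le hle)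
      (gap_mono (gR _) hlam.le hle) (X.W.loc c)
      (fun b => (s_ext _ _ _ _).1 δ0 (dist b) _ fun s => by
        split_ifs
        exacts [one_ne_zero, θ0 _]) f β

end Vale.Agent.P330Q
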